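import Crest.Agent.R238.SchFar

-- ▼ part R238/SchCut
section

/-!
Row 238, node H3, helper452's part 2: derivatives of `χ h`, the commutator identity and its
Hölder estimate (`cut_comm`), for arbitrary cut-off `χ` and frozen matrix `A0`.
-/

set_option autoImplicit false

open MeasureTheory Set Filter
open scoped ContDiff Topology

namespace Crest.Agent.R238.SF

open Crest.Agent.R238

variable {n : ℕ}

/-- first partial derivative -/
noncomputable abbrev dd (f : E n → ℝ) (x : E n) (i : Fin n) : ℝ := fderiv ℝ f x (ee i)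

theorem diff_of_c2 {f : E n → ℝ} (hf : ContDiff ℝ 2 f) : Differentiable ℝ f :=
  hf.differentiable (by norm_num)

theorem diff_fderiv_of_c2 {f : E n → ℝ} (hf : ContDiff ℝ 2 f) :
    Differentiable ℝ (fderiv ℝ f) :=
  (hf.fderiv_right (m := 1) (by norm_num)).differentiable (by norm_num)

theorem fderiv_mul_eq {χ h : E n → ℝ} (hχ : ContDiff ℝ 2 χ) (hh : ContDiff ℝ 2 h) :
    fderiv ℝ (fun x => χ x * h x) = fun x => χ x • fderiv ℝ h x + h x • fderiv ℝ χ x := by
  funext x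
  exact fderiv_fun_mul (diff_of_c2 hχ x) (diff_of_c2 hh x)

theorem fderiv_mul_apply {χ h : E n → ℝ} (hχ : ContDiff ℝ 2 χ) (hh : ContDiff ℝ 2 h) (x u : E n) :
    fderiv ℝ (fun x => χ x * h x) x u = χ x * fderiv ℝ h x u + h x * fderiv ℝ χ x u := by
  rw [fderiv_mul_eq hχ hh]
  simp

theorem fderiv2_mul_apply {χ h : E n → ℝ} (hχ : ContDiff ℝ 2 χ) (hh : ContDiff ℝ 2 h)
    (x u w : E n) :
    fderiv ℝ (fderiv ℝ (fun x => χ x * h x)) x u w =
      χ x * fderiv ℝ (fderiv ℝ h) x u w + fderiv ℝ χ x u * fderiv ℝ h x w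
        + fderiv ℝ h x u * fderiv ℝ χ x w + h x * fderiv ℝ (fderiv ℝ χ) x u w := by
  rw [fderiv_mul_eq hχ hh]
  have h1 : HasFDerivAt (fun x => χ x • fderiv ℝ h x)
      (χ x • fderiv ℝ (fderiv ℝ h) x + (fderiv ℝ χ x).smulRight (fderiv ℝ h x)) x :=
    (diff_of_c2 hχ x).hasFDerivAt.smul (diff_fderiv_of_c2 hh x).hasFDerivAt
  have h2 : HasFDerivAt (fun x => h x • fderiv ℝ χ x)
      (h x • fderiv ℝ (fderiv ℝ χ) x + (fderiv ℝ h x).smulRight (fderiv ℝ χ x)) x :=
    (diff_of_c2 hh x).hasFDerivAt.smul (diff_fderiv_of_c2 hχ x).hasFDerivAt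
  rw [(h1.fun_add h2).fderiv]
  simp only [ContinuousLinearMap.add_apply, ContinuousLinearMap.smul_apply,
    ContinuousLinearMap.smulRight_apply, smul_eq_mul]
  ring

theorem Hs_mul {χ h : E n → ℝ} (hχ : ContDiff ℝ 2 χ) (hh : ContDiff ℝ 2 h) (x : E n)
    (i j : Fin n) :
    Hs (fun x => χ x * h x) x i j =
      χ x * Hs h x i j + dd χ x i * dd h x j + dd h x i * dd χ x j + h x * Hs χ x i j :=
  fderiv2_mul_apply hχ hh x (ee i) (ee j)

/-- the commutator identity -/
theorem LA_mul {χ h : E n → ℝ} (hχ : ContDiff ℝ 2 χ) (hh : ContDiff ℝ 2 h)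
    (τ : E n → Matrix (Fin n) (Fin n) ℝ) (A0 : Matrix (Fin n) (Fin n) ℝ) (lam : ℝ) (x : E n) :
    LA (fun _ => A0) (fun x => χ x * h x) x + lam * (χ x * h x) =
      χ x * (LA τ h x + lam * h x)
        + (∑ i, ∑ j, τ x i j * (h x * Hs χ x i j)) - h x * fderiv ℝ χ x x
        + (∑ i, ∑ j, τ x i j * (dd h x j * dd χ x i))
        + (∑ i, ∑ j, τ x i j * (dd h x i * dd χ x j))
        + ∑ i, ∑ j, (A0 i j - τ x i j) * Hs (fun x => χ x * h x) x i j := by
  unfold LA
  rw [fderiv_mul_apply hχ hh]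
  have h1 : ∑ i, ∑ j, A0 i j * Hs (fun x => χ x * h x) x i j
      = (∑ i, ∑ j, (A0 i j - τ x i j) * Hs (fun x => χ x * h x) x i j)
        + ∑ i, ∑ j, τ x i j * Hs (fun x => χ x * h x) x i j := by
    rw [← Finset.sum_add_distrib]
    refine Finset.sum_congr rfl fun i _ => ?_
    rw [← Finset.sum_add_distrib]
    refine Finset.sum_congr rfl fun j _ => ?_
    ring
  have h2 : ∑ i, ∑ j, τ x i j * Hs (fun x => χ x * h x) x i j
      = χ x * (∑ i, ∑ j, τ x i j * Hs h x i j)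
        + (∑ i, ∑ j, τ x i j * (dd h x j * dd χ x i))
        + (∑ i, ∑ j, τ x i j * (dd h x i * dd χ x j))
        + (∑ i, ∑ j, τ x i j * (h x * Hs χ x i j)) := by
    simp only [Finset.mul_sum]
    simp only [← Finset.sum_add_distrib]
    refine Finset.sum_congr rfl fun i _ => ?_
    refine Finset.sum_congr rfl fun j _ => ?_
    rw [Hs_mul hχ hh]
    ring
  rw [h1, h2]
  ring

/-- data of a cut-off function: all norms bounded by `X`, derivatives vanish outside `S` -/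
structure Cut (a X : ℝ) (S : Set (E n)) (χ : E n → ℝ) : Prop where
  c2 : ContDiff ℝ 2 χ
  h0 : HB a X χ
  h1 : ∀ i, HB a X (fun x => dd χ x i)
  h2 : ∀ i j, HB a X (fun x => Hs χ x i j)
  h3 : HB a X (fun x => fderiv ℝ χ x x)
  s1 : ∀ x ∉ S, fderiv ℝ χ x = 0
  s2 : ∀ x ∉ S, ∀ i j, Hs χ x i j = 0

/-- Hölder bound of the commutator -/
theorem cut_comm {a N X T Q Er lam : ℝ} {S : Set (E n)} {χ h : E n → ℝ}
    {τ : E n → Matrix (Fin n) (Fin n) ℝ} {A0 : Matrix (Fin n) (Fin n) ℝ}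
    (hQ : 0 ≤ Q) (hχ : Cut a X S χ) (hh : ContDiff ℝ 2 h)
    (hf : HB a N (fun x => LA τ h x + lam * h x))
    (hτ : ∀ i j, HB a T (fun x => τ x i j))
    (hQ0 : HBon a Q S h) (hQ1 : ∀ j, HBon a Q S (fun x => dd h x j))
    (hEr : HB a Er
      (fun x => ∑ i, ∑ j, (A0 i j - τ x i j) * Hs (fun x => χ x * h x) x i j)) :
    HB a (2 * (X * N) + 2 * (Q * X) * (6 * (n : ℝ) ^ 2 * T + 1) + Er)
      (fun x => LA (fun _ => A0) (fun x => χ x * h x) x + lam * (χ x * h x)) := by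
  have e1 : (fun x => LA (fun _ => A0) (fun x => χ x * h x) x + lam * (χ x * h x)) =
      fun x => χ x * (LA τ h x + lam * h x)
        + (∑ i, ∑ j, τ x i j * (h x * Hs χ x i j)) - h x * fderiv ℝ χ x x
        + (∑ i, ∑ j, τ x i j * (dd h x j * dd χ x i))
        + (∑ i, ∑ j, τ x i j * (dd h x i * dd χ x j))
        + ∑ i, ∑ j, (A0 i j - τ x i j) * Hs (fun x => χ x * h x) x i j :=
    funext fun x => LA_mul hχ.c2 hh τ A0 lam x
  rw [e1]
  have t1 : HB a (2 * (X * N)) (fun x => χ x * (LA τ h x + lam * h x)) := hb_mul hχ.h0 hf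
  have t2 : HB a ((n : ℝ) ^ 2 * (2 * (T * (2 * (Q * X)))))
      (fun x => ∑ i, ∑ j, τ x i j * (h x * Hs χ x i j)) :=
    hb_sum2c fun i j => hb_mul (hτ i j) (HBon.mul hQ hQ0 (hχ.h2 i j) fun x hx => hχ.s2 x hx i j)
  have t3 : HB a (2 * (Q * X)) (fun x => h x * fderiv ℝ χ x x) :=
    HBon.mul hQ hQ0 hχ.h3 fun x hx => by rw [hχ.s1 x hx]; simp
  have t4 : HB a ((n : ℝ) ^ 2 * (2 * (T * (2 * (Q * X)))))
      (fun x => ∑ i, ∑ j, τ x i j * (dd h x j * dd χ x i)) :=
    hb_sum2c fun i j => hb_mul (hτ i j) (HBon.mul hQ (hQ1 j) (hχ.h1 i) fun x hx => by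
      show fderiv ℝ χ x (ee i) = 0
      rw [hχ.s1 x hx]; simp)
  have t5 : HB a ((n : ℝ) ^ 2 * (2 * (T * (2 * (Q * X)))))
      (fun x => ∑ i, ∑ j, τ x i j * (dd h x i * dd χ x j)) :=
    hb_sum2c fun i j => hb_mul (hτ i j) (HBon.mul hQ (hQ1 i) (hχ.h1 j) fun x hx => by
      show fderiv ℝ χ x (ee j) = 0
      rw [hχ.s1 x hx]; simp)
  refine hb_mono (hb_add (hb_add (hb_add (hb_sub (hb_add t1 t2) t3) t4) t5) hEr) (le_of_eq ?_)
  ring

/-- qualitative bound of `D²(χ h)` -/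
theorem cut_fin {a X Q K0 : ℝ} {S : Set (E n)} {χ h : E n → ℝ}
    (hQ : 0 ≤ Q) (hχ : Cut a X S χ) (hh : ContDiff ℝ 2 h)
    (hK : ∀ i j, HB a K0 (fun x => Hs h x i j))
    (hQ0 : HBon a Q S h) (hQ1 : ∀ j, HBon a Q S (fun x => dd h x j)) (i j : Fin n) :
    HB a (2 * (X * K0) + 6 * (Q * X)) (fun x => Hs (fun x => χ x * h x) x i j) := by
  have e1 : (fun x => Hs (fun x => χ x * h x) x i j) = fun x =>
      χ x * Hs h x i j + dd h x j * dd χ x i + dd h x i * dd χ x j + h x * Hs χ x i j := by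
    funext x
    rw [Hs_mul hχ.c2 hh]
    ring
  rw [e1]
  have t1 : HB a (2 * (X * K0)) (fun x => χ x * Hs h x i j) := hb_mul hχ.h0 (hK i j)
  have t2 : HB a (2 * (Q * X)) (fun x => dd h x j * dd χ x i) :=
    HBon.mul hQ (hQ1 j) (hχ.h1 i) fun x hx => by
      show fderiv ℝ χ x (ee i) = 0
      rw [hχ.s1 x hx]; simp
  have t3 : HB a (2 * (Q * X)) (fun x => dd h x i * dd χ x j) :=
    HBon.mul hQ (hQ1 i) (hχ.h1 j) fun x hx => by
      show fderiv ℝ χ x (ee j) = 0
      rw [hχ.s1 x hx]; simp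
  have t4 : HB a (2 * (Q * X)) (fun x => h x * Hs χ x i j) :=
    HBon.mul hQ hQ0 (hχ.h2 i j) fun x hx => hχ.s2 x hx i j
  refine hb_mono (hb_add (hb_add (hb_add t1 t2) t3) t4) (le_of_eq ?_)
  ring

/-- constant-coefficient estimate (A) for the matrix `A0`, with constant `C` -/
def AEst (a C lam : ℝ) (A0 : Matrix (Fin n) (Fin n) ℝ) : Prop :=
  ∀ (g : E n → ℝ) (N : ℝ), ContDiff ℝ 2 g → (∃ B : ℝ, ∀ x i j, |Hs g x i j| ≤ B) →
    HB a N (fun x => LA (fun _ => A0) g x + lam * g x) → ∀ i j, HB a (C * N) (fun x => Hs g x i j)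

/-- **cut-off estimate with absorption**: if the frozen error is at most half of the norm of
`D²(χ h)`, it is absorbed. -/
theorem cut_absorb {a C N X T Q K0 lam θ : ℝ} {S : Set (E n)} {χ h : E n → ℝ}
    {τ : E n → Matrix (Fin n) (Fin n) ℝ} {A0 : Matrix (Fin n) (Fin n) ℝ}
    (hC : 0 < C) (hA : AEst a C lam A0)
    (hQ : 0 ≤ Q) (hT : 0 ≤ T) (hχ : Cut a X S χ) (hh : ContDiff ℝ 2 h)
    (hK : ∀ i j, HB a K0 (fun x => Hs h x i j))
    (hf : HB a N (fun x => LA τ h x + lam * h x))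
    (hτ : ∀ i j, HB a T (fun x => τ x i j))
    (hQ0 : HBon a Q S h) (hQ1 : ∀ j, HBon a Q S (fun x => dd h x j))
    (hEr : ∀ K, 0 ≤ K → (∀ i j, HB a K (fun x => Hs (fun x => χ x * h x) x i j)) →
      HB a (θ * K)
        (fun x => ∑ i, ∑ j, (A0 i j - τ x i j) * Hs (fun x => χ x * h x) x i j))
    (hθ : C * θ ≤ 1 / 2) (i j : Fin n) :
    HB a (4 * C * (X * N + Q * X * (6 * (n : ℝ) ^ 2 * T + 1)))
      (fun x => Hs (fun x => χ x * h x) x i j) := by
  have hX := hb_nonneg hχ.h0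
  have hN := hb_nonneg hf
  have hM : 0 ≤ C * (2 * (X * N) + 2 * (Q * X) * (6 * (n : ℝ) ^ 2 * T + 1)) := by positivity
  have key := absorb (F := fun (p : Fin n × Fin n) x => Hs (fun x => χ x * h x) x p.1 p.2) hM
    ⟨_, fun p => cut_fin hQ hχ hh hK hQ0 hQ1 p.1 p.2⟩ (fun K hK0 hKK p => by
      have hKK' : ∀ i j, HB a K (fun x => Hs (fun x => χ x * h x) x i j) :=
        fun i j => hKK (i, j)
      have h1 := cut_comm hQ hχ hh hf hτ hQ0 hQ1 (hEr K hK0 hKK')
      have h2 := hA (fun x => χ x * h x) _ (hχ.c2.mul hh) ⟨K, fun x i j => (hKK' i j).1 x⟩ h1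
        p.1 p.2
      refine hb_mono h2 ?_
      have h3 : C * (θ * K) ≤ 1 / 2 * K := by
        rw [← mul_assoc]; exact mul_le_mul_of_nonneg_right hθ hK0
      nlinarith)
  refine hb_mono (key (i, j)) (le_of_eq ?_)
  ring

end Crest.Agent.R238.SF
end

-- ▼ part R238/SchBall
section

/-!
Row 238, node H3, helper452's part 3: cut-off families, error terms (far and local), covering.
-/

set_option autoImplicit false

open MeasureTheory Set Filter Metric
open scoped ContDiff Topology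

namespace Crest.Agent.R238.SF

open Crest.Agent.R238

variable {n : ℕ}

/-! ### from Lipschitz to Hölder -/

theorem le_rpow_of_le_one {a t : ℝ} (ha : a ≤ 1) (ht0 : 0 ≤ t) (ht : t ≤ 1) : t ≤ t ^ a := by
  rcases eq_or_lt_of_le ht0 with h | h
  · rw [← h]; exact Real.rpow_nonneg le_rfl a
  · calc t = t ^ (1 : ℝ) := (Real.rpow_one t).symm
      _ ≤ t ^ a := Real.rpow_le_rpow_of_exponent_ge h ht ha

theorem hb_of_lip {a M L : ℝ} (ha0 : 0 ≤ a) (ha : a ≤ 1) {f : E n → ℝ} (hM : ∀ x, |f x| ≤ M)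
    (hL0 : 0 ≤ L) (hL : ∀ x y, |f x - f y| ≤ L * ‖x - y‖) : HB a (2 * M + L) f := by
  have hM0 : 0 ≤ M := (abs_nonneg _).trans (hM 0)
  refine ⟨fun x => (hM x).trans (by linarith), fun x y => ?_⟩
  have hr := Real.rpow_nonneg (norm_nonneg (x - y)) a
  rcases le_total ‖x - y‖ 1 with h | h
  · have h1 := le_rpow_of_le_one ha (norm_nonneg _) h
    have h2 := hL x y
    nlinarith
  · have h1 : 1 ≤ ‖x - y‖ ^ a := Real.one_le_rpow h ha0
    have h2 : |f x - f y| ≤ 2 * M := by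
      have := abs_sub (f x) (f y)
      have h3 := hM x
      have h4 := hM y
      linarith
    nlinarith

theorem hb_of_c1 {a : ℝ} (ha0 : 0 ≤ a) (ha : a ≤ 1) {f : E n → ℝ} (hf : ContDiff ℝ 1 f)
    (hc : HasCompactSupport f) : ∃ X, HB a X f := by
  obtain ⟨M, hM⟩ := hc.exists_bound_of_continuous hf.continuous
  obtain ⟨L, hL⟩ := (hc.fderiv (𝕜 := ℝ)).exists_bound_of_continuous
    (hf.continuous_fderiv (by norm_num))
  have hL0 : 0 ≤ L := (norm_nonneg _).trans (hL 0)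
  refine ⟨_, hb_of_lip ha0 ha (M := M) (L := L) (fun x => hM x) hL0 fun x y => ?_⟩
  have h1 := Convex.norm_image_sub_le_of_norm_fderiv_le (𝕜 := ℝ) (f := f) (s := univ) (x := y)
    (y := x) (C := L) (fun z _ => hf.differentiable (by norm_num) z) (fun z _ => hL z)
    convex_univ (mem_univ _) (mem_univ _)
  simpa [Real.norm_eq_abs] using h1

/-! ### locality of derivatives -/

theorem Hs_congr {f g : E n → ℝ} {x : E n} (h : f =ᶠ[𝓝 x] g) (i j : Fin n) :
    Hs f x i j = Hs g x i j := by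
  have h1 : fderiv ℝ f =ᶠ[𝓝 x] fderiv ℝ g := h.fderiv
  unfold Hs
  rw [h1.fderiv_eq]

theorem Hs_zero_of {f : E n → ℝ} {x : E n} (h : f =ᶠ[𝓝 x] fun _ => (0 : ℝ)) (i j : Fin n) :
    Hs f x i j = 0 := by
  rw [Hs_congr h]
  unfold Hs
  have : fderiv ℝ (fun _ : E n => (0 : ℝ)) = fun _ => 0 := by
    funext y; simp
  rw [this]; simp

/-! ### cut-off functions -/

/-- a fixed smooth cut-off at scale `ρ`: `1` on `closedBall 0 ρ`, `0` outside `ball 0 (2ρ)` -/
theorem exists_cut {a : ℝ} (ha0 : 0 ≤ a) (ha : a ≤ 1) (ρ : ℝ) (hρ : 0 < ρ) :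
    ∃ (X : ℝ) (χ : E n → ℝ), 0 ≤ X ∧ Cut a X (closedBall 0 (2 * ρ)) χ ∧
      (∀ x, ‖x‖ ≤ ρ → χ x = 1) ∧ (∀ x, 2 * ρ ≤ ‖x‖ → χ x = 0) := by
  let b : ContDiffBump (0 : E n) := ⟨ρ, 2 * ρ, hρ, by linarith⟩
  have hs : ContDiff ℝ ∞ (b : E n → ℝ) := b.contDiff
  have hc : HasCompactSupport (b : E n → ℝ) := b.hasCompactSupport
  have hf1 : ContDiff ℝ ∞ (fderiv ℝ (b : E n → ℝ)) := hs.fderiv_right (by simp)
  have hf2 : ContDiff ℝ ∞ (fderiv ℝ (fderiv ℝ (b : E n → ℝ))) := hf1.fderiv_right (by simp)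
  have hc1 : HasCompactSupport (fderiv ℝ (b : E n → ℝ)) := hc.fderiv (𝕜 := ℝ)
  have hc2 : HasCompactSupport (fderiv ℝ (fderiv ℝ (b : E n → ℝ))) := hc1.fderiv (𝕜 := ℝ)
  obtain ⟨X0, h0⟩ := hb_of_c1 ha0 ha (hs.of_le (by simp) : ContDiff ℝ 1 (b : E n → ℝ)) hc
  have h1 : ∀ i : Fin n, ∃ X, HB a X (fun x => dd (b : E n → ℝ) x i) := fun i => by
    refine hb_of_c1 ha0 ha ?_ ?_
    · exact ((hf1.of_le (by simp) : ContDiff ℝ 1 _)).clm_apply contDiff_const
    · refine hc1.mono ?_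
      intro x hx
      simp only [Function.mem_support] at hx ⊢
      intro h; apply hx; simp [dd, h]
  have h2 : ∀ i j : Fin n, ∃ X, HB a X (fun x => Hs (b : E n → ℝ) x i j) := fun i j => by
    refine hb_of_c1 ha0 ha ?_ ?_
    · exact (((hf2.of_le (by simp) : ContDiff ℝ 1 _)).clm_apply contDiff_const).clm_apply
        contDiff_const
    · refine hc2.mono ?_
      intro x hx
      simp only [Function.mem_support] at hx ⊢
      intro h; apply hx; simp [Hs, h]
  have h3 : ∃ X, HB a X (fun x => fderiv ℝ (b : E n → ℝ) x x) := by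
    refine hb_of_c1 ha0 ha ?_ ?_
    · exact ((hf1.of_le (by simp) : ContDiff ℝ 1 _)).clm_apply contDiff_id
    · refine hc1.mono ?_
      intro x hx
      simp only [Function.mem_support] at hx ⊢
      intro h; apply hx; simp [h]
  choose X1 h1 using h1
  choose X2 h2 using h2
  obtain ⟨X3, h3⟩ := h3
  have p0 := hb_nonneg h0
  have p1 := fun i => hb_nonneg (h1 i)
  have p2 := fun i j => hb_nonneg (h2 i j)
  have p3 := hb_nonneg h3
  have q1 : 0 ≤ ∑ i, X1 i := Finset.sum_nonneg fun i _ => p1 i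
  have q2 : 0 ≤ ∑ i, ∑ j, X2 i j := Finset.sum_nonneg fun i _ => Finset.sum_nonneg fun j _ => p2 i j
  have r1 : ∀ i, X1 i ≤ ∑ i, X1 i := fun i =>
    Finset.single_le_sum (f := X1) (fun i _ => p1 i) (Finset.mem_univ i)
  have r2 : ∀ i j, X2 i j ≤ ∑ i, ∑ j, X2 i j := fun i j =>
    (Finset.single_le_sum (f := fun j => X2 i j) (fun j _ => p2 i j) (Finset.mem_univ j)).trans
      (Finset.single_le_sum (f := fun i => ∑ j, X2 i j)
        (fun i _ => Finset.sum_nonneg fun j _ => p2 i j) (Finset.mem_univ i))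
  have out : ∀ x ∉ closedBall (0 : E n) (2 * ρ), (b : E n → ℝ) =ᶠ[𝓝 x] fun _ => 0 := by
    intro x hx
    have ho : IsOpen (closedBall (0 : E n) (2 * ρ))ᶜ := isClosed_closedBall.isOpen_compl
    filter_upwards [ho.mem_nhds hx] with y hy
    apply b.zero_of_le_dist
    simp only [mem_compl_iff, mem_closedBall, not_le] at hy
    exact hy.le
  refine ⟨X0 + (∑ i, X1 i) + (∑ i, ∑ j, X2 i j) + X3, b, by positivity, ?_, ?_, ?_⟩
  · refine ⟨(by exact_mod_cast contDiff_infty.1 hs 2), hb_mono h0 (by linarith), fun i => hb_mono (h1 i) ?_, fun i j =>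
      hb_mono (h2 i j) ?_, hb_mono h3 (by linarith), fun x hx => ?_, fun x hx i j => ?_⟩
    · have := r1 i; linarith
    · have := r2 i j; linarith
    · rw [(out x hx).fderiv_eq]; simp
    · exact Hs_zero_of (out x hx) i j
  · intro x hx
    exact b.one_of_mem_closedBall (by simpa [mem_closedBall, dist_eq_norm] using hx)
  · intro x hx
    exact b.zero_of_le_dist (by simpa [dist_eq_norm] using hx)

theorem fderiv_translate (f : E n → ℝ) (z : E n) :
    fderiv ℝ (fun x => f (x - z)) = fun x => fderiv ℝ f (x - z) := by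
  funext x
  exact fderiv_comp_sub z

theorem Hs_translate (f : E n → ℝ) (z x : E n) (i j : Fin n) :
    Hs (fun x => f (x - z)) x i j = Hs f (x - z) i j := by
  unfold Hs
  rw [fderiv_translate]
  have h := congrFun (show fderiv ℝ (fun x => fderiv ℝ f (x - z)) = fun x =>
    fderiv ℝ (fderiv ℝ f) (x - z) from by
      funext y
      exact fderiv_comp_sub z) x
  rw [h]

theorem hb_translate {a M : ℝ} {f : E n → ℝ} (h : HB a M f) (z : E n) :
    HB a M (fun x => f (x - z)) := by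
  refine ⟨fun x => h.1 _, fun x y => ?_⟩
  have := h.2 (x - z) (y - z)
  have h1 : x - z - (y - z) = x - y := by abel
  rwa [h1] at this

theorem sum_ee (z : E n) : z = ∑ i, z i • ee i := by
  ext j
  simp [Finset.sum_apply, Pi.single_apply]

theorem Cut.translate {a X r : ℝ} {χ : E n → ℝ} (h : Cut a X (closedBall 0 r) χ) (z : E n)
    {Rz : ℝ} (hz : ‖z‖ ≤ Rz) :
    Cut a ((1 + n * Rz) * X) (closedBall z r) (fun x => χ (x - z)) := by
  have hX := hb_nonneg h.h0
  have hR : 0 ≤ Rz := (norm_nonneg _).trans hz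
  have hle : X ≤ (1 + n * Rz) * X := by
    have : 0 ≤ n * Rz * X := by positivity
    nlinarith
  have hsub : ∀ x, x ∉ closedBall z r → x - z ∉ closedBall (0 : E n) r := by
    intro x hx
    simpa [mem_closedBall, dist_eq_norm] using hx
  refine ⟨h.c2.comp (contDiff_id.sub contDiff_const), hb_mono (hb_translate h.h0 z) hle,
    fun i => ?_, fun i j => ?_, ?_, fun x hx => ?_, fun x hx i j => ?_⟩
  · have h1 : (fun x => dd (fun x => χ (x - z)) x i) = fun x => dd χ (x - z) i := by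
      funext x
      show fderiv ℝ (fun x => χ (x - z)) x (ee i) = _
      rw [fderiv_translate]
    rw [h1]
    exact hb_mono (hb_translate (h.h1 i) z) hle
  · have h1 : (fun x => Hs (fun x => χ (x - z)) x i j) = fun x => Hs χ (x - z) i j := by
      funext x; exact Hs_translate χ z x i j
    rw [h1]
    exact hb_mono (hb_translate (h.h2 i j) z) hle
  · have h1 : (fun x => fderiv ℝ (fun x => χ (x - z)) x x) = fun x =>
        fderiv ℝ χ (x - z) (x - z) + ∑ i, z i * dd χ (x - z) i := by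
      funext x
      rw [fderiv_translate]
      have h2 : fderiv ℝ χ (x - z) x = fderiv ℝ χ (x - z) (x - z) + fderiv ℝ χ (x - z) z := by
        rw [← map_add]; congr 1; abel
      show fderiv ℝ χ (x - z) x = _
      rw [h2]
      congr 1
      have h5 : ∀ l : E n →L[ℝ] ℝ, l z = ∑ i, z i * l (ee i) := by
        intro l
        conv_lhs => rw [sum_ee z]
        rw [map_sum]
        simp only [map_smul, smul_eq_mul]
      exact h5 _
    rw [h1]
    have h2 : HB a (∑ _i : Fin n, Rz * X) (fun x => ∑ i, z i * dd χ (x - z) i) := by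
      refine hb_sum _ fun i _ => ?_
      refine hb_mono (hb_cmul (z i) (hb_translate (h.h1 i) z)) ?_
      have h3 : |z i| ≤ Rz := (PiLp.norm_apply_le z i).trans hz
      exact mul_le_mul_of_nonneg_right h3 hX
    have h4 := hb_add (hb_translate h.h3 z) h2
    refine hb_mono h4 (le_of_eq ?_)
    simp only [Finset.sum_const, Finset.card_univ, Fintype.card_fin, nsmul_eq_mul]
    ring
  · rw [fderiv_translate]
    exact h.s1 _ (hsub x hx)
  · rw [Hs_translate]
    exact h.s2 _ (hsub x hx) i j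

theorem Cut.one_sub {a X : ℝ} {S : Set (E n)} {χ : E n → ℝ} (h : Cut a X S χ) :
    Cut a (1 + X) S (fun x => 1 - χ x) := by
  have hX := hb_nonneg h.h0
  have f1 : fderiv ℝ (fun x => 1 - χ x) = fun x => - fderiv ℝ χ x := by
    funext x
    rw [fderiv_const_sub]
  have f2 : ∀ x i j, Hs (fun x => 1 - χ x) x i j = - Hs χ x i j := by
    intro x i j
    unfold Hs
    rw [f1]
    rw [fderiv_fun_neg]
    simp
  refine ⟨contDiff_const.sub h.c2, ?_, fun i => ?_, fun i j => ?_, ?_, fun x hx => ?_,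
    fun x hx i j => ?_⟩
  · have := hb_sub (hb_const (n := n) (a := a) (1 : ℝ)) h.h0
    simpa using this
  · have h1 : (fun x => dd (fun x => 1 - χ x) x i) = fun x => - dd χ x i := by
      funext x
      show fderiv ℝ (fun x => 1 - χ x) x (ee i) = _
      rw [f1]; simp
    rw [h1]; exact hb_mono (hb_neg (h.h1 i)) (by linarith)
  · have h1 : (fun x => Hs (fun x => 1 - χ x) x i j) = fun x => - Hs χ x i j := by
      funext x; exact f2 x i j
    rw [h1]; exact hb_mono (hb_neg (h.h2 i j)) (by linarith)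
  · have h1 : (fun x => fderiv ℝ (fun x => 1 - χ x) x x) = fun x => - fderiv ℝ χ x x := by
      funext x; rw [f1]; simp
    rw [h1]; exact hb_mono (hb_neg h.h3) (by linarith)
  · rw [f1]; show - fderiv ℝ χ x = 0
    rw [h.s1 x hx]; simp
  · rw [f2, h.s2 x hx]; simp

end Crest.Agent.R238.SF
end

-- ▼ part R238/SchErr
section

/-!
Row 238, node H3, helper452's part 4: far and local error terms, covering lemma.
-/

set_option autoImplicit false

open MeasureTheory Set Filter Metric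
open scoped ContDiff Topology

namespace Crest.Agent.R238.SF

open Crest.Agent.R238

variable {n : ℕ}

theorem HBon.mono {a M M' : ℝ} {S S' : Set (E n)} {f : E n → ℝ} (h : HBon a M S f) (hM : M ≤ M')
    (hS : S' ⊆ S) : HBon a M' S' f :=
  ⟨fun x hx => (h.1 x (hS hx)).trans hM, fun x hx y hy => (h.2 x (hS hx) y (hS hy)).trans
    (mul_le_mul_of_nonneg_right hM (Real.rpow_nonneg (norm_nonneg _) a))⟩

/-- error term from entrywise products -/
theorem err_sum {a K θ : ℝ} {A0 : Matrix (Fin n) (Fin n) ℝ} {τ : E n → Matrix (Fin n) (Fin n) ℝ}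
    {F : Fin n → Fin n → E n → ℝ}
    (h : ∀ i j, HB a (θ * K) (fun x => (A0 i j - τ x i j) * F i j x)) :
    HB a ((n : ℝ) ^ 2 * θ * K) (fun x => ∑ i, ∑ j, (A0 i j - τ x i j) * F i j x) := by
  refine hb_mono (hb_sum2c h) (le_of_eq ?_)
  ring

/-- far error -/
theorem far_err {a e : ℝ} {S : Set (E n)} {A0 : Matrix (Fin n) (Fin n) ℝ}
    {τ : E n → Matrix (Fin n) (Fin n) ℝ} (he : 0 ≤ e)
    (hS : ∀ i j, HBon a e S (fun x => A0 i j - τ x i j)) {g : E n → ℝ}
    (hg : ∀ x ∉ S, ∀ i j, Hs g x i j = 0) (K : ℝ)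
    (hK : ∀ i j, HB a K (fun x => Hs g x i j)) :
    HB a ((n : ℝ) ^ 2 * (2 * e) * K) (fun x => ∑ i, ∑ j, (A0 i j - τ x i j) * Hs g x i j) :=
  err_sum (F := fun i j x => Hs g x i j) fun i j =>
    hb_mono (HBon.mul he (hS i j) (hK i j) fun x hx => hg x hx i j) (le_of_eq (by ring))

/-- the sup of a Hölder function vanishing outside a small ball -/
theorem sup_small {a K r : ℝ} (ha0 : 0 ≤ a) (hr : 0 < r) (i0 : Fin n) {F : E n → ℝ}
    {z : E n} (hF : HB a K F) (h0 : ∀ x ∉ closedBall z r, F x = 0) (x : E n)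
    (hx : x ∈ closedBall z r) : |F x| ≤ K * (3 * r) ^ a := by
  set y : E n := z + (2 * r) • ee i0 with hy
  have h1 : ‖y - z‖ = 2 * r := by
    rw [hy, add_sub_cancel_left, norm_smul]
    simp [abs_of_pos hr]
  have h2 : y ∉ closedBall z r := by
    rw [mem_closedBall, dist_eq_norm, h1]; linarith
  have h3 := hF.2 x y
  rw [h0 y h2, sub_zero] at h3
  have h4 : ‖x - y‖ ≤ 3 * r := by
    have h5 : x - y = (x - z) - (y - z) := by abel
    have h6 : ‖x - z‖ ≤ r := by rwa [mem_closedBall, dist_eq_norm] at hx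
    rw [h5]
    have := norm_sub_le (x - z) (y - z)
    linarith
  exact h3.trans (mul_le_mul_of_nonneg_left (Real.rpow_le_rpow (norm_nonneg _) h4 ha0)
    (hb_nonneg hF))

/-- product with a factor vanishing at the centre of a small ball -/
theorem loc_prod {a K T r : ℝ} (ha0 : 0 ≤ a) (hr : 0 < r) (hr1 : 3 * r ≤ 1) (hT : 0 ≤ T)
    (i0 : Fin n) {B F : E n → ℝ} {z : E n} (hF : HB a K F) (h0 : ∀ x ∉ closedBall z r, F x = 0)
    (hB0 : B z = 0) (hB : ∀ x y, |B x - B y| ≤ T * ‖x - y‖ ^ a) :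
    HB a (2 * (T * (3 * r) ^ a) * K) (fun x => B x * F x) := by
  have hK := hb_nonneg hF
  set q : ℝ := (3 * r) ^ a with hq
  have hq0 : 0 ≤ q := Real.rpow_nonneg (by linarith) a
  have hq1 : q ≤ 1 := Real.rpow_le_one (by linarith) hr1 ha0
  have hra : r ^ a ≤ q := Real.rpow_le_rpow hr.le (by linarith) ha0
  have hBz : ∀ x ∈ closedBall z r, |B x| ≤ T * q := by
    intro x hx
    have h1 := hB x z
    rw [hB0, sub_zero] at h1
    have h2 : ‖x - z‖ ≤ r := by rwa [mem_closedBall, dist_eq_norm] at hx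
    have h3 : ‖x - z‖ ^ a ≤ q := (Real.rpow_le_rpow (norm_nonneg _) h2 ha0).trans hra
    exact h1.trans (mul_le_mul_of_nonneg_left h3 hT)
  have hFz := sup_small ha0 hr i0 hF h0
  have hTq : 0 ≤ T * q := mul_nonneg hT hq0
  refine ⟨fun x => ?_, fun x y => ?_⟩
  · by_cases hx : x ∈ closedBall z r
    · show |B x * F x| ≤ _
      rw [abs_mul]
      have : |B x| * |F x| ≤ (T * q) * K := mul_le_mul (hBz x hx) (hF.1 x) (abs_nonneg _) hTq
      nlinarith [mul_nonneg hTq hK]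
    · simp only [h0 x hx, mul_zero, abs_zero]; positivity
  · have hr' := Real.rpow_nonneg (norm_nonneg (x - y)) a
    have hr2 : 0 ≤ T * q * K * ‖x - y‖ ^ a := mul_nonneg (mul_nonneg hTq hK) hr'
    show |B x * F x - B y * F y| ≤ _
    by_cases hx : x ∈ closedBall z r
    · have h2 : |B x * (F x - F y)| ≤ (T * q) * (K * ‖x - y‖ ^ a) := by
        rw [abs_mul]; exact mul_le_mul (hBz x hx) (hF.2 x y) (abs_nonneg _) hTq
      by_cases hy : y ∈ closedBall z r
      · have h1 : B x * F x - B y * F y = B x * (F x - F y) + (B x - B y) * F y := by ring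
        rw [h1]
        have h3 : |(B x - B y) * F y| ≤ (T * ‖x - y‖ ^ a) * (K * q) := by
          rw [abs_mul]; exact mul_le_mul (hB x y) (hFz y hy) (abs_nonneg _)
            (mul_nonneg hT hr')
        have := abs_add_le (B x * (F x - F y)) ((B x - B y) * F y)
        nlinarith
      · have h1 : B x * F x - B y * F y = B x * (F x - F y) := by rw [h0 y hy]; ring
        rw [h1]
        nlinarith
    · by_cases hy : y ∈ closedBall z r
      · have h1 : B x * F x - B y * F y = B y * (F x - F y) := by rw [h0 x hx]; ring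
        rw [h1]
        have h2 : |B y * (F x - F y)| ≤ (T * q) * (K * ‖x - y‖ ^ a) := by
          rw [abs_mul]; exact mul_le_mul (hBz y hy) (hF.2 x y) (abs_nonneg _) hTq
        nlinarith
      · have h1 : B x * F x - B y * F y = 0 := by rw [h0 x hx, h0 y hy]; ring
        rw [h1, abs_zero]
        nlinarith

/-- local error -/
theorem loc_err {a T r : ℝ} (ha0 : 0 ≤ a) (hr : 0 < r) (hr1 : 3 * r ≤ 1) (hT : 0 ≤ T)
    (i0 : Fin n) {τ : E n → Matrix (Fin n) (Fin n) ℝ} {z : E n}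
    (hτ : ∀ i j, HB a T (fun x => τ x i j)) {g : E n → ℝ}
    (hg : ∀ x ∉ closedBall z r, ∀ i j, Hs g x i j = 0) (K : ℝ)
    (hK : ∀ i j, HB a K (fun x => Hs g x i j)) :
    HB a ((n : ℝ) ^ 2 * (2 * (T * (3 * r) ^ a)) * K)
      (fun x => ∑ i, ∑ j, (τ z i j - τ x i j) * Hs g x i j) :=
  err_sum (F := fun i j x => Hs g x i j) fun i j =>
    loc_prod (B := fun x => τ z i j - τ x i j) ha0 hr hr1 hT i0 (hK i j)
      (fun x hx => hg x hx i j) (by simp) fun x y => by
        have h1 : τ z i j - τ x i j - (τ z i j - τ y i j) = -(τ x i j - τ y i j) := by ring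
        rw [h1, abs_neg]; exact (hτ i j).2 x y

/-- covering lemma -/
theorem hb_of_cover {a K δ : ℝ} (ha0 : 0 ≤ a) (hδ : 0 < δ) (hK : 0 ≤ K) {f : E n → ℝ}
    (h : ∀ x, ∃ g : E n → ℝ, HB a K g ∧ ∀ y ∈ closedBall x δ, f y = g y) :
    HB a ((1 + 2 / δ ^ a) * K) f := by
  have hd : 0 < δ ^ a := Real.rpow_pos_of_pos hδ a
  have hsup : ∀ x, |f x| ≤ K := by
    intro x
    obtain ⟨g, hg, hfg⟩ := h x
    rw [hfg x (mem_closedBall_self hδ.le)]; exact hg.1 x
  have hq : 0 ≤ 2 / δ ^ a * K := by positivity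
  refine ⟨fun x => (hsup x).trans (by nlinarith), fun x y => ?_⟩
  have hr := Real.rpow_nonneg (norm_nonneg (x - y)) a
  rcases le_total ‖x - y‖ δ with hxy | hxy
  · obtain ⟨g, hg, hfg⟩ := h x
    have hy : y ∈ closedBall x δ := by
      rw [mem_closedBall, dist_eq_norm, norm_sub_rev]; exact hxy
    rw [hfg x (mem_closedBall_self hδ.le), hfg y hy]
    have := hg.2 x y
    nlinarith [mul_nonneg hq hr]
  · have h1 : δ ^ a ≤ ‖x - y‖ ^ a := Real.rpow_le_rpow hδ.le hxy ha0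
    have h2 : |f x - f y| ≤ 2 * K := by
      have h3 := abs_sub (f x) (f y)
      have h4 := hsup x
      have h5 := hsup y
      linarith
    have h3 : 2 * K ≤ 2 / δ ^ a * K * ‖x - y‖ ^ a := by
      have h4 : 2 / δ ^ a * K * δ ^ a = 2 * K := by field_simp
      rw [← h4]
      exact mul_le_mul_of_nonneg_left h1 hq
    have h4 : 0 ≤ K * ‖x - y‖ ^ a := mul_nonneg hK hr
    nlinarith

end Crest.Agent.R238.SF
end

-- ▼ part R238/SchMain

/-!
Row 238, node H3, helper452's part 5: the Schauder a priori estimate (B) from (A) = `RepStmt`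
and the interpolation inequality on balls.
-/

set_option autoImplicit false

open MeasureTheory Set Filter Metric
open scoped ContDiff Topology

namespace Crest.Agent.R238.SF

open Crest.Agent.R238

variable {n : ℕ}

/-- interpolation on a ball -/
def IntOn (n : ℕ) (a ρ ε : ℝ) : Prop := ∃ K : ℝ, 0 ≤ K ∧ ∀ h : E n → ℝ, ContDiff ℝ 2 h →
  ∀ B m : ℝ, 0 ≤ B → 0 ≤ m → (∀ x i j, |Hs h x i j| ≤ B) → (∀ x, ‖x‖ ≤ ρ + 1 → |h x| ≤ m) →
    HBon a (ε * B + K * m) (closedBall 0 ρ) h ∧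
      ∀ i, HBon a (ε * B + K * m) (closedBall 0 ρ) (fun x => fderiv ℝ h x (ee i))

/-- **(B)**: the Schauder a priori estimate. -/
def SchStmt : Prop := ∀ (n : ℕ) (a : ℝ), 0 < a → a < 1 → ∃ e0 : ℝ, 0 < e0 ∧
  ∀ lo hi T R : ℝ, 0 < lo → lo ≤ hi → 1 ≤ R → ∃ C : ℝ, 0 < C ∧
    ∀ τ : E n → Matrix (Fin n) (Fin n) ℝ, (∀ x, Ell lo hi (τ x)) →
      (∀ i j, HB a T (fun x => τ x i j)) →
      (∀ i j, HBon a e0 {x | R ≤ ‖x‖}
        (fun x => τ x i j - (1 : Matrix (Fin n) (Fin n) ℝ) i j)) →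
      ∀ lam : ℝ, (lam = 0 ∨ lam = 1) → ∀ (h : E n → ℝ) (N m : ℝ), ContDiff ℝ 2 h →
        (∃ K, ∀ i j, HB a K (fun x => Hs h x i j)) →
        HB a N (fun x => LA τ h x + lam * h x) → (∀ x, ‖x‖ ≤ 2 * R + 3 → |h x| ≤ m) →
        ∀ i j, HB a (C * (N + m)) (fun x => Hs h x i j)

theorem Cut.mono {a X X' : ℝ} {S S' : Set (E n)} {χ : E n → ℝ} (h : Cut a X S χ) (hX : X ≤ X')
    (hS : S ⊆ S') : Cut a X' S' χ :=
  ⟨h.c2, hb_mono h.h0 hX, fun i => hb_mono (h.h1 i) hX, fun i j => hb_mono (h.h2 i j) hX,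
    hb_mono h.h3 hX, fun x hx => h.s1 x fun hx' => hx (hS hx'),
    fun x hx => h.s2 x fun hx' => hx (hS hx')⟩

theorem exists_small {a q : ℝ} (ha : 0 < a) (hq : 0 < q) : ∃ s : ℝ, 0 < s ∧ s ≤ 1 ∧ s ^ a ≤ q := by
  refine ⟨min 1 (q ^ (1 / a)), lt_min one_pos (Real.rpow_pos_of_pos hq _), min_le_left _ _, ?_⟩
  calc (min 1 (q ^ (1 / a))) ^ a ≤ (q ^ (1 / a)) ^ a :=
        Real.rpow_le_rpow (le_min zero_le_one (Real.rpow_nonneg hq.le _)) (min_le_right _ _) ha.le
    _ = q := by rw [← Real.rpow_mul hq.le, one_div_mul_cancel ha.ne', Real.rpow_one]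

theorem ell_one : Ell 1 1 (1 : Matrix (Fin n) (Fin n) ℝ) := by
  refine ⟨fun i j => by simp [Matrix.one_apply, eq_comm], fun z => ?_⟩
  have h : ∑ i, ∑ j, (1 : Matrix (Fin n) (Fin n) ℝ) i j * z i * z j = ∑ i, z i ^ 2 := by
    refine Finset.sum_congr rfl fun i _ => ?_
    rw [Finset.sum_eq_single i]
    · simp [sq]
    · intro j _ hj; simp [Matrix.one_apply_ne' hj]
    · simp
  rw [h]; constructor <;> simp

/-- far piece -/
theorem far_piece {a C N X T Q K0 lam e R : ℝ} {χ h : E n → ℝ}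
    {τ : E n → Matrix (Fin n) (Fin n) ℝ} {S : Set (E n)}
    (hC : 0 < C) (hA : AEst a C lam (1 : Matrix (Fin n) (Fin n) ℝ))
    (hQ : 0 ≤ Q) (hT : 0 ≤ T) (he : 0 ≤ e) (hχ : Cut a X S (fun x => 1 - χ x))
    (hχ1 : ∀ x, ‖x‖ ≤ R → χ x = 1)
    (hh : ContDiff ℝ 2 h)
    (hK : ∀ i j, HB a K0 (fun x => Hs h x i j))
    (hf : HB a N (fun x => LA τ h x + lam * h x))
    (hτ : ∀ i j, HB a T (fun x => τ x i j))
    (hfar : ∀ i j, HBon a e {x | R ≤ ‖x‖}
        (fun x => τ x i j - (1 : Matrix (Fin n) (Fin n) ℝ) i j))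
    (hQ0 : HBon a Q S h) (hQ1 : ∀ j, HBon a Q S (fun x => dd h x j))
    (hθ : C * ((n : ℝ) ^ 2 * (2 * e)) ≤ 1 / 2) (i j : Fin n) :
    HB a (4 * C * (X * N + Q * X * (6 * (n : ℝ) ^ 2 * T + 1)))
      (fun x => Hs (fun x => (1 - χ x) * h x) x i j) := by
  refine cut_absorb (χ := fun x => 1 - χ x) hC hA hQ hT hχ hh hK hf hτ hQ0 hQ1
    (fun K _ hKK => ?_) hθ i j
  refine far_err (S := {x | R ≤ ‖x‖}) he (fun i j => ?_) (fun x hx i j => ?_) K hKK
  · refine ⟨fun x hx => ?_, fun x hx y hy => ?_⟩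
    · rw [abs_sub_comm]; exact (hfar i j).1 x hx
    · have h1 := (hfar i j).2 x hx y hy
      rw [abs_sub_comm] at h1
      refine le_trans (le_of_eq ?_) h1
      congr 1; ring
  · have ho : IsOpen {y : E n | ‖y‖ < R} := isOpen_lt continuous_norm continuous_const
    have hx' : x ∈ {y : E n | ‖y‖ < R} := by
      simpa [not_le] using hx
    refine Hs_zero_of ?_ i j
    filter_upwards [ho.mem_nhds hx'] with y hy
    rw [hχ1 y (le_of_lt hy)]; ring

/-- local piece -/
theorem loc_piece {a C N X T Q K0 lam r : ℝ} {χ h : E n → ℝ} {z : E n}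
    {τ : E n → Matrix (Fin n) (Fin n) ℝ} {S : Set (E n)} (ha0 : 0 ≤ a) (hr : 0 < r)
    (hr1 : 3 * r ≤ 1)
    (hC : 0 < C) (hA : AEst a C lam (τ z))
    (hQ : 0 ≤ Q) (hT : 0 ≤ T) (hχ : Cut a X S (fun x => χ (x - z)))
    (hχ0 : ∀ x, r ≤ ‖x‖ → χ x = 0)
    (hh : ContDiff ℝ 2 h)
    (hK : ∀ i j, HB a K0 (fun x => Hs h x i j))
    (hf : HB a N (fun x => LA τ h x + lam * h x))
    (hτ : ∀ i j, HB a T (fun x => τ x i j))
    (hQ0 : HBon a Q S h) (hQ1 : ∀ j, HBon a Q S (fun x => dd h x j))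
    (hθ : C * ((n : ℝ) ^ 2 * (2 * (T * (3 * r) ^ a))) ≤ 1 / 2) (i j : Fin n) :
    HB a (4 * C * (X * N + Q * X * (6 * (n : ℝ) ^ 2 * T + 1)))
      (fun x => Hs (fun x => χ (x - z) * h x) x i j) := by
  refine cut_absorb (χ := fun x => χ (x - z)) hC hA hQ hT hχ hh hK hf hτ hQ0 hQ1
    (fun K _ hKK => ?_) hθ i j
  refine loc_err ha0 hr hr1 hT i hτ (fun x hx i j => ?_) K hKK
  have ho : IsOpen (closedBall z r)ᶜ := isClosed_closedBall.isOpen_compl
  refine Hs_zero_of ?_ i j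
  filter_upwards [ho.mem_nhds hx] with y hy
  have h1 : r ≤ ‖y - z‖ := by
    simp only [mem_compl_iff, mem_closedBall, dist_eq_norm, not_le] at hy
    exact hy.le
  rw [hχ0 _ h1]; ring

/-- **(B)** from (A) and interpolation -/
theorem schauder (hRep : RepStmt)
    (hInt : ∀ (n : ℕ) (a ρ ε : ℝ), 0 < a → a < 1 → 0 < ε → IntOn n a ρ ε) : SchStmt := by
  intro n a ha0 ha1
  obtain ⟨C1, hC1, hA1⟩ := hRep n a 1 1 ha0 ha1 one_pos le_rfl
  have hn2 : (0 : ℝ) ≤ (n : ℝ) ^ 2 := by positivity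
  refine ⟨1 / (4 * ((n : ℝ) ^ 2 + 1) * C1), by positivity, ?_⟩
  intro lo hi T R hlo hlohi hR
  obtain ⟨C2, hC2, hA2⟩ := hRep n a lo hi ha0 ha1 hlo hlohi
  set e0 : ℝ := 1 / (4 * ((n : ℝ) ^ 2 + 1) * C1) with he0
  have he0pos : 0 < e0 := by rw [he0]; positivity
  set T' : ℝ := |T| with hT'
  have hT'0 : 0 ≤ T' := abs_nonneg T
  -- the local scale
  obtain ⟨s, hs0, hs1, hsq⟩ := exists_small (a := a) (q := 1 / (4 * ((n : ℝ) ^ 2 + 1) * C2 * (T' + 1)))
    ha0 (by positivity)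
  set r : ℝ := s / 3 with hr
  have hr0 : 0 < r := by rw [hr]; positivity
  have h3r : 3 * r = s := by rw [hr]; ring
  have hr3 : r ≤ 1 / 3 := by rw [hr]; linarith
  -- cut-offs
  obtain ⟨Xf, χf, hXf, hcf, hf1, hf0⟩ := exists_cut (n := n) ha0.le ha1.le R (by linarith)
  obtain ⟨Xl, χl, hXl, hcl, hl1, hl0⟩ := exists_cut (n := n) ha0.le ha1.le (r / 2) (by linarith)
  have h2r : 2 * (r / 2) = r := by ring
  rw [h2r] at hcl hl0
  set X : ℝ := (1 + Xf) + (1 + n * (2 * R + 1)) * Xl with hX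
  have hnR : 0 ≤ (1 + n * (2 * R + 1)) * Xl := by positivity
  have hX0 : 0 ≤ X := by rw [hX]; linarith
  set δ : ℝ := r / 4 with hδ
  have hδ0 : 0 < δ := by rw [hδ]; positivity
  have hδa : 0 < δ ^ a := Real.rpow_pos_of_pos hδ0 a
  set A : ℝ := (1 + 2 / δ ^ a) * (4 * (C1 + C2) * X) with hA
  have hA0 : 0 ≤ A := by rw [hA]; positivity
  set B : ℝ := A * (6 * (n : ℝ) ^ 2 * T' + 1) with hB
  have hB0 : 0 ≤ B := by rw [hB]; positivity
  obtain ⟨Kε, hKε, hI⟩ := hInt n a (2 * R + 2) (1 / (2 * (B + 1))) ha0 ha1 (by positivity)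
  refine ⟨2 * (A + B * Kε) + 1, by positivity, ?_⟩
  intro τ hEll hτ hfar lam hlam h N m hh hfin hN hm i j
  have hm0 : 0 ≤ m := (abs_nonneg _).trans (hm 0 (by simp; linarith))
  have hN0 := hb_nonneg hN
  have hTT : ∀ i j, HB a T' (fun x => τ x i j) := fun i j => hb_mono (hτ i j) (le_abs_self T)
  have key := absorb (F := fun (p : Fin n × Fin n) x => Hs h x p.1 p.2)
    (M := A * N + B * Kε * m) (by positivity)
    (by obtain ⟨K, hK⟩ := hfin; exact ⟨K, fun p => hK p.1 p.2⟩) (fun K hK0 hKK p => by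
      have hK : ∀ i j, HB a K (fun x => Hs h x i j) := fun i j => hKK (i, j)
      obtain ⟨hQ0, hQ1⟩ := hI h hh K m hK0 hm0 (fun x i j => (hK i j).1 x)
        (fun x hx => hm x (by linarith))
      set Q : ℝ := 1 / (2 * (B + 1)) * K + Kε * m with hQ
      have hQnn : 0 ≤ Q := by rw [hQ]; positivity
      -- far piece
      have hfarp : ∀ i j, HB a (4 * (C1 + C2) * (X * N + Q * X * (6 * (n : ℝ) ^ 2 * T' + 1)))
          (fun x => Hs (fun x => (1 - χf x) * h x) x i j) := by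
        intro i j
        have hcut : Cut a X (closedBall 0 (2 * R + 2)) (fun x => 1 - χf x) :=
          hcf.one_sub.mono (by rw [hX]; linarith) (closedBall_subset_closedBall (by linarith))
        have hAE : AEst a C1 lam (1 : Matrix (Fin n) (Fin n) ℝ) := fun g N' hg hb hh' =>
          hA1 1 ell_one lam hlam g N' hg hb hh'
        have hθ : C1 * ((n : ℝ) ^ 2 * (2 * e0)) ≤ 1 / 2 := by
          have h1 : C1 * ((n : ℝ) ^ 2 * (2 * e0)) = (n : ℝ) ^ 2 / (2 * ((n : ℝ) ^ 2 + 1)) := by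
            rw [he0]; field_simp; ring
          rw [h1, div_le_div_iff₀ (by positivity) (by positivity)]
          linarith
        refine hb_mono (far_piece hC1 hAE hQnn hT'0 he0pos.le hcut hf1 hh hK hN hTT hfar hQ0 hQ1
          hθ i j) ?_
        have : 0 ≤ X * N + Q * X * (6 * (n : ℝ) ^ 2 * T' + 1) := by positivity
        exact mul_le_mul_of_nonneg_right (by linarith) this
      -- local piece
      have hlocp : ∀ z : E n, ‖z‖ ≤ 2 * R + 1 → ∀ i j,
          HB a (4 * (C1 + C2) * (X * N + Q * X * (6 * (n : ℝ) ^ 2 * T' + 1)))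
          (fun x => Hs (fun x => χl (x - z) * h x) x i j) := by
        intro z hz i j
        have hcut : Cut a X (closedBall 0 (2 * R + 2)) (fun x => χl (x - z)) :=
          (hcl.translate z hz).mono (by rw [hX]; linarith) (by
            intro x hx
            rw [mem_closedBall, dist_eq_norm] at hx
            rw [mem_closedBall, dist_zero_right]
            have := norm_le_norm_add_norm_sub z x
            rw [norm_sub_rev] at this
            linarith)
        have hAE : AEst a C2 lam (τ z) := fun g N' hg hb hh' =>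
          hA2 (τ z) (hEll z) lam hlam g N' hg hb hh'
        have hθ : C2 * ((n : ℝ) ^ 2 * (2 * (T' * (3 * r) ^ a))) ≤ 1 / 2 := by
          rw [h3r]
          have h1 : C2 * ((n : ℝ) ^ 2 * (2 * (T' * s ^ a))) ≤
              C2 * ((n : ℝ) ^ 2 * (2 * (T' * (1 / (4 * ((n : ℝ) ^ 2 + 1) * C2 * (T' + 1)))))) := by
            gcongr
          refine h1.trans ?_
          have h2 : C2 * ((n : ℝ) ^ 2 * (2 * (T' * (1 / (4 * ((n : ℝ) ^ 2 + 1) * C2 * (T' + 1))))))
              = ((n : ℝ) ^ 2 * T') / (2 * (((n : ℝ) ^ 2 + 1) * (T' + 1))) := by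
            field_simp; ring
          rw [h2, div_le_div_iff₀ (by positivity) (by positivity)]
          have h7 := mul_nonneg hn2 hT'0
          have h8 : (n : ℝ) ^ 2 * T' * 2 ≤ 1 * (2 * (((n : ℝ) ^ 2 + 1) * (T' + 1))) := by
            have h9 : 1 * (2 * (((n : ℝ) ^ 2 + 1) * (T' + 1))) =
              (n : ℝ) ^ 2 * T' * 2 + 2 * (n : ℝ) ^ 2 + 2 * T' + 2 := by ring
            rw [h9]; linarith
          exact h8
        refine hb_mono (loc_piece ha0.le hr0 (by linarith) hC2 hAE hQnn hT'0 hcut hl0 hh hK hN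
          hTT hQ0 hQ1 hθ i j) ?_
        have : 0 ≤ X * N + Q * X * (6 * (n : ℝ) ^ 2 * T' + 1) := by positivity
        exact mul_le_mul_of_nonneg_right (by linarith) this
      have hD0 : 0 ≤ 4 * (C1 + C2) * (X * N + Q * X * (6 * (n : ℝ) ^ 2 * T' + 1)) := by
        positivity
      have hcov := hb_of_cover ha0.le hδ0 hD0 (f := fun x => Hs h x p.1 p.2) (fun x => by
        by_cases hx : ‖x‖ ≤ 2 * R + 1
        · refine ⟨_, hlocp x hx p.1 p.2, fun y hy => ?_⟩
          refine Hs_congr ?_ p.1 p.2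
          have ho : IsOpen (ball x (r / 2)) := isOpen_ball
          have hy' : y ∈ ball x (r / 2) := by
            rw [mem_ball]; rw [mem_closedBall] at hy
            rw [hδ] at hy; linarith
          filter_upwards [ho.mem_nhds hy'] with w hw
          rw [mem_ball, dist_eq_norm] at hw
          rw [hl1 _ hw.le, one_mul]
        · refine ⟨_, hfarp p.1 p.2, fun y hy => ?_⟩
          refine Hs_congr ?_ p.1 p.2
          have ho : IsOpen {w : E n | 2 * R < ‖w‖} := isOpen_lt continuous_const continuous_norm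
          have hy' : y ∈ {w : E n | 2 * R < ‖w‖} := by
            rw [mem_closedBall, dist_eq_norm] at hy
            have h1 := norm_sub_norm_le x y
            rw [norm_sub_rev] at h1
            push Not at hx
            show 2 * R < ‖y‖
            rw [hδ] at hy; linarith
          filter_upwards [ho.mem_nhds hy'] with w hw
          rw [hf0 w (le_of_lt hw)]; ring)
      refine hb_mono hcov ?_
      have e1 : (1 + 2 / δ ^ a) * (4 * (C1 + C2) * (X * N + Q * X * (6 * (n : ℝ) ^ 2 * T' + 1)))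
          = A * N + B * Q := by
        rw [hB, hA]; ring
      rw [e1, hQ]
      have e2 : B * (1 / (2 * (B + 1)) * K) ≤ K / 2 := by
        have h1 : B * (1 / (2 * (B + 1)) * K) = (B / (B + 1)) * (K / 2) := by
          field_simp
        rw [h1]
        have h2 : B / (B + 1) ≤ 1 := by
          rw [div_le_one (by linarith)]; linarith
        have h3 : 0 ≤ K / 2 := by linarith
        exact (mul_le_mul_of_nonneg_right h2 h3).trans (by rw [one_mul])
      have e3 : B * (1 / (2 * (B + 1)) * K + Kε * m) = B * (1 / (2 * (B + 1)) * K) + B * Kε * m := by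
        ring
      rw [e3]
      linarith)
  refine hb_mono (key (i, j)) ?_
  have h1 : 0 ≤ A * m := mul_nonneg hA0 hm0
  have h2 : 0 ≤ B * Kε * N := by positivity
  have h3 : (2 * (A + B * Kε) + 1) * (N + m) =
    2 * (A * N + B * Kε * m) + 2 * (A * m) + 2 * (B * Kε * N) + N + m := by ring
  rw [h3]; linarith

end Crest.Agent.R238.SF
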