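import Mathlib
import Crest.Agent.R238.HolDefs

-- ▼ part R238/AEstA
section

set_option autoImplicit false
set_option linter.unusedSectionVars false
open MeasureTheory Filter Topology Set
open scoped RealInnerProductSpace

namespace Crest.Agent.R238.AEst

section Gauss

variable {E : Type*} [NormedAddCommGroup E] [InnerProductSpace ℝ E] [FiniteDimensional ℝ E]
  [MeasurableSpace E] [BorelSpace E]

/-- unnormalised Gaussian weight -/
noncomputable def gw (z : E) : ℝ := Real.exp (-(‖z‖ ^ 2 / 2))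

lemma gw_pos (z : E) : 0 < gw z := Real.exp_pos _

lemma continuous_gw : Continuous (gw : E → ℝ) := by
  unfold gw; fun_prop

lemma integrable_exp_neg {b : ℝ} (hb : 0 < b) :
    Integrable (fun z : E => Real.exp (-b * ‖z‖ ^ 2)) := by
  have h := (GaussianFourier.integrable_cexp_neg_mul_sq_norm_add (V := E) (b := (b : ℂ))
    (by simpa using hb) 0 0).norm
  refine h.congr (Eventually.of_forall fun z => ?_)
  simp only [Complex.norm_exp]
  congr 1
  simp [← Complex.ofReal_pow, ← Complex.ofReal_neg, ← Complex.ofReal_mul]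

lemma one_add_pow_le (k : ℕ) {b : ℝ} (hb : 0 < b) (t : ℝ) (ht : 0 ≤ t) :
    (1 + t) ^ k ≤ Real.exp ((k : ℝ) ^ 2 / (2 * b)) * Real.exp (b / 2 * t ^ 2) := by
  have h1 : (1 + t) ^ k ≤ Real.exp (k * t) := by
    rw [mul_comm (k : ℝ) t, Real.exp_mul]
    rw [Real.rpow_natCast]
    exact pow_le_pow_left₀ (by positivity) (by linarith [Real.add_one_le_exp t]) k
  refine h1.trans ?_
  rw [← Real.exp_add]
  apply Real.exp_le_exp.mpr
  have : 0 ≤ (b * t - k) ^ 2 := sq_nonneg _
  have h2 : (k : ℝ) ^ 2 / (2 * b) + b / 2 * t ^ 2 - k * t = (b * t - k) ^ 2 / (2 * b) := by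
    field_simp
    ring
  have h3 : 0 ≤ (b * t - k) ^ 2 / (2 * b) := by positivity
  linarith

lemma integrable_pow_exp {b : ℝ} (hb : 0 < b) (k : ℕ) :
    Integrable (fun z : E => (1 + ‖z‖) ^ k * Real.exp (-b * ‖z‖ ^ 2)) := by
  refine Integrable.mono' ((integrable_exp_neg (E := E) (b := b / 2) (by linarith)).const_mul
    (Real.exp ((k : ℝ) ^ 2 / (2 * b)))) ?_ (Eventually.of_forall fun z => ?_)
  · apply Continuous.aestronglyMeasurable; fun_prop
  · rw [Real.norm_of_nonneg (by positivity)]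
    have := one_add_pow_le k hb ‖z‖ (norm_nonneg z)
    calc (1 + ‖z‖) ^ k * Real.exp (-b * ‖z‖ ^ 2)
        ≤ (Real.exp ((k : ℝ) ^ 2 / (2 * b)) * Real.exp (b / 2 * ‖z‖ ^ 2)) * Real.exp (-b * ‖z‖ ^ 2) := by
          gcongr
      _ = Real.exp ((k : ℝ) ^ 2 / (2 * b)) * Real.exp (-(b / 2) * ‖z‖ ^ 2) := by
          rw [mul_assoc, ← Real.exp_add]; congr 2; ring

/-- polynomial growth -/
def PG (F : E → ℝ) : Prop := ∃ C : ℝ, ∃ k : ℕ, 0 ≤ C ∧ ∀ z, |F z| ≤ C * (1 + ‖z‖) ^ k

omit [InnerProductSpace ℝ E] [FiniteDimensional ℝ E] [MeasurableSpace E] [BorelSpace E] in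
lemma PG.const (c : ℝ) : PG (fun _ : E => c) := ⟨|c|, 0, abs_nonneg _, fun z => by simp⟩

omit [InnerProductSpace ℝ E] [FiniteDimensional ℝ E] [MeasurableSpace E] [BorelSpace E] in
lemma PG.add {F G : E → ℝ} (hF : PG F) (hG : PG G) : PG (fun z => F z + G z) := by
  obtain ⟨C, k, hC, h1⟩ := hF
  obtain ⟨D, m, hD, h2⟩ := hG
  refine ⟨C + D, k + m, by positivity, fun z => ?_⟩
  have hz : (1 : ℝ) ≤ 1 + ‖z‖ := by linarith [norm_nonneg z]
  have e1 : (1 + ‖z‖) ^ k ≤ (1 + ‖z‖) ^ (k + m) := pow_le_pow_right₀ hz (by omega)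
  have e2 : (1 + ‖z‖) ^ m ≤ (1 + ‖z‖) ^ (k + m) := pow_le_pow_right₀ hz (by omega)
  calc |F z + G z| ≤ |F z| + |G z| := abs_add_le _ _
    _ ≤ C * (1 + ‖z‖) ^ k + D * (1 + ‖z‖) ^ m := add_le_add (h1 z) (h2 z)
    _ ≤ C * (1 + ‖z‖) ^ (k + m) + D * (1 + ‖z‖) ^ (k + m) := by gcongr
    _ = (C + D) * (1 + ‖z‖) ^ (k + m) := by ring

omit [InnerProductSpace ℝ E] [FiniteDimensional ℝ E] [MeasurableSpace E] [BorelSpace E] in
lemma PG.mul {F G : E → ℝ} (hF : PG F) (hG : PG G) : PG (fun z => F z * G z) := by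
  obtain ⟨C, k, hC, h1⟩ := hF
  obtain ⟨D, m, hD, h2⟩ := hG
  refine ⟨C * D, k + m, by positivity, fun z => ?_⟩
  rw [abs_mul]
  calc |F z| * |G z| ≤ (C * (1 + ‖z‖) ^ k) * (D * (1 + ‖z‖) ^ m) := by
        gcongr
        · exact h1 z
        · exact h2 z
    _ = C * D * (1 + ‖z‖) ^ (k + m) := by ring

omit [InnerProductSpace ℝ E] [FiniteDimensional ℝ E] [MeasurableSpace E] [BorelSpace E] in
lemma PG.neg {F : E → ℝ} (hF : PG F) : PG (fun z => - F z) := by
  obtain ⟨C, k, hC, h1⟩ := hF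
  exact ⟨C, k, hC, fun z => by simpa using h1 z⟩

omit [InnerProductSpace ℝ E] [FiniteDimensional ℝ E] [MeasurableSpace E] [BorelSpace E] in
lemma PG.sub {F G : E → ℝ} (hF : PG F) (hG : PG G) : PG (fun z => F z - G z) := by
  simpa [sub_eq_add_neg] using hF.add hG.neg

omit [FiniteDimensional ℝ E] [MeasurableSpace E] [BorelSpace E] in
lemma PG.inner (a : E) : PG (fun z : E => ⟪z, a⟫) := by
  refine ⟨‖a‖, 1, norm_nonneg _, fun z => ?_⟩
  have := abs_real_inner_le_norm z a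
  nlinarith [norm_nonneg z, norm_nonneg a]

omit [InnerProductSpace ℝ E] [FiniteDimensional ℝ E] [MeasurableSpace E] [BorelSpace E] in
lemma PG.norm_pow (m : ℕ) : PG (fun z : E => (1 + ‖z‖) ^ m) := by
  refine ⟨1, m, zero_le_one, fun z => ?_⟩
  rw [abs_of_nonneg (by positivity)]; simp

omit [InnerProductSpace ℝ E] [FiniteDimensional ℝ E] [MeasurableSpace E] [BorelSpace E] in
lemma PG.mono {F G : E → ℝ} (hG : PG G) (h : ∀ z, |F z| ≤ |G z|) : PG F := by
  obtain ⟨C, k, hC, h1⟩ := hG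
  exact ⟨C, k, hC, fun z => (h z).trans (h1 z)⟩

lemma PG.integrable {F : E → ℝ} (hF : PG F) (hm : AEStronglyMeasurable F volume) :
    Integrable (fun z => F z * gw z) := by
  obtain ⟨C, k, hC, h1⟩ := hF
  refine Integrable.mono' ((integrable_pow_exp (E := E) (b := 1/2) (by norm_num) k).const_mul C)
    (hm.mul continuous_gw.aestronglyMeasurable) (Eventually.of_forall fun z => ?_)
  rw [norm_mul, Real.norm_eq_abs, Real.norm_of_nonneg (gw_pos z).le]
  calc |F z| * gw z ≤ (C * (1 + ‖z‖) ^ k) * gw z := by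
        gcongr
        · exact (gw_pos z).le
        · exact h1 z
    _ = C * ((1 + ‖z‖) ^ k * Real.exp (-(1/2) * ‖z‖ ^ 2)) := by
        unfold gw; rw [mul_assoc]; congr 3; ring

omit [FiniteDimensional ℝ E] [MeasurableSpace E] [BorelSpace E] in
lemma hasFDerivAt_gw (z : E) : HasFDerivAt (gw : E → ℝ) (-(gw z) • innerSL ℝ z) z := by
  have h1 : HasFDerivAt (fun y : E => ‖y‖ ^ 2) (2 • innerSL ℝ z) z := (hasStrictFDerivAt_norm_sq z).hasFDerivAt
  have h2 : HasFDerivAt (fun y : E => -(‖y‖ ^ 2 / 2)) (-((2:ℝ)⁻¹ • (2 • innerSL ℝ z))) z := by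
    have := (h1.const_smul (2:ℝ)⁻¹).neg
    refine this.congr_of_eventuallyEq (Eventually.of_forall fun y => ?_)
    simp; ring
  have h3 := h2.exp
  refine h3.congr_fderiv ?_
  ext v
  simp [gw]


/-- Gaussian integration by parts. -/
lemma ibp {F p : E → ℝ} (v : E) (hF : Differentiable ℝ F) (hp : Differentiable ℝ p)
    (gF : PG F) (gF' : PG (fun z => fderiv ℝ F z v)) (gp : PG p)
    (gp' : PG (fun z => fderiv ℝ p z v))
    (mF' : AEStronglyMeasurable (fun z => fderiv ℝ F z v) volume)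
    (mp' : AEStronglyMeasurable (fun z => fderiv ℝ p z v) volume) :
    ∫ z, F z * (fderiv ℝ p z v - ⟪z, v⟫ * p z) * gw z = - ∫ z, fderiv ℝ F z v * p z * gw z := by
  have hgw : Differentiable ℝ (gw : E → ℝ) := fun z => (hasFDerivAt_gw z).differentiableAt
  have hmF : AEStronglyMeasurable F volume := hF.continuous.aestronglyMeasurable
  have hmp : AEStronglyMeasurable p volume := hp.continuous.aestronglyMeasurable
  have hmi : AEStronglyMeasurable (fun z : E => ⟪z, v⟫) volume := by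
    apply Continuous.aestronglyMeasurable; fun_prop
  have key : ∀ z, fderiv ℝ (fun y => p y * gw y) z v = (fderiv ℝ p z v - ⟪z, v⟫ * p z) * gw z := by
    intro z
    have := ((hp z).hasFDerivAt.mul (hasFDerivAt_gw z)).fderiv
    rw [show (fun y => p y * gw y) = p * gw from rfl, this]
    simp
    ring
  have h := integral_mul_fderiv_eq_neg_fderiv_mul_of_integrable (μ := (volume : Measure E))
    (f := F) (g := fun y => p y * gw y) (v := v) ?_ ?_ ?_ (fun x _ => hF x) (fun x _ => (hp x).mul (hgw x))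
  · simp only [key] at h
    calc ∫ z, F z * (fderiv ℝ p z v - ⟪z, v⟫ * p z) * gw z
        = ∫ z, F z * ((fderiv ℝ p z v - ⟪z, v⟫ * p z) * gw z) := by
          congr 1; ext z; ring
      _ = _ := h
      _ = _ := by congr 2; ext z; ring
  · have := (gF'.mul gp).integrable (mF'.mul hmp)
    refine this.congr (Eventually.of_forall fun z => ?_)
    simp only; ring
  · simp only [key]
    have := (gF.mul (gp'.sub ((PG.inner v).mul gp))).integrable
      (hmF.mul (mp'.sub (hmi.mul hmp)))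
    refine this.congr (Eventually.of_forall fun z => ?_)
    simp only; ring
  · have := (gF.mul gp).integrable (hmF.mul hmp)
    refine this.congr (Eventually.of_forall fun z => ?_)
    simp only; ring

end Gauss

end Crest.Agent.R238.AEst
end

-- ▼ part R238/AEstB
section

set_option autoImplicit false
set_option linter.unusedSectionVars false
open MeasureTheory Filter Topology Set
open scoped RealInnerProductSpace

namespace Crest.Agent.R238.AEst

section Rep

variable {E : Type*} [NormedAddCommGroup E] [InnerProductSpace ℝ E] [FiniteDimensional ℝ E]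
  [MeasurableSpace E] [BorelSpace E]

lemma PG.comp_affine {G : E → ℝ} (hG : PG G) (x : E) (c s : ℝ) :
    PG (fun z => G (c • x + s • z)) := by
  obtain ⟨C, k, hC, h⟩ := hG
  refine ⟨C * (1 + |c| * ‖x‖ + |s|) ^ k, k, by positivity, fun z => (h _).trans ?_⟩
  rw [mul_assoc, ← mul_pow]
  have h1 : ‖c • x + s • z‖ ≤ |c| * ‖x‖ + |s| * ‖z‖ := by
    refine (norm_add_le _ _).trans ?_
    rw [norm_smul, norm_smul, Real.norm_eq_abs, Real.norm_eq_abs]
  have h2 := mul_nonneg (abs_nonneg c) (norm_nonneg x)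
  have h3 := mul_nonneg h2 (norm_nonneg z)
  have h4 : 1 + ‖c • x + s • z‖ ≤ (1 + |c| * ‖x‖ + |s|) * (1 + ‖z‖) := by
    nlinarith [norm_nonneg z, abs_nonneg s]
  gcongr

lemma fderiv_comp_affine {F : E → ℝ} (hF : Differentiable ℝ F) (x : E) (c s : ℝ) (z v : E) :
    fderiv ℝ (fun z => F (c • x + s • z)) z v = s * fderiv ℝ F (c • x + s • z) v := by
  have h1 : HasFDerivAt (fun z : E => c • x + s • z) (s • ContinuousLinearMap.id ℝ E) z := by
    have := ((hasFDerivAt_id (𝕜 := ℝ) z).const_smul s).const_add (c • x)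
    simpa using this
  have h2 := (hF (c • x + s • z)).hasFDerivAt.comp z h1
  have h3 : fderiv ℝ (fun z => F (c • x + s • z)) z
      = (fderiv ℝ F (c • x + s • z)).comp (s • ContinuousLinearMap.id ℝ E) := h2.fderiv
  rw [h3]
  simp

/-- integration by parts along an affine map -/
lemma ibpY {F p : E → ℝ} (x v : E) (c s : ℝ) (hF : Differentiable ℝ F) (hp : Differentiable ℝ p)
    (gF : PG F) (gF' : PG (fun z => fderiv ℝ F z v)) (gp : PG p)
    (gp' : PG (fun z => fderiv ℝ p z v))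
    (cF' : Continuous (fun z => fderiv ℝ F z v))
    (cp' : Continuous (fun z => fderiv ℝ p z v)) :
    ∫ z, F (c • x + s • z) * (⟪z, v⟫ * p z - fderiv ℝ p z v) * gw z
      = s * ∫ z, fderiv ℝ F (c • x + s • z) v * p z * gw z := by
  have hA : Continuous (fun z : E => c • x + s • z) := by fun_prop
  have hFY : Differentiable ℝ (fun z => F (c • x + s • z)) := by
    exact hF.comp (by fun_prop)
  have e1 : (fun z => fderiv ℝ (fun z => F (c • x + s • z)) z v)
      = fun z => s * fderiv ℝ F (c • x + s • z) v := by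
    ext z; exact fderiv_comp_affine hF x c s z v
  have h := ibp (F := fun z => F (c • x + s • z)) (p := p) v hFY hp (gF.comp_affine x c s)
    (by rw [e1]; exact (PG.const s).mul (gF'.comp_affine x c s)) gp gp'
    (by rw [e1]; exact (continuous_const.mul (cF'.comp hA)).aestronglyMeasurable)
    cp'.aestronglyMeasurable
  have h2 : ∫ z, F (c • x + s • z) * (⟪z, v⟫ * p z - fderiv ℝ p z v) * gw z
      = - ∫ z, F (c • x + s • z) * (fderiv ℝ p z v - ⟪z, v⟫ * p z) * gw z := by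
    rw [← integral_neg]; congr 1; ext z; ring
  rw [h2, h, neg_neg, ← integral_const_mul]
  congr 1; ext z
  rw [fderiv_comp_affine hF x c s z v]; ring

/-- the Hermite polynomial of degree two -/
noncomputable def qq (v w z : E) : ℝ := ⟪z, v⟫ * ⟪z, w⟫ - ⟪v, w⟫

lemma hasFDerivAt_qq (v w z : E) :
    HasFDerivAt (qq v w) (⟪z, v⟫ • innerSL ℝ w + ⟪z, w⟫ • innerSL ℝ v) z := by
  have h1 : HasFDerivAt (fun z : E => ⟪z, v⟫) (innerSL ℝ v) z := by
    have := (innerSL ℝ v).hasFDerivAt (x := z)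
    refine this.congr_of_eventuallyEq (Eventually.of_forall fun y => ?_)
    simp [real_inner_comm]
  have h2 : HasFDerivAt (fun z : E => ⟪z, w⟫) (innerSL ℝ w) z := by
    have := (innerSL ℝ w).hasFDerivAt (x := z)
    refine this.congr_of_eventuallyEq (Eventually.of_forall fun y => ?_)
    simp [real_inner_comm]
  exact (h1.mul h2).sub_const _

lemma fderiv_qq (v w z h : E) : fderiv ℝ (qq v w) z h = ⟪z, v⟫ * ⟪h, w⟫ + ⟪z, w⟫ * ⟪h, v⟫ := by
  rw [(hasFDerivAt_qq v w z).fderiv]; simp [real_inner_comm]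

lemma qq_symm (v w z : E) : qq v w z = qq w v z := by
  unfold qq; rw [real_inner_comm w v]; ring

lemma continuous_qq (v w : E) : Continuous (qq v w) := by unfold qq; fun_prop

lemma abs_qq_le (v w z : E) : |qq v w z| ≤ ‖v‖ * ‖w‖ * (1 + ‖z‖) ^ 2 := by
  unfold qq
  have h1 := abs_real_inner_le_norm z v
  have h2 := abs_real_inner_le_norm z w
  have h3 := abs_real_inner_le_norm v w
  have h4 : |⟪z, v⟫ * ⟪z, w⟫| ≤ (‖z‖ * ‖v‖) * (‖z‖ * ‖w‖) := by
    rw [abs_mul]; gcongr
  have h5 : 0 ≤ ‖v‖ * ‖w‖ := by positivity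
  calc |⟪z, v⟫ * ⟪z, w⟫ - ⟪v, w⟫| ≤ |⟪z, v⟫ * ⟪z, w⟫| + |⟪v, w⟫| := abs_sub _ _
    _ ≤ (‖z‖ * ‖v‖) * (‖z‖ * ‖w‖) + ‖v‖ * ‖w‖ := add_le_add h4 h3
    _ ≤ ‖v‖ * ‖w‖ * (1 + ‖z‖) ^ 2 := by nlinarith [mul_nonneg h5 (norm_nonneg z)]

lemma PG.qq (v w : E) : PG (qq v w) :=
  ⟨‖v‖ * ‖w‖, 2, by positivity, fun z => abs_qq_le v w z⟩

/-- admissible functions: `C²` with bounded second derivative -/
structure Adm (g : E → ℝ) : Prop where
  c2 : ContDiff ℝ 2 g
  bd : ∃ B, ∀ x, ‖fderiv ℝ (fderiv ℝ g) x‖ ≤ B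

variable {g : E → ℝ}

lemma Adm.diff (hg : Adm g) : Differentiable ℝ g := hg.c2.differentiable (by norm_num)

lemma Adm.c1' (hg : Adm g) : ContDiff ℝ 1 (fderiv ℝ g) := by
  exact hg.c2.fderiv_right (by norm_num)

lemma Adm.diff' (hg : Adm g) : Differentiable ℝ (fderiv ℝ g) := hg.c1'.differentiable (by norm_num)

lemma Adm.cont' (hg : Adm g) : Continuous (fderiv ℝ g) := hg.c1'.continuous

lemma Adm.cont'' (hg : Adm g) : Continuous (fderiv ℝ (fderiv ℝ g)) :=
  hg.c1'.continuous_fderiv (by norm_num)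

lemma Adm.lin (hg : Adm g) : ∃ K, 0 ≤ K ∧ ∀ x, ‖fderiv ℝ g x‖ ≤ K * (1 + ‖x‖) := by
  obtain ⟨B, hB⟩ := hg.bd
  have hB0 : 0 ≤ B := le_trans (norm_nonneg (fderiv ℝ (fderiv ℝ g) 0)) (hB 0)
  refine ⟨‖fderiv ℝ g 0‖ + B, by positivity, fun x => ?_⟩
  have h := Convex.norm_image_sub_le_of_norm_fderiv_le (𝕜 := ℝ) (f := fderiv ℝ g) (s := univ)
    (C := B) (x := 0) (y := x) (fun y _ => hg.diff' y) (fun y _ => hB y) convex_univ
    (mem_univ _) (mem_univ _)
  have h2 : ‖fderiv ℝ g x‖ ≤ ‖fderiv ℝ g 0‖ + B * ‖x‖ := by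
    calc ‖fderiv ℝ g x‖ = ‖fderiv ℝ g 0 + (fderiv ℝ g x - fderiv ℝ g 0)‖ := by congr 1; abel
      _ ≤ ‖fderiv ℝ g 0‖ + ‖fderiv ℝ g x - fderiv ℝ g 0‖ := norm_add_le _ _
      _ ≤ _ := by gcongr; simpa using h
  nlinarith [norm_nonneg x, norm_nonneg (fderiv ℝ g 0)]

lemma Adm.pg (hg : Adm g) : PG g := by
  obtain ⟨K, hK, h⟩ := hg.lin
  refine ⟨|g 0| + K, 2, by positivity, fun x => ?_⟩
  have h1 := Convex.norm_image_sub_le_of_norm_fderiv_le (𝕜 := ℝ) (f := g)
    (s := Metric.closedBall 0 ‖x‖)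
    (C := K * (1 + ‖x‖)) (x := 0) (y := x) (fun y _ => hg.diff y) (fun y hy => by
      refine (h y).trans ?_
      have : ‖y‖ ≤ ‖x‖ := by simpa using hy
      gcongr) (convex_closedBall _ _)
    (by simp) (by simp)
  have h2 : |g x| ≤ |g 0| + K * (1 + ‖x‖) * ‖x‖ := by
    calc |g x| = |g 0 + (g x - g 0)| := by congr 1; ring
      _ ≤ |g 0| + |g x - g 0| := abs_add_le _ _
      _ ≤ _ := by
        have : |g x - g 0| ≤ K * (1 + ‖x‖) * ‖x‖ := by simpa using h1
        gcongr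
  have h3 := norm_nonneg x
  have h4 := abs_nonneg (g 0)
  have h5 := mul_nonneg h4 h3
  have h6 := mul_nonneg hK h3
  nlinarith [mul_nonneg h5 h3]

lemma Adm.pgn1 (hg : Adm g) : PG (fun z => ‖fderiv ℝ g z‖) := by
  obtain ⟨K, hK, h⟩ := hg.lin
  exact ⟨K, 1, hK, fun z => by rw [abs_of_nonneg (norm_nonneg _), pow_one]; exact h z⟩

lemma Adm.pg1 (hg : Adm g) (v : E) : PG (fun z => fderiv ℝ g z v) := by
  refine (hg.pgn1.mul (PG.const ‖v‖)).mono fun z => ?_
  rw [abs_of_nonneg (by positivity : (0:ℝ) ≤ ‖fderiv ℝ g z‖ * ‖v‖)]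
  exact (fderiv ℝ g z).le_opNorm v

lemma Adm.pg2 (hg : Adm g) (v w : E) : PG (fun z => fderiv ℝ (fderiv ℝ g) z v w) := by
  obtain ⟨B, hB⟩ := hg.bd
  have hB0 : 0 ≤ B := le_trans (norm_nonneg (fderiv ℝ (fderiv ℝ g) 0)) (hB 0)
  refine ⟨B * ‖v‖ * ‖w‖, 0, by positivity, fun z => ?_⟩
  rw [pow_zero, mul_one]
  refine ((fderiv ℝ (fderiv ℝ g) z v).le_opNorm w).trans ?_
  gcongr
  refine ((fderiv ℝ (fderiv ℝ g) z).le_opNorm v).trans ?_
  gcongr
  exact hB z

lemma Adm.cont1 (hg : Adm g) (v : E) : Continuous (fun z => fderiv ℝ g z v) :=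
  hg.cont'.clm_apply continuous_const

lemma Adm.cont2 (hg : Adm g) (v w : E) : Continuous (fun z => fderiv ℝ (fderiv ℝ g) z v w) :=
  (hg.cont''.clm_apply continuous_const).clm_apply continuous_const

lemma Adm.diff1 (hg : Adm g) (v : E) : Differentiable ℝ (fun z => fderiv ℝ g z v) := fun z =>
  (hg.diff' z).clm_apply (differentiableAt_const _)

lemma Adm.fderiv1 (hg : Adm g) (v z h : E) :
    fderiv ℝ (fun z => fderiv ℝ g z v) z h = fderiv ℝ (fderiv ℝ g) z h v := by
  have h1 := (hg.diff' z).hasFDerivAt.clm_apply (hasFDerivAt_const v z)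
  rw [h1.fderiv]
  simp

lemma fderiv_const_one (z v : E) : fderiv ℝ (fun _ : E => (1:ℝ)) z v = 0 := by simp

/-- (b) with first derivatives -/
lemma Adm.b1 (hg : Adm g) (x v w : E) (c s : ℝ) :
    ∫ z, g (c • x + s • z) * qq v w z * gw z
      = s * ∫ z, fderiv ℝ g (c • x + s • z) v * ⟪z, w⟫ * gw z := by
  have hp : ∀ z : E, HasFDerivAt (fun z : E => ⟪z, w⟫) (innerSL ℝ w) z := fun z => by
    have := (innerSL ℝ w).hasFDerivAt (x := z)
    refine this.congr_of_eventuallyEq (Eventually.of_forall fun y => ?_)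
    simp [real_inner_comm]
  have e : (fun z : E => fderiv ℝ (fun z : E => ⟪z, w⟫) z v) = fun _ => ⟪v, w⟫ := by
    ext z; rw [(hp z).fderiv]; simp [real_inner_comm]
  have h := ibpY (F := g) (p := fun z => ⟪z, w⟫) x v c s hg.diff (fun z => (hp z).differentiableAt)
    hg.pg (hg.pg1 v) (PG.inner w) (by rw [e]; exact PG.const _) (hg.cont1 v)
    (by rw [e]; exact continuous_const)
  rw [← h]
  congr 1; ext z
  rw [congrFun e z]; unfold qq; ring

/-- (b) with second derivatives -/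
lemma Adm.b2 (hg : Adm g) (x v w : E) (c s : ℝ) :
    ∫ z, g (c • x + s • z) * qq v w z * gw z
      = s ^ 2 * ∫ z, fderiv ℝ (fderiv ℝ g) (c • x + s • z) w v * gw z := by
  rw [hg.b1]
  have e : (fun z : E => fderiv ℝ (fun _ : E => (1:ℝ)) z w) = fun _ => 0 := by
    ext z; simp
  have h := ibpY (F := fun y => fderiv ℝ g y v) (p := fun _ => 1) x w c s (hg.diff1 v)
    (differentiable_const _) (hg.pg1 v)
    (by simp only [hg.fderiv1]; exact hg.pg2 w v) (PG.const 1) (by rw [e]; exact PG.const _)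
    (by simp only [hg.fderiv1]; exact hg.cont2 w v) (by rw [e]; exact continuous_const)
  simp only [fderiv_const_one, hg.fderiv1, mul_one, sub_zero] at h
  rw [h]; ring

lemma integral_qq (v w : E) : ∫ z, qq v w z * gw z = 0 := by
  have hA : Adm (fun _ : E => (1:ℝ)) := ⟨contDiff_const, ⟨‖(0 : E →L[ℝ] E →L[ℝ] ℝ)‖, fun x => by
    have e : fderiv ℝ (fun _ : E => (1:ℝ)) = fun _ => 0 := by ext z v; simp
    rw [e]; simp⟩⟩
  have := hA.b1 0 v w 0 0
  simpa using this

/-- (a): the Laplacian -/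
lemma Adm.lap (hg : Adm g) {ι : Type*} [Fintype ι] (b : OrthonormalBasis ι ℝ E) (x v w : E)
    (c s : ℝ) :
    s ^ 2 * ∫ z, (∑ k, fderiv ℝ (fderiv ℝ g) (c • x + s • z) (b k) (b k)) * qq v w z * gw z
      = s * (∫ z, fderiv ℝ g (c • x + s • z) z * qq v w z * gw z)
        - 2 * ∫ z, g (c • x + s • z) * qq v w z * gw z := by
  have hA : Continuous (fun z : E => c • x + s • z) := by fun_prop
  have e : ∀ k, ∫ z, fderiv ℝ g (c • x + s • z) (b k) *
        (⟪z, b k⟫ * qq v w z - (⟪z, v⟫ * ⟪b k, w⟫ + ⟪z, w⟫ * ⟪b k, v⟫)) * gw z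
      = s * ∫ z, fderiv ℝ (fderiv ℝ g) (c • x + s • z) (b k) (b k) * qq v w z * gw z := by
    intro k
    have h := ibpY (F := fun y => fderiv ℝ g y (b k)) (p := qq v w) x (b k) c s (hg.diff1 _)
      (fun z => (hasFDerivAt_qq v w z).differentiableAt) (hg.pg1 _)
      (by simp only [hg.fderiv1]; exact hg.pg2 _ _) (PG.qq v w)
      (by
        simp only [fderiv_qq]
        exact ((PG.inner v).mul (PG.const _)).add ((PG.inner w).mul (PG.const _)))
      (by simp only [hg.fderiv1]; exact hg.cont2 _ _)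
      (by simp only [fderiv_qq]; fun_prop)
    simp only [hg.fderiv1, fderiv_qq] at h
    exact h
  have i1 : ∀ k, Integrable (fun z => fderiv ℝ (fderiv ℝ g) (c • x + s • z) (b k) (b k)
      * qq v w z * gw z) := fun k =>
    (((hg.pg2 _ _).comp_affine x c s).mul (PG.qq v w)).integrable
      (((hg.cont2 _ _).comp hA).mul (continuous_qq v w)).aestronglyMeasurable
  have i2 : ∀ k, Integrable (fun z => fderiv ℝ g (c • x + s • z) (b k) *
        (⟪z, b k⟫ * qq v w z - (⟪z, v⟫ * ⟪b k, w⟫ + ⟪z, w⟫ * ⟪b k, v⟫)) * gw z) := fun k =>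
    (((hg.pg1 _).comp_affine x c s).mul (((PG.inner _).mul (PG.qq v w)).sub
      (((PG.inner v).mul (PG.const _)).add ((PG.inner w).mul (PG.const _))))).integrable
      (((hg.cont1 _).comp hA).mul (by have := continuous_qq v w; fun_prop)).aestronglyMeasurable
  have i3 : ∀ a d : E, Integrable (fun z => fderiv ℝ g (c • x + s • z) a * ⟪z, d⟫ * gw z) :=
    fun a d => (((hg.pg1 _).comp_affine x c s).mul (PG.inner d)).integrable
      (((hg.cont1 _).comp hA).mul (by fun_prop)).aestronglyMeasurable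
  have i4 : Integrable (fun z => fderiv ℝ g (c • x + s • z) z * qq v w z * gw z) := by
    have p1 : PG (fun z => fderiv ℝ g (c • x + s • z) z) := by
      have p2 : PG (fun z : E => ‖z‖) := (PG.norm_pow 1).mono fun z => by
        rw [abs_of_nonneg (norm_nonneg _), abs_of_nonneg (by positivity)]; linarith
      refine ((hg.pgn1.comp_affine x c s).mul p2).mono fun z => ?_
      rw [abs_of_nonneg (by positivity : (0:ℝ) ≤ ‖fderiv ℝ g (c • x + s • z)‖ * ‖z‖)]
      exact (fderiv ℝ g _).le_opNorm z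
    exact (p1.mul (PG.qq v w)).integrable
      (((hg.cont'.comp hA).clm_apply continuous_id).mul (continuous_qq v w)).aestronglyMeasurable
  have s1 : ∫ z, (∑ k, fderiv ℝ (fderiv ℝ g) (c • x + s • z) (b k) (b k)) * qq v w z * gw z
      = ∑ k, ∫ z, fderiv ℝ (fderiv ℝ g) (c • x + s • z) (b k) (b k) * qq v w z * gw z := by
    rw [← integral_finsetSum _ fun k _ => i1 k]
    congr 1; ext z; rw [Finset.sum_mul, Finset.sum_mul]
  have s2 : s * ∫ z, (∑ k, fderiv ℝ (fderiv ℝ g) (c • x + s • z) (b k) (b k)) * qq v w z * gw z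
      = ∫ z, ∑ k, fderiv ℝ g (c • x + s • z) (b k) *
        (⟪z, b k⟫ * qq v w z - (⟪z, v⟫ * ⟪b k, w⟫ + ⟪z, w⟫ * ⟪b k, v⟫)) * gw z := by
    rw [s1, Finset.mul_sum, integral_finsetSum _ fun k _ => i2 k]
    exact Finset.sum_congr rfl fun k _ => (e k).symm
  have s3 : ∀ z, ∑ k, fderiv ℝ g (c • x + s • z) (b k) *
        (⟪z, b k⟫ * qq v w z - (⟪z, v⟫ * ⟪b k, w⟫ + ⟪z, w⟫ * ⟪b k, v⟫)) * gw z
      = fderiv ℝ g (c • x + s • z) z * qq v w z * gw z
        - fderiv ℝ g (c • x + s • z) w * ⟪z, v⟫ * gw z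
        - fderiv ℝ g (c • x + s • z) v * ⟪z, w⟫ * gw z := by
    intro z
    have key : ∀ u : E, ∑ k, ⟪b k, u⟫ * fderiv ℝ g (c • x + s • z) (b k)
        = fderiv ℝ g (c • x + s • z) u := by
      intro u
      conv_rhs => rw [← b.sum_repr' u]
      rw [map_sum]
      simp
    have k1 := key z
    have k2 := key v
    have k3 := key w
    rw [← k1, ← k2, ← k3]
    simp only [Finset.sum_mul]
    rw [← Finset.sum_sub_distrib, ← Finset.sum_sub_distrib]
    refine Finset.sum_congr rfl fun k _ => ?_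
    rw [real_inner_comm z (b k)]
    ring
  have s4 : s * ∫ z, (∑ k, fderiv ℝ (fderiv ℝ g) (c • x + s • z) (b k) (b k)) * qq v w z * gw z
      = (∫ z, fderiv ℝ g (c • x + s • z) z * qq v w z * gw z)
        - (∫ z, fderiv ℝ g (c • x + s • z) w * ⟪z, v⟫ * gw z)
        - ∫ z, fderiv ℝ g (c • x + s • z) v * ⟪z, w⟫ * gw z := by
    rw [s2]
    simp only [s3]
    have t1 := integral_sub (i4.sub (i3 w v)) (i3 v w)
    have t2 := integral_sub i4 (i3 w v)
    simp only [Pi.sub_apply] at t1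
    rw [t1, t2]
  have b1 := hg.b1 x v w c s
  have b1' := hg.b1 x w v c s
  have b1'' : ∫ z, g (c • x + s • z) * qq w v z * gw z
      = ∫ z, g (c • x + s • z) * qq v w z * gw z := by
    congr 1; ext z; rw [qq_symm w v]
  rw [b1''] at b1'
  rw [sq, mul_assoc, s4]
  linear_combination b1 + b1'

end Rep

end Crest.Agent.R238.AEst
end

-- ▼ part R238/AEstC
section

set_option autoImplicit false
set_option linter.unusedSectionVars false
open MeasureTheory Filter Topology Set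
open scoped RealInnerProductSpace

namespace Crest.Agent.R238.AEst

section Rep2

variable {E : Type*} [NormedAddCommGroup E] [InnerProductSpace ℝ E] [FiniteDimensional ℝ E]
  [MeasurableSpace E] [BorelSpace E] {g : E → ℝ}

lemma PG.nrm : PG (fun z : E => ‖z‖) := (PG.norm_pow 1).mono fun z => by
  rw [abs_of_nonneg (norm_nonneg _), abs_of_nonneg (by positivity)]; linarith

lemma PG.abs {F : E → ℝ} (h : PG F) : PG (fun z => |F z|) := h.mono fun z => by simp

lemma norm_Y_le (x z : E) (φ : ℝ) : ‖Real.cos φ • x + Real.sin φ • z‖ ≤ ‖x‖ + ‖z‖ := by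
  refine (norm_add_le _ _).trans ?_
  rw [norm_smul, norm_smul, Real.norm_eq_abs, Real.norm_eq_abs]
  have h1 := Real.abs_cos_le_one φ
  have h2 := Real.abs_sin_le_one φ
  nlinarith [norm_nonneg x, norm_nonneg z]

lemma Adm.int1 (hg : Adm g) (x v w : E) (φ : ℝ) (y : E → E) (hy : Continuous y)
    (hy2 : PG (fun z => ‖y z‖)) : Integrable (fun z =>
        fderiv ℝ g (Real.cos φ • x + Real.sin φ • z) (y z) * qq v w z * gw z) := by
  have hA : Continuous (fun z : E => Real.cos φ • x + Real.sin φ • z) := by fun_prop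
  have p1 : PG (fun z => fderiv ℝ g (Real.cos φ • x + Real.sin φ • z) (y z)) := by
    refine ((hg.pgn1.comp_affine x (Real.cos φ) (Real.sin φ)).mul hy2).mono fun z => ?_
    rw [abs_of_nonneg (by positivity :
      (0:ℝ) ≤ ‖fderiv ℝ g (Real.cos φ • x + Real.sin φ • z)‖ * ‖y z‖)]
    exact (fderiv ℝ g _).le_opNorm _
  exact (p1.mul (PG.qq v w)).integrable
    (((hg.cont'.comp hA).clm_apply hy).mul (continuous_qq v w)).aestronglyMeasurable

lemma hasDerivAt_II (hg : Adm g) (x v w : E) (φ : ℝ) :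
    HasDerivAt (fun φ => ∫ z, g (Real.cos φ • x + Real.sin φ • z) * qq v w z * gw z)
      (-Real.sin φ * (∫ z, fderiv ℝ g (Real.cos φ • x + Real.sin φ • z) x * qq v w z * gw z)
        + Real.cos φ * ∫ z, fderiv ℝ g (Real.cos φ • x + Real.sin φ • z) z * qq v w z * gw z) φ := by
  obtain ⟨K, hK, hlin⟩ := hg.lin
  have hA : ∀ φ : ℝ, Continuous (fun z : E => Real.cos φ • x + Real.sin φ • z) := fun φ => by
    fun_prop
  have hq := continuous_qq v w
  have hgw : Continuous (gw : E → ℝ) := continuous_gw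
  have hgc := hg.diff.continuous
  have hbd : Integrable (fun z : E => (K * (1 + (‖x‖ + ‖z‖)) * (‖x‖ + ‖z‖) * |qq v w z|) * gw z) := by
    refine PG.integrable ?_ ?_
    · exact ((((PG.const K).mul ((PG.const 1).add ((PG.const ‖x‖).add PG.nrm))).mul
        ((PG.const ‖x‖).add PG.nrm)).mul (PG.qq v w).abs)
    · apply Continuous.aestronglyMeasurable; fun_prop
  have h := hasDerivAt_integral_of_dominated_loc_of_deriv_le (μ := (volume : Measure E)) (𝕜 := ℝ)
    (F := fun (φ : ℝ) (z : E) => g (Real.cos φ • x + Real.sin φ • z) * qq v w z * gw z)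
    (F' := fun (φ : ℝ) (z : E) => fderiv ℝ g (Real.cos φ • x + Real.sin φ • z)
      ((-Real.sin φ) • x + Real.cos φ • z) * qq v w z * gw z)
    (x₀ := φ) (s := univ) (bound := fun z => (K * (1 + (‖x‖ + ‖z‖)) * (‖x‖ + ‖z‖) * |qq v w z|) * gw z)
    univ_mem
    (Eventually.of_forall fun φ => (((hgc.comp (hA φ)).mul hq).mul hgw).aestronglyMeasurable)
    (((hg.pg.comp_affine x (Real.cos φ) (Real.sin φ)).mul (PG.qq v w)).integrable
      ((hgc.comp (hA φ)).mul hq).aestronglyMeasurable)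
    ((((hg.cont'.comp (hA φ)).clm_apply (by fun_prop)).mul hq).mul hgw).aestronglyMeasurable
    (Eventually.of_forall fun z φ _ => ?_) hbd (Eventually.of_forall fun z φ _ => ?_)
  · have h2 := h.2
    refine h2.congr_deriv ?_
    have j1 := hg.int1 x v w φ (fun _ => x) continuous_const (PG.const _)
    have j2 := hg.int1 x v w φ (fun z => z) continuous_id PG.nrm
    rw [← integral_const_mul, ← integral_const_mul,
      ← integral_add (j1.const_mul _) (j2.const_mul _)]
    congr 1; ext z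
    simp only [map_add, map_smul, smul_eq_mul]
    ring
  · rw [norm_mul, norm_mul, Real.norm_eq_abs, Real.norm_eq_abs, Real.norm_of_nonneg (gw_pos z).le]
    refine mul_le_mul_of_nonneg_right (mul_le_mul_of_nonneg_right ?_ (abs_nonneg _)) (gw_pos z).le
    have h1 : ‖(-Real.sin φ) • x + Real.cos φ • z‖ ≤ ‖x‖ + ‖z‖ := by
      refine (norm_add_le _ _).trans ?_
      rw [norm_smul, norm_smul, Real.norm_eq_abs, Real.norm_eq_abs, abs_neg]
      have h1 := Real.abs_cos_le_one φ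
      have h2 := Real.abs_sin_le_one φ
      nlinarith [norm_nonneg x, norm_nonneg z]
    calc _ ≤ ‖fderiv ℝ g (Real.cos φ • x + Real.sin φ • z)‖
          * ‖(-Real.sin φ) • x + Real.cos φ • z‖ := (fderiv ℝ g _).le_opNorm _
      _ ≤ (K * (1 + (‖x‖ + ‖z‖))) * (‖x‖ + ‖z‖) := by
        have := hlin (Real.cos φ • x + Real.sin φ • z)
        have h3 := norm_Y_le x z φ
        gcongr
        exact this.trans (by gcongr)
  · have h1 : HasDerivAt (fun φ : ℝ => Real.cos φ • x + Real.sin φ • z)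
        ((-Real.sin φ) • x + Real.cos φ • z) φ :=
      ((Real.hasDerivAt_cos φ).smul_const x).add ((Real.hasDerivAt_sin φ).smul_const z)
    exact (((hg.diff _).hasFDerivAt.comp_hasDerivAt φ h1).mul_const _).mul_const _

/-- the right hand side -/
noncomputable def opf {ι : Type*} [Fintype ι] (b : OrthonormalBasis ι ℝ E) (m : ℕ) (g : E → ℝ)
    (y : E) : ℝ :=
  (∑ k, fderiv ℝ (fderiv ℝ g) y (b k) (b k)) - fderiv ℝ g y y + (1 - (m : ℝ)) * g y

/-- `Φ` -/
noncomputable def Phi (f : E → ℝ) (v w x : E) (φ : ℝ) : ℝ :=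
  ∫ z, f (Real.cos φ • x + Real.sin φ • z) * qq v w z * gw z

lemma PG.sum {ι : Type*} (s : Finset ι) {F : ι → E → ℝ} (h : ∀ i, PG (F i)) :
    PG (fun z => ∑ i ∈ s, F i z) := by
  classical
  induction s using Finset.induction_on with
  | empty => simpa using PG.const (E := E) 0
  | insert a s ha ih =>
    simp only [Finset.sum_insert ha]
    exact (h a).add ih

lemma Phi_opf (hg : Adm g) {ι : Type*} [Fintype ι] (b : OrthonormalBasis ι ℝ E) (m : ℕ)
    (x v w : E) (φ : ℝ) :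
    Real.sin φ ^ 2 * Phi (opf b m g) v w x φ
      = Real.sin φ * (∫ z, fderiv ℝ g (Real.cos φ • x + Real.sin φ • z) z * qq v w z * gw z)
        - 2 * Phi g v w x φ
        - Real.sin φ ^ 2 * Real.cos φ *
          (∫ z, fderiv ℝ g (Real.cos φ • x + Real.sin φ • z) x * qq v w z * gw z)
        - Real.sin φ ^ 3 *
          (∫ z, fderiv ℝ g (Real.cos φ • x + Real.sin φ • z) z * qq v w z * gw z)
        + (1 - (m : ℝ)) * Real.sin φ ^ 2 * Phi g v w x φ := by
  have hA : Continuous (fun z : E => Real.cos φ • x + Real.sin φ • z) := by fun_prop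
  have hq := continuous_qq v w
  have hgw : Continuous (gw : E → ℝ) := continuous_gw
  have hgc := hg.diff.continuous
  have j1 := hg.int1 x v w φ (fun _ => x) continuous_const (PG.const _)
  have j2 := hg.int1 x v w φ (fun z => z) continuous_id PG.nrm
  have j3 : Integrable (fun z => (∑ k, fderiv ℝ (fderiv ℝ g)
      (Real.cos φ • x + Real.sin φ • z) (b k) (b k)) * qq v w z * gw z) :=
    (((PG.sum _ fun k => hg.pg2 (b k) (b k)).comp_affine x (Real.cos φ) (Real.sin φ)).mul (PG.qq v w)).integrable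
      (((continuous_finsetSum _ fun k _ => (hg.cont2 _ _).comp hA)).mul hq).aestronglyMeasurable
  have j4 : Integrable (fun z => g (Real.cos φ • x + Real.sin φ • z) * qq v w z * gw z) :=
    ((hg.pg.comp_affine x (Real.cos φ) (Real.sin φ)).mul (PG.qq v w)).integrable
      ((hgc.comp hA).mul hq).aestronglyMeasurable
  have hl := hg.lap b x v w (Real.cos φ) (Real.sin φ)
  have e : Phi (opf b m g) v w x φ = (∫ z, (∑ k, fderiv ℝ (fderiv ℝ g)
      (Real.cos φ • x + Real.sin φ • z) (b k) (b k)) * qq v w z * gw z)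
      - Real.cos φ * (∫ z, fderiv ℝ g (Real.cos φ • x + Real.sin φ • z) x * qq v w z * gw z)
      - Real.sin φ * (∫ z, fderiv ℝ g (Real.cos φ • x + Real.sin φ • z) z * qq v w z * gw z)
      + (1 - (m : ℝ)) * Phi g v w x φ := by
    unfold Phi
    rw [← integral_const_mul, ← integral_const_mul, ← integral_const_mul]
    have t1 := integral_sub j3 (j1.const_mul (Real.cos φ))
    have t2 := integral_sub (j3.sub (j1.const_mul (Real.cos φ))) (j2.const_mul (Real.sin φ))
    have t3 := integral_add ((j3.sub (j1.const_mul (Real.cos φ))).sub (j2.const_mul (Real.sin φ)))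
      (j4.const_mul (1 - (m : ℝ)))
    simp only [Pi.sub_apply] at t2 t3
    rw [← t1, ← t2, ← t3]
    congr 1; ext z
    unfold opf
    simp only [map_add, map_smul, smul_eq_mul]
    ring
  rw [e]
  unfold Phi at *
  linear_combination hl

lemma hasDerivAt_M (hg : Adm g) {ι : Type*} [Fintype ι] (b : OrthonormalBasis ι ℝ E) (m : ℕ)
    (x v w : E) {φ : ℝ} (hφ : φ ∈ Ioo 0 (Real.pi / 2)) :
    HasDerivAt (fun φ => Real.cos φ ^ (m + 1) / Real.sin φ ^ 2 * Phi g v w x φ)
      (Real.cos φ ^ m / Real.sin φ * Phi (opf b m g) v w x φ) φ := by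
  have hs : 0 < Real.sin φ := Real.sin_pos_of_pos_of_lt_pi hφ.1 (by linarith [hφ.2, Real.pi_pos])
  have h1 := hasDerivAt_II hg x v w φ
  have h2 : HasDerivAt (fun φ => Real.cos φ ^ (m + 1)) ((m + 1 : ℕ) * Real.cos φ ^ m * (-Real.sin φ)) φ :=
    (Real.hasDerivAt_cos φ).pow (m + 1)
  have h3 : HasDerivAt (fun φ => Real.sin φ ^ 2) ((2 : ℕ) * Real.sin φ ^ 1 * (Real.cos φ)) φ :=
    (Real.hasDerivAt_sin φ).pow 2
  have h4 := (h2.div h3 (by positivity)).mul h1
  refine h4.congr_deriv ?_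
  have key := Phi_opf hg b m x v w φ
  have e : Phi (opf b m g) v w x φ = (Real.sin φ * (∫ z, fderiv ℝ g (Real.cos φ • x + Real.sin φ • z) z * qq v w z * gw z)
        - 2 * Phi g v w x φ
        - Real.sin φ ^ 2 * Real.cos φ *
          (∫ z, fderiv ℝ g (Real.cos φ • x + Real.sin φ • z) x * qq v w z * gw z)
        - Real.sin φ ^ 3 *
          (∫ z, fderiv ℝ g (Real.cos φ • x + Real.sin φ • z) z * qq v w z * gw z)
        + (1 - (m : ℝ)) * Real.sin φ ^ 2 * Phi g v w x φ) / Real.sin φ ^ 2 := by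
    rw [← key]; field_simp
  rw [e]
  change _ * Phi g v w x φ + _ = _
  simp only [Pi.div_apply]
  generalize (∫ z, fderiv ℝ g (Real.cos φ • x + Real.sin φ • z) z * qq v w z * gw z) = Jz
  generalize (∫ z, fderiv ℝ g (Real.cos φ • x + Real.sin φ • z) x * qq v w z * gw z) = Jx
  generalize Phi g v w x φ = I0
  have hc : Real.cos φ ^ 2 = 1 - Real.sin φ ^ 2 := by
    have := Real.sin_sq_add_cos_sq φ; linarith
  generalize Real.cos φ = c at *
  generalize Real.sin φ = s at *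
  have hs0 : s ≠ 0 := hs.ne'
  clear h1 h2 h3 h4 key e
  push_cast
  rw [pow_succ c m]
  generalize c ^ m = P
  field_simp
  linear_combination (P * s * Jz - 2 * P * I0) * hc

end Rep2

end Crest.Agent.R238.AEst
end

-- ▼ part R238/AEstD
section

set_option autoImplicit false
set_option linter.unusedSectionVars false
open MeasureTheory Filter Topology Set
open scoped RealInnerProductSpace

namespace Crest.Agent.R238.AEst

section Rep3

variable {E : Type*} [NormedAddCommGroup E] [InnerProductSpace ℝ E] [FiniteDimensional ℝ E]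
  [MeasurableSpace E] [BorelSpace E] {g : E → ℝ}

lemma tendsto_M_zero (hg : Adm g) (m : ℕ) (x v w : E) :
    Tendsto (fun φ => Real.cos φ ^ (m + 1) / Real.sin φ ^ 2 * Phi g v w x φ) (𝓝[>] 0)
      (𝓝 ((∫ z : E, gw z) * fderiv ℝ (fderiv ℝ g) x w v)) := by
  obtain ⟨B, hB⟩ := hg.bd
  have hA : ∀ φ : ℝ, Continuous (fun z : E => Real.cos φ • x + Real.sin φ • z) := fun φ => by
    fun_prop
  have hgw : Continuous (gw : E → ℝ) := continuous_gw
  have hc : Continuous (fun φ : ℝ => ∫ z, fderiv ℝ (fderiv ℝ g)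
      (Real.cos φ • x + Real.sin φ • z) w v * gw z) := by
    refine continuous_of_dominated (bound := fun z : E => (B * ‖w‖ * ‖v‖) * gw z)
      (fun φ => (((hg.cont2 w v).comp (hA φ)).mul hgw).aestronglyMeasurable)
      (fun φ => Eventually.of_forall fun z => ?_) ?_ (Eventually.of_forall fun z => ?_)
    · rw [norm_mul, Real.norm_of_nonneg (gw_pos z).le]
      refine mul_le_mul_of_nonneg_right ?_ (gw_pos z).le
      refine ((fderiv ℝ (fderiv ℝ g) _ w).le_opNorm v).trans ?_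
      refine mul_le_mul_of_nonneg_right ?_ (norm_nonneg _)
      refine ((fderiv ℝ (fderiv ℝ g) _).le_opNorm w).trans ?_
      exact mul_le_mul_of_nonneg_right (hB _) (norm_nonneg _)
    · exact (PG.const _).integrable aestronglyMeasurable_const
    · exact ((hg.cont2 w v).comp (by fun_prop)).mul continuous_const
  have h0 : Tendsto (fun φ : ℝ => Real.cos φ ^ (m + 1) * ∫ z, fderiv ℝ (fderiv ℝ g)
      (Real.cos φ • x + Real.sin φ • z) w v * gw z) (𝓝[>] 0)
      (𝓝 ((∫ z : E, gw z) * fderiv ℝ (fderiv ℝ g) x w v)) := by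
    have h1 : Continuous (fun φ : ℝ => Real.cos φ ^ (m + 1) * ∫ z, fderiv ℝ (fderiv ℝ g)
      (Real.cos φ • x + Real.sin φ • z) w v * gw z) := (Real.continuous_cos.pow _).mul hc
    have h2 := h1.tendsto 0
    simp only [Real.cos_zero, Real.sin_zero, one_pow, one_mul, one_smul, zero_smul, add_zero] at h2
    rw [integral_const_mul, mul_comm] at h2
    exact h2.mono_left nhdsWithin_le_nhds
  refine h0.congr' ?_
  have : Ioo (0:ℝ) (Real.pi / 2) ∈ 𝓝[>] (0:ℝ) := Ioo_mem_nhdsGT (by positivity)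
  filter_upwards [this] with φ hφ
  have hs : 0 < Real.sin φ := Real.sin_pos_of_pos_of_lt_pi hφ.1 (by linarith [hφ.2, Real.pi_pos])
  have := hg.b2 x v w (Real.cos φ) (Real.sin φ)
  unfold Phi
  rw [this]
  field_simp

lemma tendsto_M_pi (hg : Adm g) (m : ℕ) (x v w : E) :
    Tendsto (fun φ => Real.cos φ ^ (m + 1) / Real.sin φ ^ 2 * Phi g v w x φ) (𝓝[<] (Real.pi / 2))
      (𝓝 0) := by
  have h1 : ContinuousAt (fun φ => Real.cos φ ^ (m + 1) / Real.sin φ ^ 2 * Phi g v w x φ)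
      (Real.pi / 2) := by
    refine ContinuousAt.mul (ContinuousAt.div (Real.continuous_cos.pow _).continuousAt
      (Real.continuous_sin.pow _).continuousAt (by simp)) ?_
    exact (hasDerivAt_II hg x v w (Real.pi / 2)).continuousAt
  have h2 := h1.tendsto
  simp only [Real.cos_pi_div_two, ne_eq, Nat.add_eq_zero_iff, one_ne_zero, and_false,
    not_false_eq_true, zero_pow, zero_div, zero_mul] at h2
  exact h2.mono_left nhdsWithin_le_nhds

/-- constant -/
noncomputable def K3 (E : Type*) [NormedAddCommGroup E] [InnerProductSpace ℝ E]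
    [FiniteDimensional ℝ E] [MeasurableSpace E] [BorelSpace E] : ℝ :=
  ∫ z : E, (1 + ‖z‖) ^ 3 * gw z

lemma K3_nonneg : 0 ≤ K3 E := integral_nonneg fun z => by
  have := gw_pos z; positivity

lemma rpow_le_one_add {a t : ℝ} (ha : 0 ≤ a) (ha1 : a ≤ 1) (ht : 0 ≤ t) : t ^ a ≤ 1 + t := by
  calc t ^ a ≤ (1 + t) ^ a := Real.rpow_le_rpow ht (by linarith) ha
    _ ≤ (1 + t) ^ (1:ℝ) := Real.rpow_le_rpow_of_exponent_le (by linarith) ha1
    _ = 1 + t := Real.rpow_one _

/-- Hölder class in the abstract space -/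
def HH (a N : ℝ) (f : E → ℝ) : Prop := (∀ x, |f x| ≤ N) ∧ ∀ x y, |f x - f y| ≤ N * ‖x - y‖ ^ a

lemma HH.nonneg {a N : ℝ} {f : E → ℝ} (h : HH a N f) : 0 ≤ N := (abs_nonneg _).trans (h.1 0)

lemma HH.continuous {a N : ℝ} (ha : 0 < a) {f : E → ℝ} (h : HH a N f) : Continuous f := by
  rw [continuous_iff_continuousAt]
  intro x
  have h1 : Tendsto (fun y : E => N * ‖y - x‖ ^ a) (𝓝 x) (𝓝 0) := by
    have h2 : Continuous fun y : E => N * ‖y - x‖ ^ a :=
      continuous_const.mul ((continuous_norm.comp (continuous_id.sub continuous_const)).rpow_const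
        fun _ => Or.inr ha.le)
    have h3 := h2.tendsto x
    simpa [Real.zero_rpow ha.ne'] using h3
  rw [ContinuousAt, tendsto_iff_norm_sub_tendsto_zero]
  exact squeeze_zero (fun _ => norm_nonneg _) (fun y => h.2 y x) h1

lemma HH.integrable {a N : ℝ} (ha : 0 < a) {f : E → ℝ} (h : HH a N f) (x v w : E) (φ : ℝ) :
    Integrable (fun z => f (Real.cos φ • x + Real.sin φ • z) * qq v w z * gw z) := by
  have p1 : PG (fun z => f (Real.cos φ • x + Real.sin φ • z)) :=
    (PG.const N).mono fun z => (h.1 _).trans (le_abs_self _)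
  exact (p1.mul (PG.qq v w)).integrable (((h.continuous ha).comp (by fun_prop)).mul
    (continuous_qq v w)).aestronglyMeasurable

lemma Phi_continuous {a N : ℝ} (ha : 0 < a) {f : E → ℝ} (h : HH a N f) (x v w : E) :
    Continuous (Phi f v w x) := by
  have hq := continuous_qq v w
  have hgw : Continuous (gw : E → ℝ) := continuous_gw
  have hfc := h.continuous ha
  refine continuous_of_dominated (bound := fun z : E => (N * |qq v w z|) * gw z)
    (fun φ => (((hfc.comp (by fun_prop)).mul hq).mul hgw).aestronglyMeasurable)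
    (fun φ => Eventually.of_forall fun z => ?_) ?_ (Eventually.of_forall fun z => ?_)
  · rw [norm_mul, norm_mul, Real.norm_eq_abs, Real.norm_eq_abs, Real.norm_of_nonneg (gw_pos z).le]
    have := gw_pos z
    gcongr
    exact h.1 _
  · exact ((PG.const _).mul (PG.qq v w).abs).integrable
      (continuous_const.mul hq.abs).aestronglyMeasurable
  · exact ((hfc.comp (by fun_prop)).mul continuous_const).mul continuous_const

lemma Phi_bound {a N : ℝ} (ha : 0 < a) (ha1 : a ≤ 1) {f : E → ℝ} (h : HH a N f) (x v w : E)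
    {φ : ℝ} (hs : 0 ≤ Real.sin φ) :
    |Phi f v w x φ| ≤ N * Real.sin φ ^ a * (‖v‖ * ‖w‖) * K3 E := by
  have hN := h.nonneg
  have hq := continuous_qq v w
  have e : Phi f v w x φ = ∫ z, (f (Real.cos φ • x + Real.sin φ • z) - f (Real.cos φ • x))
      * qq v w z * gw z := by
    have i2 : Integrable (fun z => f (Real.cos φ • x) * (qq v w z * gw z)) :=
      ((PG.qq v w).integrable hq.aestronglyMeasurable).const_mul _
    have t := integral_sub (h.integrable ha x v w φ) i2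
    rw [integral_const_mul, integral_qq, mul_zero, sub_zero] at t
    unfold Phi
    rw [← t]
    congr 1; ext z; ring
  rw [e, ← Real.norm_eq_abs]
  have hb : Integrable (fun z : E => (N * Real.sin φ ^ a * (‖v‖ * ‖w‖)) *
      ((1 + ‖z‖) ^ 3 * gw z)) :=
    ((PG.norm_pow 3).integrable (by apply Continuous.aestronglyMeasurable; fun_prop)).const_mul _
  refine (norm_integral_le_of_norm_le hb (Eventually.of_forall fun z => ?_)).trans ?_
  · rw [norm_mul, norm_mul, Real.norm_eq_abs, Real.norm_eq_abs, Real.norm_of_nonneg (gw_pos z).le]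
    have hw := (gw_pos z).le
    have h1 := h.2 (Real.cos φ • x + Real.sin φ • z) (Real.cos φ • x)
    rw [add_sub_cancel_left, norm_smul, Real.norm_of_nonneg hs,
      Real.mul_rpow hs (norm_nonneg z)] at h1
    have h2 := rpow_le_one_add ha.le ha1 (norm_nonneg z)
    have h3 := abs_qq_le v w z
    have h4 : 0 ≤ Real.sin φ ^ a := Real.rpow_nonneg hs a
    calc _ ≤ (N * (Real.sin φ ^ a * (1 + ‖z‖))) * (‖v‖ * ‖w‖ * (1 + ‖z‖) ^ 2) * gw z := by
          gcongr
          refine h1.trans ?_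
          gcongr
      _ = _ := by ring
  · rw [integral_const_mul]; rfl

/-- bound of the singular factor -/
noncomputable def Ka (a : ℝ) : ℝ := (2 / Real.pi) ^ (a - 1)

lemma sin_rpow_le {a φ : ℝ} (ha1 : a ≤ 1) (h0 : 0 < φ) (h1 : φ ≤ Real.pi / 2) :
    Real.sin φ ^ (a - 1) ≤ Ka a * φ ^ (a - 1) := by
  have hp := Real.pi_pos
  have h2 := Real.mul_le_sin h0.le h1
  have h3 : 0 < 2 / Real.pi * φ := by positivity
  unfold Ka
  rw [← Real.mul_rpow (by positivity) h0.le]
  exact Real.rpow_le_rpow_of_nonpos h3 h2 (by linarith)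

lemma factor_le {a φ D Q : ℝ} (m : ℕ) (ha1 : a ≤ 1) (h0 : 0 < φ) (h1 : φ ≤ Real.pi / 2)
    (hD : 0 ≤ D) (hQ : |Q| ≤ D * Real.sin φ ^ a) :
    |Real.cos φ ^ m / Real.sin φ * Q| ≤ D * Ka a * φ ^ (a - 1) := by
  have hp := Real.pi_pos
  have hs : 0 < Real.sin φ := Real.sin_pos_of_pos_of_lt_pi h0 (by linarith)
  have hc : |Real.cos φ ^ m| ≤ 1 := by
    rw [abs_pow]; exact pow_le_one₀ (abs_nonneg _) (Real.abs_cos_le_one φ)
  rw [abs_mul, abs_div, abs_of_pos hs]
  have h2 := sin_rpow_le ha1 h0 h1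
  rw [Real.rpow_sub_one hs.ne'] at h2
  calc |Real.cos φ ^ m| / Real.sin φ * |Q| ≤ 1 / Real.sin φ * (D * Real.sin φ ^ a) := by gcongr
    _ = D * (Real.sin φ ^ a / Real.sin φ) := by ring
    _ ≤ D * (Ka a * φ ^ (a - 1)) := by gcongr
    _ = _ := by ring

lemma intervalIntegrable_Phi {a N : ℝ} (ha : 0 < a) (ha1 : a ≤ 1) {f : E → ℝ} (h : HH a N f)
    (m : ℕ) (x v w : E) : IntervalIntegrable
      (fun φ => Real.cos φ ^ m / Real.sin φ * Phi f v w x φ) volume 0 (Real.pi / 2) := by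
  have hp := Real.pi_pos
  have hK := K3_nonneg (E := E)
  have hN := h.nonneg
  have h1 : IntervalIntegrable (fun φ : ℝ => N * (‖v‖ * ‖w‖) * K3 E * Ka a * φ ^ (a - 1)) volume 0
      (Real.pi / 2) := (intervalIntegral.intervalIntegrable_rpow' (by linarith)).const_mul _
  refine h1.mono_fun' ?_ ?_
  · exact (((Real.measurable_cos.pow_const m).div Real.measurable_sin).mul
      (Phi_continuous ha h x v w).measurable).aestronglyMeasurable
  · refine (ae_restrict_iff' measurableSet_uIoc).2 (Eventually.of_forall fun φ hφ => ?_)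
    rw [uIoc_of_le (by positivity)] at hφ
    refine factor_le m ha1 hφ.1 hφ.2 (by positivity) ?_
    refine (Phi_bound ha ha1 h x v w (Real.sin_nonneg_of_nonneg_of_le_pi hφ.1.le
      (by linarith [hφ.2]))).trans (le_of_eq ?_)
    ring

/-- THE REPRESENTATION FORMULA -/
theorem rep {a N : ℝ} (ha : 0 < a) (ha1 : a ≤ 1) (hg : Adm g) {ι : Type*} [Fintype ι]
    (b : OrthonormalBasis ι ℝ E) (m : ℕ) (h : HH a N (opf b m g)) (x v w : E) :
    (∫ z : E, gw z) * fderiv ℝ (fderiv ℝ g) x w v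
      = - ∫ φ in (0:ℝ)..(Real.pi / 2), Real.cos φ ^ m / Real.sin φ * Phi (opf b m g) v w x φ := by
  have hp := Real.pi_pos
  have := intervalIntegral.integral_eq_sub_of_hasDerivAt_of_tendsto (by positivity : (0:ℝ) < Real.pi / 2)
    (fun φ hφ => hasDerivAt_M hg b m x v w hφ) (intervalIntegrable_Phi ha ha1 h m x v w)
    (tendsto_M_zero hg m x v w) (tendsto_M_pi hg m x v w)
  rw [this]; ring

lemma gw_int_pos : 0 < ∫ z : E, gw z := by
  have hi : Integrable (gw : E → ℝ) := by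
    have := (PG.const (E := E) 1).integrable aestronglyMeasurable_const
    simpa using this
  exact integral_pos_of_integrable_nonneg_nonzero (x := 0) continuous_gw hi
    (fun z => (gw_pos z).le) (gw_pos 0).ne'

/-- sup bound -/
theorem sup_bound {a : ℝ} (ha : 0 < a) (ha1 : a ≤ 1) : ∃ C : ℝ, 0 ≤ C ∧ ∀ (g : E → ℝ) (N : ℝ),
    Adm g → ∀ (ι : Type) (_ : Fintype ι)
    (b : OrthonormalBasis ι ℝ E) (m : ℕ), HH a N (opf b m g) → ∀ (x v w : E),
    |fderiv ℝ (fderiv ℝ g) x w v| ≤ C * N * (‖v‖ * ‖w‖) := by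
  have hp := Real.pi_pos
  have hK := K3_nonneg (E := E)
  have hG := gw_int_pos (E := E)
  have hKa : 0 ≤ Ka a := Real.rpow_nonneg (by positivity) _
  set J : ℝ := ∫ φ in (0:ℝ)..(Real.pi / 2), φ ^ (a - 1) with hJ
  have hJ0 : 0 ≤ J := intervalIntegral.integral_nonneg (by positivity) fun φ hφ =>
    Real.rpow_nonneg hφ.1 _
  refine ⟨K3 E * Ka a * J / (∫ z : E, gw z), by positivity, ?_⟩
  intro g N hg ι _ b m h x v w
  have hN := h.nonneg
  have h1 := rep ha ha1 hg b m h x v w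
  have h2 : |∫ φ in (0:ℝ)..(Real.pi / 2), Real.cos φ ^ m / Real.sin φ * Phi (opf b m g) v w x φ|
      ≤ ∫ φ in (0:ℝ)..(Real.pi / 2), N * (‖v‖ * ‖w‖) * K3 E * Ka a * φ ^ (a - 1) := by
    rw [← Real.norm_eq_abs]
    refine intervalIntegral.norm_integral_le_of_norm_le (by positivity)
      (Eventually.of_forall fun φ hφ => ?_)
      ((intervalIntegral.intervalIntegrable_rpow' (by linarith)).const_mul _)
    refine factor_le m ha1 hφ.1 hφ.2 (by positivity) ?_
    refine (Phi_bound ha ha1 h x v w (Real.sin_nonneg_of_nonneg_of_le_pi hφ.1.le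
      (by linarith [hφ.2]))).trans (le_of_eq ?_)
    ring
  rw [intervalIntegral.integral_const_mul, ← hJ] at h2
  have h3 : (∫ z : E, gw z) * |fderiv ℝ (fderiv ℝ g) x w v| ≤ N * (‖v‖ * ‖w‖) * K3 E * Ka a * J := by
    rw [← abs_of_pos hG, ← abs_mul, h1, abs_neg]
    exact h2
  rw [show K3 E * Ka a * J / (∫ z : E, gw z) * N * (‖v‖ * ‖w‖)
    = (N * (‖v‖ * ‖w‖) * K3 E * Ka a * J) / (∫ z : E, gw z) by ring, le_div_iff₀ hG]
  linarith

end Rep3

end Crest.Agent.R238.AEst
end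

-- ▼ part R238/AEstE
section

set_option autoImplicit false
set_option linter.unusedSectionVars false
open MeasureTheory Filter Topology Set
open scoped RealInnerProductSpace

namespace Crest.Agent.R238.AEst

section Hoelder

variable {E : Type*} [NormedAddCommGroup E] [InnerProductSpace ℝ E] [FiniteDimensional ℝ E]
  [MeasurableSpace E] [BorelSpace E] {g : E → ℝ}

/-- the kernel -/
noncomputable def UU (v w z : E) : ℝ := qq v w z * gw z

lemma hasFDerivAt_UU (v w z : E) : HasFDerivAt (UU v w)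
    (qq v w z • (-(gw z) • innerSL ℝ z) + gw z • (⟪z, v⟫ • innerSL ℝ w + ⟪z, w⟫ • innerSL ℝ v)) z :=
  (hasFDerivAt_qq v w z).mul (hasFDerivAt_gw z)

lemma fderiv_UU_norm_le (v w z : E) :
    ‖fderiv ℝ (UU v w) z‖ ≤ 3 * (‖v‖ * ‖w‖) * (1 + ‖z‖) ^ 3 * gw z := by
  have hw := (gw_pos z).le
  rw [(hasFDerivAt_UU v w z).fderiv]
  refine ContinuousLinearMap.opNorm_le_bound _ (by positivity) fun h => ?_
  simp only [_root_.add_apply, _root_.smul_apply, smul_eq_mul,
    innerSL_apply_apply, neg_mul]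
  have h1 := abs_qq_le v w z
  have h2 := abs_real_inner_le_norm z h
  have h3 := abs_real_inner_le_norm z v
  have h4 := abs_real_inner_le_norm z w
  have h5 := abs_real_inner_le_norm w h
  have h6 := abs_real_inner_le_norm v h
  have nz := norm_nonneg z
  have nv := norm_nonneg v
  have nw := norm_nonneg w
  have nh := norm_nonneg h
  rw [Real.norm_eq_abs]
  calc |qq v w z * -(gw z * ⟪z, h⟫) + gw z * (⟪z, v⟫ * ⟪w, h⟫ + ⟪z, w⟫ * ⟪v, h⟫)|
      ≤ |qq v w z| * (gw z * |⟪z, h⟫|) + gw z * (|⟪z, v⟫| * |⟪w, h⟫| + |⟪z, w⟫| * |⟪v, h⟫|) := by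
        refine (abs_add_le _ _).trans (add_le_add (le_of_eq ?_) ?_)
        · rw [abs_mul, abs_neg, abs_mul, abs_of_nonneg hw]
        · rw [abs_mul, abs_of_nonneg hw]
          refine mul_le_mul_of_nonneg_left ((abs_add_le _ _).trans (le_of_eq ?_)) hw
          rw [abs_mul, abs_mul]
    _ ≤ (‖v‖ * ‖w‖ * (1 + ‖z‖) ^ 2) * (gw z * (‖z‖ * ‖h‖))
          + gw z * ((‖z‖ * ‖v‖) * (‖w‖ * ‖h‖) + (‖z‖ * ‖w‖) * (‖v‖ * ‖h‖)) := by gcongr
    _ = (‖v‖ * ‖w‖) * ‖h‖ * gw z * ((1 + ‖z‖) ^ 2 * ‖z‖ + 2 * ‖z‖) := by ring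
    _ ≤ (‖v‖ * ‖w‖) * ‖h‖ * gw z * (3 * (1 + ‖z‖) ^ 3) := by
        gcongr
        nlinarith [mul_nonneg nz nz, mul_nonneg (mul_nonneg nz nz) nz]
    _ = _ := by ring

/-- the constant in the mean value bound -/
noncomputable def kk (z : E) : ℝ := (81 * Real.exp 2) * ((1 + ‖z‖) ^ 3 * Real.exp (-(1/4) * ‖z‖ ^ 2))

lemma UU_diff_le (v w z η : E) (hη : ‖η‖ ≤ 2) :
    |UU v w (z - η) - UU v w z| ≤ ‖v‖ * ‖w‖ * kk z * ‖η‖ := by
  have nz := norm_nonneg z
  have hd : ∀ y ∈ Metric.closedBall z ‖η‖, ‖fderiv ℝ (UU v w) y‖ ≤ ‖v‖ * ‖w‖ * kk z := by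
    intro y hy
    have hy1 : ‖y - z‖ ≤ 2 := by
      rw [Metric.mem_closedBall, dist_eq_norm] at hy
      exact hy.trans hη
    have ny := norm_nonneg y
    have hy2 : ‖y‖ ≤ ‖z‖ + 2 := by
      calc ‖y‖ = ‖z + (y - z)‖ := by congr 1; abel
        _ ≤ ‖z‖ + ‖y - z‖ := norm_add_le _ _
        _ ≤ _ := by linarith
    have hy3 : ‖z‖ ≤ ‖y‖ + 2 := by
      calc ‖z‖ = ‖y - (y - z)‖ := by congr 1; abel
        _ ≤ ‖y‖ + ‖y - z‖ := norm_sub_le _ _
        _ ≤ _ := by linarith
    have hg : gw y ≤ Real.exp 2 * Real.exp (-(1/4) * ‖z‖ ^ 2) := by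
      unfold gw
      rw [← Real.exp_add]
      apply Real.exp_le_exp.mpr
      nlinarith [sq_nonneg (‖y‖ - 2)]
    have h1 : (1 + ‖y‖) ^ 3 ≤ 27 * (1 + ‖z‖) ^ 3 := by
      calc (1 + ‖y‖) ^ 3 ≤ (3 * (1 + ‖z‖)) ^ 3 := by
            apply pow_le_pow_left₀ (by positivity); linarith
        _ = _ := by ring
    have hw := (gw_pos y).le
    refine (fderiv_UU_norm_le v w y).trans ?_
    calc 3 * (‖v‖ * ‖w‖) * (1 + ‖y‖) ^ 3 * gw y
        ≤ 3 * (‖v‖ * ‖w‖) * (27 * (1 + ‖z‖) ^ 3) * (Real.exp 2 * Real.exp (-(1/4) * ‖z‖ ^ 2)) := by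
          gcongr
      _ = _ := by unfold kk; ring
  have h := Convex.norm_image_sub_le_of_norm_fderiv_le (𝕜 := ℝ) (f := UU v w)
    (s := Metric.closedBall z ‖η‖) (C := ‖v‖ * ‖w‖ * kk z) (x := z) (y := z - η)
    (fun y _ => (hasFDerivAt_UU v w y).differentiableAt) hd (convex_closedBall _ _)
    (by simp) (by simp [dist_eq_norm])
  rw [Real.norm_eq_abs] at h
  simpa using h

/-- second constant -/
noncomputable def K4 (E : Type*) [NormedAddCommGroup E] [InnerProductSpace ℝ E]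
    [FiniteDimensional ℝ E] [MeasurableSpace E] [BorelSpace E] : ℝ :=
  ∫ z : E, (1 + ‖z‖) * kk z

lemma kk_nonneg (z : E) : 0 ≤ kk z := by unfold kk; positivity

lemma K4_nonneg : 0 ≤ K4 E := integral_nonneg fun z => by
  have := kk_nonneg z; positivity

lemma integrable_K4 : Integrable (fun z : E => (1 + ‖z‖) * kk z) := by
  have := (integrable_pow_exp (E := E) (b := 1/4) (by norm_num) 4).const_mul (81 * Real.exp 2)
  refine this.congr (Eventually.of_forall fun z => ?_)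
  simp only [kk]; ring

lemma integrable_UU (v w : E) : Integrable (UU v w) :=
  (PG.qq v w).integrable (continuous_qq v w).aestronglyMeasurable

lemma Phi_diff {a N : ℝ} (ha : 0 < a) (ha1 : a ≤ 1) {f : E → ℝ} (h : HH a N f) (x x' v w : E)
    {φ : ℝ} (hs : 0 < Real.sin φ) (hη : ‖(Real.cos φ / Real.sin φ) • (x' - x)‖ ≤ 2) :
    |Phi f v w x' φ - Phi f v w x φ|
      ≤ N * Real.sin φ ^ a * (‖v‖ * ‖w‖) * K4 E * ‖(Real.cos φ / Real.sin φ) • (x' - x)‖ := by
  have hN := h.nonneg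
  set η : E := (Real.cos φ / Real.sin φ) • (x' - x) with hηd
  have hfc := h.continuous ha
  have hUc : Continuous (UU v w) := (continuous_qq v w).mul continuous_gw
  have hYc : Continuous (fun z : E => f (Real.cos φ • x + Real.sin φ • z)) :=
    hfc.comp (by fun_prop)
  -- translate
  have hse : Real.sin φ • η = Real.cos φ • (x' - x) := by
    rw [hηd, smul_smul, mul_div_cancel₀ _ hs.ne']
  have iV : Integrable (fun z => UU v w (z - η)) := (integrable_UU v w).comp_sub_right η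
  have ibm : ∀ V : E → ℝ, Integrable V →
      Integrable (fun z => f (Real.cos φ • x + Real.sin φ • z) * V z) := by
    intro V hV
    exact hV.bdd_mul hYc.aestronglyMeasurable (c := N) (Eventually.of_forall fun z => h.1 _)
  have e1 : Phi f v w x' φ = ∫ z, f (Real.cos φ • x + Real.sin φ • z) * UU v w (z - η) := by
    rw [← integral_add_right_eq_self (μ := (volume : Measure E)) _ η]
    unfold Phi
    congr 1; ext z
    have : Real.cos φ • x + Real.sin φ • (z + η) = Real.cos φ • x' + Real.sin φ • z := by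
      rw [smul_add, hse, smul_sub]; abel
    rw [this, add_sub_cancel_right]; unfold UU; ring
  have e2 : Phi f v w x φ = ∫ z, f (Real.cos φ • x + Real.sin φ • z) * UU v w z := by
    unfold Phi UU
    congr 1; ext z; ring
  have z1 : ∫ z, UU v w z = 0 := integral_qq v w
  have z2 : ∫ z, UU v w (z - η) = 0 := by
    rw [integral_sub_right_eq_self (μ := (volume : Measure E)) (UU v w) η, z1]
  have e3 : Phi f v w x' φ - Phi f v w x φ
      = ∫ z, (f (Real.cos φ • x + Real.sin φ • z) - f (Real.cos φ • x))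
        * (UU v w (z - η) - UU v w z) := by
    have t1 := integral_sub (ibm _ iV) (ibm _ (integrable_UU v w))
    have t2 := integral_sub (iV.const_mul (f (Real.cos φ • x)))
      ((integrable_UU v w).const_mul (f (Real.cos φ • x)))
    rw [integral_const_mul, integral_const_mul, z1, z2, mul_zero, sub_zero] at t2
    have t3 := integral_sub ((ibm _ iV).sub (ibm _ (integrable_UU v w)))
      ((iV.const_mul (f (Real.cos φ • x))).sub
      ((integrable_UU v w).const_mul (f (Real.cos φ • x))))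
    simp only [Pi.sub_apply] at t3
    rw [t2, sub_zero, t1] at t3
    rw [e1, e2, ← t3]
    congr 1; ext z; ring
  rw [e3, ← Real.norm_eq_abs]
  have hb : Integrable (fun z : E => (N * Real.sin φ ^ a * (‖v‖ * ‖w‖) * ‖η‖) *
      ((1 + ‖z‖) * kk z)) := integrable_K4.const_mul _
  refine (norm_integral_le_of_norm_le hb (Eventually.of_forall fun z => ?_)).trans ?_
  · rw [norm_mul, Real.norm_eq_abs, Real.norm_eq_abs]
    have h1 := h.2 (Real.cos φ • x + Real.sin φ • z) (Real.cos φ • x)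
    rw [add_sub_cancel_left, norm_smul, Real.norm_of_nonneg hs.le,
      Real.mul_rpow hs.le (norm_nonneg z)] at h1
    have h2 := rpow_le_one_add ha.le ha1 (norm_nonneg z)
    have h3 := UU_diff_le v w z η hη
    have h4 : 0 ≤ Real.sin φ ^ a := Real.rpow_nonneg hs.le a
    have h5 := kk_nonneg z
    calc _ ≤ (N * (Real.sin φ ^ a * (1 + ‖z‖))) * (‖v‖ * ‖w‖ * kk z * ‖η‖) := by
          gcongr
          refine h1.trans ?_
          gcongr
      _ = _ := by ring
  · rw [integral_const_mul]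
    refine le_of_eq ?_
    unfold K4; ring

/-- Hölder bound -/
theorem hoelder_bound {a : ℝ} (ha : 0 < a) (ha1 : a < 1) : ∃ C : ℝ, 0 ≤ C ∧
    ∀ (g : E → ℝ) (N : ℝ), Adm g → ∀ (ι : Type) (_ : Fintype ι)
    (b : OrthonormalBasis ι ℝ E) (m : ℕ), HH a N (opf b m g) → ∀ (x x' v w : E),
    |fderiv ℝ (fderiv ℝ g) x' w v - fderiv ℝ (fderiv ℝ g) x w v|
      ≤ C * N * (‖v‖ * ‖w‖) * ‖x' - x‖ ^ a := by
  obtain ⟨C1, hC1, hsup⟩ := sup_bound (E := E) ha ha1.le
  have hp := Real.pi_pos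
  have hp3 := Real.pi_gt_three
  have hp4 := Real.pi_le_four
  have hK := K3_nonneg (E := E)
  have hK4 := K4_nonneg (E := E)
  have hG := gw_int_pos (E := E)
  have hKa : 0 ≤ Ka a := Real.rpow_nonneg (by positivity) _
  have ha2 : 0 < 1 - a := by linarith
  set C2 : ℝ := (2 * K3 E * Ka a / a + K4 E * (Real.pi / 2) * Ka a / (1 - a)) / (∫ z : E, gw z)
    with hC2
  have hC20 : 0 ≤ C2 := by rw [hC2]; positivity
  refine ⟨2 * C1 + C2, by positivity, ?_⟩
  intro g N hg ι _ b m h x x' v w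
  have hN := h.nonneg
  set ρ : ℝ := ‖x' - x‖ with hρ
  have hρ0 : 0 ≤ ρ := norm_nonneg _
  have hvw : 0 ≤ ‖v‖ * ‖w‖ := by positivity
  have hra : 0 ≤ ρ ^ a := Real.rpow_nonneg hρ0 a
  rcases le_or_gt 1 ρ with h1 | h1
  · have h2 := hsup g N hg ι _ b m h x v w
    have h3 := hsup g N hg ι _ b m h x' v w
    have h4 : 1 ≤ ρ ^ a := Real.one_le_rpow h1 ha.le
    calc _ ≤ |fderiv ℝ (fderiv ℝ g) x' w v| + |fderiv ℝ (fderiv ℝ g) x w v| := abs_sub _ _
      _ ≤ 2 * C1 * N * (‖v‖ * ‖w‖) * 1 := by linarith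
      _ ≤ 2 * C1 * N * (‖v‖ * ‖w‖) * ρ ^ a := by gcongr
      _ ≤ _ := by
        have : 0 ≤ C2 * N * (‖v‖ * ‖w‖) * ρ ^ a := by positivity
        linarith
  rcases hρ0.eq_or_lt with h0 | h0
  · have : x' = x := by
      rw [← sub_eq_zero, ← norm_eq_zero]; exact h0.symm
    rw [this, sub_self, abs_zero]
    positivity
  -- the main case
  have i1 := intervalIntegrable_Phi ha ha1.le h m x v w
  have i2 := intervalIntegrable_Phi ha ha1.le h m x' v w
  have r1 := rep ha ha1.le hg b m h x v w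
  have r2 := rep ha ha1.le hg b m h x' v w
  have hρ2 : ρ ≤ Real.pi / 2 := by linarith
  set D : ℝ → ℝ := fun φ => Real.cos φ ^ m / Real.sin φ *
    (Phi (opf b m g) v w x' φ - Phi (opf b m g) v w x φ) with hD
  have iD : IntervalIntegrable D volume 0 (Real.pi / 2) := by
    have eDf : D = fun φ => Real.cos φ ^ m / Real.sin φ * Phi (opf b m g) v w x' φ
        - Real.cos φ ^ m / Real.sin φ * Phi (opf b m g) v w x φ := by
      funext φ; simp only [hD]; ring
    rw [eDf]
    exact i2.sub i1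
  have eD : (∫ z : E, gw z) * (fderiv ℝ (fderiv ℝ g) x' w v - fderiv ℝ (fderiv ℝ g) x w v)
      = - ∫ φ in (0:ℝ)..(Real.pi / 2), D φ := by
    have t := intervalIntegral.integral_sub i2 i1
    have : ∫ φ in (0:ℝ)..(Real.pi / 2), D φ = (∫ φ in (0:ℝ)..(Real.pi / 2),
        Real.cos φ ^ m / Real.sin φ * Phi (opf b m g) v w x' φ) -
        ∫ φ in (0:ℝ)..(Real.pi / 2), Real.cos φ ^ m / Real.sin φ * Phi (opf b m g) v w x φ := by
      rw [← t]
      congr 1; ext φ; simp only [hD]; ring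
    rw [this, mul_sub, r1, r2]; ring
  have iD1 : IntervalIntegrable D volume 0 ρ := iD.mono_set (by
    rw [uIcc_of_le hρ0, uIcc_of_le (by positivity)]; exact Icc_subset_Icc_right hρ2)
  have iD2 : IntervalIntegrable D volume ρ (Real.pi / 2) := iD.mono_set (by
    rw [uIcc_of_le hρ2, uIcc_of_le (by positivity)]; exact Icc_subset_Icc_left hρ0)
  have s1 := intervalIntegral.integral_add_adjacent_intervals iD1 iD2
  have b1 : |∫ φ in (0:ℝ)..ρ, D φ| ≤ N * (‖v‖ * ‖w‖) * (2 * K3 E * Ka a / a) * ρ ^ a := by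
    rw [← Real.norm_eq_abs]
    refine (intervalIntegral.norm_integral_le_of_norm_le (g := fun φ => (N * (‖v‖ * ‖w‖) *
      (2 * K3 E)) * Ka a * φ ^ (a - 1)) hρ0
      (Eventually.of_forall fun φ hφ => ?_)
      ((intervalIntegral.intervalIntegrable_rpow' (by linarith)).const_mul _)).trans ?_
    · have hφ2 : φ ≤ Real.pi / 2 := hφ.2.trans hρ2
      have hs : 0 ≤ Real.sin φ := Real.sin_nonneg_of_nonneg_of_le_pi hφ.1.le (by linarith)
      refine factor_le m ha1.le hφ.1 hφ2 (by positivity) ?_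
      have p1 := Phi_bound ha ha1.le h x v w hs
      have p2 := Phi_bound ha ha1.le h x' v w hs
      calc _ ≤ |Phi (opf b m g) v w x' φ| + |Phi (opf b m g) v w x φ| := abs_sub _ _
        _ ≤ _ := by linarith
    · rw [intervalIntegral.integral_const_mul, integral_rpow (Or.inl (by linarith))]
      rw [sub_add_cancel, Real.zero_rpow ha.ne', sub_zero]
      refine le_of_eq ?_
      ring
  have b2 : |∫ φ in ρ..(Real.pi / 2), D φ|
      ≤ N * (‖v‖ * ‖w‖) * (K4 E * (Real.pi / 2) * Ka a / (1 - a)) * ρ ^ a := by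
    rw [← Real.norm_eq_abs]
    have hnot : (0:ℝ) ∉ uIcc ρ (Real.pi / 2) := by
      rw [uIcc_of_le hρ2]; simp [h0]
    refine (intervalIntegral.norm_integral_le_of_norm_le (g := fun φ => (N * (‖v‖ * ‖w‖) *
      (K4 E * (Real.pi / 2)) * Ka a * ρ) * φ ^ (a - 2)) hρ2
      (Eventually.of_forall fun φ hφ => ?_)
      ((intervalIntegral.intervalIntegrable_rpow (Or.inr hnot)).const_mul _)).trans ?_
    · have hφ0 : 0 < φ := h0.trans hφ.1
      have hs : 0 < Real.sin φ := Real.sin_pos_of_pos_of_lt_pi hφ0 (by linarith [hφ.2])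
      have hms := Real.mul_le_sin hφ0.le hφ.2
      have hη : ‖(Real.cos φ / Real.sin φ) • (x' - x)‖ ≤ (Real.pi / 2) * ρ / φ := by
        rw [norm_smul, Real.norm_eq_abs, abs_div, abs_of_pos hs, ← hρ]
        have hc := Real.abs_cos_le_one φ
        calc |Real.cos φ| / Real.sin φ * ρ ≤ 1 / (2 / Real.pi * φ) * ρ := by
              gcongr
          _ = _ := by field_simp
      have hη2 : ‖(Real.cos φ / Real.sin φ) • (x' - x)‖ ≤ 2 := by
        refine hη.trans ?_
        rw [div_le_iff₀ hφ0]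
        nlinarith [hφ.1]
      have p := Phi_diff ha ha1.le h x x' v w hs hη2
      have hsa : 0 ≤ Real.sin φ ^ a := Real.rpow_nonneg hs.le a
      have q := factor_le (a := a) (φ := φ) (D := N * (‖v‖ * ‖w‖) * K4 E * ((Real.pi / 2) * ρ / φ))
        (Q := Phi (opf b m g) v w x' φ - Phi (opf b m g) v w x φ) m ha1.le hφ0 hφ.2 (by positivity)
        (p.trans (by
          calc _ ≤ N * Real.sin φ ^ a * (‖v‖ * ‖w‖) * K4 E * ((Real.pi / 2) * ρ / φ) := by gcongr
            _ = _ := by ring))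
      refine q.trans (le_of_eq ?_)
      have : φ ^ (a - 2) = φ ^ (a - 1) / φ := by
        rw [← Real.rpow_sub_one hφ0.ne']; congr 1; ring
      rw [this]; ring
    · rw [intervalIntegral.integral_const_mul, integral_rpow (Or.inr ⟨by linarith, hnot⟩)]
      rw [show a - 2 + 1 = a - 1 by ring]
      have e1 : ((Real.pi / 2) ^ (a - 1) - ρ ^ (a - 1)) / (a - 1) ≤ ρ ^ (a - 1) / (1 - a) := by
        have : ((Real.pi / 2) ^ (a - 1) - ρ ^ (a - 1)) / (a - 1)
          = (ρ ^ (a - 1) - (Real.pi / 2) ^ (a - 1)) / (1 - a) := by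
          rw [← neg_sub (1:ℝ) a, div_neg, ← neg_div, neg_sub]
        rw [this]
        have : 0 ≤ (Real.pi / 2) ^ (a - 1) := by positivity
        gcongr
        linarith
      have e2 : ρ ^ a = ρ * ρ ^ (a - 1) := by
        rw [Real.rpow_sub_one h0.ne']; field_simp
      calc _ ≤ (N * (‖v‖ * ‖w‖) * (K4 E * (Real.pi / 2)) * Ka a * ρ) * (ρ ^ (a - 1) / (1 - a)) := by
            gcongr
        _ = _ := by rw [e2]; ring
  have b3 : (∫ z : E, gw z) * |fderiv ℝ (fderiv ℝ g) x' w v - fderiv ℝ (fderiv ℝ g) x w v|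
      ≤ N * (‖v‖ * ‖w‖) * (2 * K3 E * Ka a / a + K4 E * (Real.pi / 2) * Ka a / (1 - a)) * ρ ^ a := by
    rw [← abs_of_pos hG, ← abs_mul, eD, abs_neg, ← s1]
    refine (abs_add_le _ _).trans ?_
    linarith
  have b4 : |fderiv ℝ (fderiv ℝ g) x' w v - fderiv ℝ (fderiv ℝ g) x w v|
      ≤ C2 * N * (‖v‖ * ‖w‖) * ρ ^ a := by
    rw [hC2, show (2 * K3 E * Ka a / a + K4 E * (Real.pi / 2) * Ka a / (1 - a)) / (∫ z : E, gw z)
      * N * (‖v‖ * ‖w‖) * ρ ^ a = (N * (‖v‖ * ‖w‖) * (2 * K3 E * Ka a / a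
      + K4 E * (Real.pi / 2) * Ka a / (1 - a)) * ρ ^ a) / (∫ z : E, gw z) by ring, le_div_iff₀ hG]
    linarith
  refine b4.trans ?_
  have : 0 ≤ 2 * C1 * N * (‖v‖ * ‖w‖) * ρ ^ a := by positivity
  linarith

end Hoelder

end Crest.Agent.R238.AEst
end

-- ▼ part R238/AEstF

set_option autoImplicit false
set_option linter.unusedSectionVars false
open MeasureTheory Filter Topology Set
open scoped RealInnerProductSpace MatrixOrder

namespace Crest.Agent.R238.AEst

section Gen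

variable {E : Type*} [NormedAddCommGroup E] [InnerProductSpace ℝ E] [FiniteDimensional ℝ E]
  [MeasurableSpace E] [BorelSpace E] {g : E → ℝ}

lemma fderiv_comp_lin (hg : ContDiff ℝ 2 g) (T : E →L[ℝ] E) (y v : E) :
    fderiv ℝ (fun y => g (T y)) y v = fderiv ℝ g (T y) (T v) := by
  have hd : Differentiable ℝ g := hg.differentiable (by norm_num)
  have h := (hd (T y)).hasFDerivAt.comp y (T.hasFDerivAt (x := y))
  have h2 : fderiv ℝ (fun y => g (T y)) y = (fderiv ℝ g (T y)).comp T := h.fderiv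
  rw [h2]; rfl

lemma fderiv2_comp_lin (hg : ContDiff ℝ 2 g) (T : E →L[ℝ] E) (y v w : E) :
    fderiv ℝ (fderiv ℝ (fun y => g (T y))) y v w = fderiv ℝ (fderiv ℝ g) (T y) (T v) (T w) := by
  have hd : Differentiable ℝ g := hg.differentiable (by norm_num)
  have hd' : Differentiable ℝ (fderiv ℝ g) :=
    (hg.fderiv_right (m := 1) (by norm_num)).differentiable (by norm_num)
  have e : fderiv ℝ (fun y => g (T y)) = fun y => ((ContinuousLinearMap.compL ℝ E E ℝ).flip T)
      (fderiv ℝ g (T y)) := by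
    funext y
    have h := (hd (T y)).hasFDerivAt.comp y (T.hasFDerivAt (x := y))
    exact h.fderiv
  have h1 := (hd' (T y)).hasFDerivAt.comp y (T.hasFDerivAt (x := y))
  have h2 := ((ContinuousLinearMap.compL ℝ E E ℝ).flip T).hasFDerivAt.comp y h1
  have h3 : fderiv ℝ (fderiv ℝ (fun y => g (T y))) y
      = ((ContinuousLinearMap.compL ℝ E E ℝ).flip T).comp
        ((fderiv ℝ (fderiv ℝ g) (T y)).comp T) := by
    rw [e]; exact h2.fderiv
  rw [h3]
  simp

lemma Adm.comp_lin (hg : Adm g) (T : E →L[ℝ] E) : Adm (fun y => g (T y)) := by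
  obtain ⟨B, hB⟩ := hg.bd
  have hB0 : 0 ≤ B := le_trans (norm_nonneg (fderiv ℝ (fderiv ℝ g) 0)) (hB 0)
  refine ⟨hg.c2.comp T.contDiff, ⟨B * ‖T‖ * ‖T‖, fun y => ?_⟩⟩
  refine ContinuousLinearMap.opNorm_le_bound _ (by positivity) fun v => ?_
  refine ContinuousLinearMap.opNorm_le_bound _ (by positivity) fun w => ?_
  rw [fderiv2_comp_lin hg.c2]
  calc _ ≤ ‖fderiv ℝ (fderiv ℝ g) (T y) (T v)‖ * ‖T w‖ := ContinuousLinearMap.le_opNorm _ _
    _ ≤ (‖fderiv ℝ (fderiv ℝ g) (T y)‖ * ‖T v‖) * ‖T w‖ := by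
      gcongr; exact ContinuousLinearMap.le_opNorm _ _
    _ ≤ (B * (‖T‖ * ‖v‖)) * (‖T‖ * ‖w‖) := by
      gcongr
      · exact hB _
      · exact T.le_opNorm v
      · exact T.le_opNorm w
    _ = _ := by ring

end Gen

section Mat

variable {n : ℕ}

lemma sum_sq_eq (z : E n) : ∑ i, z i ^ 2 = ‖z‖ ^ 2 := by
  rw [EuclideanSpace.norm_sq_eq]; simp

lemma exists_T {lo hi : ℝ} (hlo : 0 < lo) (A : Matrix (Fin n) (Fin n) ℝ) (hA : Ell lo hi A) :
    ∃ T T' : E n →L[ℝ] E n, (∀ x, T (T' x) = x) ∧ (∀ x, ‖T x‖ ^ 2 ≤ hi * ‖x‖ ^ 2) ∧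
      (∀ x, ‖T' x‖ ^ 2 ≤ lo⁻¹ * ‖x‖ ^ 2) ∧
      ∀ β : E n →L[ℝ] E n →L[ℝ] ℝ, ∑ k, β (T (ee k)) (T (ee k))
        = ∑ i, ∑ j, A i j * β (ee i) (ee j) := by
  have hpsd : A.PosSemidef := by
    refine Matrix.PosSemidef.of_dotProduct_mulVec_nonneg ?_ fun x => ?_
    · ext i j; simp [hA.1 i j]
    · have h := (hA.2 x).1
      have h2 : star x ⬝ᵥ A.mulVec x = ∑ i, ∑ j, A i j * x i * x j := by
        simp only [dotProduct, Matrix.mulVec, Pi.star_apply, star_trivial, Finset.mul_sum]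
        exact Finset.sum_congr rfl fun i _ => Finset.sum_congr rfl fun j _ => by ring
      rw [h2]
      exact (mul_nonneg hlo.le (Finset.sum_nonneg fun i _ => sq_nonneg _)).trans h
  obtain ⟨S, hS1, hS2⟩ : ∃ S : Matrix (Fin n) (Fin n) ℝ, S.transpose = S ∧ S * S = A := by
    refine ⟨CFC.sqrt A, ?_, CFC.sqrt_mul_sqrt_self A hpsd.nonneg⟩
    have h : 0 ≤ CFC.sqrt A := CFC.sqrt_nonneg A
    have h2 := (Matrix.nonneg_iff_posSemidef.mp h).isHermitian
    have h3 : (CFC.sqrt A).IsSymm := by simpa using h2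
    exact h3
  have hSs : ∀ i j, S i j = S j i := fun i j => by
    conv_lhs => rw [← hS1]
    rfl
  set T : E n →L[ℝ] E n := Matrix.toEuclideanCLM (n := Fin n) (𝕜 := ℝ) S with hT
  have hTa : ∀ x i, (T x) i = ∑ j, S i j * x j := by
    intro x i
    simp [hT, Matrix.mulVec, dotProduct]
  have hTe : ∀ k, T (ee k) = ∑ i, S i k • ee i := by
    intro k
    ext i
    rw [hTa]
    simp [Pi.single_apply]
  have hnorm : ∀ x, ‖T x‖ ^ 2 = ∑ i, ∑ j, A i j * x i * x j := by
    intro x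
    rw [← sum_sq_eq]
    simp only [hTa, sq, Finset.sum_mul, Finset.mul_sum]
    simp only [← hS2, Matrix.mul_apply, Finset.sum_mul]
    rw [Finset.sum_comm]
    refine Finset.sum_congr rfl fun i _ => ?_
    rw [Finset.sum_comm]
    refine Finset.sum_congr rfl fun j _ => Finset.sum_congr rfl fun k _ => ?_
    rw [hSs i k]; ring
  have hup : ∀ x, ‖T x‖ ^ 2 ≤ hi * ‖x‖ ^ 2 := fun x => by
    rw [hnorm, ← sum_sq_eq]; exact (hA.2 x).2
  have hdn : ∀ x, lo * ‖x‖ ^ 2 ≤ ‖T x‖ ^ 2 := fun x => by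
    rw [hnorm, ← sum_sq_eq]; exact (hA.2 x).1
  have hinj : Function.Injective T := by
    rw [injective_iff_map_eq_zero]
    intro x hx
    have := hdn x
    rw [hx, norm_zero] at this
    have h2 : ‖x‖ ^ 2 = 0 := by nlinarith [sq_nonneg ‖x‖]
    simpa using h2
  let T0 : E n ≃ₗ[ℝ] E n := LinearEquiv.ofInjectiveEndo (T : E n →ₗ[ℝ] E n) hinj
  let T' : E n →L[ℝ] E n := LinearMap.toContinuousLinearMap (T0.symm : E n →ₗ[ℝ] E n)
  have hTT' : ∀ x, T (T' x) = x := fun x => by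
    have : T0 (T0.symm x) = x := T0.apply_symm_apply x
    exact this
  refine ⟨T, T', hTT', hup, fun x => ?_, fun β => ?_⟩
  · have := hdn (T' x)
    rw [hTT'] at this
    rw [← div_eq_inv_mul, le_div_iff₀ hlo]; linarith
  · simp only [hTe, map_sum, map_smul, _root_.sum_apply, _root_.smul_apply,
      smul_eq_mul, Finset.mul_sum]
    simp only [← hS2, Matrix.mul_apply, Finset.sum_mul]
    rw [Finset.sum_comm]
    conv_rhs => rw [Finset.sum_comm]
    refine Finset.sum_congr rfl fun i _ => ?_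
    rw [Finset.sum_comm]
    refine Finset.sum_congr rfl fun j _ => Finset.sum_congr rfl fun k _ => ?_
    rw [hSs k i]; ring

lemma le_of_sq {c t r : ℝ} (hc : 0 ≤ c) (hr : 0 ≤ r) (ht : 0 ≤ t) (h : t ^ 2 ≤ c * r ^ 2) :
    t ≤ Real.sqrt c * r := by
  rw [← Real.sqrt_sq ht, ← Real.sqrt_sq hr, ← Real.sqrt_mul hc]
  exact Real.sqrt_le_sqrt h

lemma adm_of_Hs {g : E n → ℝ} (hg : ContDiff ℝ 2 g) (hB : ∃ B : ℝ, ∀ x i j, |Hs g x i j| ≤ B) :
    Adm g := by
  obtain ⟨B, hB⟩ := hB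
  refine ⟨hg, ⟨(n * n : ℝ) * |B|, fun x => ?_⟩⟩
  refine ContinuousLinearMap.opNorm_le_bound _ (by positivity) fun v => ?_
  refine ContinuousLinearMap.opNorm_le_bound _ (by positivity) fun w => ?_
  have hv : v = ∑ i, v i • ee i := by
    have := (EuclideanSpace.basisFun (Fin n) ℝ).sum_repr v
    simpa using this.symm
  have hw : w = ∑ i, w i • ee i := by
    have := (EuclideanSpace.basisFun (Fin n) ℝ).sum_repr w
    simpa using this.symm
  have e : fderiv ℝ (fderiv ℝ g) x v w = ∑ i, ∑ j, v i * w j * Hs g x i j := by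
    conv_lhs => rw [hv, hw]
    simp only [map_sum, map_smul, _root_.sum_apply, _root_.smul_apply, smul_eq_mul, Finset.mul_sum]
    rw [Finset.sum_comm]
    refine Finset.sum_congr rfl fun i _ => Finset.sum_congr rfl fun j _ => ?_
    unfold Hs; ring
  have hci : ∀ (u : E n) (i : Fin n), |u i| ≤ ‖u‖ := fun u i => by
    have := PiLp.norm_apply_le u i
    simpa using this
  rw [e, Real.norm_eq_abs]
  calc |∑ i, ∑ j, v i * w j * Hs g x i j| ≤ ∑ i, ∑ j, |v i * w j * Hs g x i j| :=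
        (Finset.abs_sum_le_sum_abs _ _).trans
          (Finset.sum_le_sum fun i _ => Finset.abs_sum_le_sum_abs _ _)
    _ ≤ ∑ i : Fin n, ∑ j : Fin n, ‖v‖ * ‖w‖ * |B| := by
        refine Finset.sum_le_sum fun i _ => Finset.sum_le_sum fun j _ => ?_
        rw [abs_mul, abs_mul]
        have h1 := hci v i
        have h2 := hci w j
        have h3 := (hB x i j).trans (le_abs_self B)
        gcongr
    _ = _ := by
        simp only [Finset.sum_const, Finset.card_univ, Fintype.card_fin, nsmul_eq_mul]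
        ring

/-- **(A)**: the constant coefficient Schauder estimate. -/
theorem repStmt : RepStmt := by
  intro n a lo hi ha ha1 hlo hlohi
  obtain ⟨C1, hC1, hsup⟩ := sup_bound (E := E n) ha ha1.le
  obtain ⟨C2, hC2, hhol⟩ := hoelder_bound (E := E n) ha ha1
  have hhi : 0 < hi := hlo.trans_le hlohi
  set κ : ℝ := 1 + Real.sqrt hi ^ a with hκ
  set τ : ℝ := Real.sqrt lo⁻¹ with hτ
  have hτ0 : 0 ≤ τ := Real.sqrt_nonneg _
  have hκ0 : 0 < κ := by positivity
  have hτa : 0 ≤ τ ^ a := Real.rpow_nonneg hτ0 a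
  set C : ℝ := (C1 + C2 + 1) * κ * (1 + τ * τ) * (1 + τ ^ a) with hC
  refine ⟨C, by positivity, ?_⟩
  intro A hA lam hlam g N hg hB hf i j
  obtain ⟨T, T', hTT', hTup, hTdn, htr⟩ := exists_T hlo A hA
  have hN : 0 ≤ N := (abs_nonneg _).trans (hf.1 0)
  have hadm : Adm g := adm_of_Hs hg hB
  have hadm2 := hadm.comp_lin T
  obtain ⟨m, hm⟩ : ∃ m : ℕ, 1 - (m : ℝ) = lam := by
    rcases hlam with rfl | rfl
    · exact ⟨1, by simp⟩
    · exact ⟨0, by simp⟩
  have hT1 : ∀ x, ‖T x‖ ≤ Real.sqrt hi * ‖x‖ := fun x =>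
    le_of_sq hhi.le (norm_nonneg _) (norm_nonneg _) (hTup x)
  have hT2 : ∀ x, ‖T' x‖ ≤ τ * ‖x‖ := fun x =>
    le_of_sq (by positivity) (norm_nonneg _) (norm_nonneg _) (hTdn x)
  have eop : ∀ y, opf (EuclideanSpace.basisFun (Fin n) ℝ) m (fun y => g (T y)) y
      = LA (fun _ => A) g (T y) + lam * g (T y) := by
    intro y
    unfold opf LA
    have h1 : ∀ k, fderiv ℝ (fderiv ℝ (fun y => g (T y))) y
        (EuclideanSpace.basisFun (Fin n) ℝ k) (EuclideanSpace.basisFun (Fin n) ℝ k)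
        = fderiv ℝ (fderiv ℝ g) (T y) (T (ee k)) (T (ee k)) := by
      intro k
      rw [fderiv2_comp_lin hg]
      simp
    rw [Finset.sum_congr rfl fun k _ => h1 k, htr, fderiv_comp_lin hg, hm]
    rfl
  have hHH : HH a (N * κ) (opf (EuclideanSpace.basisFun (Fin n) ℝ) m (fun y => g (T y))) := by
    refine ⟨fun y => ?_, fun y y' => ?_⟩
    · rw [eop]
      refine (hf.1 (T y)).trans ?_
      have : 1 ≤ κ := by rw [hκ]; linarith [Real.rpow_nonneg (Real.sqrt_nonneg hi) a]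
      nlinarith
    · rw [eop, eop]
      refine (hf.2 (T y) (T y')).trans ?_
      rw [mul_assoc]
      refine mul_le_mul_of_nonneg_left ?_ hN
      rw [← map_sub]
      calc ‖T (y - y')‖ ^ a ≤ (Real.sqrt hi * ‖y - y'‖) ^ a :=
            Real.rpow_le_rpow (norm_nonneg _) (hT1 _) ha.le
        _ = Real.sqrt hi ^ a * ‖y - y'‖ ^ a := Real.mul_rpow (Real.sqrt_nonneg _) (norm_nonneg _)
        _ ≤ κ * ‖y - y'‖ ^ a := by
          have : 0 ≤ ‖y - y'‖ ^ a := Real.rpow_nonneg (norm_nonneg _) a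
          gcongr
          linarith
  have hHs : ∀ x, Hs g x i j = fderiv ℝ (fderiv ℝ (fun y => g (T y))) (T' x) (T' (ee i))
      (T' (ee j)) := by
    intro x
    rw [fderiv2_comp_lin hg, hTT', hTT', hTT']; rfl
  have hei : ∀ i : Fin n, ‖T' (ee i)‖ ≤ τ := fun i => by
    have := hT2 (ee i)
    simpa using this
  have hvw : ‖T' (ee j)‖ * ‖T' (ee i)‖ ≤ 1 + τ * τ := by
    have h1 := hei i
    have h2 := hei j
    have : ‖T' (ee j)‖ * ‖T' (ee i)‖ ≤ τ * τ := by gcongr
    linarith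
  refine ⟨fun x => ?_, fun x x' => ?_⟩
  · simp only [hHs]
    refine (hsup _ _ hadm2 _ _ _ m hHH (T' x) (T' (ee j)) (T' (ee i))).trans ?_
    calc C1 * (N * κ) * (‖T' (ee j)‖ * ‖T' (ee i)‖)
        ≤ (C1 + C2 + 1) * (N * κ) * (1 + τ * τ) := by gcongr; linarith
      _ = ((C1 + C2 + 1) * κ * (1 + τ * τ) * N) * 1 := by ring
      _ ≤ ((C1 + C2 + 1) * κ * (1 + τ * τ) * N) * (1 + τ ^ a) := by gcongr; linarith
      _ = _ := by rw [hC]; ring
  · simp only [hHs]
    refine (hhol _ _ hadm2 _ _ _ m hHH (T' x') (T' x) (T' (ee j)) (T' (ee i))).trans ?_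
    rw [← map_sub]
    have h1 : ‖T' (x - x')‖ ^ a ≤ τ ^ a * ‖x - x'‖ ^ a := by
      rw [← Real.mul_rpow hτ0 (norm_nonneg _)]
      exact Real.rpow_le_rpow (norm_nonneg _) (hT2 _) ha.le
    have h2 : 0 ≤ ‖x - x'‖ ^ a := Real.rpow_nonneg (norm_nonneg _) a
    calc C2 * (N * κ) * (‖T' (ee j)‖ * ‖T' (ee i)‖) * ‖T' (x - x')‖ ^ a
        ≤ (C1 + C2 + 1) * (N * κ) * (1 + τ * τ) * (τ ^ a * ‖x - x'‖ ^ a) := by
          gcongr; linarith
      _ ≤ (C1 + C2 + 1) * (N * κ) * (1 + τ * τ) * ((1 + τ ^ a) * ‖x - x'‖ ^ a) := by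
          gcongr; linarith
      _ = _ := by rw [hC]; ring

end Mat

end Crest.Agent.R238.AEst
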