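import Crest.Agent.R238.Sch3
import Crest.Agent.R238.AEstF
import Crest.Agent.R238.AprDefs

-- ▼ part R238/Sch4
section

/-!
Row 238, module H3 (B): Schauder a priori estimate by freezing and absorption.
File 4: the cutoffs, local and far estimate, final theorem.
-/

namespace Crest.Agent.R238.Sch

open Set Metric

variable {n : ℕ}

local notation "E" => EuclideanSpace ℝ (Fin n)

theorem fderiv_congr_open {f g : E → ℝ} {U : Set E} (hU : IsOpen U) (h : ∀ x ∈ U, f x = g x)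
    {x : E} (hx : x ∈ U) : fderiv ℝ f x = fderiv ℝ g x := by
  have : f =ᶠ[nhds x] g := Filter.eventually_of_mem (hU.mem_nhds hx) h
  exact this.fderiv_eq

theorem D2_congr_open {f g : E → ℝ} {U : Set E} (hU : IsOpen U) (h : ∀ x ∈ U, f x = g x)
    {x : E} (hx : x ∈ U) : D2 f x = D2 g x := by
  have : f =ᶠ[nhds x] g := Filter.eventually_of_mem (hU.mem_nhds hx) h
  exact this.fderiv.fderiv_eq

theorem fderiv_const_open {f : E → ℝ} {U : Set E} (hU : IsOpen U) {c : ℝ} (h : ∀ x ∈ U, f x = c)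
    {x : E} (hx : x ∈ U) : fderiv ℝ f x = 0 := by
  rw [fderiv_congr_open (g := fun _ => c) hU h hx]
  simp

theorem D2_const_open {f : E → ℝ} {U : Set E} (hU : IsOpen U) {c : ℝ} (h : ∀ x ∈ U, f x = c)
    {x : E} (hx : x ∈ U) : D2 f x = 0 := by
  rw [D2_congr_open (g := fun _ => c) hU h hx]
  simp [D2]

theorem Cut.mono {a X Y : ℝ} {χ : E → ℝ} (h : Cut a X χ) (hXY : X ≤ Y) : Cut a Y χ :=
  ⟨h.sm, h.c0.mono hXY, h.c1.mono hXY, h.c2.mono hXY, h.cx.mono hXY⟩

theorem LB.mono {a Q Q' : ℝ} {s : Set E} {h : E → ℝ} (hL : LB a Q s h) (hQ : Q ≤ Q') :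
    LB a Q' s h where
  h0 x hx := (hL.h0 x hx).trans hQ
  h1 x hx y hy := (hL.h1 x hx y hy).trans
    (mul_le_mul_of_nonneg_right hQ (Real.rpow_nonneg (norm_nonneg _) _))
  d0 x hx := (hL.d0 x hx).trans hQ
  d1 x hx y hy := (hL.d1 x hx y hy).trans
    (mul_le_mul_of_nonneg_right hQ (Real.rpow_nonneg (norm_nonneg _) _))

/-- radial cutoffs -/
theorem exists_bump {a ρ ρ' : ℝ} (ha : 0 < a) (ha1 : a ≤ 1) (hρ : 0 < ρ) (hρ' : ρ < ρ') :
    ∃ (ψ : E → ℝ) (X : ℝ), Cut a X ψ ∧ (∀ x, ‖x‖ ≤ ρ → ψ x = 1) ∧ (∀ x, ρ' ≤ ‖x‖ → ψ x = 0) := by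
  let f : ContDiffBump (0 : E) := ⟨ρ, ρ', hρ, hρ'⟩
  obtain ⟨X, hX⟩ := Cut.of_compactSupport (ψ := f) ha ha1 f.contDiff f.hasCompactSupport
  refine ⟨f, X, hX, fun x hx => f.one_of_mem_closedBall (by simpa using hx), fun x hx =>
    f.zero_of_le_dist (by simpa using hx)⟩

/-- local absorption -/
theorem abs_local {a M ρ C0 W : ℝ} (hC0 : 0 < C0) (ha : 0 < a) (hρ : 0 < ρ) (hM : 0 ≤ M)
    (hρa : (3 * ρ) ^ a ≤ 1 / (4 * (n : ℝ) ^ 2 * M * C0 + 1)) {x0 : E}
    {τ : E → Matrix (Fin n) (Fin n) ℝ} (hτ : ∀ i j, HB a M (fun x => τ x i j))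
    {B : E → E →L[ℝ] E →L[ℝ] ℝ} (hB : HB a W B) (hB0 : ∀ x, x ∉ closedBall x0 ρ → B x = 0) :
    HB a (W / (2 * C0)) (fun x => ∑ i, ∑ j, B x (ee i) (ee j) * (τ x0 i j - τ x i j)) := by
  have hW := hB.nonneg
  have hn : 0 ≤ (n : ℝ) ^ 2 := by positivity
  have hK : 0 ≤ 4 * (n : ℝ) ^ 2 * M * C0 := by positivity
  have hp : 0 ≤ (3 * ρ) ^ a := by positivity
  have hp1 : (3 * ρ) ^ a ≤ 1 := hρa.trans (by
    rw [div_le_one (by positivity)]; linarith)
  have hmain : HB a ((n : ℝ) ^ 2 * (2 * M * (3 * ρ) ^ a * W))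
      (fun x => ∑ i, ∑ j, B x (ee i) (ee j) * (τ x0 i j - τ x i j)) := by
    refine HB.sum_sq fun i j => ?_
    have hBs : ∀ x ∈ closedBall x0 ρ, ‖B x‖ ≤ W * (3 * ρ) ^ a := by
      intro x hx
      have hy : x + (3 * ρ) • ee i ∉ closedBall x0 ρ := by
        intro hy
        have h1 : dist x x0 ≤ ρ := hx
        have h2 : dist (x + (3 * ρ) • ee i) x0 ≤ ρ := hy
        have h3 : dist (x + (3 * ρ) • ee i) x ≤ 2 * ρ := by
          have := dist_triangle_right (x + (3 * ρ) • ee i) x x0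
          linarith
        rw [dist_eq_norm, add_sub_cancel_left, norm_smul, norm_ee, mul_one,
          Real.norm_of_nonneg (by positivity)] at h3
        linarith
      have h1 := hB.hol x (x + (3 * ρ) • ee i)
      have h0 : ‖B (x + (3 * ρ) • ee i)‖ = 0 := by
        rw [hB0 _ hy]; exact ContinuousLinearMap.opNorm_zero
      have h2 := norm_sub_norm_le (B x) (B (x + (3 * ρ) • ee i))
      have h3 : ‖x - (x + (3 * ρ) • (ee i : E))‖ = 3 * ρ := by
        rw [sub_add_cancel_left, norm_neg, norm_smul, norm_ee, mul_one,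
          Real.norm_of_nonneg (by positivity)]
      rw [h3] at h1
      linarith
    refine HB.localMul (s := closedBall x0 ρ) (U0 := W * (3 * ρ) ^ a) (U1 := W)
      (V0 := M * (3 * ρ) ^ a) (V1 := M) (fun x hx => by rw [hB0 x hx]; rfl)
      (fun x hx => (norm_entry_le _ i j).trans (hBs x hx)) (hB.entry i j).hol ?_ ?_
      (by positivity) hW (by positivity) hM ?_ (le_of_eq (by ring))
    · intro x hx
      refine ((hτ i j).hol x0 x).trans ?_
      gcongr
      have : dist x x0 ≤ ρ := hx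
      rw [dist_eq_norm, norm_sub_rev] at this
      linarith
    · intro x _ y _
      have : τ x0 i j - τ x i j - (τ x0 i j - τ y i j) = - (τ x i j - τ y i j) := by ring
      rw [this, norm_neg]
      exact (hτ i j).hol x y
    · have h1 : W * (3 * ρ) ^ a * (M * (3 * ρ) ^ a) ≤ W * (3 * ρ) ^ a * (M * 1) := by gcongr
      nlinarith [mul_nonneg (mul_nonneg hW hp) hM]
  refine hmain.mono ?_
  rw [le_div_iff₀ (by positivity)]
  rw [le_div_iff₀ (by positivity)] at hρa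
  have h1 : (3 * ρ) ^ a * (4 * (n : ℝ) ^ 2 * M * C0) ≤ 1 := by nlinarith
  calc (n : ℝ) ^ 2 * (2 * M * (3 * ρ) ^ a * W) * (2 * C0)
      = (3 * ρ) ^ a * (4 * (n : ℝ) ^ 2 * M * C0) * W := by ring
    _ ≤ 1 * W := by gcongr
    _ = W := one_mul _

/-- far absorption -/
theorem abs_far {a R C0 W eps : ℝ} (hC0 : 0 < C0) (heps0 : 0 ≤ eps)
    (heps : eps ≤ 1 / (4 * (n : ℝ) ^ 2 * C0 + 1))
    {τ : E → Matrix (Fin n) (Fin n) ℝ}
    (hf0 : ∀ i j x, R ≤ ‖x‖ → |τ x i j - (1 : Matrix (Fin n) (Fin n) ℝ) i j| ≤ eps)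
    (hf1 : ∀ i j x y, R ≤ ‖x‖ → R ≤ ‖y‖ → |τ x i j - τ y i j| ≤ eps * ‖x - y‖ ^ a)
    {B : E → E →L[ℝ] E →L[ℝ] ℝ} (hB : HB a W B) (hB0 : ∀ x, ‖x‖ < R → B x = 0) :
    HB a (W / (2 * C0)) (fun x => ∑ i, ∑ j,
      B x (ee i) (ee j) * ((1 : Matrix (Fin n) (Fin n) ℝ) i j - τ x i j)) := by
  have hW := hB.nonneg
  have hn : 0 ≤ (n : ℝ) ^ 2 := by positivity
  have hmain : HB a ((n : ℝ) ^ 2 * (2 * eps * W))
      (fun x => ∑ i, ∑ j, B x (ee i) (ee j) * ((1 : Matrix (Fin n) (Fin n) ℝ) i j - τ x i j)) := by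
    refine HB.sum_sq fun i j => ?_
    refine HB.localMul (s := {x | R ≤ ‖x‖}) (U0 := W) (U1 := W)
      (V0 := eps) (V1 := eps) (fun x hx => by
        rw [hB0 x (by simpa using hx)]; rfl)
      (fun x _ => (hB.entry i j).bdd x) (hB.entry i j).hol ?_ ?_
      hW hW heps0 heps0 ?_ (le_of_eq (by ring))
    · intro x hx
      rw [Real.norm_eq_abs, abs_sub_comm]
      exact hf0 i j x hx
    · intro x hx y hy
      have : (1 : Matrix (Fin n) (Fin n) ℝ) i j - τ x i j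
        - ((1 : Matrix (Fin n) (Fin n) ℝ) i j - τ y i j) = - (τ x i j - τ y i j) := by ring
      rw [this, norm_neg]
      exact hf1 i j x y hx hy
    · nlinarith [mul_nonneg hW heps0]
  refine hmain.mono ?_
  rw [le_div_iff₀ (by positivity)]
  rw [le_div_iff₀ (by positivity)] at heps
  have h1 : eps * (4 * (n : ℝ) ^ 2 * C0) ≤ 1 := by nlinarith
  calc (n : ℝ) ^ 2 * (2 * eps * W) * (2 * C0)
      = eps * (4 * (n : ℝ) ^ 2 * C0) * W := by ring
    _ ≤ 1 * W := by gcongr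
    _ = W := one_mul _

set_option maxHeartbeats 1000000 in
/-- MODULE (B): a priori Schauder estimate for variable coefficients, close to the identity in the
Hölder sense outside a ball. The smallness `eps0` depends only on `n` and `C0`. -/
theorem schauder_B {a C0 lam : ℝ} (ha : 0 < a) (ha1 : a < 1) (hC0 : 0 < C0)
    (Adm : Matrix (Fin n) (Fin n) ℝ → Prop) (hI : Adm 1) (hSA : ∀ A, Adm A → SA a C0 lam A) :
    ∃ eps0 : ℝ, 0 < eps0 ∧ ∀ M R : ℝ, 0 ≤ M → 0 < R → ∃ C : ℝ, 0 ≤ C ∧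
      ∀ (τ : E → Matrix (Fin n) (Fin n) ℝ) (h : E → ℝ) (N S V : ℝ),
        (∀ x, Adm (τ x)) → (∀ i j, HB a M (fun x => τ x i j)) →
        (∀ i j x, R ≤ ‖x‖ → |τ x i j - (1 : Matrix (Fin n) (Fin n) ℝ) i j| ≤ eps0) →
        (∀ i j x y, R ≤ ‖x‖ → R ≤ ‖y‖ → |τ x i j - τ y i j| ≤ eps0 * ‖x - y‖ ^ a) →
        ContDiff ℝ 2 h → HB a V (D2 h) → HB a N (Lop τ lam h) →
        (∀ x, ‖x‖ ≤ 3 * R + 3 → |h x| ≤ S) → HB a (C * (N + S)) (D2 h) := by
  have hn : 0 ≤ (n : ℝ) ^ 2 := by positivity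
  refine ⟨1 / (4 * (n : ℝ) ^ 2 * C0 + 1), by positivity, fun M R hM hR => ?_⟩
  -- the radius
  obtain ⟨d, hd0, hd1, hd⟩ := exists_rpow_le (a := a)
    (κ := 1 / (4 * (n : ℝ) ^ 2 * M * C0 + 1)) ha (by positivity)
  set ρ : ℝ := d / 3 with hρdef
  have hρ : 0 < ρ := by positivity
  have hρ3 : ρ ≤ 1 / 3 := by rw [hρdef]; linarith
  have hρa : (3 * ρ) ^ a ≤ 1 / (4 * (n : ℝ) ^ 2 * M * C0 + 1) := by
    have : 3 * ρ = d := by rw [hρdef]; ring
    rw [this]; exact hd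
  -- cutoffs
  obtain ⟨ψ, X1, hψ, hψ1, hψ0⟩ := exists_bump (n := n) (a := a) (ρ := ρ / 2) (ρ' := ρ) ha ha1.le
    (by positivity) (by linarith)
  obtain ⟨φ, X2, hφ, hφ1, hφ0⟩ := exists_bump (n := n) (a := a) (ρ := R) (ρ' := 3 / 2 * R) ha ha1.le
    hR (by linarith)
  have hX1 := hψ.c0.nonneg
  have hX2 := hφ.c0.nonneg
  set X : ℝ := (X1 + 2 * R * X1) + (1 + X2) with hX
  have hX0 : 0 ≤ X := by positivity
  set α : ℝ := 4 * C0 * X with hα
  set β : ℝ := 2 * C0 * ((n : ℝ) ^ 2 * (9 * (X * M)) + 2 * X) with hβ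
  have hα0 : 0 ≤ α := by positivity
  have hβ0 : 0 ≤ β := by positivity
  set γ : ℝ := 2 * (2 / ρ) ^ a with hγ
  have hγ2 : 2 ≤ γ := by
    have : 1 ≤ (2 / ρ) ^ a := Real.one_le_rpow (by rw [le_div_iff₀ hρ]; linarith) ha.le
    rw [hγ]; linarith
  set ε : ℝ := 1 / (2 * (γ * β) + 1) with hε
  have hε0 : 0 < ε := by positivity
  have hεγ : γ * β * ε ≤ 1 / 2 := by
    rw [hε, mul_one_div, div_le_iff₀ (by positivity)]
    linarith
  obtain ⟨C1, hC1, hint1⟩ := interp (n := n) (a := a) (r := ρ) (ε := ε) ha ha1.le hρ.le hε0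
  obtain ⟨C2, hC2, hint2⟩ := interp (n := n) (a := a) (r := 3 / 2 * R) (ε := ε) ha ha1.le
    (by positivity) hε0
  refine ⟨2 * (γ * α + γ * β * (C1 + C2)), by positivity, ?_⟩
  intro τ h N S V hAdm hτ hf0 hf1 hh hV hf hS
  have hN := hf.nonneg
  have hS0 : 0 ≤ S := (abs_nonneg _).trans (hS 0 (by simp; positivity))
  suffices hsuff : HB a (2 * (γ * α * N + γ * β * (C1 + C2) * S)) (D2 h) by
    refine hsuff.mono ?_
    have h1 : 0 ≤ γ * α * S := by positivity
    have h2 : 0 ≤ γ * β * (C1 + C2) * N := by positivity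
    nlinarith
  refine HB.absorb hV (fun W hW => ?_)
  have hW0 := hW.nonneg
  set Q : ℝ := ε * W + (C1 + C2) * S with hQ
  have hQ0 : 0 ≤ Q := by positivity
  set T : ℝ := α * N + β * Q with hT
  have hT0 : 0 ≤ T := by positivity
  have hTeq : 2 * (C0 * (2 * (X * N) + (n : ℝ) ^ 2 * (9 * (X * (M * Q))) + 2 * (X * Q))) = T := by
    rw [hT, hα, hβ]; ring
  -- local estimate
  have hloc : ∀ x0 : E, ‖x0‖ ≤ 2 * R → HB a T (D2 (fun x => ψ (x - x0) * h x)) := by
    intro x0 hx0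
    have hL : LB a Q (closedBall x0 ρ) h := by
      refine (hint1 h W S x0 hh hW (fun z hz => hS z ?_)).1.mono ?_
      · have h1 : dist z x0 ≤ ρ + 3 / 2 := hz
        have h2 : ‖z‖ ≤ ‖z - x0‖ + ‖x0‖ := by
          have := norm_add_le (z - x0) x0
          simpa using this
        rw [dist_eq_norm] at h1
        linarith
      · rw [hQ]
        have : 0 ≤ C2 * S := by positivity
        linarith
    have hcut : Cut a X (fun x => ψ (x - x0)) := (hψ.trans hx0).mono (by rw [hX]; linarith)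
    have hopen : IsOpen (closedBall x0 ρ)ᶜ := isClosed_closedBall.isOpen_compl
    have hz : ∀ x ∈ (closedBall x0 ρ)ᶜ, ψ (x - x0) = 0 := by
      intro x hx
      refine hψ0 _ ?_
      have : ¬ dist x x0 ≤ ρ := hx
      rw [dist_eq_norm] at this
      linarith
    have key := cut_est (A := τ x0) (s := closedBall x0 ρ) (χ := fun x => ψ (x - x0)) (h := h)
      (X := X) (M := M) (N := N) (Q := Q) hC0
      (hSA _ (hAdm x0)) hcut (fun x hx => fderiv_const_open hopen hz hx)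
      (fun x hx => D2_const_open hopen hz hx) hτ hh hV hL hQ0 hf
      (fun W' hW' => abs_local hC0 ha hρ hM hρa hτ hW' (fun x hx =>
        D2_const_open hopen (fun y hy => by
          show ψ (y - x0) * h y = 0
          rw [hz y hy, zero_mul]) hx))
    rwa [hTeq] at key
  -- far estimate
  have hfar : HB a T (D2 (fun x => (1 - φ x) * h x)) := by
    have hL : LB a Q (closedBall 0 (3 / 2 * R)) h := by
      refine (hint2 h W S 0 hh hW (fun z hz => hS z ?_)).1.mono ?_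
      · have h1 : dist z 0 ≤ 3 / 2 * R + 3 / 2 := hz
        rw [dist_zero_right] at h1
        linarith
      · rw [hQ]
        have : 0 ≤ C1 * S := by positivity
        linarith
    have hcut : Cut a X (fun x => 1 - φ x) := hφ.oneSub.mono (by
      rw [hX]
      have : 0 ≤ X1 + 2 * R * X1 := by positivity
      linarith)
    have hopen : IsOpen (closedBall (0 : E) (3 / 2 * R))ᶜ := isClosed_closedBall.isOpen_compl
    have hz : ∀ x ∈ (closedBall (0 : E) (3 / 2 * R))ᶜ, 1 - φ x = 1 := by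
      intro x hx
      have : ¬ dist x 0 ≤ 3 / 2 * R := hx
      rw [dist_zero_right] at this
      rw [hφ0 x (by linarith), sub_zero]
    have hopen' : IsOpen (ball (0 : E) R) := isOpen_ball
    have key := cut_est (A := 1) (s := closedBall 0 (3 / 2 * R)) (χ := fun x => 1 - φ x) (h := h)
      (X := X) (M := M) (N := N) (Q := Q) hC0
      (hSA _ hI) hcut (fun x hx => fderiv_const_open hopen hz hx)
      (fun x hx => D2_const_open hopen hz hx) hτ hh hV hL hQ0 hf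
      (fun W' hW' => abs_far hC0 (by positivity) le_rfl hf0 hf1 hW' (fun x hx =>
        D2_const_open (U := ball (0 : E) R) hopen' (fun y hy => by
          show (1 - φ y) * h y = 0
          have : ‖y‖ < R := by simpa using hy
          rw [hφ1 y this.le]; ring) (by simpa using hx)))
    rwa [hTeq] at key
  -- identification
  have hloc_eq : ∀ x0 : E, ∀ x ∈ ball x0 (ρ / 2), D2 (fun x => ψ (x - x0) * h x) x = D2 h x := by
    intro x0 x hx
    refine D2_congr_open (U := ball x0 (ρ / 2)) isOpen_ball (fun y hy => ?_) hx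
    have : dist y x0 < ρ / 2 := hy
    rw [dist_eq_norm] at this
    rw [hψ1 _ this.le, one_mul]
  have hfar_eq : ∀ x : E, 2 * R ≤ ‖x‖ → D2 (fun x => (1 - φ x) * h x) x = D2 h x := by
    intro x hx
    have hopen : IsOpen (closedBall (0 : E) (3 / 2 * R))ᶜ := isClosed_closedBall.isOpen_compl
    refine D2_congr_open (U := (closedBall (0 : E) (3 / 2 * R))ᶜ) hopen (fun y hy => ?_) ?_
    · have : ¬ dist y 0 ≤ 3 / 2 * R := hy
      rw [dist_zero_right] at this
      rw [hφ0 y (by linarith)]; ring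
    · show ¬ dist x 0 ≤ 3 / 2 * R
      rw [dist_zero_right]
      intro h'
      linarith
  have hsup : ∀ x : E, ‖D2 h x‖ ≤ T := by
    intro x
    rcases lt_or_ge ‖x‖ (2 * R) with hx | hx
    · rw [← hloc_eq x x (mem_ball_self (by positivity))]
      exact (hloc x hx.le).bdd x
    · rw [← hfar_eq x hx]
      exact hfar.bdd x
  have hγT : T ≤ γ * T := by
    have : 1 * T ≤ γ * T := mul_le_mul_of_nonneg_right (by linarith) hT0
    linarith
  have hhol1 : ∀ x y : E, ‖x‖ < 2 * R → ‖D2 h x - D2 h y‖ ≤ γ * T * ‖x - y‖ ^ a := by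
    intro x y hx
    have hp : 0 ≤ ‖x - y‖ ^ a := Real.rpow_nonneg (norm_nonneg _) _
    rcases lt_or_ge (dist y x) (ρ / 2) with hxy | hxy
    · have h1 := (hloc x hx.le).hol x y
      rw [hloc_eq x x (mem_ball_self (by positivity)), hloc_eq x y hxy] at h1
      exact h1.trans (by gcongr)
    · have h1 := norm_sub_le (D2 h x) (D2 h y)
      have h2 := hsup x
      have h3 := hsup y
      rw [dist_eq_norm, norm_sub_rev] at hxy
      have h4 : 1 ≤ (2 / ρ) ^ a * ‖x - y‖ ^ a := by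
        rw [← Real.mul_rpow (by positivity) (norm_nonneg _)]
        refine Real.one_le_rpow ?_ ha.le
        rw [div_mul_eq_mul_div, le_div_iff₀ hρ]
        linarith
      have h5 : 2 * T * 1 ≤ 2 * T * ((2 / ρ) ^ a * ‖x - y‖ ^ a) := by gcongr
      have h6 : γ * T * ‖x - y‖ ^ a = 2 * T * ((2 / ρ) ^ a * ‖x - y‖ ^ a) := by rw [hγ]; ring
      rw [h6]
      linarith
  have hres : HB a (γ * T) (D2 h) := by
    refine ⟨fun x => (hsup x).trans hγT, fun x y => ?_⟩
    rcases lt_or_ge ‖x‖ (2 * R) with hx | hx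
    · exact hhol1 x y hx
    · rcases lt_or_ge ‖y‖ (2 * R) with hy | hy
      · have := hhol1 y x hy
        rw [norm_sub_rev x y, norm_sub_rev (D2 h x)]
        exact this
      · have h1 := hfar.hol x y
        rw [hfar_eq x hx, hfar_eq y hy] at h1
        exact h1.trans (mul_le_mul_of_nonneg_right hγT (Real.rpow_nonneg (norm_nonneg _) _))
  refine hres.mono (le_of_eq_of_le (b := γ * α * N + γ * β * (C1 + C2) * S + γ * β * ε * W) ?_ ?_)
  · rw [hT, hQ]; ring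
  · have := mul_le_mul_of_nonneg_right hεγ hW0
    linarith

end Crest.Agent.R238.Sch
end

-- ▼ part R238/SchFrozen

/-!
Row 238, module H3 (B): the frozen statement `Apr.SchStmt` from `Sch.schauder_B` and `repStmt`.
-/

set_option autoImplicit false

open Set Filter

namespace Crest.Agent.R238.Sch

open Crest.Agent.R238

variable {n : ℕ}

theorem ee_eq (i : Fin n) : (Sch.ee i : EuclideanSpace ℝ (Fin n)) = EuclideanSpace.single i 1 := rfl

theorem Hs_eq (h : R238.E n → ℝ) (x : R238.E n) (i j : Fin n) :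
    Hs h x i j = D2 h x (Sch.ee i) (Sch.ee j) := rfl

theorem Lop_eq (τ : R238.E n → Matrix (Fin n) (Fin n) ℝ) (lam : ℝ) (h : R238.E n → ℝ) :
    Lop τ lam h = fun x => LA τ h x + lam * h x := rfl

theorem hb_iff {a M : ℝ} {f : R238.E n → ℝ} : Sch.HB a M f ↔ R238.HB a M f :=
  ⟨fun h => ⟨h.bdd, h.hol⟩, fun h => ⟨h.1, h.2⟩⟩

theorem ell_one' {lo hi : ℝ} (hlo : lo ≤ 1) (hhi : 1 ≤ hi) :
    Ell lo hi (1 : Matrix (Fin n) (Fin n) ℝ) := by
  refine ⟨fun i j => ?_, fun v => ?_⟩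
  · simp [Matrix.one_apply, eq_comm]
  · have e : ∑ i, ∑ j, (1 : Matrix (Fin n) (Fin n) ℝ) i j * v i * v j = ∑ i, v i ^ 2 := by
      refine Finset.sum_congr rfl fun i _ => ?_
      simp only [Matrix.one_apply, ite_mul, one_mul, zero_mul, Finset.sum_ite_eq,
        Finset.mem_univ, if_true]
      ring
    have h0 : 0 ≤ ∑ i, v i ^ 2 := Finset.sum_nonneg fun i _ => sq_nonneg _
    rw [e]
    constructor <;> nlinarith

theorem ell_mono {lo hi lo' hi' : ℝ} (hlo : lo' ≤ lo) (hhi : hi ≤ hi')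
    {A : Matrix (Fin n) (Fin n) ℝ} (h : Ell lo hi A) : Ell lo' hi' A := by
  refine ⟨h.1, fun z => ?_⟩
  have h0 : 0 ≤ ∑ i, z i ^ 2 := Finset.sum_nonneg fun i _ => sq_nonneg _
  exact ⟨(mul_le_mul_of_nonneg_right hlo h0).trans (h.2 z).1,
    (h.2 z).2.trans (mul_le_mul_of_nonneg_right hhi h0)⟩

theorem sa_of_rep {a lo hi C lam : ℝ} (hC : 0 < C) (hlam : lam = 0 ∨ lam = 1)
    (hR : ∀ A : Matrix (Fin n) (Fin n) ℝ, Ell lo hi A →
      ∀ lam : ℝ, (lam = 0 ∨ lam = 1) → ∀ (g : R238.E n → ℝ) (N : ℝ), ContDiff ℝ 2 g →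
      (∃ B : ℝ, ∀ x i j, |Hs g x i j| ≤ B) →
      R238.HB a N (fun x => LA (fun _ => A) g x + lam * g x) →
      ∀ i j, R238.HB a (C * N) (fun x => Hs g x i j))
    (A : Matrix (Fin n) (Fin n) ℝ) (hA : Ell lo hi A) :
    SA a ((n : ℝ) ^ 2 * C + 1) lam A := by
  intro g N hg hB hN
  obtain ⟨B, hB⟩ := hB
  have h1 := hR A hA lam hlam g N hg ⟨B, fun x i j => (norm_entry_le _ i j).trans (hB x)⟩
    (hb_iff.1 hN)
  have h2 : Sch.HB a ((n : ℝ) ^ 2 * (C * N)) (D2 g) :=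
    HB.of_entry (fun i j => hb_iff.2 (h1 i j))
  refine h2.mono ?_
  have := hN.nonneg
  nlinarith

/-- (B), one `lam`. -/
theorem sch_lam (n : ℕ) {a lo hi lam : ℝ} (ha : 0 < a) (ha1 : a < 1) (hlo : 0 < lo)
    (hlohi : lo ≤ hi) (hlam : lam = 0 ∨ lam = 1) :
    ∃ ε₀ : ℝ, 0 < ε₀ ∧ ∀ M R : ℝ, ∃ C : ℝ, 0 < C ∧
    ∀ τ : R238.E n → Matrix (Fin n) (Fin n) ℝ, (∀ x, Ell lo hi (τ x)) →
      (∀ i j, R238.HB a M (fun x => τ x i j)) → (∀ ε ≤ ε₀, Apr.Far a ε R τ →
       ∀ (h : R238.E n → ℝ) (N S : ℝ), ContDiff ℝ 2 h →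
        (∃ B, ∀ i j, R238.HB a B (fun x => Hs h x i j)) →
        R238.HB a N (fun x => LA τ h x + lam * h x) →
        (∀ x, ‖x‖ ≤ 3 * (max R 1) + 3 → |h x| ≤ S) →
        ∀ i j, R238.HB a (C * (N + S)) (fun x => Hs h x i j)) := by
  obtain ⟨C0, hC0, hR⟩ := AEst.repStmt n a (min lo 1) (max hi 1) ha ha1 (by positivity)
    ((min_le_left _ _).trans (hlohi.trans (le_max_left _ _)))
  obtain ⟨ε₀, hε₀, H⟩ := schauder_B (n := n) (a := a) (C0 := (n : ℝ) ^ 2 * C0 + 1) (lam := lam)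
    ha ha1 (by positivity) (Ell (min lo 1) (max hi 1))
    (ell_one' (min_le_right _ _) (le_max_right _ _)) (fun A hA => sa_of_rep hC0 hlam hR A hA)
  refine ⟨ε₀, hε₀, fun M R => ?_⟩
  obtain ⟨C, hC, H1⟩ := H (max M 0) (max R 1) (le_max_right _ _)
    (lt_of_lt_of_le one_pos (le_max_right _ _))
  refine ⟨C + 1, by linarith, fun τ hell hτ ε hε hfar h N S hh hB hN hS i j => ?_⟩
  obtain ⟨V, hV⟩ := hB
  have hS0 : 0 ≤ S := (abs_nonneg _).trans (hS 0 (by simp; positivity))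
  have hN0 : 0 ≤ N := (abs_nonneg _).trans (hN.1 0)
  have h1 := H1 τ h N S _ (fun x => ell_mono (min_le_left _ _) (le_max_left _ _) (hell x))
    (fun i j => (hb_iff.2 (hτ i j)).mono (le_max_left _ _))
    (fun i j x hx => ((hfar x x ((le_max_left _ _).trans hx) ((le_max_left _ _).trans hx) i j).1).trans
      hε)
    (fun i j x y hx hy => ((hfar x y ((le_max_left _ _).trans hx)
      ((le_max_left _ _).trans hy) i j).2).trans
      (mul_le_mul_of_nonneg_right hε (Real.rpow_nonneg (norm_nonneg _) _)))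
    hh (HB.of_entry (fun i j => hb_iff.2 (hV i j))) (by rw [Lop_eq]; exact hb_iff.2 hN) hS
  exact hb_iff.1 ((h1.entry i j).mono (by nlinarith))

/-- **(B)**: the variable coefficient Schauder estimate, frozen form. -/
theorem schStmt : Apr.SchStmt := by
  intro n a lo hi ha ha1 hlo hlohi
  obtain ⟨e0, he0, H0⟩ := sch_lam n ha ha1 hlo hlohi (lam := 0) (Or.inl rfl)
  obtain ⟨e1, he1, H1⟩ := sch_lam n ha ha1 hlo hlohi (lam := 1) (Or.inr rfl)
  refine ⟨min e0 e1, by positivity, fun M R => ?_⟩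
  obtain ⟨C0, hC0, K0⟩ := H0 M R
  obtain ⟨C1, hC1, K1⟩ := H1 M R
  refine ⟨C0 + C1, 3 * (max R 1) + 3, by positivity, ?_⟩
  intro τ hell hτ hfar lam hlam h N S hh hB hN hS i j
  have hS0 : 0 ≤ S := (abs_nonneg _).trans (hS 0 (by simp; positivity))
  have hN0 : 0 ≤ N := (abs_nonneg _).trans (hN.1 0)
  rcases hlam with rfl | rfl
  · have := K0 τ hell hτ _ (min_le_left _ _) hfar h N S hh hB hN hS i j
    exact hb_iff.1 ((hb_iff.2 this).mono (by nlinarith))
  · have := K1 τ hell hτ _ (min_le_right _ _) hfar h N S hh hB hN hS i j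
    exact hb_iff.1 ((hb_iff.2 this).mono (by nlinarith))

end Crest.Agent.R238.Sch
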