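import Crest.Agent.R238.AprLin
import Crest.Agent.R238.StepDefs

/-!
Row 238 (S0369), existence assembly (helper912): inverse matrices of elliptic Hölder fields and
exterior smallness.  Everything stated with plain inequalities.
-/

set_option autoImplicit false

open Finset

namespace Crest.Agent.R238.ExtInv

open Crest.Agent.R238

variable {n : ℕ}

/-- entries of a triple product -/
theorem triple_le {A B C : Matrix (Fin n) (Fin n) ℝ} {p q r : ℝ}
    (hA : ∀ i j, |A i j| ≤ p) (hB : ∀ i j, |B i j| ≤ q) (hC : ∀ i j, |C i j| ≤ r)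
    (i j : Fin n) : |(A * B * C) i j| ≤ (n : ℝ) ^ 2 * (p * q * r) := by
  rw [Matrix.mul_apply]
  simp only [Matrix.mul_apply]
  have hpq : ∀ k l, |A i k * B k l * C l j| ≤ p * q * r := by
    intro k l
    rw [abs_mul, abs_mul]
    have h0 : 0 ≤ p := (abs_nonneg _).trans (hA i k)
    have h1 : 0 ≤ q := (abs_nonneg _).trans (hB k l)
    exact mul_le_mul (mul_le_mul (hA _ _) (hB _ _) (abs_nonneg _) h0) (hC _ _) (abs_nonneg _)
      (mul_nonneg h0 h1)
  calc |∑ l, (∑ k, A i k * B k l) * C l j| ≤ ∑ l, |(∑ k, A i k * B k l) * C l j| :=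
        abs_sum_le_sum_abs _ _
    _ ≤ ∑ _l : Fin n, ∑ _k : Fin n, p * q * r := by
        refine sum_le_sum fun l _ => ?_
        rw [sum_mul]
        exact (abs_sum_le_sum_abs _ _).trans (sum_le_sum fun k _ => hpq k l)
    _ = (n : ℝ) ^ 2 * (p * q * r) := by
        simp only [sum_const, card_univ, Fintype.card_fin, nsmul_eq_mul]
        ring

/-- resolvent identity -/
theorem inv_sub_inv {A B : Matrix (Fin n) (Fin n) ℝ} (hA : A⁻¹ * A = 1) (hB : B * B⁻¹ = 1) :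
    A⁻¹ - B⁻¹ = A⁻¹ * (B - A) * B⁻¹ := by
  rw [Matrix.mul_sub, Matrix.sub_mul, hA, Matrix.one_mul, Matrix.mul_assoc, hB, Matrix.mul_one]

theorem inv_entry {lo hi : ℝ} {A : Matrix (Fin n) (Fin n) ℝ} (h : Ell lo hi A) (hlo : 0 < lo)
    (hhi : 0 < hi) (i j : Fin n) : |A⁻¹ i j| ≤ 1 / lo :=
  Apr.Ell.entry (Apr.Ell.inv h hlo hhi) (by positivity) i j

theorem inv_diff {lo hi d : ℝ} {A B : Matrix (Fin n) (Fin n) ℝ} (hA : Ell lo hi A)
    (hB : Ell lo hi B) (hlo : 0 < lo) (hhi : 0 < hi) (hd : ∀ i j, |A i j - B i j| ≤ d)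
    (i j : Fin n) : |A⁻¹ i j - B⁻¹ i j| ≤ (n : ℝ) ^ 2 * (1 / lo) ^ 2 * d := by
  have h1 := inv_sub_inv (Apr.Ell.inv_mul hA hlo) (Apr.Ell.mul_inv hB hlo)
  have h2 : A⁻¹ i j - B⁻¹ i j = (A⁻¹ * (B - A) * B⁻¹) i j := by
    rw [← h1, Matrix.sub_apply]
  rw [h2]
  have h3 : ∀ k l, |(B - A) k l| ≤ d := by
    intro k l
    rw [Matrix.sub_apply, abs_sub_comm]
    exact hd k l
  refine (triple_le (inv_entry hA hlo hhi) h3 (inv_entry hB hlo hhi) i j).trans (le_of_eq ?_)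
  ring

/-- Hölder bound for the inverse field -/
theorem hb_inv {a lo hi M : ℝ} {A : E n → Matrix (Fin n) (Fin n) ℝ} (hlo : 0 < lo)
    (hhi : 0 < hi) (hA : ∀ x, Ell lo hi (A x)) (hM : ∀ i j, HB a M (fun x => A x i j))
    (i j : Fin n) :
    HB a (1 / lo + (n : ℝ) ^ 2 * (1 / lo) ^ 2 * |M|) (fun x => (A x)⁻¹ i j) := by
  have h0 : (0 : ℝ) ≤ (n : ℝ) ^ 2 * (1 / lo) ^ 2 * |M| := by positivity
  have h1 : (0 : ℝ) ≤ 1 / lo := by positivity
  refine ⟨fun x => ?_, fun x y => ?_⟩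
  · exact (inv_entry (hA x) hlo hhi i j).trans (by linarith)
  · have h2 := inv_diff (hA x) (hA y) hlo hhi (d := |M| * ‖x - y‖ ^ a) (fun k l =>
      ((hM k l).2 x y).trans (mul_le_mul_of_nonneg_right (le_abs_self M)
        (Real.rpow_nonneg (norm_nonneg _) _))) i j
    refine h2.trans ?_
    have h3 : 0 ≤ ‖x - y‖ ^ a := Real.rpow_nonneg (norm_nonneg _) _
    calc (n : ℝ) ^ 2 * (1 / lo) ^ 2 * (|M| * ‖x - y‖ ^ a)
        = ((n : ℝ) ^ 2 * (1 / lo) ^ 2 * |M|) * ‖x - y‖ ^ a := by ring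
      _ ≤ _ := mul_le_mul_of_nonneg_right (by linarith) h3



theorem Hs_symm {v : E n → ℝ} (hv : ContDiff ℝ 2 v) (x : E n) (i j : Fin n) :
    Hs v x i j = Hs v x j i := by
  have h := (hv.contDiffAt (x := x)).isSymmSndFDerivAt (by simp)
  exact h.eq _ _

theorem gm_apply (v : E n → ℝ) (x : E n) (i j : Fin n) :
    gm v x i j = (1 : Matrix (Fin n) (Fin n) ℝ) i j + Hs v x i j := by
  simp [gm]



end Crest.Agent.R238.ExtInv
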