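import Crest.Agent.R238.StepDefs
import Crest.Agent.R238.AprLin
import Crest.Agent.R238.AprDefs
import Crest.Agent.R238.AprDat
import Crest.Agent.R238.MaxPE
import Crest.Agent.R238.GapDat
import Crest.Agent.R238.ExiDefs

-- ▼ part R238/ExtSm
section

/-!
Row 238, node H7 (helper3): interpolation.  A decay bound `|D²v| ≤ K (1+|x|²)^(-1/4)` and a
Lipschitz bound for `D²v` give smallness of `D²v` and of `τ - 1` in `C^a` far out, and global
`HB` bounds.
-/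

set_option autoImplicit false

open MeasureTheory Set Filter
open scoped ContDiff Topology Matrix

namespace Crest.Agent.R238.ExtSm

open Crest.Agent.R238

variable {n : ℕ}

/-- `min (A, B) ≤ A^(1-a) B^a` -/
theorem le_rpow_of_le {a A B t : ℝ} (ha : 0 < a) (ha1 : a < 1) (ht : 0 ≤ t)
    (hA : t ≤ A) (hB : t ≤ B) : t ≤ A ^ (1 - a) * B ^ a := by
  rcases ht.eq_or_lt with h0 | h0
  · rw [← h0]
    exact mul_nonneg (Real.rpow_nonneg (h0 ▸ hA) _) (Real.rpow_nonneg (h0 ▸ hB) _)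
  · calc t = t ^ (1 - a) * t ^ a := by
          rw [← Real.rpow_add h0]; simp
      _ ≤ A ^ (1 - a) * B ^ a := mul_le_mul (Real.rpow_le_rpow ht hA (by linarith))
          (Real.rpow_le_rpow ht hB ha.le) (Real.rpow_nonneg ht _)
          (Real.rpow_nonneg (ht.trans hA) _)

/-- a bounded Lipschitz function is `HB` -/
theorem hb_of_lip {a M K : ℝ} (ha : 0 < a) (ha1 : a < 1) (hM : 0 ≤ M) (hK : 0 ≤ K) {f : E n → ℝ}
    (h1 : ∀ x, |f x| ≤ M) (h2 : ∀ x y, |f x - f y| ≤ K * ‖x - y‖) :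
    HB a (2 * M + K) f := by
  refine ⟨fun x => (h1 x).trans (by linarith), fun x y => ?_⟩
  have h3 : |f x - f y| ≤ 2 * M := by
    have := abs_sub (f x) (f y)
    linarith [h1 x, h1 y]
  rcases le_total ‖x - y‖ 1 with h4 | h4
  · rcases (norm_nonneg (x - y)).eq_or_lt with h0 | h0
    · have h5 := h2 x y
      rw [← h0] at h5 ⊢
      rw [mul_zero] at h5
      exact h5.trans (mul_nonneg (by linarith) (Real.rpow_nonneg le_rfl _))
    · have h5 : ‖x - y‖ ≤ ‖x - y‖ ^ a := by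
        conv_lhs => rw [← Real.rpow_one ‖x - y‖]
        exact Real.rpow_le_rpow_of_exponent_ge h0 h4 ha1.le
      calc |f x - f y| ≤ K * ‖x - y‖ := h2 x y
        _ ≤ K * ‖x - y‖ ^ a := mul_le_mul_of_nonneg_left h5 hK
        _ ≤ (2 * M + K) * ‖x - y‖ ^ a :=
          mul_le_mul_of_nonneg_right (by linarith) (Real.rpow_nonneg h0.le _)
  · have h5 : (1 : ℝ) ≤ ‖x - y‖ ^ a := Real.one_le_rpow h4 ha.le
    calc |f x - f y| ≤ 2 * M := h3
      _ ≤ (2 * M + K) * 1 := by linarith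
      _ ≤ (2 * M + K) * ‖x - y‖ ^ a := mul_le_mul_of_nonneg_left h5 (by linarith)

/-- scalar interpolation: decay + Lipschitz ⇒ small in `C^a` far out -/
theorem ext_small_scal {a K K3 R1 : ℝ} (ha : 0 < a) (ha1 : a < 1) (hK : 0 ≤ K) (hK3 : 0 ≤ K3)
    {eps : ℝ} (heps : 0 < eps) : ∃ R : ℝ, 0 < R ∧ R1 ≤ R ∧ ∀ f : E n → ℝ,
      (∀ x, R1 ≤ ‖x‖ → |f x| ≤ K * (1 + ‖x‖ ^ 2) ^ (-(1 / 4) : ℝ)) →
      (∀ x y, |f x - f y| ≤ K3 * ‖x - y‖) →
      ∀ x y, R ≤ ‖x‖ → R ≤ ‖y‖ → |f x| ≤ eps ∧ |f x - f y| ≤ eps * ‖x - y‖ ^ a := by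
  -- the target sup bound
  set q : ℝ := (eps / (K3 + 1) ^ a) ^ (1 / (1 - a)) / 2 with hq
  have hK31 : 0 < K3 + 1 := by linarith
  have hp : 0 < (K3 + 1) ^ a := Real.rpow_pos_of_pos hK31 _
  have hq0 : 0 < q := by
    rw [hq]; exact div_pos (Real.rpow_pos_of_pos (div_pos heps hp) _) two_pos
  set δ : ℝ := min eps q with hδ
  have hδ0 : 0 < δ := lt_min heps hq0
  have hδq : (2 * δ) ^ (1 - a) * (K3 + 1) ^ a ≤ eps := by
    have h1 : (2 * δ) ^ (1 - a) ≤ (2 * q) ^ (1 - a) :=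
      Real.rpow_le_rpow (by positivity) (by linarith [min_le_right eps q]) (by linarith)
    have h2 : (2 * q) ^ (1 - a) = eps / (K3 + 1) ^ a := by
      have : 2 * q = (eps / (K3 + 1) ^ a) ^ (1 / (1 - a)) := by rw [hq]; ring
      rw [this, ← Real.rpow_mul (div_pos heps hp).le, one_div, inv_mul_cancel₀ (by linarith),
        Real.rpow_one]
    rw [h2] at h1
    calc (2 * δ) ^ (1 - a) * (K3 + 1) ^ a ≤ eps / (K3 + 1) ^ a * (K3 + 1) ^ a :=
          mul_le_mul_of_nonneg_right h1 hp.le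
      _ = eps := div_mul_cancel₀ _ hp.ne'
  refine ⟨(K / δ) ^ 2 + |R1| + 1, by positivity, ?_, ?_⟩
  · have := le_abs_self R1
    have : 0 ≤ (K / δ) ^ 2 := sq_nonneg _
    linarith
  intro f hf hL
  have hsm : ∀ x : E n, (K / δ) ^ 2 + |R1| + 1 ≤ ‖x‖ → |f x| ≤ δ := by
    intro x hx
    have hx1 : R1 ≤ ‖x‖ := by
      have h1 := le_abs_self R1
      have h2 : 0 ≤ (K / δ) ^ 2 := sq_nonneg _
      linarith
    have hx2 : (K / δ) ^ 2 ≤ ‖x‖ := by
      have h1 := abs_nonneg R1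
      linarith
    have h1 := hf x hx1
    refine h1.trans ?_
    have hs : 0 < 1 + ‖x‖ ^ 2 := by positivity
    have h3 : (K / δ) ^ 4 ≤ 1 + ‖x‖ ^ 2 := by
      have : (K / δ) ^ 4 = ((K / δ) ^ 2) ^ 2 := by ring
      rw [this]
      have := pow_le_pow_left₀ (sq_nonneg (K / δ)) hx2 2
      linarith
    have h4 : K / δ ≤ (1 + ‖x‖ ^ 2) ^ (1 / 4 : ℝ) := by
      have h5 : K / δ = ((K / δ) ^ 4) ^ (1 / 4 : ℝ) := by
        rw [← Real.rpow_natCast, ← Real.rpow_mul (by positivity)]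
        norm_num
      rw [h5]
      exact Real.rpow_le_rpow (by positivity) h3 (by norm_num)
    rw [Real.rpow_neg hs.le, ← div_eq_mul_inv, div_le_iff₀ (Real.rpow_pos_of_pos hs _)]
    rw [div_le_iff₀ hδ0] at h4
    linarith
  intro x y hx hy
  have e1 := hsm x hx
  have e2 := hsm y hy
  refine ⟨e1.trans (min_le_left _ _), ?_⟩
  have e3 : |f x - f y| ≤ 2 * δ := by
    have := abs_sub (f x) (f y)
    linarith
  have e4 : |f x - f y| ≤ (K3 + 1) * ‖x - y‖ :=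
    (hL x y).trans (mul_le_mul_of_nonneg_right (by linarith) (norm_nonneg _))
  have e5 := le_rpow_of_le ha ha1 (abs_nonneg _) e3 e4
  rw [Real.mul_rpow hK31.le (norm_nonneg _), ← mul_assoc] at e5
  exact e5.trans (mul_le_mul_of_nonneg_right hδq (Real.rpow_nonneg (norm_nonneg _) _))

/-! ### matrix inverses -/

/-- `A⁻¹ - B⁻¹ = - A⁻¹ (A - B) B⁻¹`, entrywise bound -/
theorem inv_sub_inv_entry {lo hi : ℝ} (hlo : 0 < lo) (hlohi : lo ≤ hi)
    {A B : Matrix (Fin n) (Fin n) ℝ} (hA : Ell lo hi A) (hB : Ell lo hi B) {δ : ℝ}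
    (hd : ∀ i j, |A i j - B i j| ≤ δ) (i j : Fin n) :
    |A⁻¹ i j - B⁻¹ i j| ≤ (n : ℝ) ^ 2 * (1 / lo) ^ 2 * δ := by
  have hhi : 0 < hi := hlo.trans_le hlohi
  have h1 : A⁻¹ - B⁻¹ = -(A⁻¹ * (A - B) * B⁻¹) := by
    rw [Matrix.mul_sub, Matrix.sub_mul, Apr.Ell.inv_mul hA hlo, Matrix.one_mul,
      Matrix.mul_assoc, Apr.Ell.mul_inv hB hlo, Matrix.mul_one]
    abel
  have h2 : A⁻¹ i j - B⁻¹ i j = -(∑ l, (∑ k, A⁻¹ i k * (A k l - B k l)) * B⁻¹ l j) := by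
    have := congrFun (congrFun h1 i) j
    rw [Matrix.sub_apply, Matrix.neg_apply, Matrix.mul_apply] at this
    rw [this]
    simp only [Matrix.mul_apply, Matrix.sub_apply]
  rw [h2, abs_neg]
  have bA : ∀ k l, |A⁻¹ k l| ≤ 1 / lo := fun k l =>
    Apr.Ell.entry (Apr.Ell.inv hA hlo hhi) (by positivity) k l
  have bB : ∀ k l, |B⁻¹ k l| ≤ 1 / lo := fun k l =>
    Apr.Ell.entry (Apr.Ell.inv hB hlo hhi) (by positivity) k l
  have hl0 : 0 ≤ 1 / lo := by positivity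
  calc |∑ l, (∑ k, A⁻¹ i k * (A k l - B k l)) * B⁻¹ l j|
      ≤ ∑ l, |(∑ k, A⁻¹ i k * (A k l - B k l)) * B⁻¹ l j| := Finset.abs_sum_le_sum_abs _ _
    _ ≤ ∑ _l : Fin n, ((n : ℝ) * ((1 / lo) * δ)) * (1 / lo) := by
        refine Finset.sum_le_sum fun l _ => ?_
        rw [abs_mul]
        refine mul_le_mul ?_ (bB l j) (abs_nonneg _) ?_
        · calc |∑ k, A⁻¹ i k * (A k l - B k l)| ≤ ∑ k, |A⁻¹ i k * (A k l - B k l)| :=
                Finset.abs_sum_le_sum_abs _ _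
            _ ≤ ∑ _k : Fin n, (1 / lo) * δ := by
                refine Finset.sum_le_sum fun k _ => ?_
                rw [abs_mul]
                exact mul_le_mul (bA i k) (hd k l) (abs_nonneg _) hl0
            _ = (n : ℝ) * ((1 / lo) * δ) := by simp
        · have : 0 ≤ δ := (abs_nonneg _).trans (hd i j)
          positivity
    _ = (n : ℝ) ^ 2 * (1 / lo) ^ 2 * δ := by simp; ring

theorem ell_one {lo hi : ℝ} (h1 : lo ≤ 1) (h2 : 1 ≤ hi) :
    Ell lo hi (1 : Matrix (Fin n) (Fin n) ℝ) := by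
  refine ⟨fun i j => by simp [Matrix.one_apply, eq_comm], fun z => ?_⟩
  have h3 : ∑ i, ∑ j, (1 : Matrix (Fin n) (Fin n) ℝ) i j * z i * z j = ∑ i, z i ^ 2 := by
    refine Finset.sum_congr rfl fun i _ => ?_
    simp [Matrix.one_apply, ite_mul, sq]
  have h4 : 0 ≤ ∑ i, z i ^ 2 := Finset.sum_nonneg fun i _ => sq_nonneg _
  rw [h3]
  constructor <;> nlinarith

theorem ell_mono {lo hi lo' hi' : ℝ} {A : Matrix (Fin n) (Fin n) ℝ} (h : Ell lo hi A)
    (h1 : lo' ≤ lo) (h2 : hi ≤ hi') : Ell lo' hi' A := by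
  refine ⟨h.1, fun z => ?_⟩
  have h4 : 0 ≤ ∑ i, z i ^ 2 := Finset.sum_nonneg fun i _ => sq_nonneg _
  have h5 := h.2 z
  constructor <;> nlinarith [h5.1, h5.2]

theorem gm_entry (v : E n → ℝ) (x : E n) (i j : Fin n) :
    gm v x i j = (1 : Matrix (Fin n) (Fin n) ℝ) i j + Hs v x i j := by
  simp [gm, Matrix.add_apply]

theorem gm_sub (v : E n → ℝ) (x y : E n) (i j : Fin n) :
    gm v x i j - gm v y i j = Hs v x i j - Hs v y i j := by
  rw [gm_entry, gm_entry]; ring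

/-- Lipschitz bound for `τ` -/
theorem tauf_lip {lo hi : ℝ} (hlo : 0 < lo) (hlohi : lo ≤ hi) {v : E n → ℝ}
    (hg : ∀ x, Ell lo hi (gm v x)) {x y : E n} {δ : ℝ}
    (hL : ∀ i j, |Hs v x i j - Hs v y i j| ≤ δ) (i j : Fin n) :
    |tauf v x i j - tauf v y i j| ≤ (n : ℝ) ^ 2 * (1 / lo) ^ 2 * δ :=
  inv_sub_inv_entry hlo hlohi (hg x) (hg y) (fun k l => by rw [gm_sub]; exact hL k l) i j

/-- `τ - 1` is small where `D²v` is small -/
theorem tauf_sub_one {lo hi : ℝ} (hlo : 0 < lo) {v : E n → ℝ} {x : E n}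
    (hg : Ell lo hi (gm v x)) {δ : ℝ} (hL : ∀ i j, |Hs v x i j| ≤ δ) (i j : Fin n) :
    |tauf v x i j - (1 : Matrix (Fin n) (Fin n) ℝ) i j| ≤
      (n : ℝ) ^ 2 * (1 / (min lo 1)) ^ 2 * δ := by
  have h0 : 0 < min lo 1 := lt_min hlo one_pos
  have h1 : Ell (min lo 1) (max hi 1) (gm v x) := ell_mono hg (min_le_left _ _) (le_max_left _ _)
  have h2 : Ell (min lo 1) (max hi 1) (1 : Matrix (Fin n) (Fin n) ℝ) :=
    ell_one (min_le_right _ _) (le_max_right _ _)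
  have h3 : min lo 1 ≤ max hi 1 := (min_le_right _ _).trans (le_max_right _ _)
  have h4 := inv_sub_inv_entry h0 h3 h1 h2 (δ := δ)
    (fun k l => by rw [gm_entry]; simpa using hL k l) i j
  rwa [inv_one] at h4

/-- **interpolation**: decay and Lipschitz bound for `D²v` ⇒ smallness in `C^a` far out. -/
theorem ext_small {a lo hi K K3 R1 : ℝ} (n : ℕ) (ha : 0 < a) (ha1 : a < 1) (hlo : 0 < lo)
    (hlohi : lo ≤ hi) (hK : 0 ≤ K) (hK3 : 0 ≤ K3) {eps : ℝ} (heps : 0 < eps) :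
    ∃ R : ℝ, 0 < R ∧ R1 ≤ R ∧ ∀ v : E n → ℝ, (∀ x, Ell lo hi (gm v x)) →
      (∀ x, R1 ≤ ‖x‖ → ∀ i j, |Hs v x i j| ≤ K * (1 + ‖x‖ ^ 2) ^ (-(1 / 4) : ℝ)) →
      (∀ x y i j, |Hs v x i j - Hs v y i j| ≤ K3 * ‖x - y‖) →
      ∀ x y, R ≤ ‖x‖ → R ≤ ‖y‖ → ∀ i j,
        (|Hs v x i j| ≤ eps ∧ |Hs v x i j - Hs v y i j| ≤ eps * ‖x - y‖ ^ a) ∧
        |tauf v x i j - (1 : Matrix (Fin n) (Fin n) ℝ) i j| ≤ eps ∧
        |tauf v x i j - tauf v y i j| ≤ eps * ‖x - y‖ ^ a := by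
  set c1 : ℝ := (n : ℝ) ^ 2 * (1 / (min lo 1)) ^ 2 with hc1
  set c2 : ℝ := (n : ℝ) ^ 2 * (1 / lo) ^ 2 with hc2
  have hc10 : 0 ≤ c1 := by positivity
  have hc20 : 0 ≤ c2 := by positivity
  set eps' : ℝ := eps / (1 + c1 + c2) with heps'
  have hs : 0 < 1 + c1 + c2 := by linarith
  have hep : 0 < eps' := div_pos heps hs
  have hmul : eps' * (1 + c1 + c2) = eps := div_mul_cancel₀ _ hs.ne'
  obtain ⟨R, hR0, hR1, hR⟩ := ext_small_scal (n := n) (R1 := R1) ha ha1 hK hK3 hep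
  refine ⟨R, hR0, hR1, fun v hg hdec hL x y hx hy i j => ?_⟩
  have key : ∀ k l, |Hs v x k l| ≤ eps' ∧ |Hs v x k l - Hs v y k l| ≤ eps' * ‖x - y‖ ^ a :=
    fun k l => hR (fun z => Hs v z k l) (fun z hz => hdec z hz k l) (fun z w => hL z w k l)
      x y hx hy
  have hd : 0 ≤ ‖x - y‖ ^ a := Real.rpow_nonneg (norm_nonneg _) _
  have hle : eps' ≤ eps := by nlinarith
  have h1 : c1 * eps' ≤ eps := by nlinarith
  have h2 : c2 * eps' ≤ eps := by nlinarith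
  refine ⟨⟨(key i j).1.trans hle, (key i j).2.trans (mul_le_mul_of_nonneg_right hle hd)⟩,
    (tauf_sub_one hlo (hg x) (fun k l => (key k l).1) i j).trans h1, ?_⟩
  have h3 := tauf_lip hlo hlohi hg (fun k l => (key k l).2) i j
  refine h3.trans ?_
  rw [← hc2, ← mul_assoc]
  exact mul_le_mul_of_nonneg_right h2 hd

/-- entries of `D²v` are bounded when `1 + D²v` is elliptic -/
theorem Hs_le {lo hi : ℝ} (hlo : 0 < lo) {v : E n → ℝ} {x : E n} (hg : Ell lo hi (gm v x))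
    (i j : Fin n) : |Hs v x i j| ≤ hi + 1 := by
  have h1 : |gm v x i j| ≤ hi := Apr.Ell.entry hg hlo.le i j
  have h2 : |(1 : Matrix (Fin n) (Fin n) ℝ) i j| ≤ 1 := by
    rw [Matrix.one_apply]; split_ifs <;> simp
  have h3 : Hs v x i j = gm v x i j - (1 : Matrix (Fin n) (Fin n) ℝ) i j := by
    rw [gm_entry]; ring
  rw [h3]
  exact (abs_sub _ _).trans (by linarith)

/-- `HB` bound for `D²v` -/
theorem hb_Hs {a lo hi K3 : ℝ} (ha : 0 < a) (ha1 : a < 1) (hlo : 0 < lo) (hlohi : lo ≤ hi)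
    (hK3 : 0 ≤ K3) {v : E n → ℝ} (hg : ∀ x, Ell lo hi (gm v x))
    (hL : ∀ x y i j, |Hs v x i j - Hs v y i j| ≤ K3 * ‖x - y‖) (i j : Fin n) :
    HB a (2 * (hi + 1) + K3) (fun x => Hs v x i j) :=
  hb_of_lip ha ha1 (by linarith) hK3 (fun x => Hs_le hlo (hg x) i j) (fun x y => hL x y i j)

/-- `HB` bound for `τ` -/
theorem hb_tauf {a lo hi K3 : ℝ} (ha : 0 < a) (ha1 : a < 1) (hlo : 0 < lo) (hlohi : lo ≤ hi)
    (hK3 : 0 ≤ K3) {v : E n → ℝ} (hg : ∀ x, Ell lo hi (gm v x))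
    (hL : ∀ x y i j, |Hs v x i j - Hs v y i j| ≤ K3 * ‖x - y‖) (i j : Fin n) :
    HB a (2 * (1 / lo) + (n : ℝ) ^ 2 * (1 / lo) ^ 2 * K3) (fun x => tauf v x i j) := by
  refine hb_of_lip ha ha1 (by positivity) (by positivity) (fun x => ?_) (fun x y => ?_)
  · exact Apr.Ell.entry (Apr.Ell.inv (hg x) hlo (hlo.trans_le hlohi)) (by
      have := hlo.trans_le hlohi
      positivity) i j
  · have h := tauf_lip hlo hlohi hg (fun k l => hL x y k l) i j
    rw [mul_assoc ((n : ℝ) ^ 2 * (1 / lo) ^ 2)]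
    exact h

/-- Lipschitz bound from bounded partial derivatives -/
theorem lip_of_partials {f : E n → ℝ} (hf : Differentiable ℝ f) {M : ℝ}
    (h : ∀ x k, |fderiv ℝ f x (ee k)| ≤ M) (x y : E n) : |f x - f y| ≤ (n * M) * ‖x - y‖ := by
  have hb : ∀ z, ‖fderiv ℝ f z‖ ≤ n * M := by
    intro z
    rcases Nat.eq_zero_or_pos n with h0 | h0
    · subst h0
      have : fderiv ℝ f z = 0 := by
        ext w
        have : w = 0 := Subsingleton.elim _ _
        simp [this]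
      simp [this]
    have hM : 0 ≤ M := (abs_nonneg _).trans (h z ⟨0, h0⟩)
    refine ContinuousLinearMap.opNorm_le_bound _ (by positivity) fun w => ?_
    have hw : w = ∑ i, w i • EuclideanSpace.single i (1 : ℝ) := by
      ext k
      simp [Pi.single_apply, Finset.sum_apply]
    have e1 : fderiv ℝ f z w = ∑ i, w i * fderiv ℝ f z (ee i) := by
      conv_lhs => rw [hw]
      simp only [map_sum, map_smul, smul_eq_mul]
    rw [e1, Real.norm_eq_abs]
    calc |∑ i, w i * fderiv ℝ f z (ee i)| ≤ ∑ i, |w i * fderiv ℝ f z (ee i)| :=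
          Finset.abs_sum_le_sum_abs _ _
      _ ≤ ∑ _i : Fin n, ‖w‖ * M := by
          refine Finset.sum_le_sum fun i _ => ?_
          rw [abs_mul]
          refine mul_le_mul ?_ (h z i) (abs_nonneg _) (norm_nonneg _)
          rw [← Real.norm_eq_abs]
          exact PiLp.norm_apply_le w i
      _ = n * M * ‖w‖ := by simp; ring
  have h1 := Convex.norm_image_sub_le_of_norm_fderiv_le (𝕜 := ℝ) (f := f) (s := Set.univ)
    (fun z _ => hf z) (fun z _ => hb z) convex_univ (Set.mem_univ y) (Set.mem_univ x)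
  simpa [Real.norm_eq_abs] using h1

end Crest.Agent.R238.ExtSm
end

-- ▼ part R238/AprMain

/-!
Row 238, node APR (helper143): **assembly of the uniform a priori bounds**,
`PwStmt → D3Stmt → SchStmt → SupStmt → AprStmt`.
-/

set_option autoImplicit false

open Set Filter
open scoped ContDiff Topology

namespace Crest.Agent.R238.Apr

open Crest.Agent.R238

variable {n : ℕ}

/-- `D²(sP)` -/
noncomputable def pm (P : E n → ℝ) (s : ℝ) (x : E n) : Matrix (Fin n) (Fin n) ℝ :=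
  Matrix.of fun i j => s * Hs P x i j

/-- pointwise inequalities (E1), (E2) (H8, helper254) -/
def PwStmt : Prop := ∀ (n : ℕ) (P v : E n → ℝ) (s lo hi : ℝ), ContDiff ℝ ∞ P → ContDiff ℝ ∞ v →
  0 < lo → (∀ x, Ell lo hi (gm v x)) → MAeq P s v →
    (∀ z x, MaxP.qf v z x - MaxP.Q (pm P s x) z ≤ LA (tauf v) (MaxP.qf v z) x) ∧
    ∀ x, LA (tauf v) (fun y => Real.log (gm v y).det) x ≤
      n - (tauf v x * (1 + pm P s x)).trace

/-- uniform bound of the third derivatives (H8 + maximum principle) -/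
def D3Stmt : Prop := ∀ (n : ℕ) (P : E n → ℝ), PDat P → ∀ lo hi : ℝ, 0 < lo → lo ≤ hi →
  ∃ K : ℝ, ∀ s : ℝ, 0 ≤ s → s ≤ 1 → ∀ v : E n → ℝ, Nice v → (∀ x, Ell lo hi (gm v x)) →
    MAeq P s v → ∀ x i j k, |fderiv ℝ (fun y => Hs v y i j) x (ee k)| ≤ K

theorem Q_pm (P : E n → ℝ) (s : ℝ) (x : E n) (z : Fin n → ℝ) :
    MaxP.Q (pm P s x) z = s * ∑ i, ∑ j, Hs P x i j * z i * z j := by
  simp only [MaxP.Q, pm, Matrix.of_apply, Finset.mul_sum]
  exact Finset.sum_congr rfl fun i _ => Finset.sum_congr rfl fun j _ => by ring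

theorem pm_eq_zero {P : E n → ℝ} {x : E n} (s : ℝ) (h : P =ᶠ[𝓝 x] fun _ => 0) :
    pm P s x = 0 := by
  ext i j
  simp [pm, Hs_eq_zero_of_eventually h]

theorem apr_of (hPw : PwStmt) (hD3 : D3Stmt) (hS : SchStmt) (hG : SupStmt) : AprStmt := by
  intro n a ha ha1 P hP
  obtain ⟨c, C2, C3, M0, R0, hc⟩ := exists_PC hP
  have hC2pos : 0 < C2 := one_pos.trans_le hc.C2_ge
  -- ellipticity constants
  set lo : ℝ := Real.exp (n * Real.log c - (n - 1) * Real.log C2) with hlo_def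
  have hlo : 0 < lo := Real.exp_pos _
  have hlogc : Real.log c ≤ 0 := Real.log_nonpos hc.c_pos.le hc.c_le
  have hlogC : 0 ≤ Real.log C2 := Real.log_nonneg hc.C2_ge
  have hn0 : (0 : ℝ) ≤ n := Nat.cast_nonneg n
  have hlohi : lo ≤ C2 := by
    have h1 : n * Real.log c - (n - 1) * Real.log C2 ≤ Real.log C2 := by
      have h2 : n * Real.log c ≤ 0 := mul_nonpos_of_nonneg_of_nonpos hn0 hlogc
      have h3 : 0 ≤ n * Real.log C2 := mul_nonneg hn0 hlogC
      linarith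
    calc lo ≤ Real.exp (Real.log C2) := Real.exp_le_exp.2 h1
      _ = C2 := Real.exp_log hC2pos
  have hP2 : ContDiff ℝ 2 P := by exact_mod_cast contDiff_infty.1 hP.tst.smooth 2
  have hpsym : ∀ s x i j, pm P s x i j = pm P s x j i := by
    intro s x i j
    simp only [pm, Matrix.of_apply]
    rw [ExtInv.Hs_symm hP2]
  have hp1 : ∀ s : ℝ, 0 ≤ s → s ≤ 1 → ∀ x (z : Fin n → ℝ),
      c * ∑ i, z i ^ 2 ≤ ∑ i, z i ^ 2 + MaxP.Q (pm P s x) z := by
    intro s h0 h1 x z; rw [Q_pm]; exact hc.lower s h0 h1 x z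
  have hp2 : ∀ s : ℝ, 0 ≤ s → s ≤ 1 → ∀ x (z : Fin n → ℝ),
      ∑ i, z i ^ 2 + MaxP.Q (pm P s x) z ≤ C2 * ∑ i, z i ^ 2 := by
    intro s h0 h1 x z; rw [Q_pm]; exact hc.upper s h0 h1 x z
  -- third derivatives
  obtain ⟨K3, hK3⟩ := hD3 n P hP lo C2 hlo hlohi
  set L3 : ℝ := n * |K3| with hL3
  have hL30 : 0 ≤ L3 := by positivity
  -- decay
  set R : ℝ := max R0 (5 * (n / lo)) with hR
  have hR0 : 0 ≤ R := hc.R0_pos.le.trans (le_max_left _ _)
  have hRT : 5 * (n / lo) ≤ 1 + R ^ 2 := by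
    have h1 : 5 * (n / lo) ≤ R := le_max_right _ _
    nlinarith [sq_nonneg (R - 1)]
  set l : ℝ := -(n * Real.log c) with hl
  set pr : ℝ := (1 + R ^ 2) ^ (-(1 / 4) : ℝ) with hpr
  have hpr0 : 0 < pr := Real.rpow_pos_of_pos (by positivity) _
  set K : ℝ := (|C2 - 1| + |l|) / pr with hK
  have hK0 : 0 ≤ K := by positivity
  have hKpr : K * pr = |C2 - 1| + |l| := div_mul_cancel₀ _ hpr0.ne'
  have hK1 : C2 - 1 ≤ K * pr := by
    rw [hKpr]; linarith [le_abs_self (C2 - 1), abs_nonneg l]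
  have hK2 : l ≤ K * pr := by
    rw [hKpr]; linarith [le_abs_self l, abs_nonneg (C2 - 1)]
  -- the uniform statements
  have hmain : ∀ s : ℝ, 0 ≤ s → s ≤ 1 → ∀ v : E n → ℝ, Nice v →
      (∃ lo' hi' : ℝ, 0 < lo' ∧ ∀ x, Ell lo' hi' (gm v x)) → MAeq P s v →
      (∀ x, Ell lo C2 (gm v x)) ∧
      (∀ x, 0 ≤ ‖x‖ → ∀ i j, |Hs v x i j| ≤ n * K * (1 + ‖x‖ ^ 2) ^ (-(1 / 4) : ℝ)) ∧
      (∀ x y i j, |Hs v x i j - Hs v y i j| ≤ L3 * ‖x - y‖) := by
    intro s hs0 hs1 v hv hell' hma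
    obtain ⟨lo', hi', hlo', hell'⟩ := hell'
    have hv4 : ContDiff ℝ 4 v := by exact_mod_cast contDiff_infty.1 hv.smooth 4
    obtain ⟨H1, H2⟩ := hPw n P v s lo' hi' hP.tst.smooth hv.smooth hlo' hell' hma
    have hell : ∀ x, Ell lo C2 (gm v x) := MaxP.E12 hv4 hlo' hell' hc.c_pos hC2pos
      (hpsym s) (hp1 s hs0 hs1) (hp2 s hs0 hs1) H1 H2
    refine ⟨hell, ?_, ?_⟩
    · have hdet := MaxP.E2_det hv4 hlo' hell' hc.c_pos (hpsym s) (hp1 s hs0 hs1) H2
      have hfar : ∀ x, R < ‖x‖ → pm P s x = 0 := fun x hx =>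
        pm_eq_zero s (hc.far x ((le_max_left _ _).trans hx.le))
      have h3 := MaxP.E3 hv4 hlo hell (l := l) (fun x => by rw [hl]; linarith [hdet x]) hR0 hRT
        (fun z x hx => by
          have h := H1 z x
          rw [hfar x hx] at h
          have h0 : MaxP.Q (0 : Matrix (Fin n) (Fin n) ℝ) z = 0 := by simp [MaxP.Q]
          rw [h0, sub_zero] at h
          exact h)
        (fun x hx => by
          have h := H2 x
          rw [hfar x hx, add_zero, mul_one] at h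
          exact h)
        hK0 hK1 hK2
      intro x _ i j
      exact (h3 x).2 i j
    · intro x y i j
      have hd : Differentiable ℝ (fun y => Hs v y i j) :=
        (contDiff_Hs hv.smooth i j).differentiable (by simp)
      exact lip_of_partial hd (fun x k => hK3 s hs0 hs1 v hv hell hma x i j k) x y
  -- Hölder constants
  have hC2lo : (1 : ℝ) / C2 ≤ 1 / lo := one_div_le_one_div_of_le hlo hlohi
  obtain ⟨ε₀, hε₀, hcore⟩ := apr_core hS hG (n := n) ha ha1 (lo := 1 / C2) (hi := 1 / lo)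
    (by positivity) hC2lo
  obtain ⟨Rτ, -, -, hRτ⟩ := ExtSm.ext_small (R1 := 0) n ha ha1 hlo hlohi
    (K := n * K) (K3 := L3) (by positivity) hL30 hε₀
  obtain ⟨M2, hM2, hM2'⟩ := hcore (2 * (1 / lo) + (n : ℝ) ^ 2 * (1 / lo) ^ 2 * L3) Rτ M0
  refine ⟨lo, C2, 2 * (C2 + 1) + L3, M2, hlo, hlohi, fun ε hε => ?_⟩
  obtain ⟨Rε, -, -, hRε⟩ := ExtSm.ext_small (R1 := 0) n ha ha1 hlo hlohi
    (K := n * K) (K3 := L3) (by positivity) hL30 hε
  refine ⟨Rε, fun s hs0 hs1 v hv hev hell' hma => ?_⟩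
  obtain ⟨hell, hdec, hlip⟩ := hmain s hs0 hs1 v hv hell' hma
  have hv2 : ContDiff ℝ 2 v := by exact_mod_cast contDiff_infty.1 hv.smooth 2
  have hv3 : ContDiff ℝ 3 v := by exact_mod_cast contDiff_infty.1 hv.smooth 3
  refine ⟨hell, ⟨hv2, hev, fun i j => ?_⟩, ?_, ?_, ?_⟩
  · exact ExtSm.hb_Hs ha ha1 hlo hlohi hL30 hell hlip i j
  · -- the a priori estimate
    obtain ⟨K', hK'⟩ := hv.bdd 3 (by norm_num)
    have hDat := GapD.dat_of_maeq_bdd (M0 := M0) hlo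
      (hP.tst.smooth.of_le (by exact_mod_cast le_top)) hc.bdd (GapD.tst_pd_pg hP.tst)
      (abs_le.2 ⟨by linarith, hs1⟩) hv3 hK' hell hma
    refine hM2' (fun x => s * P x) (tauf v) hDat
      (fun i j => ExtSm.hb_tauf ha ha1 hlo hlohi hL30 hell hlip i j) ?_
    intro x y hx hy i j
    exact (hRτ v hell hdec hlip x y hx hy i j).2
  · intro x hx i j
    exact (hRε v hell hdec hlip x x hx hx i j).1.1
  · intro x y hx hy i j
    exact (hRε v hell hdec hlip x y hx hy i j).1.2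

end Crest.Agent.R238.Apr
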