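import Mathlib
import Crest.Agent.R238.TopAux
import Crest.Agent.R238.TopDefs
import Crest.Agent.R238.GapDat
import Crest.Agent.R238.GapPoinc

-- ▼ part R238/DenAbs
section

/-! Row 238, H10 (density): the abstract Hilbert space argument. (helper892) -/

set_option autoImplicit false
open scoped Topology InnerProductSpace
open Set Filter

noncomputable section

namespace Crest.Agent.R238.Den

variable {H : Type*} [NormedAddCommGroup H] [InnerProductSpace ℝ H] [CompleteSpace H]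
variable {T : Type*} [AddCommGroup T] [Module ℝ T]

/-- If `W` is in the closure of the test functions and orthogonal to `L(L+1)` of the test
functions, then `W` is a multiple of `J one`. -/
theorem abs_const (J : T →ₗ[ℝ] H) (L : T →ₗ[ℝ] T) (A : Submodule ℝ T) (N : Submodule ℝ T)
    (one : T)
    (hsymm : ∀ a b : T, ⟪J (L a), J b⟫_ℝ = ⟪J a, J (L b)⟫_ℝ)
    (hext2 : ∀ W : H, (∀ φ ∈ A, ⟪W, J (L (L φ + φ))⟫_ℝ = 0) → ∀ f ∈ N, ⟪W, J (L (L f + f))⟫_ℝ = 0)
    (hext1 : ∀ W : H, (∀ φ ∈ A, ⟪W, J (L φ)⟫_ℝ = 0) → ∀ f ∈ N, ⟪W, J (L f)⟫_ℝ = 0)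
    (hdense : ∀ f ∈ N, J f ∈ closure (J '' (A : Set T)))
    (hgap : ∃ K : ℝ, ∀ h ∈ N, ‖J h‖ ≤ K * ‖J (L h + h)‖)
    (hiso : ∀ χ ∈ A, ∃ h ∈ N, L h + h = χ)
    (hpoi : ∃ C : ℝ, ∀ h ∈ N, ‖J h‖ ^ 2 * ‖J one‖ ^ 2 - ⟪J h, J one⟫_ℝ ^ 2
      ≤ C * (- ⟪J (L h), J h⟫_ℝ))
    (W : H) (hWc : W ∈ closure (J '' (A : Set T)))
    (hW0 : ∀ φ ∈ A, ⟪W, J (L (L φ + φ))⟫_ℝ = 0) :
    ‖W‖ ^ 2 * ‖J one‖ ^ 2 - ⟪W, J one⟫_ℝ ^ 2 ≤ 0 := by
  classical
  obtain ⟨K, hK⟩ := hgap
  obtain ⟨C, hC⟩ := hpoi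
  set S : Submodule ℝ H := A.map J with hS
  have hSc : ∀ g ∈ N, J g ∈ S.topologicalClosure := by
    intro g hg
    have := hdense g hg
    rw [← SetLike.mem_coe, Submodule.topologicalClosure_coe]
    simpa [hS] using this
  have hWS : W ∈ S.topologicalClosure := by
    rw [← SetLike.mem_coe, Submodule.topologicalClosure_coe]
    simpa [hS] using hWc
  have hW2 := hext2 W hW0
  have hW1 : ∀ g ∈ N, ⟪W, J (L g)⟫_ℝ = 0 := by
    refine hext1 W fun χ hχ => ?_
    obtain ⟨h, hN, hh⟩ := hiso χ hχ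
    have := hW2 h hN
    rwa [hh] at this
  -- approximating sequence
  obtain ⟨y, hy, hylim⟩ := mem_closure_iff_seq_limit.1 hWc
  choose χ hχA hχ using hy
  choose h hhN hh using fun j => hiso (χ j) (hχA j)
  have hdiff : ∀ i j, ‖J (h i) - J (h j)‖ ≤ K * ‖y i - y j‖ := by
    intro i j
    have h1 := hK (h i - h j) (N.sub_mem (hhN i) (hhN j))
    have h2 : L (h i - h j) + (h i - h j) = χ i - χ j := by
      rw [map_sub, ← hh i, ← hh j]; abel
    rw [h2, map_sub, map_sub, hχ, hχ] at h1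
    exact h1
  have hcau : CauchySeq (fun j => J (h j)) := by
    have hy' : CauchySeq y := hylim.cauchySeq
    rw [Metric.cauchySeq_iff] at hy' ⊢
    intro ε hε
    obtain ⟨M, hM⟩ := hy' (ε / (|K| + 1)) (by positivity)
    refine ⟨M, fun i hi j hj => ?_⟩
    have h3 := hM i hi j hj
    rw [dist_eq_norm] at h3 ⊢
    have h4 := hdiff i j
    have h5 : K * ‖y i - y j‖ ≤ (|K| + 1) * ‖y i - y j‖ :=
      mul_le_mul_of_nonneg_right (by linarith [le_abs_self K]) (norm_nonneg _)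
    have h6 : (|K| + 1) * ‖y i - y j‖ < ε := by
      rw [lt_div_iff₀ (by positivity)] at h3
      linarith
    linarith
  obtain ⟨W', hW'⟩ := cauchySeq_tendsto_of_complete hcau
  have hW'S : W' ∈ S.topologicalClosure :=
    (Submodule.isClosed_topologicalClosure S).mem_of_tendsto hW'
      (Eventually.of_forall fun j => hSc _ (hhN j))
  have hWW : ∀ ξ ∈ A, ⟪W', J ξ⟫_ℝ = ⟪W, J ξ⟫_ℝ := by
    intro ξ hξ
    obtain ⟨k, hkN, hk⟩ := hiso ξ hξ
    have h1 : Tendsto (fun j => ⟪J (h j), J ξ⟫_ℝ) atTop (𝓝 ⟪W', J ξ⟫_ℝ) :=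
      hW'.inner tendsto_const_nhds
    have h2 : Tendsto (fun j => ⟪y j, J k⟫_ℝ) atTop (𝓝 ⟪W, J k⟫_ℝ) :=
      hylim.inner tendsto_const_nhds
    have h3 : ∀ j, ⟪J (h j), J ξ⟫_ℝ = ⟪y j, J k⟫_ℝ := by
      intro j
      rw [← hk, map_add, inner_add_right, ← hsymm, ← inner_add_left, ← map_add, hh, hχ]
    simp only [h3] at h1
    have h4 := tendsto_nhds_unique h1 h2
    rw [h4]
    have h5 := hW1 k hkN
    rw [← hk, map_add, inner_add_right, h5, zero_add]
  have hWeq : W' = W := by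
    have h1 : W' - W ∈ S.topologicalClosure := Submodule.sub_mem _ hW'S hWS
    have h2 : ∀ v ∈ S.topologicalClosure, ⟪v, W' - W⟫_ℝ = 0 := by
      intro v hv
      have hcl : IsClosed {v : H | ⟪v, W' - W⟫_ℝ = 0} :=
        isClosed_eq (continuous_id.inner continuous_const) continuous_const
      rw [← SetLike.mem_coe, Submodule.topologicalClosure_coe] at hv
      refine closure_minimal ?_ hcl hv
      rintro _ ⟨ξ, hξ, rfl⟩
      have := hWW ξ hξ
      rw [real_inner_comm (J ξ) W', real_inner_comm (J ξ) W] at this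
      change ⟪J ξ, W' - W⟫_ℝ = 0
      rw [inner_sub_right, this, sub_self]
    have h3 := h2 _ h1
    rw [inner_self_eq_zero, sub_eq_zero] at h3
    exact h3
  subst hWeq
  -- Poincaré
  have h1 : Tendsto (fun j => ‖J (h j)‖ ^ 2 * ‖J one‖ ^ 2 - ⟪J (h j), J one⟫_ℝ ^ 2) atTop
      (𝓝 (‖W'‖ ^ 2 * ‖J one‖ ^ 2 - ⟪W', J one⟫_ℝ ^ 2)) :=
    ((hW'.norm.pow 2).mul_const _).sub ((hW'.inner tendsto_const_nhds).pow 2)
  have h2 : Tendsto (fun j => C * (- ⟪y j - J (h j), J (h j)⟫_ℝ)) atTop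
      (𝓝 (C * (- ⟪W' - W', W'⟫_ℝ))) :=
    (((hylim.sub hW').inner hW').neg).const_mul C
  have h3 : C * (- ⟪W' - W', W'⟫_ℝ) = 0 := by simp
  rw [h3] at h2
  refine le_of_tendsto_of_tendsto' h1 h2 fun j => ?_
  have h4 := hC (h j) (hhN j)
  have h5 : J (L (h j)) = y j - J (h j) := by
    rw [← hχ, ← hh j, map_add]; abel
  rwa [h5] at h4

/-- Abstract density: every `F` in the closure of the test functions with mean zero is in the
closure of `L(L+1)` (test functions). -/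
theorem abs_density (J : T →ₗ[ℝ] H) (L : T →ₗ[ℝ] T) (A : Submodule ℝ T) (N : Submodule ℝ T)
    (one : T) (hone : L one = 0) (hone0 : J one ≠ 0)
    (hsymm : ∀ a b : T, ⟪J (L a), J b⟫_ℝ = ⟪J a, J (L b)⟫_ℝ)
    (hLA : ∀ φ ∈ A, L (L φ + φ) ∈ A)
    (hext2 : ∀ W : H, (∀ φ ∈ A, ⟪W, J (L (L φ + φ))⟫_ℝ = 0) → ∀ f ∈ N, ⟪W, J (L (L f + f))⟫_ℝ = 0)
    (hext1 : ∀ W : H, (∀ φ ∈ A, ⟪W, J (L φ)⟫_ℝ = 0) → ∀ f ∈ N, ⟪W, J (L f)⟫_ℝ = 0)
    (hdense : ∀ f ∈ N, J f ∈ closure (J '' (A : Set T)))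
    (hgap : ∃ K : ℝ, ∀ h ∈ N, ‖J h‖ ≤ K * ‖J (L h + h)‖)
    (hiso : ∀ χ ∈ A, ∃ h ∈ N, L h + h = χ)
    (hpoi : ∃ C : ℝ, ∀ h ∈ N, ‖J h‖ ^ 2 * ‖J one‖ ^ 2 - ⟪J h, J one⟫_ℝ ^ 2
      ≤ C * (- ⟪J (L h), J h⟫_ℝ))
    (F : H) (hF : F ∈ closure (J '' (A : Set T))) (hF0 : ⟪F, J one⟫_ℝ = 0) :
    F ∈ closure ((fun φ => J (L (L φ + φ))) '' (A : Set T)) := by
  classical
  set S : Submodule ℝ H := A.map J with hS
  set G : T →ₗ[ℝ] T := L ∘ₗ (L + LinearMap.id) with hG
  have hGa : ∀ φ, G φ = L (L φ + φ) := fun φ => by simp [hG]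
  set V : Submodule ℝ H := A.map (J ∘ₗ G) with hV
  have hVcoe : (V : Set H) = (fun φ => J (L (L φ + φ))) '' (A : Set T) := by
    ext z
    constructor
    · rintro ⟨φ, hφ, rfl⟩
      exact ⟨φ, hφ, by simp [hGa]⟩
    · rintro ⟨φ, hφ, rfl⟩
      exact ⟨φ, hφ, by simp [hGa]⟩
  have hVS : V.topologicalClosure ≤ S.topologicalClosure := by
    refine Submodule.topologicalClosure_minimal _ ?_ (Submodule.isClosed_topologicalClosure _)
    rintro _ ⟨φ, hφ, rfl⟩
    refine S.le_topologicalClosure ⟨_, hLA φ hφ, by simp [hGa]⟩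
  have : CompleteSpace V.topologicalClosure :=
    (Submodule.isClosed_topologicalClosure V).completeSpace_coe
  obtain ⟨p, hp, W, hW, hpW⟩ := V.topologicalClosure.exists_add_mem_mem_orthogonal F
  have hFS : F ∈ S.topologicalClosure := by
    rw [← SetLike.mem_coe, Submodule.topologicalClosure_coe]
    simpa [hS] using hF
  have hWS : W ∈ S.topologicalClosure := by
    have : W = F - p := by rw [hpW]; abel
    rw [this]
    exact Submodule.sub_mem _ hFS (hVS hp)
  have hWc : W ∈ closure (J '' (A : Set T)) := by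
    rw [← SetLike.mem_coe, Submodule.topologicalClosure_coe] at hWS
    simpa [hS] using hWS
  have hW0 : ∀ φ ∈ A, ⟪W, J (L (L φ + φ))⟫_ℝ = 0 := by
    intro φ hφ
    have h1 : J (L (L φ + φ)) ∈ V.topologicalClosure := by
      refine V.le_topologicalClosure ⟨φ, hφ, by simp [hGa]⟩
    rw [real_inner_comm]
    exact (Submodule.mem_orthogonal _ _).1 hW _ h1
  have hWk := abs_const J L A N one hsymm hext2 hext1 hdense hgap hiso hpoi W hWc hW0
  have hp1 : ⟪p, J one⟫_ℝ = 0 := by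
    have hcl : IsClosed {v : H | ⟪v, J one⟫_ℝ = 0} :=
      isClosed_eq (continuous_id.inner continuous_const) continuous_const
    rw [← SetLike.mem_coe, Submodule.topologicalClosure_coe] at hp
    refine closure_minimal ?_ hcl hp
    rintro _ ⟨φ, -, rfl⟩
    change ⟪J (G φ), J one⟫_ℝ = 0
    rw [hGa, hsymm, hone]; simp
  have hW1 : ⟪W, J one⟫_ℝ = 0 := by
    have : W = F - p := by rw [hpW]; abel
    rw [this, inner_sub_left, hF0, hp1, sub_self]
  rw [hW1] at hWk
  have hepos : 0 < ‖J one‖ ^ 2 := by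
    have := norm_pos_iff.2 hone0
    positivity
  have hWz : W = 0 := by
    have h2 : ‖W‖ ^ 2 ≤ 0 := by
      by_contra hcon
      push Not at hcon
      have := mul_pos hcon hepos
      linarith
    have h3 : ‖W‖ = 0 := pow_eq_zero_iff (two_ne_zero) |>.1 (le_antisymm h2 (sq_nonneg _))
    exact norm_eq_zero.1 h3
  rw [hWz, add_zero] at hpW
  rw [hpW, ← hVcoe]
  rw [← SetLike.mem_coe, Submodule.topologicalClosure_coe] at hp
  exact hp

end Crest.Agent.R238.Den
end
end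

-- ▼ part R238/DenDense
section

/-! Row 238, H10 (density): even test functions are dense in `L²(wt P)`, for even continuous
functions of quadratic growth (helper34). -/

set_option autoImplicit false
open scoped ContDiff Topology
open Set Filter MeasureTheory Function

noncomputable section

namespace Crest.Agent.R238.Den

variable {n : ℕ}

theorem wt_nonneg' (P : E n → ℝ) (x : E n) : 0 ≤ wt P x := (Real.exp_pos _).le

theorem wt_cont {P : E n → ℝ} (hP : PDat P) : Continuous (wt P) := by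
  have := hP.cont
  unfold wt
  fun_prop

theorem wt_even {P : E n → ℝ} (hP : PDat P) (x : E n) : wt P (-x) = wt P x := by
  unfold wt
  rw [norm_neg, hP.even]

/-- the measure `wt P dx` -/
def muP (P : E n → ℝ) : Measure (E n) := volume.withDensity fun x => ENNReal.ofReal (wt P x)

theorem integrable_muP {P : E n → ℝ} (hP : PDat P) {f : E n → ℝ} :
    Integrable f (muP P) ↔ Integrable (fun x => f x * wt P x) := by
  unfold muP
  rw [integrable_withDensity_iff_integrable_smul']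
  · refine integrable_congr (Eventually.of_forall fun x => ?_)
    simp only [smul_eq_mul]
    rw [ENNReal.toReal_ofReal (wt_nonneg' P x), mul_comm]
  · exact (wt_cont hP).measurable.ennreal_ofReal
  · exact Eventually.of_forall fun x => ENNReal.ofReal_lt_top

theorem integral_muP {P : E n → ℝ} (hP : PDat P) (f : E n → ℝ) :
    ∫ x, f x ∂(muP P) = ∫ x, f x * wt P x := by
  unfold muP
  rw [integral_withDensity_eq_integral_toReal_smul]
  · refine integral_congr_ae (Eventually.of_forall fun x => ?_)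
    simp only [smul_eq_mul]
    rw [ENNReal.toReal_ofReal (wt_nonneg' P x), mul_comm]
  · exact (wt_cont hP).measurable.ennreal_ofReal
  · exact Eventually.of_forall fun x => ENNReal.ofReal_lt_top

theorem finite_muP {P : E n → ℝ} (hP : PDat P) : IsFiniteMeasure (muP P) :=
  isFiniteMeasure_withDensity_ofReal hP.integrable_wt.2

theorem dense_even {P : E n → ℝ} (hP : PDat P) {f : E n → ℝ} (hf : Continuous f)
    (he : ∀ x, f (-x) = f x) {C : ℝ} (hC : ∀ x, |f x| ≤ C * (1 + ‖x‖ ^ 2)) {ε : ℝ}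
    (hε : 0 < ε) : ∃ χ : E n → ℝ, Tst χ ∧ (∀ x, χ (-x) = χ x) ∧
      ∫ x, (f x - χ x) ^ 2 * wt P x ≤ ε := by
  have := finite_muP hP
  have hC0 : 0 ≤ C := by
    have := (abs_nonneg _).trans (hC 0)
    simpa using this
  have hpg : Gap.PG f := Gap.PG.of_le (K := C) (k := 2) fun x => (hC x).trans
    (mul_le_mul_of_nonneg_left (by nlinarith [norm_nonneg x]) hC0)
  have hm : MemLp f 2 (muP P) := by
    rw [memLp_two_iff_integrable_sq hf.aestronglyMeasurable, integrable_muP hP]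
    exact hP.integrable (hf.pow 2) (hpg.pow 2)
  obtain ⟨g, hg1, hg2, hg3⟩ := hm.exist_eLpNorm_sub_le (by norm_num) (by norm_num)
    (Real.sqrt_pos.2 hε)
  have hgm : MemLp g 2 (muP P) := hg2.continuous.memLp_of_hasCompactSupport hg1
  have hgpg : Gap.PG g := Tst.pg ⟨hg2, hg1⟩
  have hI : ∫ x, (f x - g x) ^ 2 * wt P x ≤ ε := by
    rw [← integral_muP hP]
    have h1 := (hm.sub hgm).eLpNorm_eq_integral_rpow_norm (by norm_num) (by norm_num)
    rw [h1] at hg3
    have h2 := (ENNReal.ofReal_le_ofReal_iff (Real.sqrt_nonneg _)).1 hg3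
    have h4 : (∫ x, ‖(f - g) x‖ ^ (2 : ENNReal).toReal ∂(muP P))
        = ∫ x, (f x - g x) ^ 2 ∂(muP P) := by
      refine integral_congr_ae (Eventually.of_forall fun x => ?_)
      simp
    rw [h4] at h2
    have h3 : 0 ≤ ∫ x, (f x - g x) ^ 2 ∂(muP P) := integral_nonneg fun _ => sq_nonneg _
    have h5 : Real.sqrt (∫ x, (f x - g x) ^ 2 ∂(muP P)) ≤ Real.sqrt ε := by
      rw [Real.sqrt_eq_rpow]
      refine le_trans (le_of_eq ?_) h2
      norm_num
    exact (Real.sqrt_le_sqrt_iff hε.le).1 h5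
  refine ⟨fun x => (g x + g (-x)) / 2, ⟨?_, ?_⟩, fun x => ?_, ?_⟩
  · exact (hg2.add (hg2.comp contDiff_neg)).div_const 2
  · have h1 : HasCompactSupport (fun x => g (-x)) :=
      hg1.comp_homeomorph (Homeomorph.neg (E n))
    have h2 := (hg1.add h1)
    refine h2.mono fun x hx => ?_
    simp only [mem_support, ne_eq] at hx ⊢
    intro h0
    apply hx
    have : g x + g (-x) = 0 := h0
    simp [this]
  · simp only [neg_neg]; ring
  · have hint : Integrable fun x => (f x - g x) ^ 2 * wt P x :=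
      hP.integrable ((hf.sub hg2.continuous).pow 2) ((hpg.sub hgpg).pow 2)
    have hint' : Integrable fun x => (f (-x) - g (-x)) ^ 2 * wt P (-x) := hint.comp_neg
    have e1 : ∫ x, (f (-x) - g (-x)) ^ 2 * wt P (-x) = ∫ x, (f x - g x) ^ 2 * wt P x :=
      integral_neg_eq_self (fun x => (f x - g x) ^ 2 * wt P x) volume
    have h6 : ∫ x, (f x - (g x + g (-x)) / 2) ^ 2 * wt P x
        ≤ ∫ x, (1 / 2 * ((f x - g x) ^ 2 * wt P x)
          + 1 / 2 * ((f (-x) - g (-x)) ^ 2 * wt P (-x))) := by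
      refine integral_mono_of_nonneg (Eventually.of_forall fun x => ?_)
        ((hint.const_mul _).add (hint'.const_mul _)) (Eventually.of_forall fun x => ?_)
      · exact mul_nonneg (sq_nonneg _) (wt_nonneg' P x)
      · have h7 := wt_nonneg' P x
        simp only [wt_even hP, he]
        nlinarith [mul_nonneg (sq_nonneg ((f x - g x) - (f x - g (-x)))) h7]
    rw [integral_add (hint.const_mul _) (hint'.const_mul _), integral_const_mul,
      integral_const_mul, e1] at h6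
    linarith

end Crest.Agent.R238.Den
end
end

-- ▼ part R238/DenTG
section

/-! Row 238, H10 (density): temperate functions, partial derivatives, weight `exp(-Ψ)`.
(helper892) -/

set_option autoImplicit false
open scoped ContDiff Topology
open Set Filter MeasureTheory Function

noncomputable section

namespace Crest.Agent.R238.Den

/-- Euclidean space -/
abbrev E (n : ℕ) := EuclideanSpace ℝ (Fin n)

variable {n : ℕ}

/-- basis vector -/
def bv (i : Fin n) : E n := EuclideanSpace.single i 1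

/-- partial derivative -/
def pd (i : Fin n) (f : E n → ℝ) (x : E n) : ℝ := fderiv ℝ f x (bv i)

/-- partial derivative in the `E n` directions, with a parameter -/
def pdt (i : Fin n) (F : ℝ × E n → ℝ) (p : ℝ × E n) : ℝ := fderiv ℝ F p (0, bv i)

section TG

variable {D F : Type*} [NormedAddCommGroup D] [NormedSpace ℝ D]
  [NormedAddCommGroup F] [NormedSpace ℝ F]

theorem tg_fderiv {f : D → F} (hf : f.HasTemperateGrowth) :
    (fderiv ℝ f).HasTemperateGrowth := by
  refine ⟨hf.1.fderiv_right (by simp), fun m => ?_⟩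
  obtain ⟨k, C, h⟩ := hf.2 (m + 1)
  exact ⟨k, C, fun x => by rw [norm_iteratedFDeriv_fderiv]; exact h x⟩

theorem tg_fderiv_apply {f : D → F} (hf : f.HasTemperateGrowth) (v : D) :
    (fun x => fderiv ℝ f x v).HasTemperateGrowth :=
  (ContinuousLinearMap.apply ℝ F v).hasTemperateGrowth.comp (tg_fderiv hf)

theorem tg_pd {f : E n → ℝ} (hf : f.HasTemperateGrowth) (i : Fin n) :
    (pd i f).HasTemperateGrowth := tg_fderiv_apply hf _

theorem tg_pdt {f : ℝ × E n → ℝ} (hf : f.HasTemperateGrowth) (i : Fin n) :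
    (pdt i f).HasTemperateGrowth := tg_fderiv_apply hf _

theorem tg_bound {f : D → F} (hf : f.HasTemperateGrowth) :
    ∃ (k : ℕ) (C : ℝ), 0 ≤ C ∧ ∀ x, ‖f x‖ ≤ C * (1 + ‖x‖) ^ k := by
  obtain ⟨k, C, hC, h⟩ := hf.norm_iteratedFDeriv_le_uniform 0
  exact ⟨k, C, hC, fun x => by simpa using h 0 le_rfl x⟩

theorem tg_cont {f : D → F} (hf : f.HasTemperateGrowth) : Continuous f := hf.1.continuous

theorem tg_diff {f : D → F} (hf : f.HasTemperateGrowth) : Differentiable ℝ f :=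
  hf.1.differentiable (by simp)

end TG

theorem tg_coord (i : Fin n) : (fun x : E n => x i).HasTemperateGrowth :=
  (EuclideanSpace.proj (𝕜 := ℝ) i : E n →L[ℝ] ℝ).hasTemperateGrowth

/-- `L f = ∑ τ_ij ∂_i ∂_j f - ∑ x_i ∂_i f` -/
def LL (τ : Fin n → Fin n → E n → ℝ) (f : E n → ℝ) (x : E n) : ℝ :=
  ∑ i, ∑ j, τ i j x * pd i (pd j f) x - ∑ i, x i * pd i f x

/-- `L` with a parameter -/
def LT (τ : Fin n → Fin n → E n → ℝ) (f : ℝ × E n → ℝ) (p : ℝ × E n) : ℝ :=
  ∑ i, ∑ j, τ i j p.2 * pdt i (pdt j f) p - ∑ i, p.2 i * pdt i f p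

theorem tg_LL {τ : Fin n → Fin n → E n → ℝ} (hτ : ∀ i j, (τ i j).HasTemperateGrowth)
    {f : E n → ℝ} (hf : f.HasTemperateGrowth) : (LL τ f).HasTemperateGrowth := by
  unfold LL
  refine HasTemperateGrowth.fun_sub (HasTemperateGrowth.sum fun i _ =>
    HasTemperateGrowth.sum fun j _ => (hτ i j).fun_mul (tg_pd (tg_pd hf j) i))
    (HasTemperateGrowth.sum fun i _ => (tg_coord i).fun_mul (tg_pd hf i))

theorem tg_LT {τ : Fin n → Fin n → E n → ℝ} (hτ : ∀ i j, (τ i j).HasTemperateGrowth)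
    {f : ℝ × E n → ℝ} (hf : f.HasTemperateGrowth) : (LT τ f).HasTemperateGrowth := by
  unfold LT
  have h2 : (fun p : ℝ × E n => p.2).HasTemperateGrowth :=
    (ContinuousLinearMap.snd ℝ ℝ (E n)).hasTemperateGrowth
  refine HasTemperateGrowth.fun_sub (HasTemperateGrowth.sum fun i _ =>
    HasTemperateGrowth.sum fun j _ => ((hτ i j).comp h2).fun_mul (tg_pdt (tg_pdt hf j) i))
    (HasTemperateGrowth.sum fun i _ => ((tg_coord i).comp h2).fun_mul (tg_pdt hf i))

theorem pd_slice {F : ℝ × E n → ℝ} (hF : Differentiable ℝ F) (i : Fin n) (t : ℝ) (x : E n) :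
    pd i (fun y => F (t, y)) x = pdt i F (t, x) := by
  have h1 : HasFDerivAt (fun y : E n => ((t, y) : ℝ × E n))
      (ContinuousLinearMap.inr ℝ ℝ (E n)) x := hasFDerivAt_prodMk_right t x
  have h2 := ((hF (t, x)).hasFDerivAt.comp x h1).fderiv
  unfold pd pdt
  change (fderiv ℝ (F ∘ fun y : E n => ((t, y) : ℝ × E n)) x) _ = _
  rw [h2]
  simp

theorem LL_slice {τ : Fin n → Fin n → E n → ℝ} {F : ℝ × E n → ℝ} (hF : F.HasTemperateGrowth)
    (t : ℝ) (x : E n) : LL τ (fun y => F (t, y)) x = LT τ F (t, x) := by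
  unfold LL LT
  have h1 : ∀ j, pd j (fun y => F (t, y)) = fun y => pdt j F (t, y) := fun j => by
    ext y; exact pd_slice (tg_diff hF) j t y
  simp only [h1]
  congr 1
  refine Finset.sum_congr rfl fun i _ => Finset.sum_congr rfl fun j _ => ?_
  rw [pd_slice (tg_diff (tg_pdt hF j)) i t x]

/-- the cut-off family -/
def cut (η : E n → ℝ) (f : E n → ℝ) (p : ℝ × E n) : ℝ := η (p.1 • p.2) * f p.2

theorem tg_cut {η f : E n → ℝ} (hη : η.HasTemperateGrowth) (hf : f.HasTemperateGrowth) :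
    (cut η f).HasTemperateGrowth := by
  unfold cut
  have h2 : (fun p : ℝ × E n => p.2).HasTemperateGrowth :=
    (ContinuousLinearMap.snd ℝ ℝ (E n)).hasTemperateGrowth
  have h1 : (fun p : ℝ × E n => p.1).HasTemperateGrowth :=
    (ContinuousLinearMap.fst ℝ ℝ (E n)).hasTemperateGrowth
  exact (hη.comp (h1.fun_smul h2)).fun_mul (hf.comp h2)

end Crest.Agent.R238.Den
end
end

-- ▼ part R238/DenW
section

/-! Row 238, H10 (density): integrability and integration by parts for the weight `exp(-Ψ)`.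
(helper892) -/

set_option autoImplicit false
open scoped ContDiff Topology
open Set Filter MeasureTheory Function

noncomputable section

namespace Crest.Agent.R238.Den

variable {n : ℕ}

/-- the weight: temperate and with a quadratic lower bound -/
structure Weight (Ψ : E n → ℝ) : Prop where
  tg : Ψ.HasTemperateGrowth
  low : ∃ c > 0, ∃ C : ℝ, ∀ x, c * ‖x‖ ^ 2 - C ≤ Ψ x

theorem integrable_gauss0 {c : ℝ} (hc : 0 < c) :
    Integrable (fun x : E n => Real.exp (-c * ‖x‖ ^ 2)) := by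
  have h := GaussianFourier.integrable_cexp_neg_mul_sq_norm_add (V := E n) (b := (c : ℂ))
    (by simpa using hc) 0 0
  have h2 := h.norm
  refine h2.congr (Filter.Eventually.of_forall fun x => ?_)
  simp only [Complex.norm_exp]
  congr 1
  simp
  left
  norm_cast

theorem poly_le_exp (k : ℕ) {c : ℝ} (hc : 0 < c) :
    ∃ C : ℝ, 0 ≤ C ∧ ∀ r : ℝ, 0 ≤ r → (1 + r) ^ k ≤ C * Real.exp (c * r ^ 2) := by
  refine ⟨(Nat.factorial k : ℝ) * Real.exp (1 + 1 / (4 * c)), by positivity, fun r hr => ?_⟩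
  have h1 := Real.pow_div_factorial_le_exp (x := 1 + r) (by positivity) k
  have h2 : (1 + r) ^ k ≤ (Nat.factorial k : ℝ) * Real.exp (1 + r) := by
    rw [div_le_iff₀ (by positivity)] at h1
    linarith
  refine h2.trans ?_
  rw [mul_assoc, ← Real.exp_add]
  refine mul_le_mul_of_nonneg_left (Real.exp_le_exp.2 ?_) (by positivity)
  have : 0 ≤ (2 * c * r - 1) ^ 2 / (4 * c) := by positivity
  have h3 : (2 * c * r - 1) ^ 2 / (4 * c) = c * r ^ 2 - r + 1 / (4 * c) := by
    field_simp; ring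
  linarith

theorem integrable_of_bound {Ψ : E n → ℝ} (hΨ : Weight Ψ) {f : E n → ℝ}
    (hf : AEStronglyMeasurable f volume) {k : ℕ} {C : ℝ} (hC : ∀ x, ‖f x‖ ≤ C * (1 + ‖x‖) ^ k) :
    Integrable (fun x => f x * Real.exp (-Ψ x)) := by
  obtain ⟨c, hc, B, hB⟩ := hΨ.low
  obtain ⟨C', hC', h'⟩ := poly_le_exp k (c := c / 2) (by positivity)
  have hC0 : 0 ≤ C := by
    have := (norm_nonneg _).trans (hC 0)
    simpa using this
  refine ((integrable_gauss0 (n := n) (c := c / 2) (by positivity)).const_mul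
    (C * C' * Real.exp B)).mono' (hf.mul ?_) (Filter.Eventually.of_forall fun x => ?_)
  · exact (Real.continuous_exp.comp (tg_cont hΨ.tg).neg).aestronglyMeasurable
  · rw [norm_mul, Real.norm_eq_abs (Real.exp _), abs_of_pos (Real.exp_pos _)]
    have h1 : Real.exp (-Ψ x) ≤ Real.exp B * (Real.exp (-(c / 2) * ‖x‖ ^ 2)
        * Real.exp (-(c / 2) * ‖x‖ ^ 2)) := by
      rw [← Real.exp_add, ← Real.exp_add]
      exact Real.exp_le_exp.2 (by have := hB x; linarith)
    have h2 := h' ‖x‖ (norm_nonneg _)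
    have h3 : Real.exp (c / 2 * ‖x‖ ^ 2) * Real.exp (-(c / 2) * ‖x‖ ^ 2) = 1 := by
      rw [← Real.exp_add]; simp
    calc ‖f x‖ * Real.exp (-Ψ x)
        ≤ (C * (C' * Real.exp (c / 2 * ‖x‖ ^ 2))) * (Real.exp B * (Real.exp (-(c / 2) * ‖x‖ ^ 2)
        * Real.exp (-(c / 2) * ‖x‖ ^ 2))) := by
          refine mul_le_mul ((hC x).trans (mul_le_mul_of_nonneg_left h2 hC0)) h1
            (Real.exp_pos _).le (by positivity)
      _ = (C * C' * Real.exp B) * Real.exp (-(c / 2) * ‖x‖ ^ 2)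
          * (Real.exp (c / 2 * ‖x‖ ^ 2) * Real.exp (-(c / 2) * ‖x‖ ^ 2)) := by ring
      _ = _ := by rw [h3]; ring

theorem int_tg {Ψ : E n → ℝ} (hΨ : Weight Ψ) {f : E n → ℝ} (hf : f.HasTemperateGrowth) :
    Integrable (fun x => f x * Real.exp (-Ψ x)) := by
  obtain ⟨k, C, -, h⟩ := tg_bound hf
  exact integrable_of_bound hΨ (tg_cont hf).aestronglyMeasurable h

theorem ibp {Ψ : E n → ℝ} (hΨ : Weight Ψ) {f : E n → ℝ} (hf : f.HasTemperateGrowth) (i : Fin n) :
    ∫ x, pd i f x * Real.exp (-Ψ x) = ∫ x, (f x * pd i Ψ x) * Real.exp (-Ψ x) := by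
  have hw : ∀ x, fderiv ℝ (fun x => Real.exp (-Ψ x)) x (bv i)
      = - (pd i Ψ x * Real.exp (-Ψ x)) := by
    intro x
    have h1 : HasFDerivAt Ψ (fderiv ℝ Ψ x) x := (tg_diff hΨ.tg x).hasFDerivAt
    have h2 : HasFDerivAt (fun x => Real.exp (-Ψ x)) (Real.exp (-Ψ x) • -(fderiv ℝ Ψ x)) x :=
      h1.neg.exp
    rw [h2.fderiv]
    simp [pd]
    ring
  have hd : Differentiable ℝ (fun x => Real.exp (-Ψ x)) := (tg_diff hΨ.tg).neg.exp
  have key := integral_mul_fderiv_eq_neg_fderiv_mul_of_integrable (μ := (volume : Measure (E n)))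
    (f := f) (g := fun x => Real.exp (-Ψ x)) (v := bv i)
    (by exact int_tg hΨ (tg_pd hf i))
    (by
      simp only [hw]
      refine (int_tg hΨ (hf.fun_mul (tg_pd hΨ.tg i))).neg.congr
        (Filter.Eventually.of_forall fun x => ?_)
      simp [mul_assoc])
    (int_tg hΨ hf) (fun x _ => tg_diff hf x) (fun x _ => hd x)
  simp only [hw] at key
  have e1 : ∫ x, (f x * pd i Ψ x) * Real.exp (-Ψ x)
      = - ∫ x, f x * -(pd i Ψ x * Real.exp (-Ψ x)) := by
    rw [← integral_neg]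
    congr 1; ext x; ring
  rw [e1, key, neg_neg]
  rfl

theorem pd_mul {f g : E n → ℝ} (hf : Differentiable ℝ f) (hg : Differentiable ℝ g) (i : Fin n)
    (x : E n) : pd i (fun y => f y * g y) x = pd i f x * g x + f x * pd i g x := by
  unfold pd
  rw [fderiv_fun_mul (hf x) (hg x)]
  simp
  ring

theorem pd_sum {ι : Type*} (s : Finset ι) {f : ι → E n → ℝ} (hf : ∀ a ∈ s, Differentiable ℝ (f a))
    (i : Fin n) (x : E n) : pd i (fun y => ∑ a ∈ s, f a y) x = ∑ a ∈ s, pd i (f a) x := by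
  unfold pd
  rw [fderiv_fun_sum (fun a ha => hf a ha x)]
  simp

/-- carré du champ -/
def Gam (τ : Fin n → Fin n → E n → ℝ) (h k : E n → ℝ) (x : E n) : ℝ :=
  ∑ i, ∑ j, τ i j x * pd i h x * pd j k x

theorem tg_Gam {τ : Fin n → Fin n → E n → ℝ} (hτ : ∀ i j, (τ i j).HasTemperateGrowth)
    {f g : E n → ℝ} (hf : f.HasTemperateGrowth) (hg : g.HasTemperateGrowth) :
    (Gam τ f g).HasTemperateGrowth := by
  unfold Gam
  exact HasTemperateGrowth.sum fun i _ =>
    HasTemperateGrowth.sum fun j _ => ((hτ i j).fun_mul (tg_pd hf i)).fun_mul (tg_pd hg j)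

/-- coefficients -/
structure Coef (τ : Fin n → Fin n → E n → ℝ) (Ψ : E n → ℝ) : Prop where
  tg : ∀ i j, (τ i j).HasTemperateGrowth
  symm : ∀ i j x, τ i j x = τ j i x
  div : ∀ b x, ∑ a, pd a (τ a b) x - ∑ a, τ a b x * pd a Ψ x = - x b

theorem LL_ibp {τ : Fin n → Fin n → E n → ℝ} {Ψ : E n → ℝ} (hΨ : Weight Ψ) (hτ : Coef τ Ψ)
    {h k : E n → ℝ} (hh : h.HasTemperateGrowth) (hk : k.HasTemperateGrowth) :
    ∫ x, (LL τ h x * k x) * Real.exp (-Ψ x) = - ∫ x, Gam τ h k x * Real.exp (-Ψ x) := by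
  set F : Fin n → E n → ℝ := fun j x => ∑ i, τ i j x * pd i h x with hF
  have hFtg : ∀ j, (F j).HasTemperateGrowth := fun j =>
    HasTemperateGrowth.sum fun i _ => (hτ.tg i j).fun_mul (tg_pd hh i)
  have hpF : ∀ j x, pd j (F j) x
      = ∑ i, (pd j (τ i j) x * pd i h x + τ i j x * pd j (pd i h) x) := by
    intro j x
    rw [hF]
    simp only
    rw [pd_sum _ (fun a _ => tg_diff ((hτ.tg a j).fun_mul (tg_pd hh a)))]
    refine Finset.sum_congr rfl fun i _ => ?_
    rw [pd_mul (tg_diff (hτ.tg i j)) (tg_diff (tg_pd hh i))]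
  have hpt : ∀ x, LL τ h x * k x + Gam τ h k x
      = ∑ j, (pd j (fun y => F j y * k y) x - F j x * k x * pd j Ψ x) := by
    intro x
    have e1 : ∀ j, pd j (fun y => F j y * k y) x - F j x * k x * pd j Ψ x
        = (∑ i, (pd j (τ i j) x * pd i h x + τ i j x * pd j (pd i h) x)) * k x
          + F j x * pd j k x - F j x * k x * pd j Ψ x := by
      intro j
      rw [pd_mul (tg_diff (hFtg j)) (tg_diff hk), hpF]
    simp only [e1]
    have e2 : ∑ j, ∑ i, pd j (τ i j) x * pd i h x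
        = ∑ i, (∑ j, τ j i x * pd j Ψ x - x i) * pd i h x := by
      rw [Finset.sum_comm]
      refine Finset.sum_congr rfl fun i _ => ?_
      rw [← Finset.sum_mul]
      congr 1
      have := hτ.div i x
      have e3 : ∑ j, pd j (τ i j) x = ∑ j, pd j (τ j i) x := by
        refine Finset.sum_congr rfl fun j _ => ?_
        have : τ i j = τ j i := by ext y; exact hτ.symm i j y
        rw [this]
      rw [e3]; linarith
    have e4 : ∑ j, ∑ i, τ i j x * pd j (pd i h) x = ∑ i, ∑ j, τ i j x * pd i (pd j h) x := by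
      refine Finset.sum_congr rfl fun j _ => Finset.sum_congr rfl fun i _ => ?_
      rw [hτ.symm i j x]
    have e5 : Gam τ h k x = ∑ j, F j x * pd j k x := by
      unfold Gam
      rw [Finset.sum_comm]
      refine Finset.sum_congr rfl fun j _ => ?_
      rw [hF]; simp only; rw [Finset.sum_mul]
    have e6 : ∑ j, F j x * k x * pd j Ψ x = (∑ i, (∑ j, τ j i x * pd j Ψ x) * pd i h x) * k x := by
      simp only [hF, Finset.sum_mul]
      rw [Finset.sum_comm]
      refine Finset.sum_congr rfl fun i _ => Finset.sum_congr rfl fun j _ => ?_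
      rw [hτ.symm i j x]; ring
    have e7 : LL τ h x = ∑ i, ∑ j, τ i j x * pd i (pd j h) x - ∑ i, x i * pd i h x := rfl
    rw [Finset.sum_sub_distrib, Finset.sum_add_distrib, ← Finset.sum_mul, e6, ← e5]
    simp only [Finset.sum_add_distrib]
    rw [e2, e4, e7]
    simp only [sub_mul, Finset.sum_sub_distrib]
    ring
  have hint1 : Integrable (fun x => (LL τ h x * k x) * Real.exp (-Ψ x)) :=
    int_tg hΨ ((tg_LL hτ.tg hh).fun_mul hk)
  have hint2 : Integrable (fun x => Gam τ h k x * Real.exp (-Ψ x)) :=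
    int_tg hΨ (tg_Gam hτ.tg hh hk)
  have hsum : ∫ x, (LL τ h x * k x + Gam τ h k x) * Real.exp (-Ψ x) = 0 := by
    simp only [hpt, Finset.sum_mul, sub_mul]
    rw [integral_finsetSum]
    · refine Finset.sum_eq_zero fun j _ => ?_
      rw [integral_sub (int_tg hΨ (tg_pd ((hFtg j).fun_mul hk) j))
        (int_tg hΨ (((hFtg j).fun_mul hk).fun_mul (tg_pd hΨ.tg j)))]
      rw [ibp hΨ ((hFtg j).fun_mul hk) j, sub_self]
    · intro j _
      exact (int_tg hΨ (tg_pd ((hFtg j).fun_mul hk) j)).sub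
        (int_tg hΨ (((hFtg j).fun_mul hk).fun_mul (tg_pd hΨ.tg j)))
  simp only [add_mul] at hsum
  rw [integral_add hint1 hint2] at hsum
  linarith

theorem LL_symm {τ : Fin n → Fin n → E n → ℝ} {Ψ : E n → ℝ} (hΨ : Weight Ψ) (hτ : Coef τ Ψ)
    {h k : E n → ℝ} (hh : h.HasTemperateGrowth) (hk : k.HasTemperateGrowth) :
    ∫ x, (LL τ h x * k x) * Real.exp (-Ψ x) = ∫ x, (h x * LL τ k x) * Real.exp (-Ψ x) := by
  have h1 := LL_ibp hΨ hτ hh hk
  have h2 := LL_ibp hΨ hτ hk hh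
  have e1 : ∀ x, Gam τ h k x = Gam τ k h x := by
    intro x
    unfold Gam
    rw [Finset.sum_comm]
    refine Finset.sum_congr rfl fun i _ => Finset.sum_congr rfl fun j _ => ?_
    rw [hτ.symm]; ring
  simp only [e1] at h1
  rw [h1, ← h2]
  congr 1; ext x; ring

end Crest.Agent.R238.Den
end
end

-- ▼ part R238/DenL2
section

/-! Row 238, H10 (density): the map to `L²(μ)`, cut-offs. (helper892) -/

set_option autoImplicit false
open scoped ContDiff Topology InnerProductSpace ENNReal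
open Set Filter MeasureTheory Function

noncomputable section

namespace Crest.Agent.R238.Den

variable {n : ℕ}

/-- the measure `exp(-Ψ) dx` -/
def mu (Ψ : E n → ℝ) : Measure (E n) :=
  volume.withDensity (fun x => ENNReal.ofReal (Real.exp (-Ψ x)))

theorem integral_mu {Ψ : E n → ℝ} (hΨ : Weight Ψ) (f : E n → ℝ) :
    ∫ x, f x ∂(mu Ψ) = ∫ x, f x * Real.exp (-Ψ x) := by
  have hc : Measurable (fun x => Real.exp (-Ψ x)) :=
    (Real.continuous_exp.comp (tg_cont hΨ.tg).neg).measurable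
  unfold mu
  have h := integral_withDensity_eq_integral_smul (μ := (volume : Measure (E n)))
    (f := fun x => Real.toNNReal (Real.exp (-Ψ x))) hc.real_toNNReal f
  simp only [NNReal.smul_def, Real.coe_toNNReal _ (Real.exp_pos _).le, smul_eq_mul] at h
  rw [show (fun x => ENNReal.ofReal (Real.exp (-Ψ x)))
    = fun x => ((Real.toNNReal (Real.exp (-Ψ x)) : NNReal) : ℝ≥0∞) from rfl, h]
  congr 1; ext x; ring

theorem integrable_mu {Ψ : E n → ℝ} (hΨ : Weight Ψ) (f : E n → ℝ) :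
    Integrable f (mu Ψ) ↔ Integrable (fun x => f x * Real.exp (-Ψ x)) := by
  have hc : Measurable (fun x => Real.exp (-Ψ x)) :=
    (Real.continuous_exp.comp (tg_cont hΨ.tg).neg).measurable
  unfold mu
  have h := integrable_withDensity_iff_integrable_smul (μ := (volume : Measure (E n)))
    (f := fun x => Real.toNNReal (Real.exp (-Ψ x))) hc.real_toNNReal (g := f)
  simp only [NNReal.smul_def, Real.coe_toNNReal _ (Real.exp_pos _).le, smul_eq_mul] at h
  rw [show (fun x => ENNReal.ofReal (Real.exp (-Ψ x)))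
    = fun x => ((Real.toNNReal (Real.exp (-Ψ x)) : NNReal) : ℝ≥0∞) from rfl, h]
  simp only [mul_comm]

theorem memLp_mu {Ψ : E n → ℝ} (hΨ : Weight Ψ) {f : E n → ℝ} (hf : f.HasTemperateGrowth) :
    MemLp f 2 (mu Ψ) := by
  rw [memLp_two_iff_integrable_sq (tg_cont hf).aestronglyMeasurable, integrable_mu hΨ]
  exact int_tg hΨ (by simpa [sq] using hf.fun_mul hf)


/-- even temperate functions -/
def Ev (n : ℕ) : Submodule ℝ (E n → ℝ) where
  carrier := {f | f.HasTemperateGrowth ∧ ∀ x, f (-x) = f x}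
  add_mem' := fun hf hg => ⟨hf.1.add hg.1, fun x => by simp [hf.2, hg.2]⟩
  zero_mem' := ⟨HasTemperateGrowth.zero, fun x => rfl⟩
  smul_mem' := fun c f hf => by
    have : (fun x => c * f x).HasTemperateGrowth := (HasTemperateGrowth.const c).fun_mul hf.1
    exact ⟨this, fun x => by simp [hf.2]⟩

/-- the map to `L²` -/
def Jmu {Ψ : E n → ℝ} (hΨ : Weight Ψ) : Ev n →ₗ[ℝ] Lp ℝ 2 (mu Ψ) where
  toFun f := (memLp_mu hΨ f.2.1).toLp f.1
  map_add' f g := by exact MemLp.toLp_add _ _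
  map_smul' c f := by exact MemLp.toLp_const_smul _ _

theorem inner_J {Ψ : E n → ℝ} (hΨ : Weight Ψ) (f g : Ev n) :
    ⟪Jmu hΨ f, Jmu hΨ g⟫_ℝ = ∫ x, (f.1 x * g.1 x) * Real.exp (-Ψ x) := by
  rw [← integral_mu hΨ, L2.inner_def]
  have h1 := (memLp_mu hΨ f.2.1).coeFn_toLp
  have h2 := (memLp_mu hΨ g.2.1).coeFn_toLp
  refine integral_congr_ae ?_
  filter_upwards [h1, h2] with x hx hy
  change ⟪(memLp_mu hΨ f.2.1).toLp f.1 x, (memLp_mu hΨ g.2.1).toLp g.1 x⟫_ℝ = _
  rw [hx, hy]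
  simp [mul_comm]

theorem norm_J {Ψ : E n → ℝ} (hΨ : Weight Ψ) (f : Ev n) :
    ‖Jmu hΨ f‖ ^ 2 = ∫ x, (f.1 x) ^ 2 * Real.exp (-Ψ x) := by
  rw [← real_inner_self_eq_norm_sq, inner_J]
  simp [sq]

/-- slices of a temperate function are temperate -/
theorem tg_slice {F : ℝ × E n → ℝ} (hF : F.HasTemperateGrowth) (t : ℝ) :
    (fun x => F (t, x)).HasTemperateGrowth := by
  have h : (fun x : E n => ((t, x) : ℝ × E n)).HasTemperateGrowth := by
    have h1 := ((ContinuousLinearMap.inr ℝ ℝ (E n)).hasTemperateGrowth).add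
      (HasTemperateGrowth.const (E := E n) ((t, 0) : ℝ × E n))
    convert h1 using 1
    ext x <;> simp
  exact hF.comp h

theorem J_tendsto {Ψ : E n → ℝ} (hΨ : Weight Ψ) {F : ℝ × E n → ℝ} (hF : F.HasTemperateGrowth)
    (G : ℝ → Ev n) (hG : ∀ t, (G t).1 = fun x => F (t, x)) :
    Tendsto (fun t => Jmu hΨ (G t)) (𝓝 0) (𝓝 (Jmu hΨ (G 0))) := by
  rw [tendsto_iff_norm_sub_tendsto_zero]
  have h1 : ∀ t, ‖Jmu hΨ (G t) - Jmu hΨ (G 0)‖ ^ 2
      = ∫ x, (F (t, x) - F (0, x)) ^ 2 * Real.exp (-Ψ x) := by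
    intro t
    rw [← map_sub, norm_J]
    simp [hG]
  have h2 : Tendsto (fun t => ∫ x, (F (t, x) - F (0, x)) ^ 2 * Real.exp (-Ψ x)) (𝓝 0)
      (𝓝 (∫ x : E n, (0 : ℝ))) := by
    obtain ⟨k, C, hC, hb⟩ := tg_bound hF
    have hb' : ∀ t : ℝ, |t| ≤ 1 → ∀ x : E n, |F (t, x)| ≤ (C * 2 ^ k) * (1 + ‖x‖) ^ k := by
      intro t ht x
      refine (hb (t, x)).trans ?_
      rw [mul_assoc, ← mul_pow]
      refine mul_le_mul_of_nonneg_left (pow_le_pow_left₀ (by positivity) ?_ _) hC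
      have : ‖((t, x) : ℝ × E n)‖ ≤ 1 + ‖x‖ := by
        rw [Prod.norm_def]
        exact max_le (by simpa using ht.trans (by linarith [norm_nonneg x]))
          (by simp)
      linarith [norm_nonneg x]
    have hcF : ∀ t, Continuous (fun x => F (t, x)) := fun t => tg_cont (tg_slice hF t)
    have hcΨ : Continuous (fun x => Real.exp (-Ψ x)) :=
      Real.continuous_exp.comp (tg_cont hΨ.tg).neg
    refine tendsto_integral_filter_of_dominated_convergence
      (fun x => (2 * ((C * 2 ^ k) * (1 + ‖x‖) ^ k)) ^ 2 * Real.exp (-Ψ x)) ?_ ?_ ?_ ?_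
    · refine Eventually.of_forall fun t => ?_
      exact ((((hcF t).sub (hcF 0)).pow 2).mul hcΨ).aestronglyMeasurable
    · have : ∀ᶠ t : ℝ in 𝓝 0, |t| ≤ 1 := by
        have := Metric.closedBall_mem_nhds (0 : ℝ) one_pos
        filter_upwards [this] with t ht
        simpa using ht
      filter_upwards [this] with t ht
      refine Eventually.of_forall fun x => ?_
      rw [norm_mul, Real.norm_eq_abs (Real.exp _), abs_of_pos (Real.exp_pos _), norm_pow]
      refine mul_le_mul_of_nonneg_right (pow_le_pow_left₀ (norm_nonneg _) ?_ _)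
        (Real.exp_pos _).le
      have h3 := hb' t ht x
      have h4 := hb' 0 (by simp) x
      calc ‖F (t, x) - F (0, x)‖ ≤ |F (t, x)| + |F (0, x)| := by
            rw [Real.norm_eq_abs]; exact abs_sub _ _
        _ ≤ _ := by linarith
    · refine integrable_of_bound hΨ (k := 2 * k) (C := (2 * (C * 2 ^ k)) ^ 2) ?_ ?_
      · exact Continuous.aestronglyMeasurable (by fun_prop)
      · intro x
        rw [Real.norm_eq_abs, abs_of_nonneg (by positivity)]
        refine le_of_eq ?_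
        rw [show 2 * (C * 2 ^ k * (1 + ‖x‖) ^ k) = (2 * (C * 2 ^ k)) * (1 + ‖x‖) ^ k by ring,
          mul_pow, ← pow_mul, mul_comm k 2]
    · refine Eventually.of_forall fun x => ?_
      have hcx : Continuous (fun t : ℝ => (F (t, x) - F (0, x)) ^ 2 * Real.exp (-Ψ x)) := by
        have : Continuous (fun t : ℝ => F (t, x)) :=
          (tg_cont hF).comp (by fun_prop)
        exact ((this.sub continuous_const).pow 2).mul continuous_const
      have := hcx.tendsto 0
      simpa using this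
  have h3 : Tendsto (fun t => ‖Jmu hΨ (G t) - Jmu hΨ (G 0)‖ ^ 2) (𝓝 0) (𝓝 0) := by
    simp only [h1]
    simpa using h2
  have h4 := h3.sqrt
  simpa [Real.sqrt_sq (norm_nonneg _)] using h4

end Crest.Agent.R238.Den
end
end

-- ▼ part R238/DenTau
section

/-! Row 238, H10 (density): `Nice` functions are temperate; the entries of `tauM v` are temperate.
(helper892) -/

set_option autoImplicit false
open scoped ContDiff Topology
open Set Filter MeasureTheory Function

noncomputable section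

namespace Crest.Agent.R238.Den

variable {n : ℕ}

section PB

variable {D : Type*} [NormedAddCommGroup D]

/-- polynomially bounded -/
def PB (g : D → ℝ) : Prop := ∃ (k : ℕ) (C : ℝ), 0 ≤ C ∧ ∀ x, |g x| ≤ C * (1 + ‖x‖) ^ k

theorem PB.mono {f g : D → ℝ} (hg : PB g) (h : ∀ x, |f x| ≤ |g x|) : PB f := by
  obtain ⟨k, C, hC, hb⟩ := hg
  exact ⟨k, C, hC, fun x => (h x).trans (hb x)⟩

theorem PB.add {f g : D → ℝ} (hf : PB f) (hg : PB g) : PB (fun x => f x + g x) := by
  obtain ⟨k, C, hC, hb⟩ := hf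
  obtain ⟨l, C', hC', hb'⟩ := hg
  refine ⟨k + l, C + C', by positivity, fun x => ?_⟩
  have h1 : (1 : ℝ) ≤ 1 + ‖x‖ := by linarith [norm_nonneg x]
  have h2 : (1 + ‖x‖) ^ k ≤ (1 + ‖x‖) ^ (k + l) := pow_le_pow_right₀ h1 (by omega)
  have h3 : (1 + ‖x‖) ^ l ≤ (1 + ‖x‖) ^ (k + l) := pow_le_pow_right₀ h1 (by omega)
  calc |f x + g x| ≤ |f x| + |g x| := abs_add_le _ _
    _ ≤ C * (1 + ‖x‖) ^ k + C' * (1 + ‖x‖) ^ l := add_le_add (hb x) (hb' x)
    _ ≤ C * (1 + ‖x‖) ^ (k + l) + C' * (1 + ‖x‖) ^ (k + l) :=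
        add_le_add (mul_le_mul_of_nonneg_left h2 hC) (mul_le_mul_of_nonneg_left h3 hC')
    _ = _ := by ring

theorem PB.mul {f g : D → ℝ} (hf : PB f) (hg : PB g) : PB (fun x => f x * g x) := by
  obtain ⟨k, C, hC, hb⟩ := hf
  obtain ⟨l, C', hC', hb'⟩ := hg
  refine ⟨k + l, C * C', by positivity, fun x => ?_⟩
  rw [abs_mul]
  calc |f x| * |g x| ≤ (C * (1 + ‖x‖) ^ k) * (C' * (1 + ‖x‖) ^ l) :=
        mul_le_mul (hb x) (hb' x) (abs_nonneg _) (by positivity)
    _ = _ := by ring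

theorem PB.const (c : ℝ) : PB (fun _ : D => c) := ⟨0, |c|, abs_nonneg _, fun x => by simp⟩

theorem PB.sum {ι : Type*} (s : Finset ι) {f : ι → D → ℝ} (hf : ∀ i ∈ s, PB (f i)) :
    PB (fun x => ∑ i ∈ s, f i x) := by
  classical
  induction s using Finset.induction_on with
  | empty => simpa using PB.const (D := D) 0
  | insert a s ha ih =>
    simp only [Finset.sum_insert ha]
    exact (hf a (Finset.mem_insert_self _ _)).add
      (ih fun i hi => hf i (Finset.mem_insert_of_mem hi))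

end PB

section inv

variable {D : Type*} [NormedAddCommGroup D] [NormedSpace ℝ D]

theorem PB.of_tg {F : Type*} [NormedAddCommGroup F] [NormedSpace ℝ F] {f : D → F}
    (hf : f.HasTemperateGrowth) (j : ℕ) : PB (fun x => ‖iteratedFDeriv ℝ j f x‖) := by
  obtain ⟨k, C, hC, h⟩ := hf.norm_iteratedFDeriv_le_uniform j
  exact ⟨k, C, hC, fun x => by rw [abs_norm]; exact h j le_rfl x⟩

/-- the inverse of a temperate function, if bounded, is temperate -/
theorem tg_inv {d : D → ℝ} (hd : d.HasTemperateGrowth) (h0 : ∀ x, d x ≠ 0)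
    (hb : ∃ B : ℝ, ∀ x, |(d x)⁻¹| ≤ B) : (fun x => (d x)⁻¹).HasTemperateGrowth := by
  set h : D → ℝ := fun x => (d x)⁻¹ with hh
  have hsm : ContDiff ℝ ∞ h := hd.1.inv h0
  have hfd : fderiv ℝ h = fun x => (-(h x * h x)) • fderiv ℝ d x := by
    ext1 x
    have h1 : HasFDerivAt d (fderiv ℝ d x) x := (tg_diff hd x).hasFDerivAt
    have h2 := (hasDerivAt_inv (h0 x)).comp_hasFDerivAt x h1
    have h3 : fderiv ℝ h x = (-(d x ^ 2)⁻¹) • fderiv ℝ d x := h2.fderiv
    rw [h3]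
    congr 1
    simp only [hh]
    rw [sq, mul_inv]
  have key : ∀ m : ℕ, ∀ j ≤ m, PB (fun x => ‖iteratedFDeriv ℝ j h x‖) := by
    intro m
    induction m with
    | zero =>
      intro j hj
      obtain rfl : j = 0 := by omega
      obtain ⟨B, hB⟩ := hb
      refine ⟨0, |B|, abs_nonneg _, fun x => ?_⟩
      rw [abs_norm, norm_iteratedFDeriv_zero]
      have := (hB x).trans (le_abs_self B)
      simpa [hh] using this
    | succ m ih =>
      intro j hj
      rcases Nat.lt_or_ge j (m + 1) with hlt | hge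
      · exact ih j (by omega)
      obtain rfl : j = m + 1 := by omega
      have e1 : ∀ x, ‖iteratedFDeriv ℝ (m + 1) h x‖
          = ‖iteratedFDeriv ℝ m (fun x => (-(h x * h x)) • fderiv ℝ d x) x‖ := by
        intro x
        rw [← hfd, norm_iteratedFDeriv_fderiv]
      have hhm : ContDiff ℝ ∞ (fun x => -(h x * h x)) := (hsm.mul hsm).neg
      have hdm : ContDiff ℝ ∞ (fderiv ℝ d) := hd.1.fderiv_right (by simp)
      have b1 : ∀ i ≤ m, PB (fun x => ‖iteratedFDeriv ℝ i (fun x => -(h x * h x)) x‖) := by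
        intro i hi
        have e2 : ∀ x, ‖iteratedFDeriv ℝ i (fun x => -(h x * h x)) x‖
            ≤ ∑ a ∈ Finset.range (i + 1), (i.choose a : ℝ) * ‖iteratedFDeriv ℝ a h x‖
              * ‖iteratedFDeriv ℝ (i - a) h x‖ := by
          intro x
          have e3 := norm_iteratedFDeriv_mul_le (N := ∞) hsm hsm x (n := i) (by exact_mod_cast le_top)
          have e4 : ‖iteratedFDeriv ℝ i (fun x => -(h x * h x)) x‖
              = ‖iteratedFDeriv ℝ i (fun x => h x * h x) x‖ := by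
            rw [show (fun x => -(h x * h x)) = -(fun x => h x * h x) from rfl,
              iteratedFDeriv_neg_apply, norm_neg]
          rw [e4]; exact e3
        refine PB.mono (PB.sum (Finset.range (i + 1)) fun a ha =>
          ((PB.const (i.choose a : ℝ)).mul (ih a ?_)).mul (ih (i - a) (by omega))) fun x => ?_
        · have := Finset.mem_range.1 ha; omega
        · rw [abs_norm]
          exact (e2 x).trans (le_abs_self _)
      refine PB.mono (PB.sum (Finset.range (m + 1)) fun a ha =>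
          ((PB.const (m.choose a : ℝ)).mul (b1 a ?_)).mul
            (PB.of_tg (tg_fderiv hd) (m - a))) fun x => ?_
      · have := Finset.mem_range.1 ha; omega
      · rw [e1, abs_norm]
        have e5 := norm_iteratedFDeriv_smul_le (N := ∞) hhm hdm x (n := m)
          (by exact_mod_cast le_top)
        exact e5.trans (le_abs_self _)
  refine ⟨hsm, fun m => ?_⟩
  obtain ⟨k, C, -, hb⟩ := key m m le_rfl
  exact ⟨k, C, fun x => by simpa using hb x⟩

theorem tg_prod {ι : Type*} (s : Finset ι) {f : ι → D → ℝ}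
    (hf : ∀ i ∈ s, (f i).HasTemperateGrowth) :
    (fun x => ∏ i ∈ s, f i x).HasTemperateGrowth := by
  classical
  induction s using Finset.induction_on with
  | empty => simp
  | insert a s ha ih =>
    simp only [Finset.prod_insert ha]
    exact (hf a (Finset.mem_insert_self _ _)).fun_mul
      (ih fun i hi => hf i (Finset.mem_insert_of_mem hi))

theorem tg_det {m : Type*} [Fintype m] [DecidableEq m] {A : D → Matrix m m ℝ}
    (hA : ∀ i j, (fun x => A x i j).HasTemperateGrowth) :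
    (fun x => (A x).det).HasTemperateGrowth := by
  simp only [Matrix.det_apply']
  exact HasTemperateGrowth.sum fun σ _ => (HasTemperateGrowth.const _).fun_mul
    (tg_prod _ fun i _ => hA _ _)

theorem tg_adj {m : Type*} [Fintype m] [DecidableEq m] {A : D → Matrix m m ℝ}
    (hA : ∀ i j, (fun x => A x i j).HasTemperateGrowth) (i j : m) :
    (fun x => (A x).adjugate i j).HasTemperateGrowth := by
  simp only [Matrix.adjugate_apply]
  refine tg_det fun a b => ?_
  by_cases h : a = j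
  · subst h
    simp only [Matrix.updateRow_self]
    exact HasTemperateGrowth.const _
  · simp only [Matrix.updateRow_ne h]
    exact hA a b

end inv

/-- `Nice` functions are temperate -/
theorem tg_nice {f : E n → ℝ} (hf : Nice f) : f.HasTemperateGrowth := by
  have hf1 : ContDiff ℝ ∞ (fderiv ℝ f) := hf.smooth.fderiv_right (by simp)
  have hf2 : ContDiff ℝ ∞ (fderiv ℝ (fderiv ℝ f)) := hf1.fderiv_right (by simp)
  have h2 : (fderiv ℝ (fderiv ℝ f)).HasTemperateGrowth := by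
    refine ⟨hf2, fun m => ?_⟩
    obtain ⟨C, hC⟩ := hf.bdd (m + 1 + 1) (by omega)
    refine ⟨0, C, fun x => ?_⟩
    rw [norm_iteratedFDeriv_fderiv, norm_iteratedFDeriv_fderiv]
    simpa using hC x
  obtain ⟨C2, hC2⟩ := hf.bdd 2 le_rfl
  have hb2 : ∀ x, ‖fderiv ℝ (fderiv ℝ f) x‖ ≤ C2 := by
    intro x
    have h := hC2 x
    rw [show (2 : ℕ) = 0 + 1 + 1 from rfl, ← norm_iteratedFDeriv_fderiv,
      ← norm_iteratedFDeriv_fderiv, norm_iteratedFDeriv_zero] at h
    exact h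
  have hC20 : 0 ≤ C2 := le_trans (by positivity) (hb2 0)
  have hb1 : ∀ x, ‖fderiv ℝ f x‖ ≤ (‖fderiv ℝ f 0‖ + C2) * (1 + ‖x‖) ^ 1 := by
    intro x
    have h := Convex.norm_image_sub_le_of_norm_fderiv_le (𝕜 := ℝ) (f := fderiv ℝ f)
      (s := univ) (C := C2) (fun y _ => hf1.differentiable (by simp) y) (fun y _ => hb2 y)
      convex_univ (mem_univ 0) (mem_univ x)
    rw [sub_zero] at h
    have h3 : ‖fderiv ℝ f x‖ ≤ ‖fderiv ℝ f 0‖ + ‖fderiv ℝ f x - fderiv ℝ f 0‖ := by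
      have := norm_add_le (fderiv ℝ f 0) (fderiv ℝ f x - fderiv ℝ f 0)
      simpa using this
    have h4 := norm_nonneg x
    have h5 := norm_nonneg (fderiv ℝ f 0)
    rw [pow_one]
    nlinarith [mul_nonneg h5 h4]
  have h1 : (fderiv ℝ f).HasTemperateGrowth :=
    HasTemperateGrowth.of_fderiv h2 (hf1.differentiable (by simp)) hb1
  set A := ‖fderiv ℝ f 0‖ + C2 with hA
  have hA0 : 0 ≤ A := by positivity
  have hb0 : ∀ x, ‖f x‖ ≤ (‖f 0‖ + A) * (1 + ‖x‖) ^ 2 := by
    intro x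
    have h := Convex.norm_image_sub_le_of_norm_fderiv_le (𝕜 := ℝ) (f := f)
      (s := Metric.closedBall 0 ‖x‖) (C := A * (1 + ‖x‖))
      (fun y _ => hf.smooth.differentiable (by simp) y) (fun y hy => by
        refine (hb1 y).trans ?_
        rw [pow_one]
        have : ‖y‖ ≤ ‖x‖ := by simpa using hy
        exact mul_le_mul_of_nonneg_left (by linarith) hA0)
      (convex_closedBall _ _) (x := 0) (by simp) (y := x) (by simp)
    rw [sub_zero] at h
    have h3 : ‖f x‖ ≤ ‖f 0‖ + ‖f x - f 0‖ := by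
      have := norm_add_le (f 0) (f x - f 0)
      simpa using this
    have h4 := norm_nonneg x
    have h5 := norm_nonneg (f 0)
    nlinarith [mul_nonneg h5 h4, mul_nonneg h5 (mul_nonneg h4 h4), mul_nonneg hA0 h4,
      mul_nonneg hA0 (mul_nonneg h4 h4)]
  exact HasTemperateGrowth.of_fderiv h1 (hf.smooth.differentiable (by simp)) hb0

/-- test functions are temperate -/
theorem tg_tst {f : E n → ℝ} (hf : Tst f) : f.HasTemperateGrowth :=
  hf.supp.hasTemperateGrowth hf.smooth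

theorem Hs_eq {f : E n → ℝ} (hf : f.HasTemperateGrowth) (x : E n) (i j : Fin n) :
    Hs f x i j = pd i (pd j f) x := by
  unfold Hs pd
  have h1 : DifferentiableAt ℝ (fderiv ℝ f) x := tg_diff (tg_fderiv hf) x
  have h2 : HasFDerivAt (fun y => fderiv ℝ f y (bv j))
      ((ContinuousLinearMap.apply ℝ ℝ (bv j)).comp (fderiv ℝ (fderiv ℝ f) x)) x :=
    (ContinuousLinearMap.apply ℝ ℝ (bv j)).hasFDerivAt.comp x h1.hasFDerivAt
  rw [h2.fderiv]
  rfl

theorem tg_Hs {f : E n → ℝ} (hf : f.HasTemperateGrowth) (i j : Fin n) :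
    (fun x => Hs f x i j).HasTemperateGrowth := by
  have : (fun x => Hs f x i j) = pd i (pd j f) := by
    ext x; exact Hs_eq hf x i j
  rw [this]
  exact tg_pd (tg_pd hf j) i

theorem tg_gM {v : E n → ℝ} (hv : v.HasTemperateGrowth) (i j : Fin n) :
    (fun x => gM v x i j).HasTemperateGrowth := by
  simp only [gM, Matrix.add_apply, Matrix.of_apply]
  exact (HasTemperateGrowth.const _).fun_add (tg_Hs hv i j)

end Crest.Agent.R238.Den
end
end

-- ▼ part R238/DenSol
section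

/-! Row 238, H10 (density): consequences of `Sol P v`. (helper892) -/

set_option autoImplicit false
open scoped ContDiff Topology
open Set Filter MeasureTheory Function

noncomputable section

namespace Crest.Agent.R238.Den

variable {n : ℕ}

/-- entries of a bounded-entry matrix: the determinant is bounded -/
theorem det_bdd {A : E n → Matrix (Fin n) (Fin n) ℝ} {B : ℝ} (hB : ∀ x i j, |A x i j| ≤ B) :
    ∃ C : ℝ, ∀ x, |(A x).det| ≤ C := by
  refine ⟨∑ σ : Equiv.Perm (Fin n), ∏ i : Fin n, B, fun x => ?_⟩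
  rw [Matrix.det_apply']
  refine (Finset.abs_sum_le_sum_abs _ _).trans (Finset.sum_le_sum fun σ _ => ?_)
  rw [abs_mul, Finset.abs_prod]
  have h1 : |((Equiv.Perm.sign σ : ℤ) : ℝ)| = 1 := by
    rcases Int.units_eq_one_or (Equiv.Perm.sign σ) with h | h <;> simp [h]
  rw [h1, one_mul]
  exact Finset.prod_le_prod (fun i _ => abs_nonneg _) fun i _ => hB _ _ _

theorem tg_tau {P v : E n → ℝ} (hv : Sol P v) (i j : Fin n) :
    (fun x => tauM v x i j).HasTemperateGrowth := by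
  obtain ⟨lo, hi, hlo, hell⟩ := hv.ell
  have hg := tg_gM (tg_nice hv.nice)
  have hdet : ∀ x, (gM v x).det ≠ 0 := fun x => GapD.ell_det_ne hlo (hell x)
  have hent : ∀ x i j, |tauM v x i j| ≤ |1 / hi| + |1 / lo| := fun x i j =>
    GapD.ell_entry_le (GapD.ell_inv hlo (hell x)) i j
  obtain ⟨C, hC⟩ := det_bdd hent
  have hdinv : (fun x => ((gM v x).det)⁻¹).HasTemperateGrowth := by
    refine tg_inv (tg_det hg) hdet ⟨C, fun x => ?_⟩
    have h1 : ((gM v x).det)⁻¹ = (tauM v x).det := by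
      unfold tauM
      rw [Matrix.det_nonsing_inv, Ring.inverse_eq_inv']
    rw [h1]; exact hC x
  have h2 : (fun x => tauM v x i j) = fun x => ((gM v x).det)⁻¹ * (gM v x).adjugate i j := by
    ext x
    exact GapD.inv_entry _ i j
  rw [h2]
  exact hdinv.fun_mul (tg_adj hg i j)

/-- the potential -/
def Pot (P : E n → ℝ) (x : E n) : ℝ := ‖x‖ ^ 2 / 2 + P x


theorem bdd_of_tst {P : E n → ℝ} (hP : Tst P) : ∃ M : ℝ, ∀ x, |P x| ≤ M := by
  obtain ⟨C, hC⟩ := hP.supp.exists_bound_of_continuous hP.smooth.continuous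
  exact ⟨C, fun x => by simpa using hC x⟩

theorem weight_tst {P : E n → ℝ} (hP : Tst P) : Weight (Pot P) := by
  refine ⟨?_, 1 / 2, by norm_num, ?_⟩
  · have h1 := (hasTemperateGrowth_norm_sq (E n)).fun_mul
      (HasTemperateGrowth.const (E := E n) (1 / 2 : ℝ))
    have h2 := h1.fun_add (tg_tst hP)
    have h3 : Pot P = fun x => ‖x‖ ^ 2 * (1 / 2) + P x := by
      ext x; unfold Pot; ring
    rw [h3]
    exact h2
  · obtain ⟨M, hM⟩ := bdd_of_tst hP
    refine ⟨M, fun x => ?_⟩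
    have := (abs_le.1 (hM x)).1
    unfold Pot
    linarith

theorem pd_Pot {P : E n → ℝ} (hP : Tst P) (i : Fin n) (x : E n) :
    pd i (Pot P) x = x i + pd i P x := by
  have h1 : Differentiable ℝ P := hP.smooth.differentiable (by simp)
  have h2 : Differentiable ℝ (fun x : E n => ‖x‖ ^ 2) := fun x => by
    have := (hasTemperateGrowth_norm_sq (E n)).1.differentiable (by simp)
    exact this x
  have h3 : HasFDerivAt (Pot P) ((1 / 2 : ℝ) • (2 • innerSL ℝ x) + fderiv ℝ P x) x := by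
    have h4 : HasFDerivAt (fun x : E n => ‖x‖ ^ 2) (2 • innerSL ℝ x) x := by
      have := (h2 x).hasFDerivAt
      rwa [fderiv_norm_sq_apply] at this
    have h5 := (h4.const_mul (1 / 2 : ℝ)).add (h1 x).hasFDerivAt
    have h6 : Pot P = fun x => (1 / 2 : ℝ) * ‖x‖ ^ 2 + P x := by
      ext x; unfold Pot; ring
    rw [h6]
    exact h5
  unfold pd
  rw [h3.fderiv]
  simp [bv, EuclideanSpace.inner_single_right]

theorem Lop_eq {v h : E n → ℝ} (hh : h.HasTemperateGrowth) (x : E n) :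
    Lop v h x = LL (fun i j x => tauM v x i j) h x := by
  unfold Lop LA LL
  congr 1
  · refine Finset.sum_congr rfl fun i _ => Finset.sum_congr rfl fun j _ => ?_
    rw [Hs_eq hh]
  · exact Gap.fderiv_apply_eq_sum h x x

end Crest.Agent.R238.Den
end
end

-- ▼ part R238/DenFin
section

/-! Row 238, H10 (density): assembly. (helper892) -/

set_option autoImplicit false
open scoped ContDiff Topology InnerProductSpace
open Set Filter MeasureTheory Function

noncomputable section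

namespace Crest.Agent.R238.Den

variable {n : ℕ}

theorem pd_add' {f g : E n → ℝ} (hf : Differentiable ℝ f) (hg : Differentiable ℝ g) (i : Fin n)
    (x : E n) : pd i (fun y => f y + g y) x = pd i f x + pd i g x := by
  unfold pd
  rw [fderiv_fun_add (hf x) (hg x)]
  rfl

theorem pd_smul' {f : E n → ℝ} (hf : Differentiable ℝ f) (c : ℝ) (i : Fin n)
    (x : E n) : pd i (fun y => c * f y) x = c * pd i f x := by
  unfold pd
  rw [fderiv_const_mul (hf x)]
  rfl

theorem pd_comp_neg {f : E n → ℝ} (hf : Differentiable ℝ f) (i : Fin n) (x : E n) :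
    pd i (fun y => f (-y)) x = - pd i f (-x) := by
  unfold pd
  have h1 : HasFDerivAt (fun y : E n => -y) (-ContinuousLinearMap.id ℝ (E n)) x :=
    (hasFDerivAt_id x).neg
  have h2 : HasFDerivAt (fun y => f (-y)) ((fderiv ℝ f (-x)).comp
      (-ContinuousLinearMap.id ℝ (E n))) x := (hf (-x)).hasFDerivAt.comp x h1
  rw [h2.fderiv]
  simp

theorem pd_even {f : E n → ℝ} (hf : Differentiable ℝ f) (h : ∀ x, f (-x) = f x) (i : Fin n)
    (x : E n) : pd i f (-x) = - pd i f x := by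
  have h1 : (fun y => f (-y)) = f := by ext y; exact h y
  have h2 := pd_comp_neg hf i x
  rw [h1] at h2
  linarith

theorem pd_odd {f : E n → ℝ} (hf : Differentiable ℝ f) (h : ∀ x, f (-x) = - f x) (i : Fin n)
    (x : E n) : pd i f (-x) = pd i f x := by
  have h1 : (fun y => f (-y)) = fun y => (-1) * f y := by ext y; rw [h y]; ring
  have h2 := pd_comp_neg hf i x
  rw [h1, pd_smul' hf] at h2
  linarith

theorem LL_even {τ : Fin n → Fin n → E n → ℝ} (hτ : ∀ i j x, τ i j (-x) = τ i j x)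
    {f : E n → ℝ} (hf : f.HasTemperateGrowth) (h : ∀ x, f (-x) = f x) (x : E n) :
    LL τ f (-x) = LL τ f x := by
  unfold LL
  congr 1
  · refine Finset.sum_congr rfl fun i _ => Finset.sum_congr rfl fun j _ => ?_
    rw [hτ, pd_odd (tg_diff (tg_pd hf j)) (fun y => pd_even (tg_diff hf) h j y) i x]
  · refine Finset.sum_congr rfl fun i _ => ?_
    rw [pd_even (tg_diff hf) h i x]
    simp

theorem LL_add {τ : Fin n → Fin n → E n → ℝ} {f g : E n → ℝ} (hf : f.HasTemperateGrowth)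
    (hg : g.HasTemperateGrowth) (x : E n) :
    LL τ (fun y => f y + g y) x = LL τ f x + LL τ g x := by
  unfold LL
  have h1 : ∀ j, pd j (fun y => f y + g y) = fun y => pd j f y + pd j g y := fun j => by
    ext y; exact pd_add' (tg_diff hf) (tg_diff hg) j y
  have h2 : ∀ i j, pd i (pd j fun y => f y + g y) x = pd i (pd j f) x + pd i (pd j g) x := by
    intro i j
    rw [h1]
    exact pd_add' (tg_diff (tg_pd hf j)) (tg_diff (tg_pd hg j)) i x
  simp only [h2]
  simp only [h1, mul_add, Finset.sum_add_distrib]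
  ring

theorem LL_smul {τ : Fin n → Fin n → E n → ℝ} {f : E n → ℝ} (hf : f.HasTemperateGrowth)
    (c : ℝ) (x : E n) :
    LL τ (fun y => c * f y) x = c * LL τ f x := by
  unfold LL
  have h1 : ∀ j, pd j (fun y => c * f y) = fun y => c * pd j f y := fun j => by
    ext y; exact pd_smul' (tg_diff hf) c j y
  have h2 : ∀ i j, pd i (pd j fun y => c * f y) x = c * pd i (pd j f) x := by
    intro i j
    rw [h1]
    exact pd_smul' (tg_diff (tg_pd hf j)) c i x
  simp only [h2]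
  simp only [h1, mul_sub, Finset.mul_sum]
  congr 1
  · exact Finset.sum_congr rfl fun i _ => Finset.sum_congr rfl fun j _ => by ring
  · exact Finset.sum_congr rfl fun i _ => by ring

/-- the operator on even temperate functions -/
def Lev (τ : Fin n → Fin n → E n → ℝ) (h1 : ∀ i j, (τ i j).HasTemperateGrowth)
    (h2 : ∀ i j x, τ i j (-x) = τ i j x) : Ev n →ₗ[ℝ] Ev n where
  toFun f := ⟨LL τ f.1, tg_LL h1 f.2.1, LL_even h2 f.2.1 f.2.2⟩
  map_add' f g := by
    apply Subtype.ext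
    funext x
    exact LL_add f.2.1 g.2.1 x
  map_smul' c f := by
    apply Subtype.ext
    funext x
    exact LL_smul f.2.1 c x

theorem Lev_val (τ : Fin n → Fin n → E n → ℝ) (h1 : ∀ i j, (τ i j).HasTemperateGrowth)
    (h2 : ∀ i j x, τ i j (-x) = τ i j x) (f : Ev n) : (Lev τ h1 h2 f).1 = LL τ f.1 := rfl

/-- even test functions -/
def Ae (n : ℕ) : Submodule ℝ (Ev n) where
  carrier := {f | Tst f.1}
  add_mem' := fun hf hg => ⟨hf.smooth.add hg.smooth, hf.supp.add hg.supp⟩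
  zero_mem' := ⟨contDiff_const, HasCompactSupport.zero⟩
  smul_mem' := fun c f hf => ⟨hf.smooth.const_smul c, hf.supp.mono (by
    intro x hx
    simp only [Function.mem_support] at hx ⊢
    intro h0
    apply hx
    change c * f.1 x = 0
    rw [h0, mul_zero])⟩

/-- even nice functions -/
def Ne (n : ℕ) : Submodule ℝ (Ev n) where
  carrier := {f | Nice f.1}
  add_mem' := by
    intro f g hf hg
    refine ⟨hf.smooth.add hg.smooth, fun k hk => ?_⟩
    obtain ⟨C, hC⟩ := hf.bdd k hk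
    obtain ⟨C', hC'⟩ := hg.bdd k hk
    refine ⟨C + C', fun x => ?_⟩
    change ‖iteratedFDeriv ℝ k (f.1 + g.1) x‖ ≤ _
    rw [iteratedFDeriv_add_apply (hf.smooth.of_le (by exact_mod_cast le_top)).contDiffAt
      (hg.smooth.of_le (by exact_mod_cast le_top)).contDiffAt]
    exact (norm_add_le _ _).trans (add_le_add (hC x) (hC' x))
  zero_mem' := by
    refine ⟨contDiff_const, fun k hk => ⟨0, fun x => ?_⟩⟩
    change ‖iteratedFDeriv ℝ k (fun _ => (0 : ℝ)) x‖ ≤ 0
    simp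
  smul_mem' := by
    intro c f hf
    refine ⟨hf.smooth.const_smul c, fun k hk => ?_⟩
    obtain ⟨C, hC⟩ := hf.bdd k hk
    refine ⟨|c| * C, fun x => ?_⟩
    change ‖iteratedFDeriv ℝ k (c • f.1) x‖ ≤ _
    rw [iteratedFDeriv_const_smul_apply
      (hf.smooth.of_le (by exact_mod_cast le_top)).contDiffAt, norm_smul, Real.norm_eq_abs]
    exact mul_le_mul_of_nonneg_left (hC x) (abs_nonneg _)

theorem pd_supp {f : E n → ℝ} (hf : HasCompactSupport f) (i : Fin n) :
    HasCompactSupport (pd i f) := by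
  have h1 := hf.fderiv (𝕜 := ℝ)
  exact h1.comp_left (g := fun (L : E n →L[ℝ] ℝ) => L (bv i)) (by simp)

theorem supp_sum {ι : Type*} (s : Finset ι) {f : ι → E n → ℝ}
    (hf : ∀ i ∈ s, HasCompactSupport (f i)) : HasCompactSupport (fun x => ∑ i ∈ s, f i x) := by
  classical
  induction s using Finset.induction_on with
  | empty =>
    simp only [Finset.sum_empty]
    exact HasCompactSupport.zero
  | insert a s ha ih =>
    simp only [Finset.sum_insert ha]
    exact (hf a (Finset.mem_insert_self _ _)).add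
      (ih fun i hi => hf i (Finset.mem_insert_of_mem hi))

theorem LL_supp {τ : Fin n → Fin n → E n → ℝ} {f : E n → ℝ} (hf : HasCompactSupport f) :
    HasCompactSupport (LL τ f) := by
  unfold LL
  refine HasCompactSupport.sub (supp_sum _ fun i _ => supp_sum _ fun j _ => ?_)
    (supp_sum _ fun i _ => ?_)
  · exact (pd_supp (pd_supp hf j) i).mul_left
  · exact (pd_supp hf i).mul_left

end Crest.Agent.R238.Den
end
end

-- ▼ part R238/DenMain
section

/-! Row 238, H10 (density): cut-offs and the density theorem. (helper892) -/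

set_option autoImplicit false
open scoped ContDiff Topology InnerProductSpace
open Set Filter MeasureTheory Function

noncomputable section

namespace Crest.Agent.R238.Den

variable {n : ℕ}

/-- a bump function -/
def eta (n : ℕ) : ContDiffBump (0 : E n) := ⟨1, 2, by norm_num, by norm_num⟩

theorem tg_eta : (eta n : E n → ℝ).HasTemperateGrowth :=
  (eta n).hasCompactSupport.hasTemperateGrowth (eta n).contDiff

theorem eta_zero : (eta n : E n → ℝ) 0 = 1 := (eta n).one_of_mem_closedBall (by simp [eta])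

theorem eta_neg (x : E n) : (eta n : E n → ℝ) (-x) = (eta n : E n → ℝ) x := (eta n).neg x

/-- cut-off of an even temperate function -/
def cutE (f : Ev n) (t : ℝ) : Ev n :=
  ⟨fun x => cut (eta n) f.1 (t, x), tg_slice (tg_cut tg_eta f.2.1) t, fun x => by
    simp only [cut, smul_neg, eta_neg, f.2.2 x]⟩

theorem cutE_zero (f : Ev n) : cutE f 0 = f := by
  apply Subtype.ext
  funext x
  simp [cutE, cut, eta_zero]

theorem cutE_tst (f : Ev n) {t : ℝ} (ht : t ≠ 0) : cutE f t ∈ Ae n := by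
  refine ⟨(cutE f t).2.1.1, ?_⟩
  have h1 : HasCompactSupport (fun x : E n => (eta n : E n → ℝ) (t • x)) :=
    (eta n).hasCompactSupport.comp_smul ht
  exact h1.mul_right

section

variable {τ : Fin n → Fin n → E n → ℝ} {Ψ : E n → ℝ}

theorem J_cut (hΨ : Weight Ψ) (f : Ev n) :
    Tendsto (fun t => Jmu hΨ (cutE f t)) (𝓝 0) (𝓝 (Jmu hΨ f)) := by
  have := J_tendsto hΨ (tg_cut tg_eta f.2.1) (cutE f) (fun t => rfl)
  rwa [cutE_zero] at this

theorem J_cut1 (hΨ : Weight Ψ) (h1 : ∀ i j, (τ i j).HasTemperateGrowth)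
    (h2 : ∀ i j x, τ i j (-x) = τ i j x) (f : Ev n) :
    Tendsto (fun t => Jmu hΨ (Lev τ h1 h2 (cutE f t))) (𝓝 0) (𝓝 (Jmu hΨ (Lev τ h1 h2 f))) := by
  have := J_tendsto hΨ (F := LT τ (cut (eta n) f.1)) (tg_LT h1 (tg_cut tg_eta f.2.1))
    (fun t => Lev τ h1 h2 (cutE f t)) (fun t => by
      funext x
      exact LL_slice (tg_cut tg_eta f.2.1) t x)
  rwa [cutE_zero] at this

theorem J_cut2 (hΨ : Weight Ψ) (h1 : ∀ i j, (τ i j).HasTemperateGrowth)
    (h2 : ∀ i j x, τ i j (-x) = τ i j x) (f : Ev n) :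
    Tendsto (fun t => Jmu hΨ (Lev τ h1 h2 (Lev τ h1 h2 (cutE f t) + cutE f t))) (𝓝 0)
      (𝓝 (Jmu hΨ (Lev τ h1 h2 (Lev τ h1 h2 f + f)))) := by
  have hc := tg_cut (n := n) tg_eta f.2.1
  have := J_tendsto hΨ (F := LT τ (fun p => LT τ (cut (eta n) f.1) p + cut (eta n) f.1 p))
    (tg_LT h1 ((tg_LT h1 hc).fun_add hc))
    (fun t => Lev τ h1 h2 (Lev τ h1 h2 (cutE f t) + cutE f t)) (fun t => by
      funext x
      rw [Lev_val]
      rw [← LL_slice ((tg_LT h1 hc).fun_add hc) t x]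
      congr 1
      funext y
      change LL τ (cutE f t).1 y + (cutE f t).1 y = _
      congr 1
      exact LL_slice hc t y)
  rwa [cutE_zero] at this

theorem eq_zero_of_cut {H : Type*} [NormedAddCommGroup H] [InnerProductSpace ℝ H] {W : H}
    {G : ℝ → H} {g : H} (hG : Tendsto G (𝓝 0) (𝓝 g)) (h0 : ∀ t, t ≠ 0 → ⟪W, G t⟫_ℝ = 0) :
    ⟪W, g⟫_ℝ = 0 := by
  have h1 : Tendsto (fun t => ⟪W, G t⟫_ℝ) (𝓝[≠] 0) (𝓝 ⟪W, g⟫_ℝ) :=
    (tendsto_const_nhds.inner hG).mono_left nhdsWithin_le_nhds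
  have h2 : Tendsto (fun t => ⟪W, G t⟫_ℝ) (𝓝[≠] 0) (𝓝 0) := by
    refine (tendsto_congr' ?_).2 tendsto_const_nhds
    filter_upwards [self_mem_nhdsWithin] with t ht
    exact h0 t ht
  exact tendsto_nhds_unique h1 h2

theorem J_mem_closure (hΨ : Weight Ψ) (f : Ev n) :
    Jmu hΨ f ∈ closure (Jmu hΨ '' (Ae n : Set (Ev n))) := by
  have h1 : Tendsto (fun t => Jmu hΨ (cutE f t)) (𝓝[≠] 0) (𝓝 (Jmu hΨ f)) :=
    (J_cut hΨ f).mono_left nhdsWithin_le_nhds
  refine mem_closure_of_tendsto h1 ?_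
  filter_upwards [self_mem_nhdsWithin] with t ht
  exact ⟨_, cutE_tst f ht, rfl⟩

theorem norm_toLp (hΨ : Weight Ψ) {f : E n → ℝ} (hf : MemLp f 2 (mu Ψ)) :
    ‖hf.toLp f‖ ^ 2 = ∫ x, (f x) ^ 2 * Real.exp (-Ψ x) := by
  rw [← real_inner_self_eq_norm_sq, L2.inner_def, ← integral_mu hΨ]
  refine integral_congr_ae ?_
  filter_upwards [hf.coeFn_toLp] with x hx
  rw [hx]
  simp [sq]

/-- constant function -/
def oneE (n : ℕ) : Ev n := ⟨fun _ => 1, HasTemperateGrowth.const 1, fun _ => rfl⟩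

theorem inner_toLp_J (hΨ : Weight Ψ) {f : E n → ℝ} (hf : MemLp f 2 (mu Ψ)) (g : Ev n) :
    ⟪hf.toLp f, Jmu hΨ g⟫_ℝ = ∫ x, (f x * g.1 x) * Real.exp (-Ψ x) := by
  rw [L2.inner_def, ← integral_mu hΨ]
  refine integral_congr_ae ?_
  filter_upwards [hf.coeFn_toLp, (memLp_mu hΨ g.2.1).coeFn_toLp] with x hx hy
  change ⟪hf.toLp f x, (memLp_mu hΨ g.2.1).toLp g.1 x⟫_ℝ = _
  rw [hx, hy]
  simp [mul_comm]

theorem memLp_of_bound (hΨ : Weight Ψ) {f : E n → ℝ} (hf : Continuous f) {C : ℝ}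
    (hC : ∀ x, |f x| ≤ C * (1 + ‖x‖ ^ 2)) : MemLp f 2 (mu Ψ) := by
  rw [memLp_two_iff_integrable_sq hf.aestronglyMeasurable, integrable_mu hΨ]
  refine integrable_of_bound hΨ (k := 4) (C := C ^ 2) (hf.pow 2).aestronglyMeasurable fun x => ?_
  have h0 : 0 ≤ C * (1 + ‖x‖ ^ 2) := (abs_nonneg _).trans (hC x)
  have h1 : |f x| ^ 2 ≤ (C * (1 + ‖x‖ ^ 2)) ^ 2 := pow_le_pow_left₀ (abs_nonneg _) (hC x) 2
  have h2 : 1 + ‖x‖ ^ 2 ≤ (1 + ‖x‖) ^ 2 := by nlinarith [norm_nonneg x]
  rw [norm_pow, Real.norm_eq_abs]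
  refine h1.trans ?_
  rw [mul_pow]
  refine mul_le_mul_of_nonneg_left ?_ (sq_nonneg _)
  calc (1 + ‖x‖ ^ 2) ^ 2 ≤ ((1 + ‖x‖) ^ 2) ^ 2 := pow_le_pow_left₀ (by positivity) h2 2
    _ = (1 + ‖x‖) ^ 4 := by ring

theorem J_one_ne (hΨ : Weight Ψ) : Jmu hΨ (oneE n) ≠ 0 := by
  intro h
  have h1 := norm_J hΨ (oneE n)
  rw [h] at h1
  simp only [norm_zero, oneE] at h1
  have h2 : 0 < ∫ x : E n, Real.exp (-Ψ x) := by
    have hi : Integrable (fun x : E n => Real.exp (-Ψ x)) := by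
      have := int_tg hΨ (HasTemperateGrowth.const (E := E n) (1 : ℝ))
      simpa using this
    exact integral_exp_pos hi
  simp at h1
  linarith

/-- **Abstract form of DEN** for a weight `Ψ` and coefficients `τ`. -/
theorem density (hΨ : Weight Ψ) (hτ : Coef τ Ψ) (h2 : ∀ i j x, τ i j (-x) = τ i j x)
    (hgap : ∃ K : ℝ, ∀ h ∈ Ne n, ∫ x, h.1 x ^ 2 * Real.exp (-Ψ x)
      ≤ K * ∫ x, (LL τ h.1 x + h.1 x) ^ 2 * Real.exp (-Ψ x))
    (hiso : ∀ χ ∈ Ae n, ∃ h ∈ Ne n, ∀ x, LL τ h.1 x + h.1 x = χ.1 x)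
    (hpoi : ∃ C : ℝ, ∀ h : E n → ℝ, h.HasTemperateGrowth →
      (∫ x, h x ^ 2 * Real.exp (-Ψ x)) * (∫ x, Real.exp (-Ψ x))
        - (∫ x, h x * Real.exp (-Ψ x)) ^ 2 ≤ C * ∫ x, Gam τ h h x * Real.exp (-Ψ x))
    (hden : ∀ f : E n → ℝ, Continuous f → (∀ x, f (-x) = f x) →
      (∃ C : ℝ, ∀ x, |f x| ≤ C * (1 + ‖x‖ ^ 2)) → ∀ ε : ℝ, 0 < ε →
      ∃ χ ∈ Ae n, ∫ x, (f x - χ.1 x) ^ 2 * Real.exp (-Ψ x) ≤ ε)
    {f : E n → ℝ} (hf : Continuous f) (hfe : ∀ x, f (-x) = f x)
    (hfb : ∃ C : ℝ, ∀ x, |f x| ≤ C * (1 + ‖x‖ ^ 2)) (hf0 : ∫ x, f x * Real.exp (-Ψ x) = 0)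
    {ε : ℝ} (hε : 0 < ε) :
    ∃ φ ∈ Ae n, ∫ x, (f x - LL τ (fun y => LL τ φ.1 y + φ.1 y) x) ^ 2 * Real.exp (-Ψ x) ≤ ε := by
  obtain ⟨C, hC⟩ := id hfb
  have hfm : MemLp f 2 (mu Ψ) := memLp_of_bound hΨ hf hC
  set L := Lev τ hτ.tg h2 with hL
  set J := Jmu hΨ with hJ
  have hsub : ∀ g : Ev n, ‖hfm.toLp f - J g‖ ^ 2 = ∫ x, (f x - g.1 x) ^ 2 * Real.exp (-Ψ x) := by
    intro g
    have h3 : hfm.toLp f - J g = (hfm.sub (memLp_mu hΨ g.2.1)).toLp (f - g.1) :=
      (MemLp.toLp_sub hfm (memLp_mu hΨ g.2.1)).symm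
    rw [h3, norm_toLp hΨ]
    rfl
  have hF : hfm.toLp f ∈ closure (J '' (Ae n : Set (Ev n))) := by
    rw [Metric.mem_closure_iff]
    intro δ hδ
    obtain ⟨χ, hχ, hχε⟩ := hden f hf hfe hfb ((δ / 2) ^ 2) (by positivity)
    refine ⟨J χ, ⟨χ, hχ, rfl⟩, ?_⟩
    rw [dist_eq_norm]
    rw [← hsub] at hχε
    have := abs_le_of_sq_le_sq hχε (by positivity)
    have h4 := (abs_le.1 this).2
    linarith
  have hF0 : ⟪hfm.toLp f, J (oneE n)⟫_ℝ = 0 := by
    rw [hJ, inner_toLp_J]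
    simpa [oneE] using hf0
  have hdens := abs_density J L (Ae n) (Ne n) (oneE n) ?_ (J_one_ne hΨ) ?_ ?_ ?_ ?_ ?_ ?_ ?_ ?_
    (hfm.toLp f) hF hF0
  · rw [Metric.mem_closure_iff] at hdens
    obtain ⟨_, ⟨φ, hφ, rfl⟩, hd⟩ := hdens (Real.sqrt ε) (Real.sqrt_pos.2 hε)
    refine ⟨φ, hφ, ?_⟩
    rw [dist_eq_norm] at hd
    have h5 := hsub (L (L φ + φ))
    have h6 : (L (L φ + φ)).1 = LL τ (fun y => LL τ φ.1 y + φ.1 y) := rfl
    rw [h6] at h5
    rw [← h5]
    calc ‖hfm.toLp f - J (L (L φ + φ))‖ ^ 2 ≤ (Real.sqrt ε) ^ 2 :=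
          pow_le_pow_left₀ (norm_nonneg _) hd.le 2
      _ = ε := Real.sq_sqrt hε.le
  · -- L one = 0
    apply Subtype.ext
    funext x
    change LL τ (fun _ => (1 : ℝ)) x = 0
    unfold LL
    have e1 : ∀ j, pd j (fun _ : E n => (1 : ℝ)) = fun _ => 0 := fun j => by
      funext y; simp [pd]
    have e2 : ∀ i x, pd i (fun _ : E n => (0 : ℝ)) x = 0 := fun i x => by simp [pd]
    simp [e1, e2]
  · -- symmetry
    intro a b
    rw [hJ, inner_J, inner_J]
    exact LL_symm hΨ hτ a.2.1 b.2.1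
  · -- L(L+1) preserves test functions
    intro φ hφ
    have h3 : HasCompactSupport (fun y => LL τ φ.1 y + φ.1 y) := (LL_supp hφ.supp).add hφ.supp
    exact ⟨(L (L φ + φ)).2.1.1, LL_supp h3⟩
  · -- hext2
    intro W hW g _
    exact eq_zero_of_cut (J_cut2 hΨ hτ.tg h2 g) fun t ht => hW _ (cutE_tst g ht)
  · intro W hW g _
    exact eq_zero_of_cut (J_cut1 hΨ hτ.tg h2 g) fun t ht => hW _ (cutE_tst g ht)
  · intro g _
    exact J_mem_closure hΨ g
  · -- gap
    obtain ⟨K, hK⟩ := hgap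
    refine ⟨Real.sqrt (max K 0), fun h hh => ?_⟩
    have h3 := hK h hh
    have h4 : ‖J h‖ ^ 2 = ∫ x, h.1 x ^ 2 * Real.exp (-Ψ x) := norm_J hΨ h
    have h5 : ‖J (L h + h)‖ ^ 2 = ∫ x, (LL τ h.1 x + h.1 x) ^ 2 * Real.exp (-Ψ x) :=
      norm_J hΨ (L h + h)
    rw [← h4, ← h5] at h3
    have h6 : ‖J h‖ ^ 2 ≤ (Real.sqrt (max K 0) * ‖J (L h + h)‖) ^ 2 := by
      rw [mul_pow, Real.sq_sqrt (le_max_right _ _)]
      exact h3.trans (mul_le_mul_of_nonneg_right (le_max_left _ _) (sq_nonneg _))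
    exact (abs_le_of_sq_le_sq' h6 (by positivity)).2
  · -- iso
    intro χ hχ
    obtain ⟨h, hh, he⟩ := hiso χ hχ
    exact ⟨h, hh, Subtype.ext (funext he)⟩
  · -- Poincaré
    obtain ⟨K, hK⟩ := hpoi
    refine ⟨K, fun h _ => ?_⟩
    have h3 := hK h.1 h.2.1
    have h4 : ‖J h‖ ^ 2 = ∫ x, h.1 x ^ 2 * Real.exp (-Ψ x) := norm_J hΨ h
    have h5 : ‖J (oneE n)‖ ^ 2 = ∫ x, Real.exp (-Ψ x) := by
      rw [hJ, norm_J]; simp [oneE]
    have h6 : ⟪J h, J (oneE n)⟫_ℝ = ∫ x, h.1 x * Real.exp (-Ψ x) := by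
      rw [hJ, inner_J]; simp [oneE]
    have h7 : ⟪J (L h), J h⟫_ℝ = - ∫ x, Gam τ h.1 h.1 x * Real.exp (-Ψ x) := by
      rw [hJ, inner_J]
      exact LL_ibp hΨ hτ h.2.1 h.2.1
    rw [h4, h5, h6, h7, neg_neg]
    exact h3

end

end Crest.Agent.R238.Den
end
end

-- ▼ part R238/DenGlue
section

/-! Row 238, H10 (density): glue to `TopDefs.Dens`. (helper892) -/

set_option autoImplicit false
open scoped ContDiff Topology InnerProductSpace
open Set Filter MeasureTheory Function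

noncomputable section

namespace Crest.Agent.R238.Den

variable {n : ℕ}

theorem Hs_even {v : E n → ℝ} (hv : v.HasTemperateGrowth) (he : ∀ x, v (-x) = v x) (x : E n)
    (i j : Fin n) : Hs v (-x) i j = Hs v x i j := by
  rw [Hs_eq hv, Hs_eq hv]
  exact pd_odd (tg_diff (tg_pd hv j)) (fun y => pd_even (tg_diff hv) he j y) i x

theorem tau_even {v : E n → ℝ} (hv : v.HasTemperateGrowth) (he : ∀ x, v (-x) = v x) (x : E n) :
    tauM v (-x) = tauM v x := by
  unfold tauM
  congr 1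
  unfold gM
  congr 1
  ext i j
  simp only [Matrix.of_apply]
  exact Hs_even hv he x i j

/-- coefficients of a solution -/
theorem coef_sol {P v : E n → ℝ} (hP : PDat P) (hv : Sol P v) :
    Coef (fun i j x => tauM v x i j) (Pot P) := by
  obtain ⟨lo, hi, M0, hlo, D⟩ := GapD.dat_of_sol hP hv
  refine ⟨fun i j => tg_tau hv i j, fun i j x => D.symm x i j, fun b x => ?_⟩
  have h := D.div x b
  rw [← h, ← Finset.sum_sub_distrib]
  refine Finset.sum_congr rfl fun a _ => ?_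
  rw [pd_Pot hP.tst]
  rfl

theorem Lop_fun {v h : E n → ℝ} (hh : h.HasTemperateGrowth) :
    Lop v h = LL (fun i j x => tauM v x i j) h := by
  funext x; exact Lop_eq hh x

theorem dens_of (n : ℕ)
    (hgap : ∀ P v : E n → ℝ, PDat P → Sol P v → ∃ K : ℝ, ∀ h : E n → ℝ, Nice h →
      (∀ x, h (-x) = h x) → ∫ x, h x ^ 2 * wt P x ≤ K * ∫ x, (Lop v h x + h x) ^ 2 * wt P x)
    (hpoi : ∀ P v : E n → ℝ, PDat P → Sol P v → ∃ C : ℝ, ∀ h : E n → ℝ, h.HasTemperateGrowth →
      (∫ x, h x ^ 2 * wt P x) * (∫ x, wt P x) - (∫ x, h x * wt P x) ^ 2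
        ≤ C * ∫ x, Gam (fun i j x => tauM v x i j) h h x * wt P x)
    (hden : ∀ P : E n → ℝ, PDat P → ∀ f : E n → ℝ, Continuous f → (∀ x, f (-x) = f x) →
      (∃ C : ℝ, ∀ x, |f x| ≤ C * (1 + ‖x‖ ^ 2)) → ∀ ε : ℝ, 0 < ε →
      ∃ χ : E n → ℝ, Tst χ ∧ (∀ x, χ (-x) = χ x) ∧ ∫ x, (f x - χ x) ^ 2 * wt P x ≤ ε) :
    Dens n := by
  intro P v hP hv hiso f hf hfe hfb hf0 ε hε
  have hvt := tg_nice hv.nice
  have hΨ := weight_tst hP.tst
  have hτ := coef_sol hP hv
  have g1 : ∃ K : ℝ, ∀ h ∈ Ne n, ∫ x, h.1 x ^ 2 * Real.exp (-Pot P x)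
      ≤ K * ∫ x, (LL (fun i j x => tauM v x i j) h.1 x + h.1 x) ^ 2 * Real.exp (-Pot P x) := by
    obtain ⟨K, hK⟩ := hgap P v hP hv
    refine ⟨K, fun h hh => ?_⟩
    have := hK h.1 hh h.2.2
    rw [Lop_fun h.2.1] at this
    exact this
  have g2 : ∀ χ ∈ Ae n, ∃ h ∈ Ne n, ∀ x,
      LL (fun i j x => tauM v x i j) h.1 x + h.1 x = χ.1 x := by
    intro χ hχ
    obtain ⟨h, hh, he, hs⟩ := hiso χ.1 hχ χ.2.2
    refine ⟨⟨h, tg_nice hh, he⟩, hh, fun x => ?_⟩
    have := hs x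
    rwa [Lop_eq (tg_nice hh)] at this
  have g4 : ∀ f : E n → ℝ, Continuous f → (∀ x, f (-x) = f x) →
      (∃ C : ℝ, ∀ x, |f x| ≤ C * (1 + ‖x‖ ^ 2)) → ∀ ε : ℝ, 0 < ε →
      ∃ χ ∈ Ae n, ∫ x, (f x - χ.1 x) ^ 2 * Real.exp (-Pot P x) ≤ ε := by
    intro g hg hge hgb δ hδ
    obtain ⟨χ, hχ, hχe, hχδ⟩ := hden P hP g hg hge hgb δ hδ
    exact ⟨⟨χ, tg_tst hχ, hχe⟩, hχ, hχδ⟩
  obtain ⟨φ, hφ, hφε⟩ := density hΨ hτ
    (fun i j x => by
      rw [tau_even hvt hv.even]) g1 g2 (hpoi P v hP hv) g4 hf hfe hfb hf0 hε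
  refine ⟨φ.1, hφ, ?_⟩
  have h1 : R238.LL v φ.1 = LL (fun i j x => tauM v x i j)
      (fun y => LL (fun i j x => tauM v x i j) φ.1 y + φ.1 y) := by
    unfold R238.LL
    rw [Lop_fun φ.2.1, Lop_fun ((tg_LL hτ.tg φ.2.1).fun_add φ.2.1)]
  rw [h1]
  exact hφε

end Crest.Agent.R238.Den
end
end

-- ▼ part R238/DenPoi

/-! Row 238, H10 (density): the Poincare inequality for `Gam (tauM v)` from `Sol P v`.
(helper280) -/

set_option autoImplicit false
open scoped ContDiff Topology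
open Set Filter MeasureTheory Function

noncomputable section

namespace Crest.Agent.R238.Den

variable {n : ℕ}

theorem pg_of_tg {f : E n → ℝ} (hf : f.HasTemperateGrowth) : Gap.PG f := by
  obtain ⟨k, C, -, h⟩ := tg_bound hf
  exact ⟨C, k, fun x => by simpa [Real.norm_eq_abs] using h x⟩

/-- the gradient is controlled by the carre du champ -/
theorem sum_sq_le_Gam {P v : E n → ℝ} (hv : Sol P v) :
    ∃ hi : ℝ, 0 ≤ hi ∧ ∀ (h : E n → ℝ) (x : E n),
      ∑ i, pd i h x ^ 2 ≤ hi * Gam (fun i j x => tauM v x i j) h h x := by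
  obtain ⟨lo, hi, hlo, hell⟩ := hv.ell
  rcases Nat.eq_zero_or_pos n with hn | hn
  · subst hn
    exact ⟨0, le_rfl, fun h x => by simp⟩
  · have hhi : 0 < hi := by
      set i0 : Fin n := ⟨0, hn⟩
      have h1 := (hell 0).2 (Pi.single i0 1)
      have h2 : ∑ i, (Pi.single i0 (1 : ℝ) : Fin n → ℝ) i ^ 2 = 1 := by
        rw [Finset.sum_eq_single i0]
        · simp
        · intro b _ hb
          simp [Pi.single_eq_of_ne hb]
        · simp
      have h3 := h1.1.trans h1.2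
      rw [h2] at h3
      linarith
    refine ⟨hi, hhi.le, fun h x => ?_⟩
    have h1 := ((GapD.ell_inv hlo (hell x)).2 fun i => pd i h x).1
    have h2 : 1 / hi * ∑ i, pd i h x ^ 2 ≤ Gam (fun i j x => tauM v x i j) h h x := h1
    calc ∑ i, pd i h x ^ 2 = hi * (1 / hi * ∑ i, pd i h x ^ 2) := by field_simp
      _ ≤ _ := mul_le_mul_of_nonneg_left h2 hhi.le

/-- **Poincaré** for `Γ` -/
theorem poi_sol {P v : E n → ℝ} (hP : PDat P) (hv : Sol P v) :
    ∃ C : ℝ, ∀ h : E n → ℝ, h.HasTemperateGrowth →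
      (∫ x, h x ^ 2 * wt P x) * (∫ x, wt P x) - (∫ x, h x * wt P x) ^ 2
        ≤ C * ∫ x, Gam (fun i j x => tauM v x i j) h h x * wt P x := by
  obtain ⟨M0, hM0⟩ := hP.bdd
  obtain ⟨hi, hhi, hGam⟩ := sum_sq_le_Gam hv
  have hW := hP.wt_pos
  have hWt := weight_tst hP.tst
  set W := ∫ x, wt P x with hWdef
  set KP : ℝ := (Real.pi ^ 2 / 8) * Real.exp (2 * M0) with hKP
  have hKP0 : 0 ≤ KP := by positivity
  refine ⟨W * (KP * hi), fun h hh => ?_⟩
  have hpoi := GapPc.poincare (f := h) hP.cont hM0 (hh.1.of_le (by simp)) (pg_of_tg hh)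
    (fun i => pg_of_tg (tg_pd hh i))
  have i1 : Integrable (fun x => h x ^ 2 * wt P x) := by
    have : (fun x => h x ^ 2).HasTemperateGrowth := by
      simpa only [sq] using hh.fun_mul hh
    exact int_tg hWt this
  have i2 : Integrable (fun x => h x * wt P x) := int_tg hWt hh
  have i3 : Integrable (fun x => wt P x) := hP.integrable_wt
  have i4 : Integrable (fun x => Gam (fun i j x => tauM v x i j) h h x * wt P x) :=
    int_tg hWt (tg_Gam (fun i j => tg_tau hv i j) hh hh)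
  have i5 : Integrable (fun x => (∑ i, pd i h x ^ 2) * wt P x) := by
    have : (fun x => ∑ i, pd i h x ^ 2).HasTemperateGrowth := by
      refine HasTemperateGrowth.sum fun i _ => ?_
      simpa only [sq] using (tg_pd hh i).fun_mul (tg_pd hh i)
    exact int_tg hWt this
  set m : ℝ := ∫ y, h y ∂(ProbabilityTheory.stdGaussian (E n)) with hm
  have e1 : ∫ x, (h x - m) ^ 2 * wt P x
      = (∫ x, h x ^ 2 * wt P x) - 2 * m * (∫ x, h x * wt P x) + m ^ 2 * W := by
    have : (fun x => (h x - m) ^ 2 * wt P x)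
        = fun x => (h x ^ 2 * wt P x - 2 * m * (h x * wt P x)) + m ^ 2 * wt P x := by
      ext x; ring
    have i12 : Integrable (fun x => h x ^ 2 * wt P x - 2 * m * (h x * wt P x)) :=
      i1.sub (i2.const_mul _)
    rw [this, integral_add i12 (i3.const_mul _),
      integral_sub i1 (i2.const_mul _), integral_const_mul, integral_const_mul]
  have e2 : (∫ x, h x ^ 2 * wt P x) * W - (∫ x, h x * wt P x) ^ 2
      ≤ W * ∫ x, (h x - m) ^ 2 * wt P x := by
    rw [e1]
    nlinarith [sq_nonneg ((∫ x, h x * wt P x) - m * W)]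
  have e3 : ∫ x, (∑ i, pd i h x ^ 2) * wt P x
      ≤ hi * ∫ x, Gam (fun i j x => tauM v x i j) h h x * wt P x := by
    rw [← integral_const_mul]
    refine integral_mono i5 (i4.const_mul _) fun x => ?_
    simp only
    rw [← mul_assoc]
    exact mul_le_mul_of_nonneg_right (hGam h x) (Real.exp_pos _).le
  refine e2.trans ?_
  calc W * ∫ x, (h x - m) ^ 2 * wt P x
      ≤ W * (KP * ∫ x, (∑ i, pd i h x ^ 2) * wt P x) :=
        mul_le_mul_of_nonneg_left hpoi hW.le
    _ ≤ W * (KP * (hi * ∫ x, Gam (fun i j x => tauM v x i j) h h x * wt P x)) :=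
        mul_le_mul_of_nonneg_left (mul_le_mul_of_nonneg_left e3 hKP0) hW.le
    _ = _ := by ring

end Crest.Agent.R238.Den
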