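import Crest.Agent.R238.BootA

/-!
Row 238 (S0369): BOOTSTRAP, part B (helper303): induction `LIN_k`.
-/

set_option autoImplicit false

open MeasureTheory Set Filter
open scoped ContDiff Topology

namespace Crest.Agent.R238.Boot

open Crest.Agent.R238

variable {n : ℕ}

/-- `k` derivatives, all bounded and `a`-Hölder -/
def CK (a : ℝ) : ℕ → (E n → ℝ) → Prop
  | 0, f => ∃ M, HB a M f
  | k + 1, f => (∃ M, HB a M f) ∧ Differentiable ℝ f ∧ ∀ i, CK a k (fun x => fderiv ℝ f x (ee i))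

theorem CK.hb {a : ℝ} {k : ℕ} {f : E n → ℝ} (h : CK a k f) : ∃ M, HB a M f := by
  cases k with
  | zero => exact h
  | succ k => exact h.1

theorem CK.of_succ {a : ℝ} {k : ℕ} {f : E n → ℝ} (h : CK a (k + 1) f) : CK a k f := by
  induction k generalizing f with
  | zero => exact h.1
  | succ k ih => exact ⟨h.1, h.2.1, fun i => ih (h.2.2 i)⟩

theorem CK.of_le {a : ℝ} {k l : ℕ} {f : E n → ℝ} (h : CK a k f) (hl : l ≤ k) : CK a l f := by
  induction k with
  | zero => rwa [Nat.le_zero.1 hl]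
  | succ k ih =>
    rcases Nat.lt_or_ge l (k + 1) with h1 | h1
    · exact ih h.of_succ (Nat.lt_succ_iff.1 h1)
    · rwa [le_antisymm hl h1]

theorem CK.diff {a : ℝ} {k : ℕ} {f : E n → ℝ} (h : CK a (k + 1) f) : Differentiable ℝ f := h.2.1

theorem CK.pd {a : ℝ} {k : ℕ} {f : E n → ℝ} (h : CK a (k + 1) f) (i : Fin n) :
    CK a k (pd i f) := h.2.2 i

theorem pd_add {f g : E n → ℝ} (hf : Differentiable ℝ f) (hg : Differentiable ℝ g) (i : Fin n)
    (x : E n) : Boot.pd i (fun x => f x + g x) x = Boot.pd i f x + Boot.pd i g x := by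
  unfold Boot.pd
  have h : HasFDerivAt (fun x => f x + g x) (fderiv ℝ f x + fderiv ℝ g x) x :=
    (hf x).hasFDerivAt.add (hg x).hasFDerivAt
  rw [h.fderiv]
  rfl

theorem pd_neg {f : E n → ℝ} (hf : Differentiable ℝ f) (i : Fin n)
    (x : E n) : Boot.pd i (fun x => - f x) x = - Boot.pd i f x := by
  unfold Boot.pd
  have h : HasFDerivAt (fun x => - f x) (-fderiv ℝ f x) x := (hf x).hasFDerivAt.neg
  rw [h.fderiv]
  rfl

theorem pd_mul {f g : E n → ℝ} (hf : Differentiable ℝ f) (hg : Differentiable ℝ g) (i : Fin n)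
    (x : E n) : Boot.pd i (fun x => f x * g x) x = f x * Boot.pd i g x + Boot.pd i f x * g x := by
  unfold Boot.pd
  have h : HasFDerivAt (fun x => f x * g x) (f x • fderiv ℝ g x + g x • fderiv ℝ f x) x :=
    (hf x).hasFDerivAt.mul (hg x).hasFDerivAt
  rw [h.fderiv]
  show f x * fderiv ℝ g x (ee i) + g x * fderiv ℝ f x (ee i) = _
  ring


theorem CK.add {a : ℝ} {k : ℕ} {f g : E n → ℝ} (hf : CK a k f) (hg : CK a k g) :
    CK a k (fun x => f x + g x) := by
  induction k generalizing f g with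
  | zero =>
    obtain ⟨M, hM⟩ := hf
    obtain ⟨M', hM'⟩ := hg
    exact ⟨_, HB.add hM hM'⟩
  | succ k ih =>
    obtain ⟨M, hM⟩ := hf.1
    obtain ⟨M', hM'⟩ := hg.1
    refine ⟨⟨_, HB.add hM hM'⟩, hf.2.1.add hg.2.1, fun i => ?_⟩
    have := ih (hf.2.2 i) (hg.2.2 i)
    refine cast ?_ this
    congr 1
    funext x
    exact (pd_add hf.2.1 hg.2.1 i x).symm

theorem CK.neg {a : ℝ} {k : ℕ} {f : E n → ℝ} (hf : CK a k f) :
    CK a k (fun x => - f x) := by
  induction k generalizing f with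
  | zero =>
    obtain ⟨M, hM⟩ := hf
    exact ⟨_, HB.neg hM⟩
  | succ k ih =>
    obtain ⟨M, hM⟩ := hf.1
    refine ⟨⟨_, HB.neg hM⟩, hf.2.1.neg, fun i => ?_⟩
    have := ih (hf.2.2 i)
    refine cast ?_ this
    congr 1
    funext x
    exact (pd_neg hf.2.1 i x).symm

theorem CK.sub {a : ℝ} {k : ℕ} {f g : E n → ℝ} (hf : CK a k f) (hg : CK a k g) :
    CK a k (fun x => f x - g x) := by
  have := CK.add hf (CK.neg hg)
  simpa [sub_eq_add_neg] using this

theorem CK.mul {a : ℝ} {k : ℕ} {f g : E n → ℝ} (hf : CK a k f) (hg : CK a k g) :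
    CK a k (fun x => f x * g x) := by
  induction k generalizing f g with
  | zero =>
    obtain ⟨M, hM⟩ := hf
    obtain ⟨M', hM'⟩ := hg
    exact ⟨_, HB.mul hM hM'⟩
  | succ k ih =>
    obtain ⟨M, hM⟩ := hf.1
    obtain ⟨M', hM'⟩ := hg.1
    refine ⟨⟨_, HB.mul hM hM'⟩, hf.2.1.mul hg.2.1, fun i => ?_⟩
    have := CK.add (ih hf.of_succ (hg.2.2 i)) (ih (hf.2.2 i) hg.of_succ)
    refine cast ?_ this
    congr 1
    funext x
    exact (pd_mul hf.2.1 hg.2.1 i x).symm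

theorem ck_const (a c : ℝ) (k : ℕ) : CK a k (fun _ : E n => c) := by
  induction k generalizing c with
  | zero => exact ⟨_, hb_const a c⟩
  | succ k ih =>
    refine ⟨⟨_, hb_const a c⟩, differentiable_const c, fun i => ?_⟩
    have := ih 0
    refine cast ?_ this
    congr 1
    funext x
    simp

theorem ck_sum {a : ℝ} {k : ℕ} {ι : Type*} (s : Finset ι) {f : ι → E n → ℝ}
    (h : ∀ j ∈ s, CK a k (f j)) : CK a k (fun x => ∑ j ∈ s, f j x) := by
  classical
  induction s using Finset.induction_on with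
  | empty =>
    simp only [Finset.sum_empty]
    exact ck_const a 0 k
  | insert j s hj ih =>
    simp only [Finset.sum_insert hj]
    exact CK.add (h j (Finset.mem_insert_self j s))
      (ih fun l hl => h l (Finset.mem_insert_of_mem hl))


theorem pd_inv {f : E n → ℝ} (hf : Differentiable ℝ f) (h0 : ∀ x, f x ≠ 0) (i : Fin n)
    (x : E n) : Boot.pd i (fun x => (f x)⁻¹) x = -((f x)⁻¹ * (f x)⁻¹ * Boot.pd i f x) := by
  unfold Boot.pd
  have h : HasFDerivAt (fun x => (f x)⁻¹) (-(ContinuousLinearMap.toSpanSingleton ℝ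
      ((f x ^ 2)⁻¹)).comp (fderiv ℝ f x)) x := by
    have := (hasDerivAt_inv (h0 x)).hasFDerivAt.comp x (hf x).hasFDerivAt
    refine this.congr_fderiv ?_
    ext z
    simp
  rw [h.fderiv]
  simp only [_root_.neg_apply, ContinuousLinearMap.comp_apply,
    ContinuousLinearMap.toSpanSingleton_apply, smul_eq_mul]
  rw [pow_two, mul_inv]
  ring

theorem CK.inv {a c : ℝ} {k : ℕ} {f : E n → ℝ} (hc : 0 < c) (hfc : ∀ x, c ≤ |f x|)
    (hf : CK a k f) : CK a k (fun x => (f x)⁻¹) := by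
  have h0 : ∀ x, f x ≠ 0 := fun x => abs_pos.1 (hc.trans_le (hfc x))
  induction k with
  | zero =>
    obtain ⟨M, hM⟩ := hf
    exact ⟨_, HB.inv hM hc hfc⟩
  | succ k ih =>
    obtain ⟨M, hM⟩ := hf.1
    refine ⟨⟨_, HB.inv hM hc hfc⟩, hf.2.1.inv h0, fun i => ?_⟩
    have h1 := ih hf.of_succ
    have := CK.neg (CK.mul (CK.mul h1 h1) (hf.2.2 i))
    refine cast ?_ this
    congr 1
    funext x
    exact (pd_inv hf.2.1 h0 i x).symm



theorem CK.contDiff {a : ℝ} (ha : 0 < a) {k : ℕ} {f : E n → ℝ} (h : CK a k f) :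
    ContDiff ℝ k f := by
  induction k generalizing f with
  | zero =>
    obtain ⟨M, hM⟩ := h
    rw [Nat.cast_zero, contDiff_zero]
    exact HB.continuous ha hM
  | succ k ih =>
    push_cast
    exact contDiff_succ_of_pd h.2.1 fun i => ih (h.2.2 i)

theorem fderiv_eq_sum_smul (f : E n → ℝ) : fderiv ℝ f =
    fun x => ∑ i, (Boot.pd i f x) • (EuclideanSpace.proj i : E n →L[ℝ] ℝ) := by
  funext x
  ext z
  rw [fderiv_eq_sum_pd]
  rw [_root_.sum_apply]
  exact Finset.sum_congr rfl fun i _ => mul_comm _ _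

/-- bounded iterated derivatives of `x ↦ g x • c` -/
theorem bdd_smul_const {F : Type*} [NormedAddCommGroup F] [NormedSpace ℝ F] {k : ℕ}
    {g : E n → ℝ} (hg : ContDiff ℝ k g) (c : F)
    (h : ∃ C : ℝ, ∀ x, ‖iteratedFDeriv ℝ k g x‖ ≤ C) :
    ∃ C : ℝ, ∀ x, ‖iteratedFDeriv ℝ k (fun x => g x • c) x‖ ≤ C := by
  obtain ⟨C, hC⟩ := h
  set T : ℝ →L[ℝ] F := ContinuousLinearMap.toSpanSingleton ℝ c with hT
  refine ⟨‖T‖ * C, fun x => ?_⟩
  have e : (fun x => g x • c) = T ∘ g := by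
    funext x; simp [hT]
  rw [e]
  exact (T.norm_iteratedFDeriv_comp_left hg.contDiffAt le_rfl).trans
    (mul_le_mul_of_nonneg_left (hC x) (norm_nonneg _))

theorem bdd_sum {F : Type*} [NormedAddCommGroup F] [NormedSpace ℝ F] {k : ℕ}
    {ι : Type*} (s : Finset ι) {g : ι → E n → F} (hg : ∀ i ∈ s, ContDiff ℝ k (g i))
    (h : ∀ i ∈ s, ∃ C : ℝ, ∀ x, ‖iteratedFDeriv ℝ k (g i) x‖ ≤ C) :
    ∃ C : ℝ, ∀ x, ‖iteratedFDeriv ℝ k (fun x => ∑ i ∈ s, g i x) x‖ ≤ C := by
  choose! C hC using h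
  refine ⟨∑ i ∈ s, C i, fun x => ?_⟩
  have h1 : iteratedFDeriv ℝ k (fun x => ∑ i ∈ s, g i x) x
      = ∑ i ∈ s, iteratedFDeriv ℝ k (g i) x :=
    iteratedFDeriv_fun_sum_apply fun i hi => (hg i hi).contDiffAt
  rw [h1]
  exact (norm_sum_le _ _).trans (Finset.sum_le_sum fun i hi => hC i hi x)

theorem bdd_of_pd {k : ℕ} {f : E n → ℝ} (hf : ContDiff ℝ (k + 1) f)
    (h : ∀ i, ∃ C : ℝ, ∀ x, ‖iteratedFDeriv ℝ k (Boot.pd i f) x‖ ≤ C) :
    ∃ C : ℝ, ∀ x, ‖iteratedFDeriv ℝ (k + 1) f x‖ ≤ C := by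
  have h1 := bdd_sum (F := E n →L[ℝ] ℝ) (k := k) Finset.univ
    (g := fun i x => (Boot.pd i f x) • (EuclideanSpace.proj i : E n →L[ℝ] ℝ))
    (fun i _ => (contDiff_pd i hf).smul contDiff_const)
    (fun i _ => bdd_smul_const (contDiff_pd i hf) _ (h i))
  obtain ⟨C, hC⟩ := h1
  refine ⟨C, fun x => ?_⟩
  rw [← norm_iteratedFDeriv_fderiv, fderiv_eq_sum_smul f]
  exact hC x

theorem CK.bdd {a : ℝ} (ha : 0 < a) {k : ℕ} {f : E n → ℝ} (h : CK a k f) :
    ∃ C : ℝ, ∀ x, ‖iteratedFDeriv ℝ k f x‖ ≤ C := by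
  induction k generalizing f with
  | zero =>
    obtain ⟨M, hM⟩ := h
    refine ⟨M, fun x => ?_⟩
    rw [norm_iteratedFDeriv_zero]
    exact hM.1 x
  | succ k ih =>
    refine bdd_of_pd ?_ fun i => ih (h.2.2 i)
    have := CK.contDiff ha h
    exact_mod_cast this

/-! ### linear induction -/

/-- linear one-step lemma (difference quotients), hypothesis -/
def StepStmt (a : ℝ) (τ : E n → Matrix (Fin n) (Fin n) ℝ) : Prop :=
  ∀ f w : E n → ℝ, CK a 1 f → ContDiff ℝ 2 w → (∀ i j, ∃ M, HB a M (fun x => Hs w x i j)) →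
    (∃ G, ∀ x, ‖fderiv ℝ w x‖ ≤ G) → (∀ x, LA τ w x = f x) →
    ∀ e : Fin n, ContDiff ℝ 2 (Boot.pd e w) ∧
      (∀ i j, ∃ M, HB a M (fun x => Hs (Boot.pd e w) x i j)) ∧
      ∀ x, LA τ (Boot.pd e w) x = Boot.pd e f x
        - ∑ i, ∑ j, Boot.pd e (fun y => τ y i j) x * Hs w x i j + Boot.pd e w x

theorem contDiff_three {w : E n → ℝ} (h2 : ContDiff ℝ 2 w)
    (h : ∀ e : Fin n, ContDiff ℝ 2 (Boot.pd e w)) : ContDiff ℝ 3 w := by
  have h1 : ContDiff ℝ ((2 : ℕ) + 1) w :=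
    contDiff_succ_of_pd (h2.differentiable (by norm_num)) fun i => by exact_mod_cast h i
  exact_mod_cast h1

/-- `∂_e (Hs w) = Hs (∂_e w)` -/
theorem pd_Hs {w : E n → ℝ} (h3 : ContDiff ℝ 3 w) (e i j : Fin n) (x : E n) :
    Boot.pd e (fun y => Hs w y i j) x = Hs (Boot.pd e w) x i j := by
  have h2 : ContDiff ℝ 2 w := h3.of_le (by norm_num)
  have hp : ∀ k, ContDiff ℝ 2 (Boot.pd k w) := fun k => by
    have : ContDiff ℝ ((2 : ℕ) + 1) w := by exact_mod_cast h3
    exact_mod_cast contDiff_pd k this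
  have e1 : (fun y => Hs w y i j) = Boot.pd i (Boot.pd j w) := by
    funext y; exact (pd_pd_eq h2 i j y).symm
  rw [e1, pd_comm (hp j), ← pd_pd_eq (hp e)]
  have e2 : Boot.pd e (Boot.pd j w) = Boot.pd j (Boot.pd e w) := by
    funext y; exact pd_comm h2 e j y
  rw [e2]

theorem ck_pd_of_Hs {a : ℝ} (ha : 0 < a) (ha1 : a ≤ 1) {k : ℕ} {w : E n → ℝ}
    (h2 : ContDiff ℝ 2 w) (hG : ∃ G, ∀ x, ‖fderiv ℝ w x‖ ≤ G)
    (hH : ∀ i j, CK a k (fun x => Hs w x i j)) (e : Fin n) : CK a (k + 1) (Boot.pd e w) := by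
  obtain ⟨G, hG⟩ := hG
  have hd : Differentiable ℝ (Boot.pd e w) := by
    have : ContDiff ℝ ((1 : ℕ) + 1) w := by exact_mod_cast h2
    exact (contDiff_pd e this).differentiable (by norm_num)
  have hpe : ∀ i x, Boot.pd i (Boot.pd e w) x = Hs w x i e := fun i x => pd_pd_eq h2 i e x
  refine ⟨?_, hd, fun i => ?_⟩
  · -- bounded and Lipschitz
    choose M hM using fun i => (hH i e).hb
    set L : ℝ := ∑ i, M i with hL
    have hM0 : ∀ i, 0 ≤ M i := fun i => HB.nonneg (hM i)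
    have hLi : ∀ i x, |Boot.pd i (Boot.pd e w) x| ≤ L := fun i x => by
      rw [hpe]
      exact ((hM i).1 x).trans (Finset.single_le_sum (fun j _ => hM0 j) (Finset.mem_univ i))
    have hL0 : 0 ≤ L := Finset.sum_nonneg fun i _ => hM0 i
    have hlip : ∀ x y, |Boot.pd e w x - Boot.pd e w y| ≤ (n * L) * ‖x - y‖ := by
      intro x y
      have := (convex_univ (𝕜 := ℝ) (E := E n)).norm_image_sub_le_of_norm_fderiv_le
        (f := Boot.pd e w) (C := n * L) (fun z _ => hd z)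
        (fun z _ => norm_fderiv_le (fun i => hLi i z) hL0) (mem_univ y) (mem_univ x)
      exact this
    refine ⟨_, hb_of_lip ha ha1 (G := G) (fun x => (abs_pd_le e).trans (hG x)) hlip⟩
  · have := hH i e
    refine cast ?_ this
    congr 1
    funext x
    exact (hpe i x).symm

/-- **LIN_k** -/
theorem lin {a : ℝ} (ha : 0 < a) (ha1 : a ≤ 1) {τ : E n → Matrix (Fin n) (Fin n) ℝ}
    (hstep : StepStmt a τ) (k : ℕ) :
    ∀ f w : E n → ℝ, (∀ i j, CK a k (fun x => τ x i j)) → CK a k f → ContDiff ℝ 2 w →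
      (∀ i j, ∃ M, HB a M (fun x => Hs w x i j)) → (∃ G, ∀ x, ‖fderiv ℝ w x‖ ≤ G) →
      (∀ x, LA τ w x = f x) → ∀ i j, CK a k (fun x => Hs w x i j) := by
  induction k with
  | zero => intro f w _ _ _ hH _ _ i j; exact hH i j
  | succ k ih =>
    intro f w hτ hf h2 hH hG hL i j
    have hτk : ∀ i j, CK a k (fun x => τ x i j) := fun i j => (hτ i j).of_succ
    have hHk := ih f w hτk hf.of_succ h2 hH hG hL
    have hst := hstep f w (hf.of_le (by omega)) h2 hH hG hL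
    have h3 : ContDiff ℝ 3 w := contDiff_three h2 fun e => (hst e).1
    refine ⟨hH i j, ?_, fun e => ?_⟩
    · have : (fun x => Hs w x i j) = Boot.pd i (Boot.pd j w) := by
        funext x; exact (pd_pd_eq h2 i j x).symm
      rw [this]
      have h4 : ContDiff ℝ ((1 : ℕ) + 1) (Boot.pd j w) := by exact_mod_cast (hst j).1
      exact (contDiff_pd i h4).differentiable (by norm_num)
    · obtain ⟨h2e, hHe, hLe⟩ := hst e
      have hpk : CK a k (Boot.pd e w) := (ck_pd_of_Hs ha ha1 h2 hG hHk e).of_succ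
      have hfe : CK a k (fun x => Boot.pd e f x
          - ∑ i, ∑ j, Boot.pd e (fun y => τ y i j) x * Hs w x i j + Boot.pd e w x) := by
        refine CK.add (CK.sub (hf.pd e) ?_) hpk
        refine ck_sum _ fun p _ => ck_sum _ fun q _ => ?_
        exact CK.mul ((hτ p q).pd e) (hHk p q)
      have hGe : ∃ G, ∀ x, ‖fderiv ℝ (Boot.pd e w) x‖ ≤ G := by
        choose M hM using fun i => hH i e
        have hM0 : ∀ i, 0 ≤ M i := fun i => HB.nonneg (hM i)
        refine ⟨n * ∑ i, M i, fun x => norm_fderiv_le (fun i => ?_)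
          (Finset.sum_nonneg fun i _ => hM0 i)⟩
        rw [pd_pd_eq h2]
        exact ((hM i).1 x).trans (Finset.single_le_sum (fun j _ => hM0 j) (Finset.mem_univ i))
      have h5 := ih _ (Boot.pd e w) hτk hfe h2e hHe hGe hLe i j
      refine cast ?_ h5
      congr 1
      funext x
      exact (pd_Hs h3 e i j x).symm

end Crest.Agent.R238.Boot
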