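import Crest.Agent.R238.HolDefs
import Crest.Agent.R238.StepMat
import Crest.Agent.R238.BootB
import Crest.Agent.R238.TauExt_Mg
import Crest.Agent.R238.AprDefs
import Crest.Agent.R238.ExiDefs
import Crest.Agent.R238.BootC
import Crest.Agent.R238.BootD
import Crest.Agent.R238.SchAll

-- ▼ part R238/EReg1
section

/-!
Row 238 (S0369), node H6 (helper978), part 1: functions whose difference quotients are uniformly
`a`-Hölder are `C¹` with Hölder derivative.
-/

set_option autoImplicit false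
set_option maxHeartbeats 400000

open MeasureTheory Set Filter
open scoped ContDiff Topology

namespace Crest.Agent.R238.EReg

variable {n : ℕ}


theorem hb_mono {a M N : ℝ} {f : E n → ℝ} (h : HB a M f) (hMN : M ≤ N) : HB a N f := by
  refine ⟨fun x => (h.1 x).trans hMN, fun x y => (h.2 x y).trans ?_⟩
  exact mul_le_mul_of_nonneg_right hMN (Real.rpow_nonneg (norm_nonneg _) _)

theorem hb_nonneg {a M : ℝ} {f : E n → ℝ} (h : HB a M f) : 0 ≤ M := (abs_nonneg _).trans (h.1 0)

theorem hb_add {a M N : ℝ} {f g : E n → ℝ} (hf : HB a M f) (hg : HB a N g) :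
    HB a (M + N) (fun x => f x + g x) := by
  refine ⟨fun x => (abs_add_le _ _).trans (add_le_add (hf.1 x) (hg.1 x)), fun x y => ?_⟩
  have h1 : f x + g x - (f y + g y) = (f x - f y) + (g x - g y) := by ring
  rw [h1, add_mul]
  exact (abs_add_le _ _).trans (add_le_add (hf.2 x y) (hg.2 x y))

theorem hb_neg {a M : ℝ} {f : E n → ℝ} (hf : HB a M f) : HB a M (fun x => - f x) := by
  refine ⟨fun x => by rw [abs_neg]; exact hf.1 x, fun x y => ?_⟩
  have h1 : - f x - - f y = -(f x - f y) := by ring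
  rw [h1, abs_neg]; exact hf.2 x y

theorem hb_sub {a M N : ℝ} {f g : E n → ℝ} (hf : HB a M f) (hg : HB a N g) :
    HB a (M + N) (fun x => f x - g x) := by
  have := hb_add hf (hb_neg hg)
  simpa [sub_eq_add_neg] using this

theorem hb_const (a c : ℝ) : HB a |c| (fun _ : E n => c) := by
  refine ⟨fun x => le_refl _, fun x y => ?_⟩
  simp only [sub_self, abs_zero]
  exact mul_nonneg (abs_nonneg _) (Real.rpow_nonneg (norm_nonneg _) _)

/-- product with separate sup bounds -/
theorem hb_mul {a M N : ℝ} {f g : E n → ℝ} (hf : HB a M f) (hg : HB a N g) :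
    HB a (2 * (M * N)) (fun x => f x * g x) := by
  have hM := hb_nonneg hf
  have hN := hb_nonneg hg
  refine ⟨fun x => ?_, fun x y => ?_⟩
  · rw [abs_mul]
    have h1 : |f x| * |g x| ≤ M * N := mul_le_mul (hf.1 x) (hg.1 x) (abs_nonneg _) hM
    have h2 : 0 ≤ M * N := mul_nonneg hM hN
    linarith
  · have h1 : f x * g x - f y * g y = f x * (g x - g y) + (f x - f y) * g y := by ring
    rw [h1]
    have hp : 0 ≤ ‖x - y‖ ^ a := Real.rpow_nonneg (norm_nonneg _) _
    have h2 : |f x * (g x - g y)| ≤ M * (N * ‖x - y‖ ^ a) := by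
      rw [abs_mul]
      exact mul_le_mul (hf.1 x) (hg.2 x y) (abs_nonneg _) hM
    have h3 : |(f x - f y) * g y| ≤ (M * ‖x - y‖ ^ a) * N := by
      rw [abs_mul]
      exact mul_le_mul (hf.2 x y) (hg.1 y) (abs_nonneg _) (mul_nonneg hM hp)
    calc |f x * (g x - g y) + (f x - f y) * g y|
        ≤ M * (N * ‖x - y‖ ^ a) + (M * ‖x - y‖ ^ a) * N := (abs_add_le _ _).trans (add_le_add h2 h3)
      _ = 2 * (M * N) * ‖x - y‖ ^ a := by ring

theorem hb_sum {a : ℝ} {ι : Type*} (s : Finset ι) {M : ι → ℝ} {f : ι → E n → ℝ}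
    (h : ∀ i ∈ s, HB a (M i) (f i)) : HB a (∑ i ∈ s, M i) (fun x => ∑ i ∈ s, f i x) := by
  classical
  refine ⟨fun x => ?_, fun x y => ?_⟩
  · exact (Finset.abs_sum_le_sum_abs _ _).trans (Finset.sum_le_sum fun i hi => (h i hi).1 x)
  · rw [← Finset.sum_sub_distrib, Finset.sum_mul]
    exact (Finset.abs_sum_le_sum_abs _ _).trans (Finset.sum_le_sum fun i hi => (h i hi).2 x y)

theorem hb_comp_add {a M : ℝ} {f : E n → ℝ} (h : HB a M f) (z : E n) :
    HB a M (fun x => f (x + z)) := by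
  refine ⟨fun x => h.1 _, fun x y => ?_⟩
  have := h.2 (x + z) (y + z)
  simpa using this


theorem hb_of_forall_gt {a M : ℝ} {f : E n → ℝ} (h : ∀ N, M < N → HB a N f) : HB a M f := by
  refine ⟨fun x => le_of_forall_gt_imp_ge_of_dense fun N hN => (h N hN).1 x, fun x y => ?_⟩
  have hlim : Tendsto (fun N : ℝ => N * ‖x - y‖ ^ a) (𝓝[>] M) (𝓝 (M * ‖x - y‖ ^ a)) :=
    ((continuous_id.mul continuous_const).tendsto M).mono_left nhdsWithin_le_nhds
  refine ge_of_tendsto hlim ?_
  filter_upwards [self_mem_nhdsWithin] with N hN using (h N hN).2 x y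



end Crest.Agent.R238.EReg
end

-- ▼ part R238/EReg2
section

/-!
Row 238 (S0369), node H6 (helper978), part 2: from Hölder partial derivatives to `C¹`;
the iterated Hölder classes `BH a k`.
-/

set_option autoImplicit false
set_option maxHeartbeats 400000

open MeasureTheory Set Filter
open scoped ContDiff Topology

namespace Crest.Agent.R238.EReg

variable {n : ℕ}

/-- the linear form with components `c i` -/
noncomputable def lf (c : Fin n → ℝ) : E n →L[ℝ] ℝ :=
  ∑ i, c i • (EuclideanSpace.proj i : E n →L[ℝ] ℝ)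

theorem lf_apply (c : Fin n → ℝ) (z : E n) : lf c z = ∑ i, c i * z i := by
  simp [lf, EuclideanSpace.proj]


theorem eq_lf (L : E n →L[ℝ] ℝ) : L = lf (fun i => L (ee i)) := by
  ext z
  rw [lf_apply]
  have hz : z = ∑ i, z i • (ee i : E n) := by
    ext j
    simp [Pi.single_apply]
  conv_lhs => rw [hz]
  rw [map_sum]
  refine Finset.sum_congr rfl fun i _ => ?_
  rw [map_smul, smul_eq_mul, mul_comm]

theorem abs_coord_le (z : E n) (i : Fin n) : |z i| ≤ ‖z‖ := by
  have := PiLp.norm_apply_le z i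
  simpa using this




/-- iterated Hölder classes: `f` and its partial derivatives up to order `k` are bounded and
`a`-Hölder -/
def BH (a : ℝ) : ℕ → (E n → ℝ) → Prop
  | 0, f => ∃ M, HB a M f
  | k + 1, f => (∃ M, HB a M f) ∧ Differentiable ℝ f ∧ ∀ i, BH a k (fun x => fderiv ℝ f x (ee i))

theorem BH.hb {a : ℝ} {k : ℕ} {f : E n → ℝ} (h : BH a k f) : ∃ M, HB a M f := by
  cases k with
  | zero => exact h
  | succ k => exact h.1

theorem BH.succ_le {a : ℝ} {k : ℕ} {f : E n → ℝ} (h : BH a (k + 1) f) : BH a k f := by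
  induction k generalizing f with
  | zero => exact h.1
  | succ k ih => exact ⟨h.1, h.2.1, fun i => ih (h.2.2 i)⟩

theorem BH.of_le {a : ℝ} {k l : ℕ} {f : E n → ℝ} (h : BH a l f) (hkl : k ≤ l) : BH a k f := by
  induction hkl with
  | refl => exact h
  | step _ ih => exact ih h.succ_le


theorem BH.add {a : ℝ} {k : ℕ} {f g : E n → ℝ} (hf : BH a k f) (hg : BH a k g) :
    BH a k (fun x => f x + g x) := by
  induction k generalizing f g with
  | zero =>
    obtain ⟨M, hM⟩ := hf
    obtain ⟨N, hN⟩ := hg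
    exact ⟨M + N, hb_add hM hN⟩
  | succ k ih =>
    obtain ⟨⟨M, hM⟩, hdf, hf'⟩ := hf
    obtain ⟨⟨N, hN⟩, hdg, hg'⟩ := hg
    refine ⟨⟨M + N, hb_add hM hN⟩, fun x => (hdf x).add (hdg x), fun i => ?_⟩
    have h1 : (fun x => fderiv ℝ (fun x => f x + g x) x (ee i))
        = fun x => fderiv ℝ f x (ee i) + fderiv ℝ g x (ee i) := by
      funext x
      rw [fderiv_fun_add (hdf x) (hdg x)]
      rfl
    rw [h1]
    exact ih (hf' i) (hg' i)

theorem BH.const (a : ℝ) (k : ℕ) (c : ℝ) : BH a k (fun _ : E n => c) := by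
  induction k generalizing c with
  | zero => exact ⟨|c|, hb_const a c⟩
  | succ k ih =>
    refine ⟨⟨|c|, hb_const a c⟩, differentiable_const c, fun i => ?_⟩
    have h1 : (fun x => fderiv ℝ (fun _ : E n => c) x (ee i)) = fun _ => (0:ℝ) := by
      funext x
      simp
    rw [h1]
    exact ih 0

theorem BH.mul {a : ℝ} {k : ℕ} {f g : E n → ℝ} (hf : BH a k f) (hg : BH a k g) :
    BH a k (fun x => f x * g x) := by
  induction k generalizing f g with
  | zero =>
    obtain ⟨M, hM⟩ := hf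
    obtain ⟨N, hN⟩ := hg
    exact ⟨_, hb_mul hM hN⟩
  | succ k ih =>
    have hf0 := hf
    have hg0 := hg
    obtain ⟨⟨M, hM⟩, hdf, hf'⟩ := hf
    obtain ⟨⟨N, hN⟩, hdg, hg'⟩ := hg
    refine ⟨⟨_, hb_mul hM hN⟩, fun x => (hdf x).mul (hdg x), fun i => ?_⟩
    have h1 : (fun x => fderiv ℝ (fun x => f x * g x) x (ee i))
        = fun x => f x * fderiv ℝ g x (ee i) + g x * fderiv ℝ f x (ee i) := by
      funext x
      rw [fderiv_fun_mul (hdf x) (hdg x)]
      rfl
    rw [h1]
    exact BH.add (ih hf0.succ_le (hg' i)) (ih hg0.succ_le (hf' i))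

theorem BH.const_mul {a : ℝ} {k : ℕ} (c : ℝ) {f : E n → ℝ} (hf : BH a k f) :
    BH a k (fun x => c * f x) := BH.mul (BH.const a k c) hf

theorem BH.neg {a : ℝ} {k : ℕ} {f : E n → ℝ} (hf : BH a k f) : BH a k (fun x => - f x) := by
  simpa using BH.const_mul (-1) hf

theorem BH.sub {a : ℝ} {k : ℕ} {f g : E n → ℝ} (hf : BH a k f) (hg : BH a k g) :
    BH a k (fun x => f x - g x) := by
  simpa [sub_eq_add_neg] using hf.add hg.neg

theorem BH.sum {a : ℝ} {k : ℕ} {ι : Type*} (s : Finset ι) {f : ι → E n → ℝ}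
    (h : ∀ i ∈ s, BH a k (f i)) : BH a k (fun x => ∑ i ∈ s, f i x) := by
  classical
  induction s using Finset.induction_on with
  | empty => simpa using BH.const a k 0
  | insert j s hj ih =>
    have h1 : (fun x => ∑ i ∈ insert j s, f i x) = fun x => f j x + ∑ i ∈ s, f i x := by
      funext x
      rw [Finset.sum_insert hj]
    rw [h1]
    exact BH.add (h j (Finset.mem_insert_self _ _))
      (ih fun i hi => h i (Finset.mem_insert_of_mem hi))

theorem BH.contDiff {a : ℝ} (ha : 0 < a) {k : ℕ} {f : E n → ℝ} (h : BH a k f) :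
    ContDiff ℝ k f := by
  induction k generalizing f with
  | zero =>
    obtain ⟨M, hM⟩ := h
    rw [Nat.cast_zero, contDiff_zero]
    exact hM.continuous ha
  | succ k ih =>
    obtain ⟨⟨M, hM⟩, hd, h'⟩ := h
    have h1 : ContDiff ℝ ((k : WithTop ℕ∞) + 1) f := by
      rw [contDiff_succ_iff_fderiv]
      refine ⟨hd, by simp, ?_⟩
      have h2 : fderiv ℝ f = fun x => lf fun i => fderiv ℝ f x (ee i) := by
        funext x
        exact eq_lf _
      rw [h2]
      unfold lf
      refine ContDiff.sum fun i _ => ?_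
      exact (ih (h' i)).smul contDiff_const
    exact_mod_cast h1

end Crest.Agent.R238.EReg
end

-- ▼ part R238/EReg3
section

/-!
Row 238 (S0369), node H6 (helper978), part 3: second order expansion of `log det`.
-/

set_option autoImplicit false
set_option maxHeartbeats 400000

open MeasureTheory Set Filter
open scoped ContDiff Topology

namespace Crest.Agent.R238.EReg

variable {n : ℕ}

/-- remainder of `log det` -/
noncomputable def qL (X : Matrix (Fin n) (Fin n) ℝ) : ℝ := Real.log (1 + X).det - X.trace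

theorem contDiff_det1 : ContDiff ℝ ∞ (fun X : Fin n → Fin n → ℝ => (1 + Matrix.of X).det) := by
  have h1 : (fun X : Fin n → Fin n → ℝ => (1 + Matrix.of X).det)
      = fun X => ∑ σ : Equiv.Perm (Fin n),
          (((Equiv.Perm.sign σ : ℤˣ) : ℤ) : ℝ) *
            ∏ i, ((1 : Matrix (Fin n) (Fin n) ℝ) (σ i) i + X (σ i) i) := by
    funext X
    rw [Matrix.det_apply']
    rfl
  rw [h1]
  refine ContDiff.sum fun σ _ => ?_
  have h2 : ContDiff ℝ ∞ (fun X : Fin n → Fin n → ℝ =>
      ∏ i, ((1 : Matrix (Fin n) (Fin n) ℝ) (σ i) i + X (σ i) i)) :=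
    contDiff_prod fun i _ => contDiff_const.add (contDiff_apply_apply ℝ ℝ (σ i) i)
  exact contDiff_const.mul h2

/-- `det (1 + t X) = 1 + t tr X + O(t²)` -/
theorem hasDerivAt_det_one_add (X : Matrix (Fin n) (Fin n) ℝ) :
    HasDerivAt (fun t : ℝ => (1 + t • X).det) X.trace 0 := by
  set p : Polynomial ℝ :=
    (Matrix.det (1 + (Polynomial.X : Polynomial ℝ) • X.map Polynomial.C)).divX.divX with hp
  have h1 : (fun t : ℝ => (1 + t • X).det) = fun t => 1 + X.trace * t + p.eval t * t ^ 2 := by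
    funext t
    exact Matrix.det_one_add_smul t X
  rw [h1]
  have h2 : HasDerivAt (fun t : ℝ => 1 + X.trace * t) X.trace 0 := by
    simpa using ((hasDerivAt_id (0:ℝ)).const_mul X.trace).const_add 1
  have h3 : HasDerivAt (fun t : ℝ => p.eval t * t ^ 2)
      (p.derivative.eval 0 * 0 ^ 2 + p.eval 0 * (2 * 0)) 0 := by
    refine (p.hasDerivAt 0).mul ?_
    have := hasDerivAt_pow 2 (0:ℝ)
    simpa using this
  have h4 := h2.add h3
  refine h4.congr_deriv ?_
  ring

/-- local Lipschitz estimate for `qL` with a small constant -/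
theorem qL_lip (n : ℕ) : ∃ K r₀ : ℝ, 0 < K ∧ 0 < r₀ ∧
    ∀ (X Y : Matrix (Fin n) (Fin n) ℝ) (d e : ℝ), 0 ≤ d → d ≤ r₀ → 0 ≤ e →
      (∀ i j, |X i j| ≤ d) → (∀ i j, |Y i j| ≤ d) → (∀ i j, |X i j - Y i j| ≤ e) →
      |qL X - qL Y| ≤ K * d * e := by
  -- work on the normed space of functions
  set Q : (Fin n → Fin n → ℝ) → ℝ := fun X => qL (Matrix.of X) with hQ
  have hQ1 : Q = fun X : Fin n → Fin n → ℝ =>
      Real.log (1 + Matrix.of X).det - ∑ i, X i i := by
    funext X
    simp only [hQ, qL, Matrix.trace, Matrix.diag_apply, Matrix.of_apply]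
  have hd0 : (1 + Matrix.of (0 : Fin n → Fin n → ℝ)).det = 1 := by
    have : Matrix.of (0 : Fin n → Fin n → ℝ) = 0 := rfl
    rw [this, add_zero, Matrix.det_one]
  have hQc : ContDiffAt ℝ 2 Q 0 := by
    rw [hQ1]
    refine ContDiffAt.sub ?_ ?_
    · have h1 : ContDiffAt ℝ 2 (fun X : Fin n → Fin n → ℝ => (1 + Matrix.of X).det) 0 :=
        (contDiff_det1.of_le (WithTop.coe_le_coe.2 le_top)).contDiffAt
      exact h1.log (by rw [hd0]; exact one_ne_zero)
    · exact (ContDiff.sum fun i _ => contDiff_apply_apply ℝ ℝ i i).contDiffAt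
  have hQd : DifferentiableAt ℝ Q 0 := hQc.differentiableAt (by norm_num)
  have hf0 : fderiv ℝ Q 0 = 0 := by
    ext X
    have h1 : HasDerivAt (fun t : ℝ => Q (t • X)) (fderiv ℝ Q 0 X) 0 := by
      have h2 : HasFDerivAt Q (fderiv ℝ Q 0) ((0:ℝ) • X) := by
        rw [zero_smul]; exact hQd.hasFDerivAt
      have h3 : HasDerivAt (fun t : ℝ => t • X) X 0 := by
        simpa using (hasDerivAt_id (0:ℝ)).smul_const X
      exact h2.comp_hasDerivAt 0 h3
    have h2 : HasDerivAt (fun t : ℝ => Q (t • X)) 0 0 := by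
      have e1 : (fun t : ℝ => Q (t • X))
          = fun t : ℝ => Real.log (1 + t • Matrix.of X).det - t * ∑ i, X i i := by
        funext t
        rw [hQ1]
        simp only [Pi.smul_apply, smul_eq_mul, Finset.mul_sum]
        rfl
      rw [e1]
      have h3 := hasDerivAt_det_one_add (Matrix.of X)
      have h4 := h3.log (by simp)
      have h5 : HasDerivAt (fun t : ℝ => t * ∑ i, X i i) (∑ i, X i i) 0 := by
        simpa using (hasDerivAt_id (0:ℝ)).mul_const (∑ i, X i i)
      refine (h4.sub h5).congr_deriv ?_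
      simp [Matrix.trace]
    rw [h1.unique h2]
    rfl
  have hfc : ContDiffAt ℝ 1 (fderiv ℝ Q) 0 := hQc.fderiv_right (by norm_num)
  obtain ⟨K, s, hs, hK⟩ := hfc.exists_lipschitzOnWith
  have hev : ∀ᶠ X in 𝓝 (0 : Fin n → Fin n → ℝ), DifferentiableAt ℝ Q X := by
    have h1 := hQc.eventually (by norm_num)
    filter_upwards [h1] with X hX
    exact hX.differentiableAt (by norm_num)
  obtain ⟨r, hr, hball⟩ := Metric.mem_nhds_iff.1 (inter_mem hs hev)
  refine ⟨K + 1, r / 2, by positivity, by positivity, ?_⟩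
  intro X Y d e hd hdr he hX hY hXY
  have hX1 : ‖(Matrix.of.symm X : Fin n → Fin n → ℝ)‖ ≤ d := by
    rw [pi_norm_le_iff_of_nonneg hd]
    intro i
    rw [pi_norm_le_iff_of_nonneg hd]
    intro j
    exact hX i j
  have hY1 : ‖(Matrix.of.symm Y : Fin n → Fin n → ℝ)‖ ≤ d := by
    rw [pi_norm_le_iff_of_nonneg hd]
    intro i
    rw [pi_norm_le_iff_of_nonneg hd]
    intro j
    exact hY i j
  have hXY1 : ‖(Matrix.of.symm X : Fin n → Fin n → ℝ) - Matrix.of.symm Y‖ ≤ e := by
    rw [pi_norm_le_iff_of_nonneg he]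
    intro i
    rw [pi_norm_le_iff_of_nonneg he]
    intro j
    exact hXY i j
  have hsub : Metric.closedBall (0 : Fin n → Fin n → ℝ) d ⊆ s ∩ {X | DifferentiableAt ℝ Q X} := by
    refine Subset.trans ?_ hball
    intro Z hZ
    rw [Metric.mem_closedBall] at hZ
    rw [Metric.mem_ball]
    linarith
  have h0s : (0 : Fin n → Fin n → ℝ) ∈ s := mem_of_mem_nhds hs
  have hbd : ∀ Z ∈ Metric.closedBall (0 : Fin n → Fin n → ℝ) d, ‖fderiv ℝ Q Z‖ ≤ K * d := by
    intro Z hZ
    have h1 := hK.norm_sub_le (hsub hZ).1 h0s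
    rw [hf0, sub_zero, sub_zero] at h1
    have h2 : ‖Z‖ ≤ d := by simpa using hZ
    exact h1.trans (mul_le_mul_of_nonneg_left h2 K.coe_nonneg)
  have h3 := (convex_closedBall (0 : Fin n → Fin n → ℝ) d).norm_image_sub_le_of_norm_fderiv_le
    (f := Q) (C := K * d) (fun Z hZ => (hsub hZ).2) hbd
    (x := Matrix.of.symm Y) (y := Matrix.of.symm X) (by simpa using hY1) (by simpa using hX1)
  have h4 : Q (Matrix.of.symm X) - Q (Matrix.of.symm Y) = qL X - qL Y := rfl
  rw [h4, Real.norm_eq_abs] at h3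
  calc |qL X - qL Y| ≤ K * d * ‖(Matrix.of.symm X : Fin n → Fin n → ℝ) - Matrix.of.symm Y‖ := h3
    _ ≤ K * d * e := mul_le_mul_of_nonneg_left hXY1 (by positivity)
    _ ≤ (K + 1) * d * e := by
      have : 0 ≤ d * e := mul_nonneg hd he
      nlinarith

/-- exact expansion of `log det` -/
theorem log_det_add {g h : Matrix (Fin n) (Fin n) ℝ} (hg : 0 < g.det) (hgh : 0 < (g + h).det) :
    Real.log (g + h).det - Real.log g.det = (g⁻¹ * h).trace + qL (g⁻¹ * h) := by
  have hu : IsUnit g.det := hg.ne'.isUnit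
  have h1 : g * (1 + g⁻¹ * h) = g + h := by
    rw [mul_add, mul_one, ← mul_assoc, Matrix.mul_nonsing_inv g hu, one_mul]
  have h2 : (g + h).det = g.det * (1 + g⁻¹ * h).det := by rw [← h1, Matrix.det_mul]
  have h3 : 0 < (1 + g⁻¹ * h).det := by
    rw [h2] at hgh
    exact (mul_pos_iff_of_pos_left hg).1 hgh
  rw [h2, Real.log_mul hg.ne' h3.ne', qL]
  ring

end Crest.Agent.R238.EReg
end

-- ▼ part R238/EReg4
section

/-!
Row 238 (S0369), node H6 (helper978), part 4: the differentiated Monge-Ampère equation and the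
bootstrap of `v` to all orders from the first step and the linear induction.
-/

set_option autoImplicit false
set_option maxHeartbeats 400000

open MeasureTheory Set Filter
open scoped ContDiff Topology

namespace Crest.Agent.R238.EReg

variable {n : ℕ}

theorem ck_iff {a : ℝ} {k : ℕ} {f : E n → ℝ} : Boot.CK a k f ↔ CK a k f := by
  induction k generalizing f with
  | zero => exact Iff.rfl
  | succ k ih =>
    constructor
    · rintro ⟨h1, h2, h3⟩
      exact ⟨h1, h2, fun i => ih.1 (h3 i)⟩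
    · rintro ⟨h1, h2, h3⟩
      exact ⟨h1, h2, fun i => ih.2 (h3 i)⟩

theorem fderiv_pd_apply {f : E n → ℝ} (h : ContDiff ℝ 2 f) (e : Fin n) (x z : E n) :
    fderiv ℝ (Boot.pd e f) x z = fderiv ℝ (fderiv ℝ f) x z (ee e) := by
  have h1 : Differentiable ℝ (fderiv ℝ f) :=
    (h.fderiv_right (m := 1) (by norm_num)).differentiable one_ne_zero
  have h2 : HasFDerivAt (fun y => fderiv ℝ f y (ee e))
      ((ContinuousLinearMap.apply ℝ ℝ (ee e : E n)).comp (fderiv ℝ (fderiv ℝ f) x)) x :=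
    (ContinuousLinearMap.apply ℝ ℝ (ee e : E n)).hasFDerivAt.comp x (h1 x).hasFDerivAt
  have h3 : fderiv ℝ (Boot.pd e f) x = _ := h2.fderiv
  rw [h3]
  rfl

/-- the differentiated Monge-Ampère equation -/
theorem ma_diff {P v : E n → ℝ} {s : ℝ} (hv : ContDiff ℝ 3 v)
    (hdet : ∀ x, 0 < (gm v x).det) (hP : Differentiable ℝ P) (hMA : MAeq P s v) (e : Fin n)
    (x : E n) : LA (tauf v) (Boot.pd e v) x = Boot.pd e (fun y => -s * P y) x := by
  have hv2 : ContDiff ℝ 2 v := hv.of_le (by norm_num)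
  have hd1 : Differentiable ℝ v := hv2.differentiable (by norm_num)
  have hd2 : Differentiable ℝ (fderiv ℝ v) :=
    (hv2.fderiv_right (m := 1) (by norm_num)).differentiable one_ne_zero
  have hl : HasDerivAt (fun t : ℝ => x + t • (ee e : E n)) (ee e) 0 := by
    simpa using ((hasDerivAt_id (0:ℝ)).smul_const (ee e : E n)).const_add x
  -- derivative of the matrix entries
  have hH : ∀ i j, Differentiable ℝ (fun y => Hs v y i j) := by
    intro i j
    have e1 : (fun y => Hs v y i j) = Boot.pd i (Boot.pd j v) := by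
      funext y; exact (Boot.pd_pd_eq hv2 i j y).symm
    rw [e1]
    have h3 : ContDiff ℝ ((2 : ℕ) + 1) v := by exact_mod_cast hv
    have h4 : ContDiff ℝ ((1 : ℕ) + 1) (Boot.pd j v) := by exact_mod_cast Boot.contDiff_pd j h3
    exact (Boot.contDiff_pd i h4).differentiable (by norm_num)
  have hg : ∀ i j, HasDerivWithinAt (fun t : ℝ => gm v (x + t • (ee e : E n)) i j)
      (Hs (Boot.pd e v) x i j) univ 0 := by
    intro i j
    have h1 : HasFDerivAt (fun y => Hs v y i j) (fderiv ℝ (fun y => Hs v y i j) x)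
        (x + (0:ℝ) • (ee e : E n)) := by
      rw [zero_smul, add_zero]; exact (hH i j x).hasFDerivAt
    have h2 := h1.comp_hasDerivAt 0 hl
    have h3 : HasDerivAt (fun t : ℝ => gm v (x + t • (ee e : E n)) i j)
        (fderiv ℝ (fun y => Hs v y i j) x (ee e)) 0 := by
      have h4 := h2.const_add ((1 : Matrix (Fin n) (Fin n) ℝ) i j)
      exact h4
    rw [hasDerivWithinAt_univ]
    refine h3.congr_deriv ?_
    exact Boot.pd_Hs hv e i j x
  have hp2 : ContDiff ℝ 2 (Boot.pd e v) := by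
    have h3 : ContDiff ℝ ((2 : ℕ) + 1) v := by exact_mod_cast hv
    exact_mod_cast Boot.contDiff_pd e h3
  have hA : HasDerivAt (fun t : ℝ => Real.log (gm v (x + t • (ee e : E n))).det)
      (∑ i, ∑ j, tauf v x i j * Hs (Boot.pd e v) x i j) 0 := by
    have h1 := sm_hasDerivWithinAt_log_det_sum (S := univ) (t := 0)
      (g := fun t : ℝ => gm v (x + t • (ee e : E n)))
      (g' := Matrix.of fun i j => Hs (Boot.pd e v) x i j) hg
      (fun i j => Boot.Hs_symm hp2 x i j) (hdet _)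
    rw [hasDerivWithinAt_univ] at h1
    refine h1.congr_deriv ?_
    simp only [zero_smul, add_zero, Matrix.of_apply, tauf]
  -- derivative of the right side
  have hB : HasDerivAt (fun t : ℝ => Real.log (gm v (x + t • (ee e : E n))).det)
      (-s * fderiv ℝ P x (ee e) + (fderiv ℝ (fderiv ℝ v) x (ee e) x + fderiv ℝ v x (ee e))
        - fderiv ℝ v x (ee e)) 0 := by
    have e1 : (fun t : ℝ => Real.log (gm v (x + t • (ee e : E n))).det)
        = fun t : ℝ => -s * P (x + t • (ee e : E n))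
          + fderiv ℝ v (x + t • (ee e : E n)) (x + t • (ee e : E n))
          - v (x + t • (ee e : E n)) := by
      funext t
      have := hMA (x + t • (ee e : E n))
      linarith
    rw [e1]
    have hP1 : HasDerivAt (fun t : ℝ => -s * P (x + t • (ee e : E n)))
        (-s * fderiv ℝ P x (ee e)) 0 := by
      have h1 : HasFDerivAt P (fderiv ℝ P x) (x + (0:ℝ) • (ee e : E n)) := by
        rw [zero_smul, add_zero]; exact (hP x).hasFDerivAt
      exact (h1.comp_hasDerivAt 0 hl).const_mul _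
    have hv1 : HasDerivAt (fun t : ℝ => v (x + t • (ee e : E n))) (fderiv ℝ v x (ee e)) 0 := by
      have h1 : HasFDerivAt v (fderiv ℝ v x) (x + (0:ℝ) • (ee e : E n)) := by
        rw [zero_smul, add_zero]; exact (hd1 x).hasFDerivAt
      exact h1.comp_hasDerivAt 0 hl
    have hv2' : HasDerivAt (fun t : ℝ => fderiv ℝ v (x + t • (ee e : E n)) (x + t • (ee e : E n)))
        (fderiv ℝ (fderiv ℝ v) x (ee e) x + fderiv ℝ v x (ee e)) 0 := by
      have h1 : HasFDerivAt (fderiv ℝ v) (fderiv ℝ (fderiv ℝ v) x) (x + (0:ℝ) • (ee e : E n)) := by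
        rw [zero_smul, add_zero]; exact (hd2 x).hasFDerivAt
      have h2 : HasDerivAt (fun t : ℝ => fderiv ℝ v (x + t • (ee e : E n)))
          (fderiv ℝ (fderiv ℝ v) x (ee e)) 0 := h1.comp_hasDerivAt 0 hl
      have h3 := h2.clm_apply hl
      simpa using h3
    exact (hP1.add hv2').sub hv1
  have hAB := hA.unique hB
  have hsym : fderiv ℝ (fderiv ℝ v) x (ee e) x = fderiv ℝ (Boot.pd e v) x x := by
    rw [fderiv_pd_apply hv2]
    have := (hv2.contDiffAt (x := x)).isSymmSndFDerivAt (by simp)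
    exact this (ee e) x
  have hpd : Boot.pd e (fun y => -s * P y) x = -s * fderiv ℝ P x (ee e) := by
    show fderiv ℝ (fun y => -s * P y) x (ee e) = _
    have h1 : HasFDerivAt (fun y => -s * P y) ((-s) • fderiv ℝ P x) x :=
      (hP x).hasFDerivAt.const_mul (-s)
    rw [h1.fderiv]
    rfl
  rw [hpd, LA, hAB, hsym]
  ring

/-- **bootstrap of `v`** from the first step and the linear one-step lemma -/
theorem ck_v {a lo hi : ℝ} (ha : 0 < a) (ha1 : a < 1) (hlo : 0 < lo)
    {P v : E n → ℝ} {s : ℝ} (hP : Tst P) (hv : ContDiff ℝ 2 v)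
    (hE : ∀ x, Ell lo hi (gm v x)) (hMA : MAeq P s v)
    (hstep : Boot.StepStmt a (tauf v)) (h1 : ∀ i j, CK a 1 (fun x => Hs v x i j)) (k : ℕ) :
    ∀ i j, CK a k (fun x => Hs v x i j) := by
  -- `v ∈ C³`
  have hpd1 : ∀ e i x, Boot.pd i (Boot.pd e v) x = Hs v x i e := fun e i x =>
    Boot.pd_pd_eq hv i e x
  have hv3 : ContDiff ℝ 3 v := by
    refine Boot.contDiff_three hv fun e => ?_
    have h2 : ContDiff ℝ ((1 : ℕ) + 1) (Boot.pd e v) := by
      refine Boot.contDiff_succ_of_pd ?_ fun i => ?_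
      · have : ContDiff ℝ ((1 : ℕ) + 1) v := by exact_mod_cast hv
        exact (Boot.contDiff_pd e this).differentiable (by norm_num)
      · have e1 : Boot.pd i (Boot.pd e v) = fun x => Hs v x i e := by
          funext x; exact hpd1 e i x
        rw [e1]
        exact (h1 i e).contDiff ha
    exact_mod_cast h2
  have hdet : ∀ x, 0 < (gm v x).det := fun x => (hE x).sm_det_pos hlo
  have hPd : Differentiable ℝ P := hP.smooth.differentiable (by simp)
  have hf : Tst (fun y => -s * P y) := ⟨contDiff_const.mul hP.smooth, hP.supp.mul_left⟩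
  have hfk : ∀ k e, CK a k (Boot.pd e (fun y => -s * P y)) := fun k e =>
    (CK.of_tst (k := k + 1) ha.le ha1.le hf).der e
  induction k with
  | zero => intro i j; exact (h1 i j).mono (Nat.zero_le _)
  | succ k ih =>
    intro i j
    have hτ : ∀ i j, CK a k (fun x => tauf v x i j) := fun i j => CK_tauf' ih hlo hE i j
    refine ⟨(h1 i j).hb, (h1 i j).diff, fun e => ?_⟩
    have hp2 : ContDiff ℝ 2 (Boot.pd e v) := by
      have h3 : ContDiff ℝ ((2 : ℕ) + 1) v := by exact_mod_cast hv3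
      exact_mod_cast Boot.contDiff_pd e h3
    have hHe : ∀ i j, (fun x => Hs (Boot.pd e v) x i j)
        = fun x => fderiv ℝ (fun y => Hs v y i j) x (ee e) := by
      intro i j
      funext x
      exact (Boot.pd_Hs hv3 e i j x).symm
    have hHb : ∀ i j, ∃ M, HB a M (fun x => Hs (Boot.pd e v) x i j) := by
      intro i j
      rw [hHe]
      exact ((h1 i j).der e).hb
    have hG : ∃ G, ∀ x, ‖fderiv ℝ (Boot.pd e v) x‖ ≤ G := by
      choose M hM using fun i => (h1 i e).hb
      have hM0 : ∀ i, 0 ≤ M i := fun i => Boot.HB.nonneg (hM i)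
      refine ⟨n * ∑ i, M i, fun x => Boot.norm_fderiv_le (fun i => ?_)
        (Finset.sum_nonneg fun i _ => hM0 i)⟩
      rw [hpd1]
      exact ((hM i).1 x).trans (Finset.single_le_sum (fun j _ => hM0 j) (Finset.mem_univ i))
    have h5 := Boot.lin ha ha1.le hstep k (Boot.pd e (fun y => -s * P y)) (Boot.pd e v)
      (fun i j => ck_iff.2 (hτ i j)) (ck_iff.2 (hfk k e)) hp2 hHb hG
      (fun x => ma_diff hv3 hdet hPd hMA e x) i j
    rw [hHe] at h5
    exact ck_iff.1 h5

theorem nice_v {a lo hi : ℝ} (ha : 0 < a) (ha1 : a < 1) (hlo : 0 < lo)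
    {P v : E n → ℝ} {s : ℝ} (hP : Tst P) (hv : ContDiff ℝ 2 v)
    (hE : ∀ x, Ell lo hi (gm v x)) (hMA : MAeq P s v)
    (hstep : Boot.StepStmt a (tauf v)) (h1 : ∀ i j, CK a 1 (fun x => Hs v x i j)) : Nice v :=
  nice_of_CK ha hv fun k => ck_v ha ha1 hlo hP hv hE hMA hstep h1 k

end Crest.Agent.R238.EReg
end

-- ▼ part R238/EReg5
section

/-!
Row 238 (S0369), node H6 (helper978), part 5: the Schauder estimate `SchT a (tauf v)` for one
solution from (B), and the assembly of `RegStmt` from the two one-step lemmas.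
-/

set_option autoImplicit false
set_option maxHeartbeats 400000

open MeasureTheory Set Filter
open scoped ContDiff Topology

namespace Crest.Agent.R238.EReg

variable {n : ℕ}

/-- (B) for `τ = tauf v` -/
theorem schT_of (hB : Apr.SchStmt) (n : ℕ) {a lo hi : ℝ} (ha : 0 < a) (ha1 : a < 1)
    (hlo : 0 < lo) (hlohi : lo ≤ hi) : ∃ ε₁ : ℝ, 0 < ε₁ ∧ ∀ (M R : ℝ) (v : E n → ℝ),
      (∀ i j, HB a M (fun x => Hs v x i j)) → (∀ x, Ell lo hi (gm v x)) → ExtS a ε₁ R v →
      Boot.SchT a (tauf v) := by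
  have hhi : 0 < hi := hlo.trans_le hlohi
  obtain ⟨ε₀, hε₀, H⟩ := hB n a hi⁻¹ lo⁻¹ ha ha1 (inv_pos.2 hhi) (inv_anti₀ hlo hlohi)
  set c : ℝ := (n : ℝ) * lo⁻¹ + (n : ℝ) ^ 2 * lo⁻¹ ^ 2 + 1 with hc
  have hl : 0 < lo⁻¹ := inv_pos.2 hlo
  have hc0 : 0 < c := by positivity
  refine ⟨ε₀ / c, div_pos hε₀ hc0, fun M R v hM hE hext => ?_⟩
  have h1 : (n : ℝ) * lo⁻¹ * (ε₀ / c) ≤ ε₀ := by
    have h2 : (n : ℝ) * lo⁻¹ ≤ c := by
      have : 0 ≤ (n : ℝ) ^ 2 * lo⁻¹ ^ 2 := by positivity
      linarith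
    calc (n : ℝ) * lo⁻¹ * (ε₀ / c) ≤ c * (ε₀ / c) :=
          mul_le_mul_of_nonneg_right h2 (by positivity)
      _ = ε₀ := by field_simp
  have h2 : (n : ℝ) ^ 2 * lo⁻¹ ^ 2 * (ε₀ / c) ≤ ε₀ := by
    have h3 : (n : ℝ) ^ 2 * lo⁻¹ ^ 2 ≤ c := by
      have : 0 ≤ (n : ℝ) * lo⁻¹ := by positivity
      linarith
    calc (n : ℝ) ^ 2 * lo⁻¹ ^ 2 * (ε₀ / c) ≤ c * (ε₀ / c) :=
          mul_le_mul_of_nonneg_right h3 (by positivity)
      _ = ε₀ := by field_simp
  obtain ⟨C, R', _, HC⟩ := H ((n : ℝ) ^ 2 * lo⁻¹ ^ 2 * M + lo⁻¹) R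
  have hfar : Apr.Far a ε₀ R (tauf v) := by
    intro x y hx hy i j
    refine ⟨(TauExt.ext_tauf_sup hlo hlohi (hE x) (hext.1 x hx) i j).trans h1, ?_⟩
    refine (TauExt.ext_tauf_hol hlo hlohi (hE x) (hE y) (hext.2 x y hx hy) i j).trans ?_
    rw [← mul_assoc]
    exact mul_le_mul_of_nonneg_right h2 (Real.rpow_nonneg (norm_nonneg _) _)
  exact ⟨C, R', fun lam hlam h N S h2 hHB hN hS => HC (tauf v)
    (fun x => TauExt.ell_tauf hlo hlohi (hE x))
    (fun i j => TauExt.hb_tauf hlo hlohi hE hM i j) hfar lam hlam h N S h2 hHB hN hS⟩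

/-- nonlinear first step, as a Prop (helper190) -/
def NLStep : Prop := ∀ (n : ℕ) (a lo hi : ℝ), 0 < a → a < 1 → 0 < lo → lo ≤ hi →
  ∀ (M : ℝ) (P : E n → ℝ), Tst P → ∀ (s : ℝ) (v : E n → ℝ), ContDiff ℝ 2 v →
    (∀ i j, HB a M (fun x => Hs v x i j)) → (∀ x, Ell lo hi (gm v x)) → MAeq P s v →
    Boot.SchT a (tauf v) → ∀ i j, CK a 1 (fun x => Hs v x i j)

/-- linear one-step lemma, as a Prop (helper174/303) -/
def LinStep : Prop := ∀ (n : ℕ) (a : ℝ), 0 < a → a < 1 →
  ∀ τ : E n → Matrix (Fin n) (Fin n) ℝ, (∀ i j, Boot.CK a 1 (fun x => τ x i j)) →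
    Boot.SchT a τ → Boot.StepStmt a τ

/-- **H6** from (B) and the two one-step lemmas -/
theorem reg_of (hB : Apr.SchStmt) (hNL : NLStep) (hLin : LinStep) : RegStmt := by
  intro n a lo hi ha ha1 hlo hlohi
  obtain ⟨ε₁, hε₁, H⟩ := schT_of hB n ha ha1 hlo hlohi
  refine ⟨ε₁, hε₁, fun M R P hP s v hcls hE hMA hext => ?_⟩
  have hT := H M R v hcls.hb hE hext
  have h1 := hNL n a lo hi ha ha1 hlo hlohi M P hP s v hcls.c2 hcls.hb hE hMA hT
  have hτ : ∀ i j, Boot.CK a 1 (fun x => tauf v x i j) := fun i j =>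
    ck_iff.2 (CK_tauf' h1 hlo hE i j)
  exact nice_v ha ha1 hlo hP hcls.c2 hE hMA (hLin n a ha ha1 (tauf v) hτ hT) h1

end Crest.Agent.R238.EReg
end

-- ▼ part R238/EReg6
section

/-!
Row 238 (S0369), node H6 (helper978), part 6: the nonlinear first step.
-/

set_option autoImplicit false
set_option maxHeartbeats 400000

open MeasureTheory Set Filter
open scoped ContDiff Topology

namespace Crest.Agent.R238.EReg

variable {n : ℕ}

/-- absorption -/
theorem hb_absorb {a A W₀ : ℝ} {ι : Type*} {f : ι → E n → ℝ}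
    (h0 : ∀ i, HB a W₀ (f i)) (h : ∀ W, (∀ i, HB a W (f i)) → ∀ i, HB a (A + W / 2) (f i)) :
    ∀ i, HB a (2 * A) (f i) := by
  have hk : ∀ k : ℕ, ∀ i, HB a (2 * A + (W₀ - 2 * A) / 2 ^ k) (f i) := by
    intro k
    induction k with
    | zero => intro i; simpa using h0 i
    | succ k ih =>
      intro i
      have h1 := h _ ih i
      have e : A + (2 * A + (W₀ - 2 * A) / 2 ^ k) / 2 = 2 * A + (W₀ - 2 * A) / 2 ^ (k + 1) := by
        rw [pow_succ]; field_simp; ring
      rwa [e] at h1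
  intro i
  refine hb_of_forall_gt fun N hN => ?_
  have hlim : Tendsto (fun k : ℕ => 2 * A + (W₀ - 2 * A) / 2 ^ k) atTop (𝓝 (2 * A + 0)) := by
    refine tendsto_const_nhds.add ?_
    have h1 : Tendsto (fun k : ℕ => (W₀ - 2 * A) * (1 / 2 : ℝ) ^ k) atTop
        (𝓝 ((W₀ - 2 * A) * 0)) :=
      (tendsto_pow_atTop_nhds_zero_of_lt_one (by norm_num) (by norm_num)).const_mul _
    rw [mul_zero] at h1
    refine h1.congr fun k => ?_
    rw [one_div, inv_pow]; rfl
  rw [add_zero] at hlim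
  obtain ⟨k, hk1⟩ := (hlim.eventually (gt_mem_nhds hN)).exists
  exact hb_mono (hk k i) hk1.le

/-- path `t ↦ x + t z` -/
theorem hasDerivAt_path (x z : E n) (t : ℝ) : HasDerivAt (fun t : ℝ => x + t • z) z t := by
  simpa using ((hasDerivAt_id t).smul_const z).const_add x

/-- first order difference bound -/
theorem diff_le {u : E n → ℝ} (hu : Differentiable ℝ u) (x z : E n) {B : ℝ}
    (hB : ∀ t : ℝ, |fderiv ℝ u (x + t • z) z| ≤ B) : |u (x + z) - u x| ≤ B := by
  have h1 : ∀ t ∈ Icc (0:ℝ) 1, HasDerivWithinAt (fun t : ℝ => u (x + t • z))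
      (fderiv ℝ u (x + t • z) z) (Icc 0 1) t := fun t _ =>
    ((hu _).hasFDerivAt.comp_hasDerivAt t (hasDerivAt_path x z t)).hasDerivWithinAt
  have h2 := norm_image_sub_le_of_norm_deriv_le_segment_01' h1 (fun t _ => hB t)
  simpa using h2

/-- second order difference bound -/
theorem diff_le2 {u : E n → ℝ} (hu : ContDiff ℝ 2 u) (x z : E n) {B : ℝ}
    (hB : ∀ t : ℝ, |fderiv ℝ (fderiv ℝ u) (x + t • z) z z| ≤ B) :
    |fderiv ℝ u (x + z) z - (u (x + z) - u x)| ≤ B := by
  have hd1 : Differentiable ℝ u := hu.differentiable (by norm_num)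
  have hd2 : Differentiable ℝ (fderiv ℝ u) :=
    (hu.fderiv_right (m := 1) (by norm_num)).differentiable one_ne_zero
  have hB0 : 0 ≤ B := (abs_nonneg _).trans (hB 0)
  have hφ : ∀ t : ℝ, HasDerivAt (fun t : ℝ => u (x + t • z)) (fderiv ℝ u (x + t • z) z) t :=
    fun t => (hd1 _).hasFDerivAt.comp_hasDerivAt t (hasDerivAt_path x z t)
  have hφ2 : ∀ t : ℝ, HasDerivAt (fun t : ℝ => fderiv ℝ u (x + t • z) z)
      (fderiv ℝ (fderiv ℝ u) (x + t • z) z z) t := by
    intro t
    have h1 : HasDerivAt (fun t : ℝ => fderiv ℝ u (x + t • z))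
      (fderiv ℝ (fderiv ℝ u) (x + t • z) z) t :=
      (hd2 _).hasFDerivAt.comp_hasDerivAt t (hasDerivAt_path x z t)
    have h2 := h1.clm_apply (hasDerivAt_const t z)
    simpa using h2
  -- `|φ'(1) - φ'(t)| ≤ B`
  have h3 : ∀ t ∈ Icc (0:ℝ) 1, |fderiv ℝ u (x + z) z - fderiv ℝ u (x + t • z) z| ≤ B := by
    intro t ht
    have h4 := (convex_univ (𝕜 := ℝ) (E := ℝ)).norm_image_sub_le_of_norm_hasDerivWithin_le
      (f := fun t : ℝ => fderiv ℝ u (x + t • z) z) (C := B)
      (fun t _ => (hφ2 t).hasDerivWithinAt) (fun t _ => hB t) (mem_univ t) (mem_univ 1)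
    simp only [one_smul] at h4
    rw [Real.norm_eq_abs, Real.norm_eq_abs] at h4
    refine h4.trans ?_
    have h5 : |1 - t| ≤ 1 := by rw [abs_le]; constructor <;> linarith [ht.1, ht.2]
    nlinarith
  have h4 : ∀ t ∈ Icc (0:ℝ) 1, HasDerivWithinAt
      (fun t : ℝ => t * fderiv ℝ u (x + z) z - u (x + t • z))
      (fderiv ℝ u (x + z) z - fderiv ℝ u (x + t • z) z) (Icc 0 1) t := by
    intro t _
    have h5 : HasDerivAt (fun t : ℝ => t * fderiv ℝ u (x + z) z) (fderiv ℝ u (x + z) z) t := by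
      simpa using (hasDerivAt_id t).mul_const (fderiv ℝ u (x + z) z)
    exact (h5.sub (hφ t)).hasDerivWithinAt
  have h5 := norm_image_sub_le_of_norm_deriv_le_segment_01' h4
    (fun t ht => h3 t ⟨ht.1, ht.2.le⟩)
  simp only [one_mul, one_smul, zero_mul, zero_smul, add_zero, zero_sub, sub_neg_eq_add] at h5
  rw [Real.norm_eq_abs] at h5
  have e : fderiv ℝ u (x + z) z - (u (x + z) - u x)
    = fderiv ℝ u (x + z) z - u (x + z) + u x := by ring
  rwa [e]

end Crest.Agent.R238.EReg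
end

-- ▼ part R238/EReg7
section

/-!
Row 238 (S0369), node H6 (helper978), part 7: Hölder bounds of differences; the equation of
`w = v(·+z) - v`.
-/

set_option autoImplicit false
set_option maxHeartbeats 400000

open MeasureTheory Set Filter
open scoped ContDiff Topology

namespace Crest.Agent.R238.EReg

variable {n : ℕ}

theorem fderiv_df {F : Type*} [NormedAddCommGroup F] [NormedSpace ℝ F] {f : E n → F}
    (hf : Differentiable ℝ f) (z x : E n) :
    fderiv ℝ (fun x => f (x + z) - f x) x = fderiv ℝ f (x + z) - fderiv ℝ f x := by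
  have h1 : DifferentiableAt ℝ (fun x => f (x + z)) x :=
    (hf (x + z)).comp x (differentiableAt_id.add_const z)
  rw [fderiv_fun_sub h1 (hf x), fderiv_comp_add_right]

theorem contDiff_df {k : WithTop ℕ∞} {f : E n → ℝ} (hf : ContDiff ℝ k f) (z : E n) :
    ContDiff ℝ k (fun x => f (x + z) - f x) :=
  (hf.comp (contDiff_id.add contDiff_const)).sub hf

theorem fderiv2_df {f : E n → ℝ} (hf : ContDiff ℝ 2 f) (z x : E n) :
    fderiv ℝ (fderiv ℝ (fun x => f (x + z) - f x)) x
      = fderiv ℝ (fderiv ℝ f) (x + z) - fderiv ℝ (fderiv ℝ f) x := by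
  have hd1 : Differentiable ℝ f := hf.differentiable (by norm_num)
  have hd2 : Differentiable ℝ (fderiv ℝ f) :=
    (hf.fderiv_right (m := 1) (by norm_num)).differentiable one_ne_zero
  have e : fderiv ℝ (fun x => f (x + z) - f x) = fun x => fderiv ℝ f (x + z) - fderiv ℝ f x := by
    funext x; exact fderiv_df hd1 z x
  rw [e, fderiv_df hd2]

theorem Hs_df {f : E n → ℝ} (hf : ContDiff ℝ 2 f) (z x : E n) (i j : Fin n) :
    Hs (fun x => f (x + z) - f x) x i j = Hs f (x + z) i j - Hs f x i j := by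
  unfold Hs
  rw [fderiv2_df hf]
  rfl

theorem fderiv_apply_eq (f : E n → ℝ) (x z : E n) :
    fderiv ℝ f x z = ∑ i, z i * fderiv ℝ f x (ee i) := Boot.fderiv_eq_sum_pd f x z

theorem fderiv2_apply_eq (f : E n → ℝ) (x z : E n) :
    fderiv ℝ (fderiv ℝ f) x z z = ∑ i, ∑ j, z i * (z j * Hs f x i j) := by
  have h1 : fderiv ℝ (fderiv ℝ f) x z = ∑ i, z i • fderiv ℝ (fderiv ℝ f) x (ee i) := by
    conv_lhs => rw [← Boot.sum_ee z]
    rw [map_sum]
    exact Finset.sum_congr rfl fun i _ => map_smul _ _ _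
  have h2 : ∀ L : E n →L[ℝ] ℝ, L z = ∑ j, z j * L (ee j) := by
    intro L
    conv_lhs => rw [← Boot.sum_ee z]
    rw [map_sum]
    exact Finset.sum_congr rfl fun i _ => by rw [map_smul, smul_eq_mul]
  rw [h1, _root_.sum_apply]
  refine Finset.sum_congr rfl fun i _ => ?_
  rw [_root_.smul_apply, smul_eq_mul, h2, Finset.mul_sum]
  rfl

/-- bound of a linear combination of coordinates -/
theorem lin_comb_le {c : Fin n → ℝ} {B : ℝ} (hc : ∀ i, |c i| ≤ B) (z : E n) :
    |∑ i, z i * c i| ≤ n * (‖z‖ * B) := by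
  refine (Finset.abs_sum_le_sum_abs _ _).trans ?_
  refine (Finset.sum_le_sum (g := fun _ => ‖z‖ * B) fun i _ => ?_).trans ?_
  · rw [abs_mul]
    exact mul_le_mul (Boot.abs_coord_le z i) (hc i) (abs_nonneg _) (norm_nonneg _)
  · simp

theorem quad_comb_le {c : Fin n → Fin n → ℝ} {B : ℝ} (hc : ∀ i j, |c i j| ≤ B) (z : E n) :
    |∑ i, ∑ j, z i * (z j * c i j)| ≤ n * (‖z‖ * (n * (‖z‖ * B))) := by
  have e : ∑ i, ∑ j, z i * (z j * c i j) = ∑ i, z i * ∑ j, z j * c i j := by
    refine Finset.sum_congr rfl fun i _ => ?_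
    rw [Finset.mul_sum]
  rw [e]
  exact lin_comb_le (fun i => lin_comb_le (hc i) z) z

/-- difference of a function with Hölder partial derivatives -/
theorem hb_df {a M : ℝ} {f : E n → ℝ} (hf : Differentiable ℝ f)
    (h : ∀ i, HB a M (fun x => fderiv ℝ f x (ee i))) (z : E n) :
    HB a (n * (‖z‖ * M)) (fun x => f (x + z) - f x) := by
  refine ⟨fun x => ?_, fun x y => ?_⟩
  · refine diff_le hf x z fun t => ?_
    rw [fderiv_apply_eq]
    exact lin_comb_le (fun i => (h i).1 _) z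
  · -- `u x = f x - f (x + c)`, `c = y - x`
    set u : E n → ℝ := fun p => f (p + (x - y)) - f p with hu
    have hud : Differentiable ℝ u := fun p =>
      ((hf _).comp p (differentiableAt_id.add_const (x - y))).sub (hf p)
    have h1 := diff_le hud y z (B := n * (‖z‖ * (M * ‖x - y‖ ^ a))) fun t => by
      rw [hu, fderiv_df hf, _root_.sub_apply, fderiv_apply_eq, fderiv_apply_eq,
        ← Finset.sum_sub_distrib]
      simp only [← mul_sub]
      refine lin_comb_le (fun i => ?_) z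
      have h2 := (h i).2 (y + t • z + (x - y)) (y + t • z)
      rwa [add_sub_cancel_left] at h2
    have e1 : u (y + z) - u y = (f (x + z) - f x) - (f (y + z) - f y) := by
      simp only [hu]
      have e2 : y + z + (x - y) = x + z := by abel
      have e3 : y + (x - y) = x := by abel
      rw [e2, e3]; ring
    rw [e1] at h1
    refine h1.trans (le_of_eq ?_)
    ring

/-- the remainder `∂_z f(x+z) - (f(x+z) - f x)` -/
theorem hb_rem {a M : ℝ} {f : E n → ℝ} (hf : ContDiff ℝ 2 f)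
    (h : ∀ i j, HB a M (fun x => Hs f x i j)) (z : E n) :
    HB a (n * (‖z‖ * (n * (‖z‖ * M)))) (fun x => fderiv ℝ f (x + z) z - (f (x + z) - f x)) := by
  refine ⟨fun x => ?_, fun x y => ?_⟩
  · refine diff_le2 hf x z fun t => ?_
    rw [fderiv2_apply_eq]
    exact quad_comb_le (fun i j => (h i j).1 _) z
  · set u : E n → ℝ := fun p => f (p + (x - y)) - f p with hu
    have hud : ContDiff ℝ 2 u := contDiff_df hf (x - y)
    have hd1 : Differentiable ℝ f := hf.differentiable (by norm_num)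
    have h1 := diff_le2 hud y z (B := n * (‖z‖ * (n * (‖z‖ * (M * ‖x - y‖ ^ a))))) fun t => by
      rw [fderiv2_apply_eq]
      refine quad_comb_le (fun i j => ?_) z
      rw [hu, Hs_df hf]
      have h2 := (h i j).2 (y + t • z + (x - y)) (y + t • z)
      rwa [add_sub_cancel_left] at h2
    have e1 : fderiv ℝ u (y + z) z - (u (y + z) - u y)
        = (fderiv ℝ f (x + z) z - (f (x + z) - f x))
          - (fderiv ℝ f (y + z) z - (f (y + z) - f y)) := by
      rw [hu, fderiv_df hd1, _root_.sub_apply]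
      have e2 : y + z + (x - y) = x + z := by abel
      have e3 : y + (x - y) = x := by abel
      rw [e2]
      simp only [e2, e3]
      ring
    rw [e1] at h1
    refine h1.trans (le_of_eq ?_)
    ring

/-- the equation of the difference `w = v(·+z) - v` with the fixed coefficients `τ` -/
theorem eq_df {P v : E n → ℝ} {s : ℝ} (hv : ContDiff ℝ 2 v) (hdet : ∀ x, 0 < (gm v x).det)
    (hMA : MAeq P s v) (z x : E n) :
    LA (tauf v) (fun x => v (x + z) - v x) x
      = (fderiv ℝ v (x + z) z - (v (x + z) - v x)) - s * (P (x + z) - P x)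
        - qL (tauf v x * (gm v (x + z) - gm v x)) := by
  have hd1 : Differentiable ℝ v := hv.differentiable (by norm_num)
  have h1 := log_det_add (g := gm v x) (h := gm v (x + z) - gm v x) (hdet x)
    (by rw [add_sub_cancel]; exact hdet (x + z))
  rw [add_sub_cancel] at h1
  have h2 : ((gm v x)⁻¹ * (gm v (x + z) - gm v x)).trace
      = ∑ i, ∑ j, tauf v x i j * Hs (fun x => v (x + z) - v x) x i j := by
    rw [sm_trace_mul_sum]
    refine Finset.sum_congr rfl fun i _ => Finset.sum_congr rfl fun j _ => ?_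
    rw [Hs_df hv, Boot.Hs_symm hv (x + z) i j, Boot.Hs_symm hv x i j]
    simp [tauf, gm]
  have h3 := hMA x
  have h4 := hMA (x + z)
  have h5 : fderiv ℝ (fun x => v (x + z) - v x) x x = fderiv ℝ v (x + z) x - fderiv ℝ v x x := by
    rw [fderiv_df hd1]; rfl
  have h6 : fderiv ℝ v (x + z) (x + z) = fderiv ℝ v (x + z) x + fderiv ℝ v (x + z) z := map_add _ _ _
  rw [LA, ← h2, h5]
  have h7 : tauf v x * (gm v (x + z) - gm v x) = (gm v x)⁻¹ * (gm v (x + z) - gm v x) := rfl
  rw [h7]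
  linarith

end Crest.Agent.R238.EReg
end

-- ▼ part R238/EReg8
section

/-!
Row 238 (S0369), node H6 (helper978), part 8: the nonlinear first step `NLStep`.
-/

set_option autoImplicit false
set_option maxHeartbeats 400000

open MeasureTheory Set Filter
open scoped ContDiff Topology

namespace Crest.Agent.R238.EReg

variable {n : ℕ}

theorem qL_zero : qL (0 : Matrix (Fin n) (Fin n) ℝ) = 0 := by
  simp [qL]

/-- the `qL` term -/
theorem hb_qL {a K r₀ : ℝ}
    (hq : ∀ (X Y : Matrix (Fin n) (Fin n) ℝ) (d e : ℝ), 0 ≤ d → d ≤ r₀ → 0 ≤ e →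
      (∀ i j, |X i j| ≤ d) → (∀ i j, |Y i j| ≤ d) → (∀ i j, |X i j - Y i j| ≤ e) →
      |qL X - qL Y| ≤ K * d * e) {X : E n → Matrix (Fin n) (Fin n) ℝ} {d W : ℝ}
    (hd : 0 ≤ d) (hdr : d ≤ r₀) (hX : ∀ x i j, |X x i j| ≤ d) (hW : 0 ≤ W)
    (hXW : ∀ i j, HB a W (fun x => X x i j)) : HB a (K * d * W) (fun x => qL (X x)) := by
  refine ⟨fun x => ?_, fun x y => ?_⟩
  · have h1 := hq (X x) 0 d W hd hdr hW (hX x) (fun i j => by simpa using hd)
      (fun i j => by simpa using (hXW i j).1 x)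
    rwa [qL_zero, sub_zero] at h1
  · have h0 : 0 ≤ ‖x - y‖ ^ a := Real.rpow_nonneg (norm_nonneg _) _
    have h1 := hq (X x) (X y) d (W * ‖x - y‖ ^ a) hd hdr (mul_nonneg hW h0) (hX x) (hX y)
      (fun i j => (hXW i j).2 x y)
    rwa [← mul_assoc] at h1

theorem tst_pd {a : ℝ} (ha : 0 < a) (ha1 : a < 1) {P : E n → ℝ} (hP : Tst P) :
    ∃ M, 0 ≤ M ∧ ∀ i, HB a M (fun x => fderiv ℝ P x (ee i)) := by
  choose M hM using fun i => ((CK.of_tst (k := 1) ha.le ha1.le hP).der i).hb
  have hM0 : ∀ i, 0 ≤ M i := fun i => hb_nonneg (hM i)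
  exact ⟨∑ i, M i, Finset.sum_nonneg fun i _ => hM0 i, fun i =>
    hb_mono (hM i) (Finset.single_le_sum (fun j _ => hM0 j) (Finset.mem_univ i))⟩

theorem local_lip {v : E n → ℝ} (hv : ContDiff ℝ 1 v) (R : ℝ) : ∃ S, 0 ≤ S ∧
    ∀ z x : E n, ‖z‖ ≤ 1 → ‖x‖ ≤ R → |v (x + z) - v x| ≤ S * ‖z‖ := by
  obtain ⟨S, hS⟩ := (isCompact_closedBall (0 : E n) (|R| + 1)).exists_bound_of_continuousOn
    (f := fderiv ℝ v) (hv.continuous_fderiv (by norm_num)).continuousOn
  refine ⟨max S 0, le_max_right _ _, fun z x hz hx => ?_⟩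
  have h1 := (convex_closedBall (0 : E n) (|R| + 1)).norm_image_sub_le_of_norm_fderiv_le
    (f := v) (C := max S 0) (x := x) (y := x + z)
    (fun p _ => (hv.differentiable (by norm_num)) p) (fun p hp => (hS p hp).trans (le_max_left _ _))
    (by
      rw [mem_closedBall_zero_iff]
      have := le_abs_self R
      linarith)
    (by
      rw [mem_closedBall_zero_iff]
      have := le_abs_self R
      have := norm_add_le x z
      linarith)
  rwa [add_sub_cancel_left, Real.norm_eq_abs] at h1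

/-- one absorption step for the difference `v(·+z) - v` -/
theorem nl_step {a lo hi : ℝ} (ha : 0 < a) (ha1 : a < 1) (hlo : 0 < lo) (hlohi : lo ≤ hi)
    {M : ℝ} {P : E n → ℝ} (hP : Tst P) {s : ℝ} {v : E n → ℝ} (hv : ContDiff ℝ 2 v)
    (hM : ∀ i j, HB a M (fun x => Hs v x i j)) (hE : ∀ x, Ell lo hi (gm v x))
    (hMA : MAeq P s v) (hS : Boot.SchT a (tauf v)) :
    ∃ N δ : ℝ, 0 < δ ∧ ∀ z : E n, ‖z‖ ≤ δ → ∀ i j,
      HB a (N * ‖z‖) (fun x => Hs v (x + z) i j - Hs v x i j) := by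
  obtain ⟨C, R', hC⟩ := hS
  obtain ⟨K, r₀, hK, hr₀, hq⟩ := qL_lip n
  obtain ⟨MP, hMP0, hMP⟩ := tst_pd ha ha1 hP
  obtain ⟨S, hS0, hS⟩ := local_lip (hv.of_le (by norm_num)) R'
  have hPd : Differentiable ℝ P := hP.smooth.differentiable (by simp)
  have hdet : ∀ x, 0 < (gm v x).det := fun x => (hE x).sm_det_pos hlo
  rcases isEmpty_or_nonempty (Fin n) with hn | hn
  · exact ⟨0, 1, one_pos, fun z _ i => (hn.false i).elim⟩
  obtain ⟨i0⟩ := hn
  have hM0 : 0 ≤ M := hb_nonneg (hM i0 i0)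
  set T : ℝ := (n : ℝ) ^ 2 * lo⁻¹ ^ 2 * M + lo⁻¹ with hT
  have hl : 0 < lo⁻¹ := inv_pos.2 hlo
  have hT0 : 0 ≤ T := by positivity
  have hτ : ∀ i j, HB a T (fun x => tauf v x i j) := fun i j => TauExt.hb_tauf hlo hlohi hE hM i j
  set c1 : ℝ := n * (T * M) with hc1
  have hc10 : 0 ≤ c1 := by positivity
  set c2 : ℝ := |C| * (K * c1 * (n * (2 * T))) with hc2
  have hc20 : 0 ≤ c2 := by positivity
  set η : ℝ := min (r₀ / (c1 + 1)) (1 / (2 * (c2 + 1))) with hη
  have hη0 : 0 < η := lt_min (by positivity) (by positivity)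
  set δ : ℝ := min 1 (η ^ a⁻¹) with hδ
  have hδ0 : 0 < δ := lt_min one_pos (Real.rpow_pos_of_pos hη0 _)
  set N1 : ℝ := n * (n * M) + |s| * (n * MP) with hN1
  refine ⟨2 * (|C| * (N1 + S)), δ, hδ0, fun z hz => ?_⟩
  have hz1 : ‖z‖ ≤ 1 := hz.trans (min_le_left _ _)
  have hza : ‖z‖ ^ a ≤ η := by
    have h1 : ‖z‖ ≤ η ^ a⁻¹ := hz.trans (min_le_right _ _)
    calc ‖z‖ ^ a ≤ (η ^ a⁻¹) ^ a := Real.rpow_le_rpow (norm_nonneg _) h1 ha.le
      _ = η := Real.rpow_inv_rpow hη0.le ha.ne'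
  have hza0 : 0 ≤ ‖z‖ ^ a := Real.rpow_nonneg (norm_nonneg _) _
  have hz0 : 0 ≤ ‖z‖ := norm_nonneg z
  set w : E n → ℝ := fun x => v (x + z) - v x with hw
  have hw2 : ContDiff ℝ 2 w := contDiff_df hv z
  have hHw : ∀ x i j, Hs w x i j = Hs v (x + z) i j - Hs v x i j := fun x i j => Hs_df hv z x i j
  -- sup bound of the matrix entries
  have hXe : ∀ x i j, (tauf v x * (gm v (x + z) - gm v x)) i j
      = ∑ k, tauf v x i k * (Hs v (x + z) k j - Hs v x k j) := by
    intro x i j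
    rw [Matrix.mul_apply]
    refine Finset.sum_congr rfl fun k _ => ?_
    rw [Matrix.sub_apply, TauExt.gm_sub]
  have hXd : ∀ x i j, |(tauf v x * (gm v (x + z) - gm v x)) i j| ≤ c1 * ‖z‖ ^ a := by
    intro x i j
    rw [hXe]
    refine (Finset.abs_sum_le_sum_abs _ _).trans ?_
    refine (Finset.sum_le_sum (g := fun _ => T * (M * ‖z‖ ^ a)) fun k _ => ?_).trans ?_
    · rw [abs_mul]
      have h2 := (hM k j).2 (x + z) x
      rw [add_sub_cancel_left] at h2
      exact mul_le_mul ((hτ i k).1 x) h2 (abs_nonneg _) hT0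
    · simp only [Finset.sum_const, Finset.card_univ, Fintype.card_fin, nsmul_eq_mul]
      rw [hc1]
      exact le_of_eq (by ring)
  have hdr : c1 * ‖z‖ ^ a ≤ r₀ := by
    have h1 : ‖z‖ ^ a ≤ r₀ / (c1 + 1) := hza.trans (min_le_left _ _)
    calc c1 * ‖z‖ ^ a ≤ (c1 + 1) * (r₀ / (c1 + 1)) :=
          mul_le_mul (by linarith) h1 hza0 (by positivity)
      _ = r₀ := by field_simp
  have hθ : c2 * ‖z‖ ^ a ≤ 1 / 2 := by
    have h1 : ‖z‖ ^ a ≤ 1 / (2 * (c2 + 1)) := hza.trans (min_le_right _ _)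
    calc c2 * ‖z‖ ^ a ≤ (c2 + 1) * (1 / (2 * (c2 + 1))) :=
          mul_le_mul (by linarith) h1 hza0 (by positivity)
      _ = 1 / 2 := by field_simp
  -- the absorption
  have key : ∀ p : Fin n × Fin n, HB a (2 * (|C| * (N1 + S) * ‖z‖)) (fun x => Hs w x p.1 p.2) := by
    refine hb_absorb (W₀ := M + M) (fun p => ?_) (fun W hW p => ?_)
    · simp only [hHw]
      exact hb_sub (hb_comp_add (hM p.1 p.2) z) (hM p.1 p.2)
    · have hW0 : 0 ≤ W := hb_nonneg (hW (i0, i0))
      have hXW : ∀ i j, HB a (n * (2 * (T * W)))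
          (fun x => (tauf v x * (gm v (x + z) - gm v x)) i j) := by
        intro i j
        have h1 := hb_sum (a := a) Finset.univ (M := fun _ : Fin n => 2 * (T * W))
          (f := fun k x => tauf v x i k * (Hs v (x + z) k j - Hs v x k j)) (fun k _ => by
            have h2 := hW (k, j)
            simp only [hHw] at h2
            exact hb_mul (hτ i k) h2)
        simp only [Finset.sum_const, Finset.card_univ, Fintype.card_fin, nsmul_eq_mul] at h1
        simp only [hXe]
        exact h1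
      have hQ := hb_qL hq (X := fun x => tauf v x * (gm v (x + z) - gm v x))
        (by positivity) hdr hXd (by positivity) hXW
      have hG := hb_rem hv hM z
      have hPz : HB a (|s| * (n * (‖z‖ * MP))) (fun x => s * (P (x + z) - P x)) := by
        have h1 := hb_df hPd hMP z
        refine ⟨fun x => ?_, fun x y => ?_⟩
        · rw [abs_mul]; exact mul_le_mul_of_nonneg_left (h1.1 x) (abs_nonneg _)
        · rw [← mul_sub, abs_mul, mul_assoc]
          exact mul_le_mul_of_nonneg_left (h1.2 x y) (abs_nonneg _)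
      have hL := hb_sub (hb_sub hG hPz) hQ
      have hLw : HB a (N1 * ‖z‖ + K * (c1 * ‖z‖ ^ a) * (n * (2 * (T * W))))
          (fun x => LA (tauf v) w x + 0 * w x) := by
        have e1 : (fun x => LA (tauf v) w x + 0 * w x)
            = fun x => (fderiv ℝ v (x + z) z - (v (x + z) - v x)) - s * (P (x + z) - P x)
              - qL (tauf v x * (gm v (x + z) - gm v x)) := by
          funext x
          rw [zero_mul, add_zero]
          exact eq_df hv hdet hMA z x
        rw [e1]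
        refine hb_mono hL ?_
        have h2 : (n : ℝ) * (‖z‖ * (n * (‖z‖ * M))) ≤ n * (n * M) * ‖z‖ := by
          have h3 : 0 ≤ (n : ℝ) * (n * M) * ‖z‖ := by positivity
          calc (n : ℝ) * (‖z‖ * (n * (‖z‖ * M))) = (n * (n * M) * ‖z‖) * ‖z‖ := by ring
            _ ≤ (n * (n * M) * ‖z‖) * 1 := mul_le_mul_of_nonneg_left hz1 h3
            _ = _ := mul_one _
        have h4 : |s| * (n * (‖z‖ * MP)) = |s| * (n * MP) * ‖z‖ := by ring
        rw [h4, hN1]
        linarith
      have hfin := hC 0 (Or.inl rfl) w _ (S * ‖z‖) hw2 ⟨W, fun i j => hW (i, j)⟩ hLw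
        (fun x hx => hS z x hz1 hx) p.1 p.2
      refine hb_mono hfin ?_
      set N2 : ℝ := N1 * ‖z‖ + K * (c1 * ‖z‖ ^ a) * (n * (2 * (T * W))) + S * ‖z‖ with hN2
      have hN1' : 0 ≤ N1 := by positivity
      have hN20 : 0 ≤ N2 := by positivity
      calc C * N2 ≤ |C| * N2 := mul_le_mul_of_nonneg_right (le_abs_self C) hN20
        _ = |C| * (N1 + S) * ‖z‖ + (c2 * ‖z‖ ^ a) * W := by rw [hN2, hc2]; ring
        _ ≤ |C| * (N1 + S) * ‖z‖ + (1 / 2) * W := by
          have := mul_le_mul_of_nonneg_right hθ hW0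
          linarith
        _ = |C| * (N1 + S) * ‖z‖ + W / 2 := by ring
  intro i j
  have h1 := key (i, j)
  simp only [hHw] at h1
  have e : 2 * (|C| * (N1 + S)) * ‖z‖ = 2 * (|C| * (N1 + S) * ‖z‖) := by ring
  rw [e]
  exact h1

/-- **the nonlinear first step** -/
theorem nlStep : NLStep := by
  intro n a lo hi ha ha1 hlo hlohi M P hP s v hv hM hE hMA hS i j
  obtain ⟨N, δ, hδ, h⟩ := nl_step ha ha1 hlo hlohi hP hv hM hE hMA hS
  have hDQ : Boot.DQ a N δ (fun x => Hs v x i j) := fun z hz => h z hz i j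
  obtain ⟨h1, h2⟩ := hDQ.deriv ha hδ
  exact ⟨⟨M, hM i j⟩, h1.differentiable (by norm_num), fun e => ⟨N * ‖(ee e : E n)‖, h2 (ee e)⟩⟩

end Crest.Agent.R238.EReg
end

-- ▼ part R238/EReg

/-!
Row 238 (S0369), node H6 (helper978): regularity of the solutions, final statement.
-/

set_option autoImplicit false

namespace Crest.Agent.R238

/-- linear one-step lemma (helper303) -/
theorem EReg.linStep : EReg.LinStep := fun _ _ ha ha1 _ hτ hS => Boot.step0 ha ha1.le hS hτ

/-- **H6** from (B) -/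
theorem EReg.reg_of_sch (hB : Apr.SchStmt) : RegStmt := EReg.reg_of hB EReg.nlStep EReg.linStep

/-- **H6**, unconditional -/
theorem reg : RegStmt := EReg.reg_of_sch Apr.schStmt_all

end Crest.Agent.R238
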