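import Crest.Agent.R238.HolDefs
import Crest.Agent.R338.HOGauss

-- ▼ part R238/Hol1
section

/-!
Row 238, H1 (helper718), file 1: the solution operator of `L₀ + 1`, ABSTRACT part.

`HF a C r F F1 F2` collects the facts about `F s x = (G_s * r)(x)` and its first two derivatives
`F1`, `F2` which are used; from it we get `v` with `D²v = -∫ sin φ F2(sin φ, cos φ x) dφ`
bounded and Hölder, and `tr D²v - x·∇v + v = r` (parametrisation `e^{-t} = cos φ` of helper8).
-/

set_option autoImplicit false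
set_option maxSynthPendingDepth 3

open MeasureTheory Set Filter
open scoped ContDiff Topology

namespace Crest.Agent.R238

variable {n : ℕ}

/-- trace of a bilinear form -/
noncomputable def trB (B : E n →L[ℝ] E n →L[ℝ] ℝ) : ℝ := ∑ i, B (ee i) (ee i)

/-- the integration domain -/
def JJ : Set ℝ := Ioo 0 (Real.pi / 2)

theorem measurableSet_JJ : MeasurableSet JJ := measurableSet_Ioo

theorem JJ.sin_pos {p : ℝ} (h : p ∈ JJ) : 0 < Real.sin p :=
  Real.sin_pos_of_pos_of_lt_pi h.1 (by linarith [h.2, Real.pi_pos])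

theorem JJ.cos_pos {p : ℝ} (h : p ∈ JJ) : 0 < Real.cos p :=
  Real.cos_pos_of_mem_Ioo ⟨by linarith [h.1, Real.pi_pos], h.2⟩

theorem JJ.mul_le {p : ℝ} (h : p ∈ JJ) : 2 / Real.pi * p ≤ Real.sin p :=
  Real.mul_le_sin h.1.le h.2.le

/-- negative powers of `sin` are bounded by powers of the angle -/
theorem JJ.sin_rpow_le {p b : ℝ} (h : p ∈ JJ) (hb : b ≤ 0) :
    Real.sin p ^ b ≤ (2 / Real.pi) ^ b * p ^ b := by
  have h1 : 0 < 2 / Real.pi := by positivity
  rw [← Real.mul_rpow h1.le h.1.le]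
  exact Real.rpow_le_rpow_of_nonpos (mul_pos h1 h.1) (JJ.mul_le h) hb

theorem integrableOn_rpow_JJ {b : ℝ} (hb : -1 < b) : IntegrableOn (fun p : ℝ => p ^ b) JJ := by
  have h := @intervalIntegral.intervalIntegrable_rpow' 0 (Real.pi / 2) b hb
  rw [intervalIntegrable_iff_integrableOn_Ioo_of_le (by positivity)] at h
  exact h

theorem continuousOn_sin_rpow (b : ℝ) : ContinuousOn (fun p : ℝ => Real.sin p ^ b) JJ := by
  intro p hp
  exact ((Real.continuous_sin.continuousAt).rpow_const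
    (Or.inl (JJ.sin_pos hp).ne')).continuousWithinAt

theorem integrableOn_sin_rpow {a : ℝ} (ha : 0 < a) (ha1 : a < 1) :
    IntegrableOn (fun p : ℝ => Real.sin p ^ (a - 1)) JJ := by
  refine Integrable.mono' ((integrableOn_rpow_JJ (b := a - 1) (by linarith)).const_mul
    ((2 / Real.pi) ^ (a - 1))) ((continuousOn_sin_rpow _).aestronglyMeasurable measurableSet_JJ) ?_
  filter_upwards [ae_restrict_mem measurableSet_JJ] with p hp
  rw [Real.norm_of_nonneg (Real.rpow_nonneg (JJ.sin_pos hp).le _)]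
  exact JJ.sin_rpow_le hp (by linarith)

/-- the comparison function -/
noncomputable def gg (a δ : ℝ) (p : ℝ) : ℝ :=
  if p ≤ δ then 2 * (2 / Real.pi) ^ (a - 1) * p ^ (a - 1)
  else (2 / Real.pi) ^ (a - 2) * δ * p ^ (a - 2)

theorem gg_nonneg {a δ p : ℝ} (hδ : 0 < δ) (hp : 0 < p) : 0 ≤ gg a δ p := by
  unfold gg
  have h1 : 0 < 2 / Real.pi := by positivity
  split_ifs <;> positivity

/-- the constant -/
noncomputable def cg (a : ℝ) : ℝ :=
  2 * (2 / Real.pi) ^ (a - 1) / a + (2 / Real.pi) ^ (a - 2) / (1 - a)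

theorem cg_pos {a : ℝ} (ha : 0 < a) (ha1 : a < 1) : 0 < cg a := by
  unfold cg
  have h1 : 0 < 2 / Real.pi := by positivity
  have h2 : 0 < 1 - a := by linarith
  positivity

theorem integrableOn_gg {a δ : ℝ} (ha : 0 < a) (ha1 : a < 1) (hδ : 0 < δ) :
    IntegrableOn (gg a δ) (Ioi 0) ∧ ∫ p in Ioi 0, gg a δ p = cg a * δ ^ a := by
  have hsplit : Ioi (0 : ℝ) = Ioc 0 δ ∪ Ioi δ := (Ioc_union_Ioi_eq_Ioi hδ.le).symm
  have e1 : EqOn (gg a δ) (fun p => 2 * (2 / Real.pi) ^ (a - 1) * p ^ (a - 1)) (Ioc 0 δ) := by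
    intro p hp
    simp only [gg, if_pos hp.2]
  have e2 : EqOn (gg a δ) (fun p => (2 / Real.pi) ^ (a - 2) * δ * p ^ (a - 2)) (Ioi δ) := by
    intro p hp
    simp only [gg, if_neg (not_le.2 (mem_Ioi.1 hp))]
  have i1' : IntervalIntegrable (fun p : ℝ => p ^ (a - 1)) volume 0 δ :=
    intervalIntegral.intervalIntegrable_rpow' (by linarith)
  have i1 : IntegrableOn (gg a δ) (Ioc 0 δ) := by
    rw [integrableOn_congr_fun e1 measurableSet_Ioc]
    exact ((intervalIntegrable_iff_integrableOn_Ioc_of_le hδ.le).1 i1').const_mul _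
  have i2 : IntegrableOn (gg a δ) (Ioi δ) := by
    rw [integrableOn_congr_fun e2 measurableSet_Ioi]
    exact (integrableOn_Ioi_rpow_of_lt (by linarith) hδ).const_mul _
  refine ⟨by rw [hsplit]; exact i1.union i2, ?_⟩
  rw [hsplit, setIntegral_union (Ioc_disjoint_Ioi le_rfl) measurableSet_Ioi i1 i2,
    setIntegral_congr_fun measurableSet_Ioc e1, setIntegral_congr_fun measurableSet_Ioi e2,
    integral_const_mul, integral_const_mul, integral_Ioi_rpow_of_lt (by linarith) hδ,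
    ← intervalIntegral.integral_of_le hδ.le, integral_rpow (Or.inl (by linarith))]
  have h3 : a - 1 + 1 = a := by ring
  have h4 : a - 2 + 1 = a - 1 := by ring
  rw [h3, h4, Real.zero_rpow ha.ne', sub_zero]
  have h5 : δ ^ a = δ * δ ^ (a - 1) := by
    rw [← Real.rpow_one_add' hδ.le (by linarith)]; congr 1; ring
  have h6 : a - 1 ≠ 0 := by linarith
  have h7 : 1 - a ≠ 0 := by linarith
  rw [cg, h5]
  field_simp
  ring

/-- the splitting estimate -/
theorem split_bound {V : Type*} [NormedAddCommGroup V] [NormedSpace ℝ V] {a C δ : ℝ}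
    (ha : 0 < a) (ha1 : a < 1) (hC : 0 ≤ C) (hδ : 0 < δ) {f : ℝ → V}
    (h1 : ∀ p ∈ JJ, ‖f p‖ ≤ C * (2 * Real.sin p ^ (a - 1)))
    (h2 : ∀ p ∈ JJ, ‖f p‖ ≤ C * (Real.sin p ^ (a - 2) * δ)) :
    ‖∫ p in JJ, f p‖ ≤ C * cg a * δ ^ a := by
  obtain ⟨ig, hg⟩ := integrableOn_gg ha ha1 hδ
  have hsub : JJ ⊆ Ioi 0 := fun p hp => hp.1
  have h3 : ‖∫ p in JJ, f p‖ ≤ ∫ p in JJ, C * gg a δ p := by
    refine norm_integral_le_of_norm_le ((ig.mono_set hsub).const_mul C) ?_
    filter_upwards [ae_restrict_mem measurableSet_JJ] with p hp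
    unfold gg
    split_ifs with hpd
    · refine (h1 p hp).trans (mul_le_mul_of_nonneg_left ?_ hC)
      have := JJ.sin_rpow_le hp (b := a - 1) (by linarith)
      linarith
    · refine (h2 p hp).trans (mul_le_mul_of_nonneg_left ?_ hC)
      have := JJ.sin_rpow_le hp (b := a - 2) (by linarith)
      calc Real.sin p ^ (a - 2) * δ ≤ ((2 / Real.pi) ^ (a - 2) * p ^ (a - 2)) * δ :=
            mul_le_mul_of_nonneg_right this hδ.le
        _ = _ := by ring
  refine h3.trans ?_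
  have h4 : ∫ p in JJ, C * gg a δ p ≤ ∫ p in Ioi 0, C * gg a δ p := by
    refine setIntegral_mono_set (ig.const_mul C) ?_ (Eventually.of_forall hsub)
    filter_upwards [ae_restrict_mem measurableSet_Ioi] with p hp
    exact mul_nonneg hC (gg_nonneg hδ hp)
  refine h4.trans (le_of_eq ?_)
  rw [integral_const_mul, hg]; ring


/-- facts about the heat family `F s = G_s * r` which are used -/
structure HF (a C : ℝ) (r : E n → ℝ) (F : ℝ → E n → ℝ)
    (F1 : ℝ → E n → (E n →L[ℝ] ℝ)) (F2 : ℝ → E n → (E n →L[ℝ] E n →L[ℝ] ℝ)) : Prop where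
  nn : 0 ≤ C
  zero : ∀ x, F 0 x = r x
  even : ∀ s x, F s (-x) = F s x
  d1 : ∀ s, 0 < s → ∀ x, HasFDerivAt (F s) (F1 s x) x
  d2 : ∀ s, 0 < s → ∀ x, HasFDerivAt (F1 s) (F2 s x) x
  b2 : ∀ s, 0 < s → ∀ x, ‖F2 s x‖ ≤ C * s ^ (a - 2)
  b3 : ∀ s, 0 < s → ∀ x y, ‖F2 s x - F2 s y‖ ≤ C * s ^ (a - 3) * ‖x - y‖
  cF : Continuous fun q : ℝ × E n => F q.1 q.2
  c1 : ContinuousOn (fun q : ℝ × E n => F1 q.1 q.2) (Ioi 0 ×ˢ univ)
  c2 : ContinuousOn (fun q : ℝ × E n => F2 q.1 q.2) (Ioi 0 ×ˢ univ)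
  dp : ∀ x, ∀ p ∈ JJ, HasDerivAt (fun p => F (Real.sin p) (Real.cos p • x))
    (Real.cos p * Real.sin p * trB (F2 (Real.sin p) (Real.cos p • x))
      - Real.sin p * F1 (Real.sin p) (Real.cos p • x) x) p

namespace HF

variable {a C : ℝ} {r : E n → ℝ} {F : ℝ → E n → ℝ}
  {F1 : ℝ → E n → (E n →L[ℝ] ℝ)} {F2 : ℝ → E n → (E n →L[ℝ] E n →L[ℝ] ℝ)}

theorem odd1 (h : HF a C r F F1 F2) {s : ℝ} (hs : 0 < s) : F1 s 0 = 0 := by
  have h1 := h.d1 s hs 0
  have h2 : HasFDerivAt (fun x : E n => F s (-x)) ((F1 s 0).comp (-ContinuousLinearMap.id ℝ (E n)))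
      0 := by
    have h3 : HasFDerivAt (F s) (F1 s 0) (-(0 : E n)) := by simpa using h1
    exact h3.comp (0 : E n) (hasFDerivAt_id (0 : E n)).neg
  have h3 : (fun x : E n => F s (-x)) = F s := by ext x; exact h.even s x
  rw [h3] at h2
  have h4 := h1.unique h2
  ext v
  have h5 := congrArg (fun L : E n →L[ℝ] ℝ => L v) h4
  simp at h5
  simp
  linarith

theorem bd1 (h : HF a C r F F1 F2) {s : ℝ} (hs : 0 < s) (x : E n) :
    ‖F1 s x‖ ≤ C * s ^ (a - 2) * ‖x‖ := by
  have h1 := (convex_univ (𝕜 := ℝ) (E := E n)).norm_image_sub_le_of_norm_hasFDerivWithin_le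
    (f := F1 s) (f' := F2 s) (C := C * s ^ (a - 2))
    (fun x _ => (h.d2 s hs x).hasFDerivWithinAt) (fun x _ => h.b2 s hs x) (mem_univ 0) (mem_univ x)
  simpa [h.odd1 hs] using h1

theorem bd0 (h : HF a C r F F1 F2) {s : ℝ} (hs : 0 < s) (x : E n) :
    |F s x - F s 0| ≤ C * s ^ (a - 2) * ‖x‖ ^ 2 := by
  have h1 := (convex_closedBall (0 : E n) ‖x‖).norm_image_sub_le_of_norm_hasFDerivWithin_le
    (f := F s) (f' := F1 s) (C := C * s ^ (a - 2) * ‖x‖)
    (fun y _ => (h.d1 s hs y).hasFDerivWithinAt) (fun y hy => ?_)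
    (mem_closedBall_zero_iff.2 (by simp : ‖(0 : E n)‖ ≤ ‖x‖))
    (mem_closedBall_zero_iff.2 le_rfl)
  · rw [sub_zero, Real.norm_eq_abs] at h1
    refine h1.trans (le_of_eq (by ring))
  · refine (h.bd1 hs y).trans (mul_le_mul_of_nonneg_left (mem_closedBall_zero_iff.1 hy) ?_)
    exact mul_nonneg h.nn (Real.rpow_nonneg hs.le _)

/-- integrands -/
noncomputable def A0 (F : ℝ → E n → ℝ) (x : E n) (p : ℝ) : ℝ :=
  Real.sin p / Real.cos p ^ 2 * (F (Real.sin p) (Real.cos p • x) - F (Real.sin p) 0)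

noncomputable def A1 (F1 : ℝ → E n → (E n →L[ℝ] ℝ)) (x : E n) (p : ℝ) : E n →L[ℝ] ℝ :=
  (Real.sin p / Real.cos p) • F1 (Real.sin p) (Real.cos p • x)

noncomputable def A2 (F2 : ℝ → E n → (E n →L[ℝ] E n →L[ℝ] ℝ)) (x : E n) (p : ℝ) :
    E n →L[ℝ] E n →L[ℝ] ℝ :=
  Real.sin p • F2 (Real.sin p) (Real.cos p • x)

theorem rp1 {s : ℝ} (hs : 0 < s) (b : ℝ) : s * s ^ (b - 1) = s ^ b := by
  have h := Real.rpow_add hs 1 (b - 1)
  rw [Real.rpow_one] at h
  rw [← h]; congr 1; ring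

theorem rp2 {s : ℝ} (hs : 0 < s) (b : ℝ) : s * s ^ (b - 2) = s ^ (b - 1) := by
  have h := rp1 hs (b - 1)
  rwa [show b - 1 - 1 = b - 2 by ring] at h

theorem rp3 {s : ℝ} (hs : 0 < s) (b : ℝ) : s * s ^ (b - 3) = s ^ (b - 2) := by
  have h := rp1 hs (b - 2)
  rwa [show b - 2 - 1 = b - 3 by ring] at h

theorem A0_le (h : HF a C r F F1 F2) (x : E n) {p : ℝ} (hp : p ∈ JJ) :
    |A0 F x p| ≤ C * Real.sin p ^ (a - 1) * ‖x‖ ^ 2 := by
  have hs := JJ.sin_pos hp
  have hc := JJ.cos_pos hp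
  have h1 := h.bd0 hs (Real.cos p • x)
  unfold A0
  rw [abs_mul, abs_of_nonneg (by positivity : 0 ≤ Real.sin p / Real.cos p ^ 2)]
  refine (mul_le_mul_of_nonneg_left h1 (by positivity)).trans (le_of_eq ?_)
  rw [norm_smul, Real.norm_of_nonneg hc.le, ← rp2 hs]
  field_simp

theorem A1_le (h : HF a C r F F1 F2) (x : E n) {p : ℝ} (hp : p ∈ JJ) :
    ‖A1 F1 x p‖ ≤ C * Real.sin p ^ (a - 1) * ‖x‖ := by
  have hs := JJ.sin_pos hp
  have hc := JJ.cos_pos hp
  have h1 := h.bd1 hs (Real.cos p • x)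
  unfold A1
  rw [norm_smul, Real.norm_of_nonneg (by positivity : 0 ≤ Real.sin p / Real.cos p)]
  refine (mul_le_mul_of_nonneg_left h1 (by positivity)).trans (le_of_eq ?_)
  rw [norm_smul, Real.norm_of_nonneg hc.le, ← rp2 hs]
  field_simp

theorem A2_le (h : HF a C r F F1 F2) (x : E n) {p : ℝ} (hp : p ∈ JJ) :
    ‖A2 F2 x p‖ ≤ C * Real.sin p ^ (a - 1) := by
  have hs := JJ.sin_pos hp
  unfold A2
  rw [norm_smul, Real.norm_of_nonneg hs.le, ← rp2 hs]
  refine (mul_le_mul_of_nonneg_left (h.b2 _ hs _) hs.le).trans (le_of_eq (by ring))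

theorem A2_sub_le (h : HF a C r F F1 F2) (x y : E n) {p : ℝ} (hp : p ∈ JJ) :
    ‖A2 F2 x p - A2 F2 y p‖ ≤ C * (Real.sin p ^ (a - 2) * ‖x - y‖) := by
  have hs := JJ.sin_pos hp
  have hc := JJ.cos_pos hp
  unfold A2
  rw [← smul_sub, norm_smul, Real.norm_of_nonneg hs.le, ← rp3 hs]
  refine (mul_le_mul_of_nonneg_left (h.b3 _ hs _ _) hs.le).trans ?_
  rw [← smul_sub, norm_smul, Real.norm_of_nonneg hc.le]
  have h1 : Real.cos p * ‖x - y‖ ≤ 1 * ‖x - y‖ :=
    mul_le_mul_of_nonneg_right (Real.cos_le_one p) (norm_nonneg _)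
  have h2 : 0 ≤ Real.sin p * (C * Real.sin p ^ (a - 3)) :=
    mul_nonneg hs.le (mul_nonneg h.nn (Real.rpow_nonneg hs.le _))
  calc Real.sin p * (C * Real.sin p ^ (a - 3) * (Real.cos p * ‖x - y‖))
      = Real.sin p * (C * Real.sin p ^ (a - 3)) * (Real.cos p * ‖x - y‖) := by ring
    _ ≤ Real.sin p * (C * Real.sin p ^ (a - 3)) * (1 * ‖x - y‖) :=
        mul_le_mul_of_nonneg_left h1 h2
    _ = _ := by ring

theorem cont_curve (x : E n) : Continuous fun p : ℝ => (Real.sin p, Real.cos p • x) :=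
  Real.continuous_sin.prodMk (Real.continuous_cos.smul continuous_const)

theorem A0_cont (h : HF a C r F F1 F2) (x : E n) : ContinuousOn (A0 F x) JJ := by
  unfold A0
  refine ContinuousOn.mul (ContinuousOn.div Real.continuous_sin.continuousOn
    (Real.continuous_cos.pow 2).continuousOn fun p hp => (pow_pos (JJ.cos_pos hp) 2).ne') ?_
  have h1 : Continuous fun p : ℝ => F (Real.sin p) (Real.cos p • x) := h.cF.comp (cont_curve x)
  have h2 : Continuous fun p : ℝ => F (Real.sin p) 0 :=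
    h.cF.comp (Real.continuous_sin.prodMk continuous_const)
  exact (h1.sub h2).continuousOn

theorem A1_cont (h : HF a C r F F1 F2) (x : E n) : ContinuousOn (A1 F1 x) JJ := by
  unfold A1
  refine ContinuousOn.smul (ContinuousOn.div Real.continuous_sin.continuousOn
    Real.continuous_cos.continuousOn fun p hp => (JJ.cos_pos hp).ne') ?_
  exact h.c1.comp (cont_curve x).continuousOn fun p hp => ⟨JJ.sin_pos hp, mem_univ _⟩

theorem A2_cont (h : HF a C r F F1 F2) (x : E n) : ContinuousOn (A2 F2 x) JJ := by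
  unfold A2
  refine ContinuousOn.smul Real.continuous_sin.continuousOn ?_
  exact h.c2.comp (cont_curve x).continuousOn fun p hp => ⟨JJ.sin_pos hp, mem_univ _⟩

theorem A0_int (h : HF a C r F F1 F2) (ha : 0 < a) (ha1 : a < 1) (x : E n) :
    IntegrableOn (A0 F x) JJ := by
  refine Integrable.mono' (((integrableOn_sin_rpow ha ha1).const_mul C).mul_const (‖x‖ ^ 2))
    ((h.A0_cont x).aestronglyMeasurable measurableSet_JJ) ?_
  filter_upwards [ae_restrict_mem measurableSet_JJ] with p hp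
  exact h.A0_le x hp

theorem A1_int (h : HF a C r F F1 F2) (ha : 0 < a) (ha1 : a < 1) (x : E n) :
    IntegrableOn (A1 F1 x) JJ := by
  refine Integrable.mono' (((integrableOn_sin_rpow ha ha1).const_mul C).mul_const (‖x‖))
    ((h.A1_cont x).aestronglyMeasurable measurableSet_JJ) ?_
  filter_upwards [ae_restrict_mem measurableSet_JJ] with p hp
  exact h.A1_le x hp

theorem A2_int (h : HF a C r F F1 F2) (ha : 0 < a) (ha1 : a < 1) (x : E n) :
    IntegrableOn (A2 F2 x) JJ := by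
  refine Integrable.mono' ((integrableOn_sin_rpow ha ha1).const_mul C)
    ((h.A2_cont x).aestronglyMeasurable measurableSet_JJ) ?_
  filter_upwards [ae_restrict_mem measurableSet_JJ] with p hp
  exact h.A2_le x hp

theorem A0_deriv (h : HF a C r F F1 F2) (x : E n) {p : ℝ} (hp : p ∈ JJ) :
    HasFDerivAt (fun x => A0 F x p) (A1 F1 x p) x := by
  have hs := JJ.sin_pos hp
  have hc := JJ.cos_pos hp
  have h1 : HasFDerivAt (fun x : E n => F (Real.sin p) (Real.cos p • x))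
      ((F1 (Real.sin p) (Real.cos p • x)).comp (Real.cos p • ContinuousLinearMap.id ℝ (E n))) x :=
    (h.d1 _ hs _).comp x ((hasFDerivAt_id x).const_smul (Real.cos p))
  have h2 := (h1.sub_const (F (Real.sin p) 0)).const_mul (Real.sin p / Real.cos p ^ 2)
  refine h2.congr_fderiv ?_
  unfold A1
  ext v
  simp only [smul_apply, ContinuousLinearMap.comp_apply,
    ContinuousLinearMap.id_apply, map_smul, smul_eq_mul]
  field_simp

theorem A1_deriv (h : HF a C r F F1 F2) (x : E n) {p : ℝ} (hp : p ∈ JJ) :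
    HasFDerivAt (fun x => A1 F1 x p) (A2 F2 x p) x := by
  have hs := JJ.sin_pos hp
  have hc := JJ.cos_pos hp
  have h1 : HasFDerivAt (fun x : E n => F1 (Real.sin p) (Real.cos p • x))
      ((F2 (Real.sin p) (Real.cos p • x)).comp (Real.cos p • ContinuousLinearMap.id ℝ (E n))) x :=
    (h.d2 _ hs _).comp x ((hasFDerivAt_id x).const_smul (Real.cos p))
  have h2 := h1.const_smul (Real.sin p / Real.cos p)
  refine h2.congr_fderiv ?_
  unfold A2
  ext v w
  simp only [smul_apply, ContinuousLinearMap.comp_apply,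
    ContinuousLinearMap.id_apply, map_smul, smul_eq_mul]
  field_simp

/-- the three integrals -/
noncomputable def V0 (F : ℝ → E n → ℝ) (c : ℝ) (x : E n) : ℝ := c - ∫ p in JJ, A0 F x p

noncomputable def V1 (F1 : ℝ → E n → (E n →L[ℝ] ℝ)) (x : E n) : E n →L[ℝ] ℝ :=
  - ∫ p in JJ, A1 F1 x p

noncomputable def V2 (F2 : ℝ → E n → (E n →L[ℝ] E n →L[ℝ] ℝ)) (x : E n) :
    E n →L[ℝ] E n →L[ℝ] ℝ := - ∫ p in JJ, A2 F2 x p

theorem V0_deriv (h : HF a C r F F1 F2) (ha : 0 < a) (ha1 : a < 1) (c : ℝ) (x : E n) :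
    HasFDerivAt (V0 F c) (V1 F1 x) x := by
  have h1 := hasFDerivAt_integral_of_dominated_of_fderiv_le (𝕜 := ℝ)
    (μ := volume.restrict JJ) (F := fun x p => A0 F x p) (F' := fun x p => A1 F1 x p)
    (x₀ := x) (s := Metric.ball x 1) (bound := fun p => C * Real.sin p ^ (a - 1) * (‖x‖ + 1))
    (Metric.ball_mem_nhds x one_pos)
    (Eventually.of_forall fun y => (h.A0_cont y).aestronglyMeasurable measurableSet_JJ)
    (h.A0_int ha ha1 x) ((h.A1_cont x).aestronglyMeasurable measurableSet_JJ)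
    (by
      filter_upwards [ae_restrict_mem measurableSet_JJ] with p hp y hy
      refine (h.A1_le y hp).trans (mul_le_mul_of_nonneg_left ?_
        (mul_nonneg h.nn (Real.rpow_nonneg (JJ.sin_pos hp).le _)))
      have h2 : ‖y - x‖ < 1 := by simpa [dist_eq_norm] using hy
      have h3 : ‖y‖ ≤ ‖x‖ + ‖y - x‖ := by
        calc ‖y‖ = ‖x + (y - x)‖ := by congr 1; abel
          _ ≤ _ := norm_add_le _ _
      linarith)
    (((integrableOn_sin_rpow ha ha1).const_mul C).mul_const _)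
    (by
      filter_upwards [ae_restrict_mem measurableSet_JJ] with p hp y _
      exact h.A0_deriv y hp)
  exact h1.const_sub c

theorem V1_deriv (h : HF a C r F F1 F2) (ha : 0 < a) (ha1 : a < 1) (x : E n) :
    HasFDerivAt (V1 F1) (V2 F2 x) x := by
  have h1 := hasFDerivAt_integral_of_dominated_of_fderiv_le (𝕜 := ℝ)
    (μ := volume.restrict JJ) (F := fun x p => A1 F1 x p) (F' := fun x p => A2 F2 x p)
    (x₀ := x) (s := Metric.ball x 1) (bound := fun p => C * Real.sin p ^ (a - 1))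
    (Metric.ball_mem_nhds x one_pos)
    (Eventually.of_forall fun y => (h.A1_cont y).aestronglyMeasurable measurableSet_JJ)
    (h.A1_int ha ha1 x) ((h.A2_cont x).aestronglyMeasurable measurableSet_JJ)
    (by
      filter_upwards [ae_restrict_mem measurableSet_JJ] with p hp y hy
      exact h.A2_le y hp)
    ((integrableOn_sin_rpow ha ha1).const_mul C)
    (by
      filter_upwards [ae_restrict_mem measurableSet_JJ] with p hp y _
      exact h.A1_deriv y hp)
  exact h1.neg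

theorem V2_hol (h : HF a C r F F1 F2) (ha : 0 < a) (ha1 : a < 1) (x y : E n) :
    ‖V2 F2 x - V2 F2 y‖ ≤ C * cg a * ‖x - y‖ ^ a := by
  by_cases hxy : x = y
  · subst hxy; simp [Real.zero_rpow ha.ne']
  have hδ : 0 < ‖x - y‖ := norm_pos_iff.2 (sub_ne_zero.2 hxy)
  have e : V2 F2 x - V2 F2 y = - ∫ p in JJ, (A2 F2 x p - A2 F2 y p) := by
    unfold V2
    rw [integral_sub (h.A2_int ha ha1 x) (h.A2_int ha ha1 y)]; abel
  rw [e, norm_neg]
  refine split_bound ha ha1 h.nn hδ (fun p hp => ?_) (fun p hp => h.A2_sub_le x y hp)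
  refine (norm_sub_le _ _).trans ?_
  have h1 := h.A2_le x hp
  have h2 := h.A2_le y hp
  linarith

/-- constant for the sup bound -/
noncomputable def cs (a : ℝ) : ℝ := ∫ p in JJ, Real.sin p ^ (a - 1)

theorem cs_nonneg (a : ℝ) : 0 ≤ cs a := by
  refine setIntegral_nonneg measurableSet_JJ fun p hp => Real.rpow_nonneg (JJ.sin_pos hp).le _

theorem V2_bd (h : HF a C r F F1 F2) (ha : 0 < a) (ha1 : a < 1) (x : E n) :
    ‖V2 F2 x‖ ≤ C * cs a := by
  unfold V2 cs
  rw [norm_neg, ← integral_const_mul]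
  refine norm_integral_le_of_norm_le ((integrableOn_sin_rpow ha ha1).const_mul C) ?_
  filter_upwards [ae_restrict_mem measurableSet_JJ] with p hp
  exact h.A2_le x hp

theorem V0_even (h : HF a C r F F1 F2) (c : ℝ) (x : E n) : V0 F c (-x) = V0 F c x := by
  unfold V0 A0
  simp only [smul_neg, h.even]

/-- the trace as a continuous linear map -/
theorem trB_int {f : ℝ → (E n →L[ℝ] E n →L[ℝ] ℝ)} (hf : IntegrableOn f JJ) :
    IntegrableOn (fun p => trB (f p)) JJ ∧ ∫ p in JJ, trB (f p) = trB (∫ p in JJ, f p) := by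
  have h0 : ∀ i : Fin n, IntegrableOn (fun p => f p (ee i)) JJ := fun i =>
    (ContinuousLinearMap.apply ℝ (E n →L[ℝ] ℝ) (ee i : E n)).integrable_comp hf
  have h1 : ∀ i : Fin n, IntegrableOn (fun p => f p (ee i) (ee i)) JJ := fun i =>
    (ContinuousLinearMap.apply ℝ ℝ (ee i : E n)).integrable_comp (h0 i)
  refine ⟨?_, ?_⟩
  · unfold trB
    exact integrable_finsetSum _ fun i _ => h1 i
  · unfold trB
    rw [integral_finsetSum _ fun i _ => h1 i]
    refine Finset.sum_congr rfl fun i _ => ?_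
    rw [ContinuousLinearMap.integral_apply hf, ContinuousLinearMap.integral_apply (h0 i)]

/-- the primitive -/
noncomputable def PP (F : ℝ → E n → ℝ) (x : E n) (p : ℝ) : ℝ :=
  (F (Real.sin p) (Real.cos p • x) - F (Real.sin p) 0) / Real.cos p

theorem PP_cont (h : HF a C r F F1 F2) (x : E n) : ContinuousOn (PP F x) (Icc 0 (Real.pi / 2)) := by
  have hpi := Real.pi_pos
  have h1 : Continuous fun p : ℝ => F (Real.sin p) (Real.cos p • x) := h.cF.comp (cont_curve x)
  have h2 : Continuous fun p : ℝ => F (Real.sin p) 0 :=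
    h.cF.comp (Real.continuous_sin.prodMk continuous_const)
  intro p hp
  rcases lt_or_eq_of_le hp.2 with hlt | heq
  · have hc : Real.cos p ≠ 0 := (Real.cos_pos_of_mem_Ioo ⟨by linarith [hp.1], hlt⟩).ne'
    exact ((h1.sub h2).continuousAt.div Real.continuous_cos.continuousAt hc).continuousWithinAt
  · subst heq
    have h3 : PP F x (Real.pi / 2) = 0 := by simp [PP]
    rw [ContinuousWithinAt, h3]
    have h4 : Tendsto (fun p : ℝ => C * Real.sin p ^ (a - 2) * Real.cos p * ‖x‖ ^ 2)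
        (𝓝[Icc 0 (Real.pi / 2)] (Real.pi / 2)) (𝓝 0) := by
      have h5 : ContinuousAt (fun p : ℝ => C * Real.sin p ^ (a - 2) * Real.cos p * ‖x‖ ^ 2)
          (Real.pi / 2) := by
        have h6 : ContinuousAt (fun p : ℝ => Real.sin p ^ (a - 2)) (Real.pi / 2) :=
          Real.continuous_sin.continuousAt.rpow_const (Or.inl (by simp))
        exact ((continuousAt_const.mul h6).mul Real.continuous_cos.continuousAt).mul
          continuousAt_const
      have h7 := h5.tendsto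
      simp only [Real.cos_pi_div_two, mul_zero, zero_mul] at h7
      exact h7.mono_left nhdsWithin_le_nhds
    refine squeeze_zero_norm' ?_ h4
    have h8 : ∀ᶠ p in 𝓝[Icc 0 (Real.pi / 2)] (Real.pi / 2), p ∈ Icc 0 (Real.pi / 2) ∧ 0 < p :=
      Filter.Eventually.and self_mem_nhdsWithin
        (nhdsWithin_le_nhds (lt_mem_nhds (by positivity)))
    filter_upwards [h8] with p hp
    rcases lt_or_eq_of_le hp.1.2 with hlt | heq
    · have hJ : p ∈ JJ := ⟨hp.2, hlt⟩
      have hs := JJ.sin_pos hJ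
      have hc := JJ.cos_pos hJ
      have h9 := h.bd0 hs (Real.cos p • x)
      unfold PP
      rw [norm_div, Real.norm_eq_abs, Real.norm_of_nonneg hc.le, div_le_iff₀ hc]
      refine h9.trans (le_of_eq ?_)
      rw [norm_smul, Real.norm_of_nonneg hc.le]; ring
    · subst heq
      simp [PP]

theorem PP_deriv (h : HF a C r F F1 F2) (x : E n) {p : ℝ} (hp : p ∈ JJ) :
    HasDerivAt (PP F x) (trB (A2 F2 x p) - trB (A2 F2 0 p) - A1 F1 x p x + A0 F x p) p := by
  have hs := JJ.sin_pos hp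
  have hc := JJ.cos_pos hp
  have h1 := h.dp x p hp
  have h2 := h.dp 0 p hp
  simp only [smul_zero] at h2
  have h3 := (h1.sub h2).div (Real.hasDerivAt_cos p) hc.ne'
  refine h3.congr_deriv ?_
  have e1 : ∀ y : E n, trB (A2 F2 y p) = Real.sin p * trB (F2 (Real.sin p) (Real.cos p • y)) := by
    intro y
    simp only [trB, A2, smul_apply, smul_eq_mul, Finset.mul_sum]
  rw [e1, e1]
  simp only [A1, A0, smul_apply, smul_eq_mul, smul_zero, map_zero, mul_zero, sub_zero,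
    Pi.sub_apply]
  field_simp
  ring

theorem pde (h : HF a C r F F1 F2) (ha : 0 < a) (ha1 : a < 1) (x : E n) :
    trB (V2 F2 x) - V1 F1 x x + V0 F (r 0 - trB (V2 F2 0)) x = r x := by
  have hpi : (0 : ℝ) ≤ Real.pi / 2 := by positivity
  obtain ⟨i1, e1⟩ := trB_int (h.A2_int ha ha1 x)
  obtain ⟨i2, e2⟩ := trB_int (h.A2_int ha ha1 (0 : E n))
  have i3 := h.A1_int ha ha1 x
  have i3' : IntegrableOn (fun p => A1 F1 x p x) JJ :=
    (ContinuousLinearMap.apply ℝ ℝ x).integrable_comp i3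
  have i4 := h.A0_int ha ha1 x
  have i5 : IntegrableOn
      (fun p => trB (A2 F2 x p) - trB (A2 F2 0 p) - A1 F1 x p x + A0 F x p) JJ :=
    ((i1.sub i2).sub i3').add i4
  have h1 := intervalIntegral.integral_eq_sub_of_hasDerivAt_of_le hpi (h.PP_cont x)
    (fun p hp => h.PP_deriv x (show p ∈ JJ from hp))
    ((intervalIntegrable_iff_integrableOn_Ioo_of_le hpi).2 i5)
  rw [intervalIntegral.integral_of_le hpi, integral_Ioc_eq_integral_Ioo] at h1
  have h2 : ∫ p in JJ, (trB (A2 F2 x p) - trB (A2 F2 0 p) - A1 F1 x p x + A0 F x p)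
      = trB (∫ p in JJ, A2 F2 x p) - trB (∫ p in JJ, A2 F2 0 p) - (∫ p in JJ, A1 F1 x p) x
        + ∫ p in JJ, A0 F x p := by
    have j1 : IntegrableOn (fun p => trB (A2 F2 x p) - trB (A2 F2 0 p)) JJ := i1.sub i2
    have j2 : IntegrableOn (fun p => trB (A2 F2 x p) - trB (A2 F2 0 p) - A1 F1 x p x) JJ :=
      j1.sub i3'
    rw [integral_add j2 i4, integral_sub j1 i3', integral_sub i1 i2,
      e1, e2, ContinuousLinearMap.integral_apply i3]
  have h3 : ∫ p in JJ, (trB (A2 F2 x p) - trB (A2 F2 0 p) - A1 F1 x p x + A0 F x p)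
      = PP F x (Real.pi / 2) - PP F x 0 := h1
  rw [h2] at h3
  have h4 : PP F x (Real.pi / 2) = 0 := by simp [PP]
  have h5 : PP F x 0 = r x - r 0 := by simp [PP, h.zero]
  rw [h4, h5] at h3
  have tn : ∀ B : E n →L[ℝ] E n →L[ℝ] ℝ, trB (-B) = - trB B := by
    intro B; simp [trB]
  simp only [V2, V1, V0, tn, neg_apply]
  linarith

/-- RESULT of the abstract part -/
theorem sol (h : HF a C r F F1 F2) (ha : 0 < a) (ha1 : a < 1) :
    ∃ v : E n → ℝ, ContDiff ℝ 2 v ∧ (∀ x, v (-x) = v x) ∧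
      (∀ i j, HB a (C * (cs a + cg a)) (fun x => Hs v x i j)) ∧
      ∀ x, LA (fun _ => (1 : Matrix (Fin n) (Fin n) ℝ)) v x + v x = r x := by
  set v := V0 F (r 0 - trB (V2 F2 0)) with hv
  have d0 : ∀ x, HasFDerivAt v (V1 F1 x) x := fun x => h.V0_deriv ha ha1 _ x
  have d1 : ∀ x, HasFDerivAt (V1 F1) (V2 F2 x) x := fun x => h.V1_deriv ha ha1 x
  have f0 : fderiv ℝ v = V1 F1 := funext fun x => (d0 x).fderiv
  have f1 : fderiv ℝ (V1 F1) = V2 F2 := funext fun x => (d1 x).fderiv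
  have hH : ∀ x i j, Hs v x i j = V2 F2 x (ee i) (ee j) := by
    intro x i j
    simp only [Hs, f0, f1]
  have c2 : Continuous (V2 F2) := by
    rw [continuous_iff_continuousAt]
    intro x
    have t1 : Tendsto (fun y : E n => C * cg a * ‖y - x‖ ^ a) (𝓝 x) (𝓝 0) := by
      have t2 : Continuous fun y : E n => C * cg a * ‖y - x‖ ^ a :=
        continuous_const.mul ((continuous_norm.comp
          (continuous_id.sub continuous_const)).rpow_const fun _ => Or.inr ha.le)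
      have t3 := t2.tendsto x
      simpa [Real.zero_rpow ha.ne'] using t3
    rw [ContinuousAt, tendsto_iff_norm_sub_tendsto_zero]
    exact squeeze_zero (fun _ => norm_nonneg _) (fun y => h.V2_hol ha ha1 y x) t1
  have hne : ∀ i : Fin n, ‖(ee i : E n)‖ = 1 := fun i => by simp
  have hap : ∀ (B : E n →L[ℝ] E n →L[ℝ] ℝ) (i j : Fin n), |B (ee i) (ee j)| ≤ ‖B‖ := by
    intro B i j
    have := B.le_opNorm₂ (ee i : E n) (ee j)
    rwa [hne, hne, mul_one, mul_one] at this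
  refine ⟨v, ?_, fun x => h.V0_even _ x, fun i j => ⟨fun x => ?_, fun x y => ?_⟩, fun x => ?_⟩
  · have e : (2 : WithTop ℕ∞) = (1 : ℕ) + 1 := by norm_num
    rw [e, contDiff_succ_iff_hasFDerivAt]
    refine ⟨V1 F1, ?_, d0⟩
    exact_mod_cast contDiff_one_iff_hasFDerivAt.2 ⟨V2 F2, c2, d1⟩
  · show |Hs v x i j| ≤ _
    rw [hH]
    refine (hap _ i j).trans ((h.V2_bd ha ha1 x).trans ?_)
    exact mul_le_mul_of_nonneg_left (by linarith [cg_pos ha ha1]) h.nn
  · show |Hs v x i j - Hs v y i j| ≤ _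
    rw [hH, hH]
    have e : V2 F2 x (ee i) (ee j) - V2 F2 y (ee i) (ee j)
        = (V2 F2 x - V2 F2 y) (ee i) (ee j) := by
      simp
    rw [e]
    refine (hap _ i j).trans ((h.V2_hol ha ha1 x y).trans ?_)
    refine mul_le_mul_of_nonneg_right ?_ (Real.rpow_nonneg (norm_nonneg _) _)
    exact mul_le_mul_of_nonneg_left (by linarith [cs_nonneg a]) h.nn
  · have e1 : ∑ i, ∑ j, (1 : Matrix (Fin n) (Fin n) ℝ) i j * Hs v x i j = trB (V2 F2 x) := by
      unfold trB
      refine Finset.sum_congr rfl fun i _ => ?_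
      rw [Finset.sum_eq_single i]
      · rw [Matrix.one_apply_eq, one_mul, hH]
      · intro j _ hj
        rw [Matrix.one_apply_ne (Ne.symm hj), zero_mul]
      · intro hi; exact absurd (Finset.mem_univ i) hi
    unfold LA
    rw [e1, f0]
    exact h.pde ha ha1 x

end HF

end Crest.Agent.R238
end

-- ▼ part R238/Hol3
section

/-!
Row 238, H1 (helper718), file 3: convolution with Schwartz kernels of arbitrary width.
`ZZ r k s x = ∫ r(x + s z) k(z) dz`; derivatives in `x` fall on the kernel; parametric version.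
-/

set_option autoImplicit false
set_option maxSynthPendingDepth 3

open MeasureTheory Set Filter SchwartzMap
open scoped ContDiff Topology

namespace Crest.Agent.R238.HolK

variable {n : ℕ} {W : Type*} [NormedAddCommGroup W] [NormedSpace ℝ W]

/-- `z`-form -/
noncomputable def ZZ (r : E n → ℝ) (k : E n → W) (s : ℝ) (x : E n) : W :=
  ∫ z, r (x + s • z) • k z

/-- `y`-form -/
noncomputable def YF (r : E n → ℝ) (k : E n → W) (A : ℝ) (b : E n) : W :=
  ∫ y, r y • k (A • (y - b))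

theorem YF_eq (r : E n → ℝ) (k : E n → W) {s : ℝ} (hs : 0 < s) (x : E n) :
    YF r k s⁻¹ x = s ^ n • ZZ r k s x := by
  have h1 : YF r k s⁻¹ x = ∫ u : E n, r (x + u) • k (s⁻¹ • u) := by
    unfold YF
    rw [← integral_add_left_eq_self (μ := (volume : Measure (E n)))
      (fun y => r y • k (s⁻¹ • (y - x))) x]
    simp only [add_sub_cancel_left]
  have h2 := Measure.integral_comp_smul (volume : Measure (E n))
    (fun u : E n => r (x + u) • k (s⁻¹ • u)) s
  have h3 : (fun z : E n => r (x + s • z) • k (s⁻¹ • s • z)) = fun z => r (x + s • z) • k z := by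
    ext z
    rw [smul_smul, inv_mul_cancel₀ hs.ne', one_smul]
  simp only [h3] at h2
  rw [h1]
  unfold ZZ
  rw [h2, smul_smul, finrank_euclideanSpace_fin, abs_of_pos (by positivity),
    mul_inv_cancel₀ (by positivity), one_smul]

theorem ZZ_eq (r : E n → ℝ) (k : E n → W) {s : ℝ} (hs : 0 < s) (x : E n) :
    ZZ r k s x = (s ^ n)⁻¹ • YF r k s⁻¹ x := by
  rw [YF_eq r k hs, smul_smul, inv_mul_cancel₀ (by positivity), one_smul]

theorem sch_dec (k : 𝓢(E n, W)) (m : ℕ) : ∃ C : ℝ, 0 ≤ C ∧ ∀ z, (1 + ‖z‖) ^ m * ‖k z‖ ≤ C := by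
  refine ⟨2 ^ m * (Finset.Iic (m, 0)).sup (fun m => SchwartzMap.seminorm ℝ m.1 m.2) k,
    by positivity, fun z => ?_⟩
  have h := SchwartzMap.one_add_le_sup_seminorm_apply (𝕜 := ℝ) (m := (m, 0)) (k := m) (n := 0)
    le_rfl le_rfl k z
  rwa [norm_iteratedFDeriv_zero] at h

/-- the integrable weight -/
noncomputable def wtK (n : ℕ) (z : E n) : ℝ := ((1 + ‖z‖) ^ (n + 1))⁻¹


theorem integrable_wtK (n : ℕ) : Integrable (wtK n) := by
  have h := integrable_one_add_norm (E := E n) (μ := volume) (r := ((n + 1 : ℕ) : ℝ))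
    (by rw [finrank_euclideanSpace_fin]; push_cast; linarith)
  refine h.congr (Eventually.of_forall fun z => ?_)
  simp only [wtK]
  rw [Real.rpow_neg (by positivity), Real.rpow_natCast]

/-- decay of a kernel with `j` extra powers -/
theorem sch_dec' (k : 𝓢(E n, W)) (j : ℕ) :
    ∃ C : ℝ, 0 ≤ C ∧ ∀ z, (1 + ‖z‖) ^ j * ‖k z‖ ≤ C * wtK n z := by
  obtain ⟨C, hC, h⟩ := sch_dec k (j + (n + 1))
  refine ⟨C, hC, fun z => ?_⟩
  have h1 := h z
  unfold wtK
  rw [← div_eq_mul_inv, le_div_iff₀ (by positivity)]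
  calc (1 + ‖z‖) ^ j * ‖k z‖ * (1 + ‖z‖) ^ (n + 1)
      = (1 + ‖z‖) ^ (j + (n + 1)) * ‖k z‖ := by rw [pow_add]; ring
    _ ≤ C := h1

theorem sch_int_pow (k : 𝓢(E n, W)) (j : ℕ) : Integrable fun z => (1 + ‖z‖) ^ j * ‖k z‖ := by
  obtain ⟨C, hC, h⟩ := sch_dec' k j
  refine Integrable.mono' ((integrable_wtK n).const_mul C) ?_ (Eventually.of_forall fun z => ?_)
  · exact (((continuous_const.add continuous_norm).pow j).mul k.continuous.norm).aestronglyMeasurable
  · rw [Real.norm_of_nonneg (by positivity)]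
    exact h z

/-- comparison of weights under an affine change -/
theorem wtK_affine {A0 L : ℝ} (hA0 : 0 < A0) (hL : 0 ≤ L) {A : ℝ} (hA : A0 ≤ A) {b y : E n}
    (hb : ‖b‖ ≤ L) : wtK n (A • (y - b)) ≤ (1 + L + A0⁻¹) ^ (n + 1) * wtK n y := by
  have hAp : 0 < A := lt_of_lt_of_le hA0 hA
  have h1 : ‖y - b‖ ≤ A0⁻¹ * ‖A • (y - b)‖ := by
    rw [norm_smul, Real.norm_of_nonneg hAp.le]
    calc ‖y - b‖ = A0⁻¹ * (A0 * ‖y - b‖) := by field_simp
      _ ≤ A0⁻¹ * (A * ‖y - b‖) := by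
        refine mul_le_mul_of_nonneg_left ?_ (by positivity)
        exact mul_le_mul_of_nonneg_right hA (norm_nonneg _)
  have h2 : ‖y‖ ≤ ‖y - b‖ + ‖b‖ := by
    calc ‖y‖ = ‖(y - b) + b‖ := by congr 1; abel
      _ ≤ _ := norm_add_le _ _
  set z := A • (y - b) with hz
  have hi : 0 < A0⁻¹ := by positivity
  have h3 : 1 + ‖y‖ ≤ (1 + L + A0⁻¹) * (1 + ‖z‖) := by
    nlinarith [norm_nonneg z, norm_nonneg y, mul_nonneg hL (norm_nonneg z)]
  unfold wtK
  rw [← div_eq_mul_inv, le_div_iff₀ (by positivity), ← div_eq_inv_mul,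
    div_le_iff₀ (by positivity), ← mul_pow]
  exact pow_le_pow_left₀ (by positivity) h3 _

section par

variable {H : Type*} [NormedAddCommGroup H] [NormedSpace ℝ H]

theorem YF_cont_y {r : E n → ℝ} (hr : Continuous r) {k : E n → W} (hk : Continuous k)
    (A : ℝ) (b : E n) : Continuous fun y => r y • k (A • (y - b)) :=
  hr.smul (hk.comp ((continuous_id.sub continuous_const).const_smul A))

theorem YF_int {r : E n → ℝ} (hr : Continuous r) {M : ℝ} (hM : ∀ x, |r x| ≤ M)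
    (k : 𝓢(E n, W)) {A : ℝ} (hA : 0 < A) (b : E n) :
    Integrable fun y => r y • k (A • (y - b)) := by
  obtain ⟨C, hC, h⟩ := sch_dec' k 0
  have hM0 : 0 ≤ M := (abs_nonneg _).trans (hM 0)
  refine Integrable.mono' (((integrable_wtK n).const_mul ((1 + ‖b‖ + A⁻¹) ^ (n + 1))).const_mul
    (M * C)) (YF_cont_y hr k.continuous A b).aestronglyMeasurable (Eventually.of_forall fun y => ?_)
  rw [norm_smul, Real.norm_eq_abs]
  have h1 := h (A • (y - b))
  rw [pow_zero, one_mul] at h1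
  calc |r y| * ‖k (A • (y - b))‖ ≤ M * (C * wtK n (A • (y - b))) :=
        mul_le_mul (hM y) h1 (norm_nonneg _) hM0
    _ ≤ M * (C * ((1 + ‖b‖ + A⁻¹) ^ (n + 1) * wtK n y)) := by
        refine mul_le_mul_of_nonneg_left (mul_le_mul_of_nonneg_left ?_ hC) hM0
        exact wtK_affine hA (norm_nonneg b) le_rfl le_rfl
    _ = _ := by ring

/-- PARAMETRIC DERIVATIVE of `∫ r(y) k(A(t)(y - b(t))) dy` -/
theorem par (k : 𝓢(E n, W)) {r : E n → ℝ} (hr : Continuous r) {M : ℝ} (hM : ∀ x, |r x| ≤ M)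
    {A : H → ℝ} {b : H → E n} {A' : H → H →L[ℝ] ℝ} {b' : H → H →L[ℝ] E n} {t0 : H} {U : Set H}
    (hU : U ∈ 𝓝 t0) (hA : ∀ t ∈ U, HasFDerivAt A (A' t) t) (hb : ∀ t ∈ U, HasFDerivAt b (b' t) t)
    {A0 L : ℝ} (hA0 : 0 < A0) (h1 : ∀ t ∈ U, A0 ≤ A t) (h1' : ∀ t ∈ U, A t ≤ L)
    (h2 : ∀ t ∈ U, ‖b t‖ ≤ L) (h3 : ∀ t ∈ U, ‖A' t‖ ≤ L) (h4 : ∀ t ∈ U, ‖b' t‖ ≤ L) :
    Integrable (fun y => r y • (fderiv ℝ k (A t0 • (y - b t0))).comp
        ((A' t0).smulRight (y - b t0) - A t0 • b' t0)) ∧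
    HasFDerivAt (fun t => YF r k (A t) (b t))
      (∫ y, r y • (fderiv ℝ k (A t0 • (y - b t0))).comp
        ((A' t0).smulRight (y - b t0) - A t0 • b' t0)) t0 := by
  have ht0 : t0 ∈ U := mem_of_mem_nhds hU
  have hL : 0 ≤ L := (norm_nonneg _).trans (h2 t0 ht0)
  have hM0 : 0 ≤ M := (abs_nonneg _).trans (hM 0)
  have hi : 0 < A0⁻¹ := by positivity
  set k' : 𝓢(E n, E n →L[ℝ] W) := SchwartzMap.fderivCLM ℝ (E n) W k with hk'
  have hk'a : ∀ z, k' z = fderiv ℝ k z := fun z => SchwartzMap.fderivCLM_apply ℝ k z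
  obtain ⟨C, hC, hd⟩ := sch_dec' k' 1
  have mF : ∀ t, AEStronglyMeasurable (fun y => r y • k (A t • (y - b t))) volume := fun t =>
    (YF_cont_y hr k.continuous _ _).aestronglyMeasurable
  have cF' : Continuous fun y => r y • (fderiv ℝ k (A t0 • (y - b t0))).comp
        ((A' t0).smulRight (y - b t0) - A t0 • b' t0) := by
    refine hr.smul (Continuous.clm_comp ?_ ?_)
    · have e0 : Continuous fun y : E n => A t0 • (y - b t0) := by fun_prop
      have : Continuous fun y => k' (A t0 • (y - b t0)) := k'.continuous.comp e0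
      simpa only [hk'a] using this
    · refine Continuous.sub ?_ continuous_const
      exact ((ContinuousLinearMap.smulRightL ℝ H (E n) (A' t0)).continuous).comp
        (continuous_id.sub continuous_const)
  have bd : ∀ t ∈ U, ∀ y, ‖r y • (fderiv ℝ k (A t • (y - b t))).comp
        ((A' t).smulRight (y - b t) - A t • b' t)‖
      ≤ M * (L * A0⁻¹ + L * L) * C * (1 + L + A0⁻¹) ^ (n + 1) * wtK n y := by
    intro t ht y
    have hAt : 0 < A t := lt_of_lt_of_le hA0 (h1 t ht)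
    set z := A t • (y - b t) with hz
    have e1 : ‖y - b t‖ ≤ A0⁻¹ * ‖z‖ := by
      rw [hz, norm_smul, Real.norm_of_nonneg hAt.le]
      calc ‖y - b t‖ = A0⁻¹ * (A0 * ‖y - b t‖) := by field_simp
        _ ≤ A0⁻¹ * (A t * ‖y - b t‖) := by
          refine mul_le_mul_of_nonneg_left ?_ hi.le
          exact mul_le_mul_of_nonneg_right (h1 t ht) (norm_nonneg _)
    have e2 : ‖(A' t).smulRight (y - b t) - A t • b' t‖ ≤ (L * A0⁻¹ + L * L) * (1 + ‖z‖) := by
      refine (norm_sub_le _ _).trans ?_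
      rw [ContinuousLinearMap.norm_smulRight_apply, norm_smul, Real.norm_of_nonneg hAt.le]
      have e3 : ‖A' t‖ * ‖y - b t‖ ≤ L * (A0⁻¹ * ‖z‖) :=
        mul_le_mul (h3 t ht) e1 (norm_nonneg _) hL
      have e4 : A t * ‖b' t‖ ≤ L * L := mul_le_mul (h1' t ht) (h4 t ht) (norm_nonneg _) hL
      have e5 : 0 ≤ L * A0⁻¹ := mul_nonneg hL hi.le
      have e6 : 0 ≤ L * L * ‖z‖ := mul_nonneg (mul_nonneg hL hL) (norm_nonneg _)
      nlinarith
    have e7 := hd z
    rw [pow_one, hk'a] at e7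
    have e8 : wtK n z ≤ (1 + L + A0⁻¹) ^ (n + 1) * wtK n y :=
      wtK_affine hA0 hL (h1 t ht) (h2 t ht)
    rw [norm_smul, Real.norm_eq_abs]
    calc |r y| * ‖(fderiv ℝ k z).comp ((A' t).smulRight (y - b t) - A t • b' t)‖
        ≤ M * (‖fderiv ℝ k z‖ * ((L * A0⁻¹ + L * L) * (1 + ‖z‖))) := by
          refine mul_le_mul (hM y) ?_ (norm_nonneg _) hM0
          exact (ContinuousLinearMap.opNorm_comp_le _ _).trans
            (mul_le_mul_of_nonneg_left e2 (norm_nonneg _))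
      _ = M * (L * A0⁻¹ + L * L) * ((1 + ‖z‖) * ‖fderiv ℝ k z‖) := by ring
      _ ≤ M * (L * A0⁻¹ + L * L) * (C * ((1 + L + A0⁻¹) ^ (n + 1) * wtK n y)) := by
          refine mul_le_mul_of_nonneg_left ?_ (by positivity)
          exact e7.trans (mul_le_mul_of_nonneg_left e8 hC)
      _ = _ := by ring
  have ib : Integrable fun y => M * (L * A0⁻¹ + L * L) * C * (1 + L + A0⁻¹) ^ (n + 1) * wtK n y :=
    (integrable_wtK n).const_mul _
  refine ⟨Integrable.mono' ib cF'.aestronglyMeasurable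
    (Eventually.of_forall fun y => bd t0 ht0 y), ?_⟩
  refine hasFDerivAt_integral_of_dominated_of_fderiv_le (𝕜 := ℝ) hU (Eventually.of_forall mF)
    (YF_int hr hM k (lt_of_lt_of_le hA0 (h1 t0 ht0)) (b t0)) cF'.aestronglyMeasurable
    (F' := fun t y => r y • (fderiv ℝ k (A t • (y - b t))).comp
        ((A' t).smulRight (y - b t) - A t • b' t))
    (Eventually.of_forall fun y t ht => bd t ht y) ib (Eventually.of_forall fun y t ht => ?_)
  have d1 : HasFDerivAt (fun t => A t • (y - b t)) ((A' t).smulRight (y - b t) - A t • b' t) t := by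
    have d2 := (hA t ht).smul ((hasFDerivAt_const y t).sub (hb t ht))
    refine d2.congr_fderiv ?_
    ext h
    simp
    abel
  have d3 : HasFDerivAt k (fderiv ℝ k (A t • (y - b t))) (A t • (y - b t)) :=
    (k.differentiableAt).hasFDerivAt
  exact (d3.comp t d1).const_smul (r y)

end par

/-! ### consequences -/

theorem ZZ_int {r : E n → ℝ} (hr : Continuous r) {M : ℝ} (hM : ∀ x, |r x| ≤ M)
    (k : 𝓢(E n, W)) (s : ℝ) (x : E n) : Integrable fun z => r (x + s • z) • k z := by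
  refine Integrable.mono' (k.integrable.norm.const_mul M) ?_ (Eventually.of_forall fun z => ?_)
  · have : Continuous fun z : E n => r (x + s • z) := hr.comp (by fun_prop)
    exact (this.smul k.continuous).aestronglyMeasurable
  · rw [norm_smul, Real.norm_eq_abs]
    exact mul_le_mul_of_nonneg_right (hM _) (norm_nonneg _)

/-- joint continuity -/
theorem ZZ_cont {r : E n → ℝ} (hr : Continuous r) {M : ℝ} (hM : ∀ x, |r x| ≤ M)
    (k : 𝓢(E n, W)) : Continuous fun q : ℝ × E n => ZZ r k q.1 q.2 := by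
  unfold ZZ
  refine continuous_of_dominated (bound := fun z => M * ‖k z‖) (fun q => ?_) (fun q => ?_)
    (k.integrable.norm.const_mul M) (Eventually.of_forall fun z => ?_)
  · exact (ZZ_int hr hM k q.1 q.2).aestronglyMeasurable
  · refine Eventually.of_forall fun z => ?_
    rw [norm_smul, Real.norm_eq_abs]
    exact mul_le_mul_of_nonneg_right (hM _) (norm_nonneg _)
  · have : Continuous fun q : ℝ × E n => r (q.2 + q.1 • z) := hr.comp (by fun_prop)
    exact this.smul continuous_const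

/-- the derivative falls on the kernel -/
theorem ZZ_deriv {r : E n → ℝ} (hr : Continuous r) {M : ℝ} (hM : ∀ x, |r x| ≤ M)
    (k : 𝓢(E n, W)) {s : ℝ} (hs : 0 < s) (x : E n) :
    HasFDerivAt (ZZ r k s) (-(s⁻¹ • ZZ r (SchwartzMap.fderivCLM ℝ (E n) W k) s x)) x := by
  have hs' : 0 < s⁻¹ := by positivity
  obtain ⟨-, h⟩ := par (H := E n) k hr hM (A := fun _ => s⁻¹) (b := fun x => x)
    (A' := fun _ => 0) (b' := fun _ => ContinuousLinearMap.id ℝ (E n)) (t0 := x)
    (U := Metric.ball x 1) (Metric.ball_mem_nhds x one_pos)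
    (fun t _ => hasFDerivAt_const _ _) (fun t _ => hasFDerivAt_id t)
    (A0 := s⁻¹) (L := s⁻¹ + (‖x‖ + 1)) hs' (fun _ _ => le_rfl)
    (fun _ _ => by linarith [norm_nonneg x])
    (fun t ht => by
      have h2 : ‖t - x‖ < 1 := by simpa [dist_eq_norm] using ht
      have h3 : ‖t‖ ≤ ‖x‖ + ‖t - x‖ := by
        calc ‖t‖ = ‖x + (t - x)‖ := by congr 1; abel
          _ ≤ _ := norm_add_le _ _
      linarith)
    (fun _ _ => by rw [norm_zero]; positivity)
    (fun _ _ => ContinuousLinearMap.norm_id_le.trans (by linarith [norm_nonneg x]))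
  have h1 : HasFDerivAt (ZZ r k s) ((s ^ n)⁻¹ • ∫ y, r y • (fderiv ℝ k (s⁻¹ • (y - x))).comp
      ((0 : E n →L[ℝ] ℝ).smulRight (y - x) - s⁻¹ • ContinuousLinearMap.id ℝ (E n))) x := by
    have h2 := h.const_smul ((s ^ n)⁻¹)
    have h3 : (fun t => (s ^ n)⁻¹ • YF r k s⁻¹ t) = ZZ r k s := by
      ext t; rw [ZZ_eq r k hs]
    rw [← h3]
    exact h2
  refine h1.congr_fderiv ?_
  rw [ZZ_eq r _ hs, smul_comm s⁻¹, ← smul_neg]
  congr 1
  unfold YF
  rw [← integral_smul, ← integral_neg]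
  refine integral_congr_ae (Eventually.of_forall fun y => ?_)
  simp only [SchwartzMap.fderivCLM_apply]
  ext v
  simp only [smul_apply, ContinuousLinearMap.comp_apply, sub_apply,
    ContinuousLinearMap.smulRight_apply, zero_apply, zero_smul, zero_sub,
    ContinuousLinearMap.id_apply, map_neg, map_smul, neg_apply, smul_neg]
  rw [smul_comm]

/-- integrals of derivatives vanish -/
theorem int_fderiv_zero (k : 𝓢(E n, W)) :
    ∫ z, (SchwartzMap.fderivCLM ℝ (E n) W k) z = 0 := by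
  have h := ZZ_deriv (r := fun _ : E n => (1 : ℝ)) continuous_const (M := 1)
    (fun x => by simp) k one_pos 0
  have h1 : ZZ (fun _ : E n => (1 : ℝ)) k 1 = fun _ => ∫ z, k z := by
    ext x; simp [ZZ]
  rw [h1] at h
  have h2 := h.unique (hasFDerivAt_const (∫ z, k z) (0 : E n))
  simpa [ZZ] using h2

/-- the weight used in the Hölder bounds -/
noncomputable def mm (a : ℝ) (k : E n → W) : ℝ := ∫ z, ‖z‖ ^ a * ‖k z‖

theorem mm_int {a : ℝ} (ha : 0 < a) (ha1 : a < 1) (k : 𝓢(E n, W)) :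
    Integrable fun z => ‖z‖ ^ a * ‖k z‖ := by
  refine Integrable.mono' (sch_int_pow k 1) ?_ (Eventually.of_forall fun z => ?_)
  · refine ((continuous_norm.rpow_const fun _ => Or.inr ha.le).mul
      k.continuous.norm).aestronglyMeasurable
  · have h0 : 0 ≤ ‖z‖ ^ a := Real.rpow_nonneg (norm_nonneg _) _
    rw [Real.norm_of_nonneg (mul_nonneg h0 (norm_nonneg _)), pow_one]
    refine mul_le_mul_of_nonneg_right ?_ (norm_nonneg _)
    rcases le_total ‖z‖ 1 with h | h
    · exact (Real.rpow_le_one (norm_nonneg _) h ha.le).trans (by linarith [norm_nonneg z])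
    · calc ‖z‖ ^ a ≤ ‖z‖ ^ (1 : ℝ) := Real.rpow_le_rpow_of_exponent_le h ha1.le
        _ = ‖z‖ := Real.rpow_one _
        _ ≤ 1 + ‖z‖ := by linarith

theorem mm_nonneg (a : ℝ) (k : E n → W) : 0 ≤ mm a k :=
  integral_nonneg fun _ => mul_nonneg (Real.rpow_nonneg (norm_nonneg _) _) (norm_nonneg _)

theorem ZZ_bound {a : ℝ} (ha : 0 < a) (ha1 : a < 1) {r : E n → ℝ} {N : ℝ} (h : HB a N r)
    (k : 𝓢(E n, W)) (hk : ∫ z, k z = 0) {s : ℝ} (hs : 0 < s) (x : E n) :
    ‖ZZ r k s x‖ ≤ mm a k * N * s ^ a := by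
  have hr := h.continuous ha
  have hN : 0 ≤ N := (abs_nonneg _).trans (h.1 0)
  have e : ZZ r k s x = ∫ z, (r (x + s • z) - r x) • k z := by
    have h1 : (fun z => (r (x + s • z) - r x) • k z)
        = fun z => r (x + s • z) • k z - r x • k z := by ext z; rw [sub_smul]
    have i2 : Integrable fun z => r x • k z := k.integrable.smul (r x)
    rw [h1, integral_sub (ZZ_int hr h.1 k s x) i2, integral_smul, hk, smul_zero, sub_zero]
    rfl
  rw [e]
  have h2 : mm a k * N * s ^ a = ∫ z, (N * s ^ a) * (‖z‖ ^ a * ‖k z‖) := by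
    rw [integral_const_mul, mm]; ring
  rw [h2]
  refine norm_integral_le_of_norm_le ((mm_int ha ha1 k).const_mul _)
    (Eventually.of_forall fun z => ?_)
  rw [norm_smul, Real.norm_eq_abs]
  have h3 := h.2 (x + s • z) x
  rw [add_sub_cancel_left, norm_smul, Real.norm_of_nonneg hs.le,
    Real.mul_rpow hs.le (norm_nonneg _)] at h3
  calc |r (x + s • z) - r x| * ‖k z‖ ≤ N * (s ^ a * ‖z‖ ^ a) * ‖k z‖ :=
        mul_le_mul_of_nonneg_right h3 (norm_nonneg _)
    _ = _ := by ring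

end Crest.Agent.R238.HolK
end

-- ▼ part R238/Hol4

/-!
Row 238, H1 (helper718), file 4: the Gaussian kernel facts `HF` and **`solStmt : SolStmt`**.
-/

set_option autoImplicit false
set_option maxSynthPendingDepth 3

open MeasureTheory Set Filter SchwartzMap
open scoped ContDiff Topology

namespace Crest.Agent.R238.HolK

open Crest.Agent.R338.HO

/-- the kernels -/
noncomputable def g0 (n : ℕ) : 𝓢(E n, ℝ) := gaussRS (E n)

noncomputable def g1 (n : ℕ) : 𝓢(E n, E n →L[ℝ] ℝ) := SchwartzMap.fderivCLM ℝ (E n) ℝ (g0 n)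

noncomputable def g2 (n : ℕ) : 𝓢(E n, E n →L[ℝ] E n →L[ℝ] ℝ) :=
  SchwartzMap.fderivCLM ℝ (E n) (E n →L[ℝ] ℝ) (g1 n)

noncomputable def g3 (n : ℕ) : 𝓢(E n, E n →L[ℝ] E n →L[ℝ] E n →L[ℝ] ℝ) :=
  SchwartzMap.fderivCLM ℝ (E n) (E n →L[ℝ] E n →L[ℝ] ℝ) (g2 n)

variable {n : ℕ}

theorem g0_apply (z : E n) : g0 n z = Real.exp (-(‖z‖ ^ 2) / 2) := rfl

theorem g0_deriv (z : E n) : HasFDerivAt (g0 n) (-(g0 n z • innerSL ℝ z)) z := by
  have h1 : HasFDerivAt (fun z : E n => -(‖z‖ ^ 2) / 2) (-innerSL ℝ z) z := by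
    have h2 := (hasStrictFDerivAt_norm_sq z).hasFDerivAt
    have h3 := (h2.neg).mul_const (1 / 2 : ℝ)
    have e : (fun z : E n => -(‖z‖ ^ 2) / 2) = fun z : E n => -(‖z‖ ^ 2) * (1 / 2) := by
      ext z; ring
    rw [e]
    refine h3.congr_fderiv ?_
    ext v
    simp
  have h4 := h1.exp
  have e : (g0 n : E n → ℝ) = fun z => Real.exp (-(‖z‖ ^ 2) / 2) := by ext z; exact g0_apply z
  rw [e]
  refine h4.congr_fderiv ?_
  ext v
  simp

theorem g1_eq (z : E n) : g1 n z = -(g0 n z • innerSL ℝ z) := by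
  rw [g1, SchwartzMap.fderivCLM_apply]
  exact (g0_deriv z).fderiv

theorem g1_apply (z v : E n) : g1 n z v = -(g0 n z * inner ℝ z v) := by
  rw [g1_eq]; simp

theorem g2_apply (z v w : E n) :
    g2 n z v w = g0 n z * (inner ℝ z v * inner ℝ z w - inner ℝ v w) := by
  have h1 : HasFDerivAt (g1 n) (g2 n z) z := by
    rw [g2, SchwartzMap.fderivCLM_apply]
    exact (g1 n).differentiableAt.hasFDerivAt
  have e : (g1 n : E n → (E n →L[ℝ] ℝ)) = fun z => -(g0 n z • innerSL ℝ z) := by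
    ext1 z; exact g1_eq z
  rw [e] at h1
  have h2 := ((g0_deriv z).smul ((innerSL ℝ (E := E n)).hasFDerivAt (x := z))).neg
  have h3 := h1.unique h2
  rw [h3]
  have e2 : ∀ u v : E n, innerSL ℝ u v = inner ℝ u v := fun u v => rfl
  simp only [neg_apply, add_apply, smul_apply, ContinuousLinearMap.smulRight_apply, e2,
    smul_eq_mul]
  ring

theorem trB_g2 (z : E n) : trB (g2 n z) = -(n : ℝ) * g0 n z - g1 n z z := by
  unfold trB
  have h1 : ∀ i : Fin n, g2 n z (ee i) (ee i) = g0 n z * (z i ^ 2 - 1) := by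
    intro i
    rw [g2_apply]
    have h2 : inner ℝ z (ee i : E n) = z i := by
      rw [EuclideanSpace.inner_single_right]; simp
    have h3 : inner ℝ (ee i : E n) (ee i) = (1 : ℝ) := by
      rw [EuclideanSpace.inner_single_right]; simp
    rw [h2, h3]; ring
  simp only [h1]
  rw [g1_apply, ← Finset.mul_sum, Finset.sum_sub_distrib]
  have h4 : inner ℝ z z = ∑ i, z i ^ 2 := by
    rw [real_inner_self_eq_norm_sq, EuclideanSpace.norm_sq_eq]
    simp
  rw [h4]
  simp
  ring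

/-- normalisation -/
noncomputable def cn (n : ℕ) : ℝ := (∫ z : E n, g0 n z)⁻¹

theorem int_g0_pos (n : ℕ) : 0 < ∫ z : E n, g0 n z := by
  have hp : ∀ z : E n, 0 < g0 n z := fun z => by rw [g0_apply]; exact Real.exp_pos _
  rw [integral_pos_iff_support_of_nonneg (fun z => (hp z).le) (g0 n).integrable]
  have : Function.support (g0 n) = univ := by
    ext z; simp [(hp z).ne']
  rw [this]
  exact isOpen_univ.measure_pos volume ⟨0, mem_univ _⟩

theorem cn_pos (n : ℕ) : 0 < cn n := inv_pos.2 (int_g0_pos n)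

/-- the trace as a continuous linear map -/
noncomputable def trL (n : ℕ) : (E n →L[ℝ] E n →L[ℝ] ℝ) →L[ℝ] ℝ :=
  ∑ i : Fin n, (ContinuousLinearMap.apply ℝ ℝ (ee i : E n)).comp
    (ContinuousLinearMap.apply ℝ (E n →L[ℝ] ℝ) (ee i : E n))

theorem trL_apply (B : E n →L[ℝ] E n →L[ℝ] ℝ) : trL n B = trB B := by
  simp [trL, trB]

/-- the heat family -/
noncomputable def FF (r : E n → ℝ) (s : ℝ) (x : E n) : ℝ := cn n * ZZ r (g0 n) s x

noncomputable def FF1 (r : E n → ℝ) (s : ℝ) (x : E n) : E n →L[ℝ] ℝ :=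
  -((cn n * s⁻¹) • ZZ r (g1 n) s x)

noncomputable def FF2 (r : E n → ℝ) (s : ℝ) (x : E n) : E n →L[ℝ] E n →L[ℝ] ℝ :=
  (cn n * (s⁻¹ * s⁻¹)) • ZZ r (g2 n) s x

theorem FF_deriv {r : E n → ℝ} (hr : Continuous r) {M : ℝ} (hM : ∀ x, |r x| ≤ M)
    {s : ℝ} (hs : 0 < s) (x : E n) : HasFDerivAt (FF r s) (FF1 r s x) x := by
  have h := (ZZ_deriv hr hM (g0 n) hs x).const_mul (cn n)
  refine h.congr_fderiv ?_
  simp only [FF1, smul_neg, smul_smul]
  rfl

theorem FF1_deriv {r : E n → ℝ} (hr : Continuous r) {M : ℝ} (hM : ∀ x, |r x| ≤ M)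
    {s : ℝ} (hs : 0 < s) (x : E n) : HasFDerivAt (FF1 r s) (FF2 r s x) x := by
  have h := ((ZZ_deriv hr hM (g1 n) hs x).const_smul (cn n * s⁻¹)).neg
  refine h.congr_fderiv ?_
  simp only [FF2, smul_neg, smul_smul, neg_neg, mul_assoc]
  rfl

theorem FF2_deriv {r : E n → ℝ} (hr : Continuous r) {M : ℝ} (hM : ∀ x, |r x| ≤ M)
    {s : ℝ} (hs : 0 < s) (x : E n) : HasFDerivAt (FF2 r s)
      (-((cn n * (s⁻¹ * s⁻¹) * s⁻¹) • ZZ r (g3 n) s x)) x := by
  have h := ((ZZ_deriv hr hM (g2 n) hs x).const_smul (cn n * (s⁻¹ * s⁻¹)))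
  refine h.congr_fderiv ?_
  simp only [smul_neg, smul_smul]
  rfl

theorem FF_zero {r : E n → ℝ} (x : E n) : FF r 0 x = r x := by
  unfold FF ZZ
  simp only [zero_smul, add_zero, smul_eq_mul]
  rw [integral_const_mul, cn]
  field_simp [(int_g0_pos n).ne']

theorem FF_even {r : E n → ℝ} (he : ∀ x, r (-x) = r x) (s : ℝ) (x : E n) :
    FF r s (-x) = FF r s x := by
  unfold FF ZZ
  congr 1
  rw [← integral_neg_eq_self]
  refine integral_congr_ae (Eventually.of_forall fun z => ?_)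
  have h1 : -x + s • -z = -(x + s • z) := by rw [smul_neg]; abel
  have h2 : g0 n (-z) = g0 n z := by rw [g0_apply, g0_apply, norm_neg]
  simp only [h1, he, h2]

theorem inv_sq_rpow {s : ℝ} (hs : 0 < s) (a : ℝ) : s⁻¹ * s⁻¹ * s ^ a = s ^ (a - 2) := by
  rw [Real.rpow_sub hs, Real.rpow_two]
  field_simp

theorem inv_cube_rpow {s : ℝ} (hs : 0 < s) (a : ℝ) : s⁻¹ * s⁻¹ * s⁻¹ * s ^ a = s ^ (a - 3) := by
  rw [Real.rpow_sub hs, show (3 : ℝ) = ((3 : ℕ) : ℝ) by norm_num, Real.rpow_natCast]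
  field_simp

theorem FF2_bound {a : ℝ} (ha : 0 < a) (ha1 : a < 1) {r : E n → ℝ} {N : ℝ} (h : HB a N r)
    {s : ℝ} (hs : 0 < s) (x : E n) : ‖FF2 r s x‖ ≤ cn n * mm a (g2 n) * N * s ^ (a - 2) := by
  have h1 := ZZ_bound ha ha1 h (g2 n) (int_fderiv_zero (g1 n)) hs x
  have hi : 0 < s⁻¹ := by positivity
  have hc := cn_pos n
  unfold FF2
  rw [norm_smul, Real.norm_of_nonneg (by positivity), ← inv_sq_rpow hs]
  calc cn n * (s⁻¹ * s⁻¹) * ‖ZZ r (g2 n) s x‖
      ≤ cn n * (s⁻¹ * s⁻¹) * (mm a (g2 n) * N * s ^ a) :=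
        mul_le_mul_of_nonneg_left h1 (by positivity)
    _ = _ := by ring

theorem FF3_bound {a : ℝ} (ha : 0 < a) (ha1 : a < 1) {r : E n → ℝ} {N : ℝ} (h : HB a N r)
    {s : ℝ} (hs : 0 < s) (x : E n) : ‖-((cn n * (s⁻¹ * s⁻¹) * s⁻¹) • ZZ r (g3 n) s x)‖
      ≤ cn n * mm a (g3 n) * N * s ^ (a - 3) := by
  have h1 := ZZ_bound ha ha1 h (g3 n) (int_fderiv_zero (g2 n)) hs x
  have hi : 0 < s⁻¹ := by positivity
  have hc := cn_pos n
  rw [norm_neg, norm_smul, Real.norm_of_nonneg (by positivity), ← inv_cube_rpow hs]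
  calc cn n * (s⁻¹ * s⁻¹) * s⁻¹ * ‖ZZ r (g3 n) s x‖
      ≤ cn n * (s⁻¹ * s⁻¹) * s⁻¹ * (mm a (g3 n) * N * s ^ a) :=
        mul_le_mul_of_nonneg_left h1 (by positivity)
    _ = _ := by ring

theorem hasDerivAt_inv_pow (m : ℕ) {s : ℝ} (hs : 0 < s) :
    HasDerivAt (fun s : ℝ => (s ^ m)⁻¹) (-(m : ℝ) * (s ^ m)⁻¹ / s) s := by
  have h := (hasDerivAt_pow m s).inv (pow_ne_zero m hs.ne')
  refine h.congr_deriv ?_
  rcases m with _ | m
  · simp
  · simp only [Nat.add_sub_cancel]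
    have : s ^ (m + 1) = s ^ m * s := pow_succ s m
    rw [this]
    field_simp

/-- derivative in the angle of the `y`-form -/
theorem YF_angle {r : E n → ℝ} (hr : Continuous r) {M : ℝ} (hM : ∀ x, |r x| ≤ M)
    (x : E n) {p : ℝ} (hp : p ∈ JJ) :
    Integrable (fun y => r y * (g1 n ((Real.sin p)⁻¹ • (y - Real.cos p • x))
        (-(Real.cos p / Real.sin p) • ((Real.sin p)⁻¹ • (y - Real.cos p • x)) + x))) ∧
    HasDerivAt (fun p => YF r (g0 n) (Real.sin p)⁻¹ (Real.cos p • x))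
      (∫ y, r y * (g1 n ((Real.sin p)⁻¹ • (y - Real.cos p • x))
        (-(Real.cos p / Real.sin p) • ((Real.sin p)⁻¹ • (y - Real.cos p • x)) + x))) p := by
  have hpi := Real.pi_pos
  have hp0 := hp.1
  set σ : ℝ := p / Real.pi with hσ
  have hσ0 : 0 < σ := by positivity
  have hUJ : ∀ t ∈ Ioo (p / 2) (Real.pi / 2), t ∈ JJ := fun t ht =>
    ⟨by linarith [ht.1], ht.2⟩
  have hsin : ∀ t ∈ Ioo (p / 2) (Real.pi / 2), σ ≤ Real.sin t := by
    intro t ht
    refine le_trans ?_ (JJ.mul_le (hUJ t ht))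
    have : p / Real.pi = 2 / Real.pi * (p / 2) := by field_simp
    rw [hσ, this]
    exact mul_le_mul_of_nonneg_left ht.1.le (by positivity)
  have dA : ∀ t ∈ Ioo (p / 2) (Real.pi / 2), HasDerivAt (fun p : ℝ => (Real.sin p)⁻¹)
      (-Real.cos t / Real.sin t ^ 2) t := fun t ht =>
    (Real.hasDerivAt_sin t).inv (JJ.sin_pos (hUJ t ht)).ne'
  have db : ∀ t : ℝ, HasDerivAt (fun p : ℝ => Real.cos p • x) ((-Real.sin t) • x) t := fun t =>
    (Real.hasDerivAt_cos t).smul_const x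
  have hle : ∀ t ∈ Ioo (p / 2) (Real.pi / 2), 1 ≤ (Real.sin t)⁻¹ := fun t ht =>
    (one_le_inv₀ (JJ.sin_pos (hUJ t ht))).2 (Real.sin_le_one t)
  have hle2 : ∀ t ∈ Ioo (p / 2) (Real.pi / 2), (Real.sin t)⁻¹ ≤ σ⁻¹ := fun t ht =>
    inv_anti₀ hσ0 (hsin t ht)
  obtain ⟨hint, h⟩ := par (H := ℝ) (g0 n) hr hM (A := fun p => (Real.sin p)⁻¹)
    (b := fun p => Real.cos p • x)
    (A' := fun t => ContinuousLinearMap.toSpanSingleton ℝ (-Real.cos t / Real.sin t ^ 2))
    (b' := fun t => ContinuousLinearMap.toSpanSingleton ℝ ((-Real.sin t) • x)) (t0 := p)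
    (U := Ioo (p / 2) (Real.pi / 2)) (Ioo_mem_nhds (by linarith) hp.2)
    (fun t ht => (dA t ht).hasFDerivAt) (fun t _ => (db t).hasFDerivAt)
    (A0 := 1) (L := σ⁻¹ + σ⁻¹ ^ 2 + ‖x‖) one_pos hle
    (fun t ht => by
      have := hle2 t ht
      have h3 : 0 ≤ σ⁻¹ ^ 2 := by positivity
      linarith [norm_nonneg x])
    (fun t ht => by
      rw [norm_smul, Real.norm_of_nonneg (JJ.cos_pos (hUJ t ht)).le]
      have h3 : 0 ≤ σ⁻¹ ^ 2 := by positivity
      have h4 : 0 ≤ σ⁻¹ := by positivity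
      have h5 : Real.cos t * ‖x‖ ≤ 1 * ‖x‖ :=
        mul_le_mul_of_nonneg_right (Real.cos_le_one t) (norm_nonneg _)
      linarith)
    (fun t ht => by
      have hs := JJ.sin_pos (hUJ t ht)
      have hc := JJ.cos_pos (hUJ t ht)
      rw [ContinuousLinearMap.norm_toSpanSingleton, norm_div, norm_neg, Real.norm_of_nonneg hc.le,
        Real.norm_of_nonneg (by positivity)]
      have h6 : Real.cos t / Real.sin t ^ 2 ≤ 1 * (σ⁻¹) ^ 2 := by
        rw [div_eq_mul_inv, ← inv_pow]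
        exact mul_le_mul (Real.cos_le_one t) (pow_le_pow_left₀ (by positivity) (hle2 t ht) 2)
          (by positivity) zero_le_one
      have h4 : 0 ≤ σ⁻¹ := by positivity
      linarith [norm_nonneg x])
    (fun t ht => by
      have hs := JJ.sin_pos (hUJ t ht)
      rw [ContinuousLinearMap.norm_toSpanSingleton, norm_smul, norm_neg,
        Real.norm_of_nonneg hs.le]
      have h3 : 0 ≤ σ⁻¹ ^ 2 := by positivity
      have h4 : 0 ≤ σ⁻¹ := by positivity
      have h5 : Real.sin t * ‖x‖ ≤ 1 * ‖x‖ :=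
        mul_le_mul_of_nonneg_right (Real.sin_le_one t) (norm_nonneg _)
      linarith)
  have hs := JJ.sin_pos hp
  have key : ∀ y : E n, (r y • (fderiv ℝ (g0 n) ((Real.sin p)⁻¹ • (y - Real.cos p • x))).comp
      ((ContinuousLinearMap.toSpanSingleton ℝ (-Real.cos p / Real.sin p ^ 2)).smulRight
        (y - Real.cos p • x) - (Real.sin p)⁻¹ •
          ContinuousLinearMap.toSpanSingleton ℝ ((-Real.sin p) • x))) 1
      = r y * (g1 n ((Real.sin p)⁻¹ • (y - Real.cos p • x))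
        (-(Real.cos p / Real.sin p) • ((Real.sin p)⁻¹ • (y - Real.cos p • x)) + x)) := by
    intro y
    simp only [smul_apply, ContinuousLinearMap.comp_apply, sub_apply,
      ContinuousLinearMap.smulRight_apply, ContinuousLinearMap.toSpanSingleton_apply, one_smul,
      smul_eq_mul, g1, SchwartzMap.fderivCLM_apply]
    congr 2
    rw [smul_smul, smul_smul]
    have e1 : (Real.sin p)⁻¹ * -Real.sin p = -1 := by field_simp
    have e2 : -Real.cos p / Real.sin p ^ 2 = -(Real.cos p / Real.sin p) * (Real.sin p)⁻¹ := by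
      field_simp
    rw [e1, e2, neg_smul, one_smul, sub_neg_eq_add, one_mul]
  refine ⟨?_, ?_⟩
  · have h2 := (ContinuousLinearMap.apply ℝ ℝ (1 : ℝ)).integrable_comp hint
    refine h2.congr (Eventually.of_forall fun y => ?_)
    exact key y
  · have h2 := h.hasDerivAt
    refine h2.congr_deriv ?_
    rw [ContinuousLinearMap.integral_apply hint]
    exact integral_congr_ae (Eventually.of_forall key)

/-- HEAT EQUATION along the curve -/
theorem FF_angle {r : E n → ℝ} (hr : Continuous r) {M : ℝ} (hM : ∀ x, |r x| ≤ M)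
    (x : E n) {p : ℝ} (hp : p ∈ JJ) :
    HasDerivAt (fun p => FF r (Real.sin p) (Real.cos p • x))
      (Real.cos p * Real.sin p * trB (FF2 r (Real.sin p) (Real.cos p • x))
        - Real.sin p * FF1 r (Real.sin p) (Real.cos p • x) x) p := by
  obtain ⟨i1, h1⟩ := YF_angle hr hM x hp
  have hs := JJ.sin_pos hp
  have hs' : 0 < (Real.sin p)⁻¹ := by positivity
  have h2 : HasDerivAt (fun p : ℝ => ((Real.sin p) ^ n)⁻¹)
      (-(n : ℝ) * ((Real.sin p) ^ n)⁻¹ / Real.sin p * Real.cos p) p :=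
    (hasDerivAt_inv_pow n hs).comp p (Real.hasDerivAt_sin p)
  have h3 := (h2.mul h1).const_mul (cn n)
  have e0 : (fun p => FF r (Real.sin p) (Real.cos p • x)) =ᶠ[𝓝 p]
      fun p => cn n * (((Real.sin p) ^ n)⁻¹ * YF r (g0 n) (Real.sin p)⁻¹ (Real.cos p • x)) := by
    filter_upwards [Ioo_mem_nhds hp.1 hp.2] with q hq
    unfold FF
    rw [ZZ_eq r (g0 n) (JJ.sin_pos (show q ∈ JJ from hq)), smul_eq_mul]
  have h4 : HasDerivAt (fun p => FF r (Real.sin p) (Real.cos p • x)) _ p :=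
    h3.congr_of_eventuallyEq e0
  refine h4.congr_deriv ?_
  set s := Real.sin p with hsd
  set c := Real.cos p with hcd
  set b := c • x with hbd
  -- integrals
  have i2 : Integrable fun y => r y • g0 n (s⁻¹ • (y - b)) := YF_int hr hM (g0 n) hs' b
  have i3 : Integrable fun y => r y • g1 n (s⁻¹ • (y - b)) := YF_int hr hM (g1 n) hs' b
  have i4 : Integrable fun y => r y • g2 n (s⁻¹ • (y - b)) := YF_int hr hM (g2 n) hs' b
  have t2 : trB (YF r (g2 n) s⁻¹ b) = ∫ y, r y * trB (g2 n (s⁻¹ • (y - b))) := by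
    unfold YF
    rw [← trL_apply, ← (trL n).integral_comp_comm i4]
    refine integral_congr_ae (Eventually.of_forall fun y => ?_)
    simp only [map_smul, trL_apply, smul_eq_mul]
  have j4 : Integrable fun y => r y * trB (g2 n (s⁻¹ • (y - b))) := by
    refine ((trL n).integrable_comp i4).congr (Eventually.of_forall fun y => ?_)
    simp only [map_smul, trL_apply, smul_eq_mul]
  have t1 : (YF r (g1 n) s⁻¹ b) x = ∫ y, r y * g1 n (s⁻¹ • (y - b)) x := by
    unfold YF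
    rw [ContinuousLinearMap.integral_apply i3]
    rfl
  have j3 : Integrable fun y => r y * g1 n (s⁻¹ • (y - b)) x :=
    (ContinuousLinearMap.apply ℝ ℝ x).integrable_comp i3
  have t0 : YF r (g0 n) s⁻¹ b = ∫ y, r y * g0 n (s⁻¹ • (y - b)) := rfl
  have j2 : Integrable fun y => r y * g0 n (s⁻¹ • (y - b)) := i2
  have main : -(n : ℝ) * (c / s) * YF r (g0 n) s⁻¹ b
      + ∫ y, r y * (g1 n (s⁻¹ • (y - b)) (-(c / s) • (s⁻¹ • (y - b)) + x))
      = (c / s) * trB (YF r (g2 n) s⁻¹ b) + (YF r (g1 n) s⁻¹ b) x := by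
    rw [t2, t1, t0, ← integral_const_mul, ← integral_const_mul,
      ← integral_add (j2.const_mul _) i1, ← integral_add (j4.const_mul _) j3]
    refine integral_congr_ae (Eventually.of_forall fun y => ?_)
    simp only [trB_g2, map_add, map_smul, smul_eq_mul]
    ring
  have u2 : trB (FF2 r s b) = cn n * (s⁻¹ * s⁻¹) * ((s ^ n)⁻¹ * trB (YF r (g2 n) s⁻¹ b)) := by
    unfold FF2
    rw [ZZ_eq r (g2 n) hs, ← trL_apply, map_smul, map_smul, trL_apply, smul_eq_mul, smul_eq_mul]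
  have u1 : FF1 r s b x = -(cn n * s⁻¹ * ((s ^ n)⁻¹ * (YF r (g1 n) s⁻¹ b) x)) := by
    unfold FF1
    rw [ZZ_eq r (g1 n) hs]
    simp only [neg_apply, smul_apply, smul_eq_mul]
  rw [u2, u1]
  have hsn : (s ^ n)⁻¹ ≠ 0 := by positivity
  have e5 : cn n * (-(n : ℝ) * (s ^ n)⁻¹ / s * c * YF r (g0 n) s⁻¹ b
      + (s ^ n)⁻¹ * ∫ y, r y * (g1 n (s⁻¹ • (y - b)) (-(c / s) • (s⁻¹ • (y - b)) + x)))
      = cn n * (s ^ n)⁻¹ * (-(n : ℝ) * (c / s) * YF r (g0 n) s⁻¹ b
      + ∫ y, r y * (g1 n (s⁻¹ • (y - b)) (-(c / s) • (s⁻¹ • (y - b)) + x))) := by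
    ring
  have e6 : c * s * (cn n * (s⁻¹ * s⁻¹) * ((s ^ n)⁻¹ * trB (YF r (g2 n) s⁻¹ b)))
      - s * -(cn n * s⁻¹ * ((s ^ n)⁻¹ * (YF r (g1 n) s⁻¹ b) x))
      = cn n * (s ^ n)⁻¹ * ((c / s) * trB (YF r (g2 n) s⁻¹ b) + (YF r (g1 n) s⁻¹ b) x) := by
    field_simp
    ring
  rw [e6, ← main, ← e5]

/-- the facts `HF` for the heat family -/
theorem HF_heat {a : ℝ} (ha : 0 < a) (ha1 : a < 1) {r : E n → ℝ} {N : ℝ} (h : HB a N r)
    (he : ∀ x, r (-x) = r x) :
    HF a (cn n * (mm a (g2 n) + mm a (g3 n)) * N) r (FF r) (FF1 r) (FF2 r) where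
  nn := by
    have hN : 0 ≤ N := (abs_nonneg _).trans (h.1 0)
    have := mm_nonneg a (g2 n : E n → _)
    have := mm_nonneg a (g3 n : E n → _)
    have := cn_pos n
    positivity
  zero := fun x => FF_zero x
  even := fun s x => FF_even he s x
  d1 := fun s hs x => FF_deriv (h.continuous ha) h.1 hs x
  d2 := fun s hs x => FF1_deriv (h.continuous ha) h.1 hs x
  b2 := fun s hs x => by
    refine (FF2_bound ha ha1 h hs x).trans (mul_le_mul_of_nonneg_right ?_
      (Real.rpow_nonneg hs.le _))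
    have hN : 0 ≤ N := (abs_nonneg _).trans (h.1 0)
    refine mul_le_mul_of_nonneg_right (mul_le_mul_of_nonneg_left ?_ (cn_pos n).le) hN
    linarith [mm_nonneg a (g3 n : E n → _)]
  b3 := fun s hs x y => by
    have hN : 0 ≤ N := (abs_nonneg _).trans (h.1 0)
    have h1 := (convex_univ (𝕜 := ℝ) (E := E n)).norm_image_sub_le_of_norm_hasFDerivWithin_le
      (f := FF2 r s) (C := cn n * mm a (g3 n) * N * s ^ (a - 3))
      (fun x _ => (FF2_deriv (h.continuous ha) h.1 hs x).hasFDerivWithinAt)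
      (fun x _ => FF3_bound ha ha1 h hs x) (mem_univ y) (mem_univ x)
    refine h1.trans (mul_le_mul_of_nonneg_right (mul_le_mul_of_nonneg_right
      (mul_le_mul_of_nonneg_right (mul_le_mul_of_nonneg_left ?_ (cn_pos n).le) hN)
      (Real.rpow_nonneg hs.le _)) (norm_nonneg _))
    linarith [mm_nonneg a (g2 n : E n → _)]
  cF := continuous_const.mul (ZZ_cont (h.continuous ha) h.1 (g0 n))
  c1 := by
    have h1 : ContinuousOn (fun q : ℝ × E n => q.1⁻¹) (Ioi 0 ×ˢ univ) :=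
      continuousOn_fst.inv₀ fun q hq => (ne_of_gt hq.1)
    have h2 : ContinuousOn (fun q : ℝ × E n => cn n * q.1⁻¹) (Ioi 0 ×ˢ univ) :=
      continuousOn_const.mul h1
    have h3 := (h2.smul (ZZ_cont (h.continuous ha) h.1 (g1 n)).continuousOn).neg
    exact h3
  c2 := by
    have h1 : ContinuousOn (fun q : ℝ × E n => q.1⁻¹) (Ioi 0 ×ˢ univ) :=
      continuousOn_fst.inv₀ fun q hq => (ne_of_gt hq.1)
    have h2 : ContinuousOn (fun q : ℝ × E n => cn n * (q.1⁻¹ * q.1⁻¹)) (Ioi 0 ×ˢ univ) :=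
      continuousOn_const.mul (h1.mul h1)
    have h3 := h2.smul (ZZ_cont (h.continuous ha) h.1 (g2 n)).continuousOn
    exact h3
  dp := fun x p hp => FF_angle (h.continuous ha) h.1 x hp

/-- **SolStmt** -/
theorem solStmt' : SolStmt := by
  intro n a ha ha1
  have hcg := cg_pos ha ha1
  have hcs := HF.cs_nonneg a
  have h2 := mm_nonneg a (g2 n : E n → _)
  have h3 := mm_nonneg a (g3 n : E n → _)
  have hc := cn_pos n
  refine ⟨cn n * (mm a (g2 n) + mm a (g3 n)) * (HF.cs a + cg a) + 1, by positivity, ?_⟩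
  intro r N h he
  have hN : 0 ≤ N := (abs_nonneg _).trans (h.1 0)
  obtain ⟨v, hv1, hv2, hv3, hv4⟩ := (HF_heat ha ha1 h he).sol ha ha1
  refine ⟨v, hv1, hv2, fun i j => ?_, hv4⟩
  have h5 : cn n * (mm a (g2 n) + mm a (g3 n)) * N * (HF.cs a + cg a)
      ≤ (cn n * (mm a (g2 n) + mm a (g3 n)) * (HF.cs a + cg a) + 1) * N := by
    nlinarith
  exact ⟨fun x => ((hv3 i j).1 x).trans h5, fun x y => ((hv3 i j).2 x y).trans
    (mul_le_mul_of_nonneg_right h5 (Real.rpow_nonneg (norm_nonneg _) _))⟩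

end Crest.Agent.R238.HolK

/-- **SolStmt** -/
theorem Crest.Agent.R238.solStmt : Crest.Agent.R238.SolStmt := Crest.Agent.R238.HolK.solStmt'
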