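import Crest.Agent.R238.SoftConc

-- ▼ part R238/Asm1
section

/-! Row 238, ASM part 1: from the data of `LocalIneq` to the potential `P` of the existence half,
and the final algebra. (helper477) -/

set_option autoImplicit false
open scoped ContDiff Topology
open Set Filter MeasureTheory

noncomputable section

namespace Crest.Agent.R238.Asm

open Crest.Agent.R238.Soft

variable {n m : ℕ}

/-! ### convexity and second derivative -/

theorem hasDerivAt_line {f : E n → ℝ} {f' : E n →L[ℝ] ℝ} {x w : E n} {t : ℝ}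
    (h : HasFDerivAt f f' (x + t • w)) : HasDerivAt (fun s : ℝ => f (x + s • w)) (f' w) t := by
  have h1 : HasDerivAt (fun s : ℝ => x + s • w) w t := by
    have := ((hasDerivAt_id t).smul_const w).const_add x
    simpa using this
  exact h.comp_hasDerivAt t h1

theorem hasDerivAt_line2 {f : E n → ℝ} (hf : ContDiff ℝ 2 f) (x w : E n) (t : ℝ) :
    HasDerivAt (fun s : ℝ => fderiv ℝ f (x + s • w) w)
      (fderiv ℝ (fderiv ℝ f) (x + t • w) w w) t := by
  have h0 : Differentiable ℝ (fderiv ℝ f) :=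
    (hf.fderiv_right (m := 1) (by norm_num)).differentiable (by norm_num)
  have h1 : HasDerivAt (fun s : ℝ => x + s • w) w t := by
    have := ((hasDerivAt_id t).smul_const w).const_add x
    simpa using this
  have h2 : HasDerivAt (fun s : ℝ => fderiv ℝ f (x + s • w))
      (fderiv ℝ (fderiv ℝ f) (x + t • w) w) t := (h0 _).hasFDerivAt.comp_hasDerivAt t h1
  exact ((ContinuousLinearMap.apply ℝ ℝ w).hasFDerivAt.comp_hasDerivAt t h2)

theorem convex_snd {f : E n → ℝ} (hf : ContDiff ℝ 2 f) (hc : ConvexOn ℝ univ f) (x w : E n) :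
    0 ≤ fderiv ℝ (fderiv ℝ f) x w w := by
  have hd : Differentiable ℝ f := hf.differentiable (by norm_num)
  have hg : ConvexOn ℝ univ (fun s : ℝ => f (x + s • w)) := by
    refine ⟨convex_univ, fun s _ t _ a b ha hb hab => ?_⟩
    have h1 := hc.2 (mem_univ (x + s • w)) (mem_univ (x + t • w)) ha hb hab
    refine le_trans (le_of_eq ?_) h1
    show f _ = f _
    congr 1
    have hx : x = a • x + b • x := by rw [← add_smul, hab, one_smul]
    simp only [smul_add, smul_smul, smul_eq_mul, add_smul]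
    nth_rewrite 1 [hx]
    abel
  have hd1 : deriv (fun s : ℝ => f (x + s • w)) = fun s => fderiv ℝ f (x + s • w) w :=
    funext fun t => (hasDerivAt_line (hd _).hasFDerivAt).deriv
  have hm : Monotone (deriv (fun s : ℝ => f (x + s • w))) := by
    have := hg.monotoneOn_deriv
      (fun t _ => (hasDerivAt_line (hd (x + t • w)).hasFDerivAt).differentiableAt)
    exact monotoneOn_univ.1 this
  have h2 := hm.deriv_nonneg (x := 0)
  rw [hd1, (hasDerivAt_line2 hf x w 0).deriv] at h2
  simpa using h2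

/-! ### one wall -/

/-- one wall as a function on `E n` -/
def wl (a : E n) (φ : ℝ → ℝ) (x : E n) : ℝ := φ (inner ℝ a x)

theorem wl_smooth {φ : ℝ → ℝ} (h : Wall φ) (a : E n) : ContDiff ℝ ∞ (wl a φ) :=
  h.smooth.comp (contDiff_const.inner ℝ contDiff_id)

theorem hasFDerivAt_wl {φ : ℝ → ℝ} (h : Differentiable ℝ φ) (a x : E n) :
    HasFDerivAt (wl a φ) (deriv φ (inner ℝ a x) • innerSL ℝ a) x := by
  have h1 : HasFDerivAt (fun y : E n => (inner ℝ a y : ℝ)) (innerSL ℝ a) x :=
    (innerSL ℝ a).hasFDerivAt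
  exact (h _).hasDerivAt.comp_hasFDerivAt x h1

theorem fderiv_wl {φ : ℝ → ℝ} (h : Wall φ) (a : E n) :
    fderiv ℝ (wl a φ) = fun x => deriv φ (inner ℝ a x) • innerSL ℝ a :=
  funext fun x => (hasFDerivAt_wl h.diff a x).fderiv

theorem fderiv_wl_apply {φ : ℝ → ℝ} (h : Wall φ) (a x w : E n) :
    fderiv ℝ (wl a φ) x w = deriv φ (inner ℝ a x) * inner ℝ a w := by
  rw [fderiv_wl h]; simp

theorem fderiv2_wl_apply {φ : ℝ → ℝ} (h : Wall φ) (a x w z : E n) :
    fderiv ℝ (fderiv ℝ (wl a φ)) x w z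
      = deriv (deriv φ) (inner ℝ a x) * inner ℝ a w * inner ℝ a z := by
  rw [fderiv_wl h]
  have h1 : HasFDerivAt (fun x : E n => deriv φ (inner ℝ a x))
      (deriv (deriv φ) (inner ℝ a x) • innerSL ℝ a) x := hasFDerivAt_wl h.diff1 a x
  have h2 := h1.smul_const (innerSL ℝ a : E n →L[ℝ] ℝ)
  rw [h2.fderiv]
  simp

theorem wl_convex {φ : ℝ → ℝ} (h : Wall φ) (a : E n) : ConvexOn ℝ univ (wl a φ) := by
  have h1 : ConvexOn ℝ univ φ :=
    (h.mono_deriv).convexOn_univ_of_deriv h.diff
  have h2 := h1.comp_linearMap (innerSL ℝ a : E n →L[ℝ] ℝ).toLinearMap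
  exact h2


theorem Hw_eq (ν : Fin m → E n) (φ : Fin m → ℝ → ℝ) :
    Hw ν φ = fun x => ∑ k, wl (ν k) (φ k) x := rfl



theorem fr_eq {φ : Fin m → ℝ → ℝ} (hw : ∀ k, Wall (φ k)) (ν : Fin m → E n) (r : Fin m → ℝ)
    (x : E n) : fr ν φ r x = ∑ k, r k * fderiv ℝ (wl (ν k) (φ k)) x x := by
  unfold fr
  refine Finset.sum_congr rfl fun k _ => ?_
  rw [fderiv_wl_apply (hw k)]; ring

theorem Nr_eq {φ : Fin m → ℝ → ℝ} (hw : ∀ k, Wall (φ k)) (ν : Fin m → E n) (r : Fin m → ℝ)
    (x : E n) : Nr ν φ r x = ∑ k, r k ^ 2 * (fderiv ℝ (wl (ν k) (φ k)) x x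
      + fderiv ℝ (fderiv ℝ (wl (ν k) (φ k))) x x x) := by
  unfold Nr
  refine Finset.sum_congr rfl fun k _ => ?_
  rw [fderiv_wl_apply (hw k), fderiv2_wl_apply (hw k)]; ring


/-! ### the perturbation `P` -/


section
variable {ν : Fin m → E n} {φ : Fin m → ℝ → ℝ} {V : E n → ℝ} {b : ℝ}








end

end Crest.Agent.R238.Asm
end
end

-- ▼ part R238/Asm2

/-! Row 238, ASM part 2: integrability and the final algebra. (helper477) -/

set_option autoImplicit false
open scoped ContDiff Topology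
open Set Filter MeasureTheory

noncomputable section

namespace Crest.Agent.R238.Asm

open Crest.Agent.R238.Soft

variable {n m : ℕ}






theorem cs_bounded {P : E n → ℝ} (hP : Continuous P) (hs : HasCompactSupport P) :
    ∃ M, ∀ x, |P x| ≤ M := by
  obtain ⟨C, hC⟩ := hs.exists_bound_of_continuous hP
  exact ⟨C, fun x => by simpa using hC x⟩

section
variable {P : E n → ℝ} {φ : Fin m → ℝ → ℝ}





end



end Crest.Agent.R238.Asm
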