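import Mathlib

-- ▼ part R238/Ident1
section

/-!
# Row 238, node IDENT, part 1: abstract Hessian calculus

`A` is a commutative `ℝ`-algebra with commuting derivations `D i`, a potential whose
gradient is `th i`, Hessian `tau i j = D i (th j)` with inverse `g`.
-/

open Finset

namespace Crest.Agent.R238

/-- Data of an abstract Hessian structure. -/
structure HData (ι A : Type*) [Fintype ι] [DecidableEq ι] [CommRing A] [Algebra ℝ A] where
  D : ι → Derivation ℝ A A
  Dcomm : ∀ i j f, D i (D j f) = D j (D i f)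
  th : ι → A
  tau_symm : ∀ i j, D i (th j) = D j (th i)
  g : ι → ι → A
  g_symm : ∀ i j, g i j = g j i
  g_inv : ∀ i j, ∑ k, D i (th k) * g k j = if i = j then 1 else 0

namespace HData

variable {ι A : Type*} [Fintype ι] [DecidableEq ι] [CommRing A] [Algebra ℝ A]
variable (S : HData ι A)

/-- Hessian. -/
def tau (i j : ι) : A := S.D i (S.th j)

lemma tau_comm (i j : ι) : S.tau i j = S.tau j i := S.tau_symm i j

lemma tau_g (i j : ι) : ∑ k, S.tau i k * S.g k j = if i = j then 1 else 0 := S.g_inv i j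

lemma g_tau (i j : ι) : ∑ k, S.g i k * S.tau k j = if i = j then 1 else 0 := by
  have h := S.tau_g j i
  rw [show (if i = j then (1 : A) else 0) = if j = i then 1 else 0 by
    by_cases hh : i = j <;> simp [hh, eq_comm], ← h]
  refine sum_congr rfl fun k _ => ?_
  rw [S.tau_comm j k, S.g_symm i k, mul_comm]

/-- Contraction lemma. -/
lemma g_tau_contr (a : ι) (X : ι → A) :
    ∑ i, S.g a i * ∑ k, S.tau i k * X k = X a := by
  simp_rw [mul_sum]
  rw [sum_comm]
  calc ∑ k, ∑ i, S.g a i * (S.tau i k * X k)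
      = ∑ k, (∑ i, S.g a i * S.tau i k) * X k := by
        refine sum_congr rfl fun k _ => ?_
        rw [sum_mul]; refine sum_congr rfl fun i _ => by ring
    _ = X a := by simp [S.g_tau]

lemma tau_g_contr (a : ι) (X : ι → A) :
    ∑ i, S.tau a i * ∑ k, S.g i k * X k = X a := by
  simp_rw [mul_sum]
  rw [sum_comm]
  calc ∑ k, ∑ i, S.tau a i * (S.g i k * X k)
      = ∑ k, (∑ i, S.tau a i * S.g i k) * X k := by
        refine sum_congr rfl fun k _ => ?_
        rw [sum_mul]; refine sum_congr rfl fun i _ => by ring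
    _ = X a := by simp [S.tau_g]

/-- Third derivative of the potential. -/
def T (e b c : ι) : A := S.D e (S.tau b c)

lemma T_swap12 (e b c : ι) : S.T e b c = S.T b e c := by
  simp only [T, tau]; exact S.Dcomm e b _

lemma T_swap23 (e b c : ι) : S.T e b c = S.T e c b := by
  simp only [T]; rw [S.tau_comm]

lemma T_swap13 (e b c : ι) : S.T e b c = S.T c b e := by
  rw [S.T_swap12, S.T_swap23, S.T_swap12]

/-- derivative of the inverse matrix -/
lemma D_g (c a b : ι) :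
    S.D c (S.g a b) = - ∑ k, ∑ l, S.g a k * (S.T c k l * S.g l b) := by
  have h : ∀ i, ∑ k, S.tau i k * S.D c (S.g k b) = - ∑ k, S.T c i k * S.g k b := by
    intro i
    have h1 : S.D c (∑ k, S.tau i k * S.g k b) = 0 := by
      rw [S.tau_g]
      by_cases hib : i = b <;> simp [hib]
    rw [map_sum] at h1
    simp only [Derivation.leibniz, smul_eq_mul] at h1
    rw [sum_add_distrib] at h1
    have h2 : ∑ k, S.g k b * S.D c (S.tau i k) = ∑ k, S.T c i k * S.g k b := by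
      refine sum_congr rfl fun k _ => by simp only [T]; ring
    rw [h2] at h1
    exact eq_neg_of_add_eq_zero_left h1
  have h3 := S.g_tau_contr a (fun k => S.D c (S.g k b))
  rw [← h3]
  simp_rw [h]
  rw [← sum_neg_distrib]
  refine sum_congr rfl fun k _ => ?_
  rw [mul_neg, mul_sum]

/-- derivation along the dual coordinates `∂/∂x_a = ∑ g a i ∂_i`. -/
def DU (a : ι) : Derivation ℝ A A := ∑ i, S.g a i • S.D i

lemma DU_apply (a : ι) (f : A) : S.DU a f = ∑ i, S.g a i * S.D i f := by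
  have h : ((∑ i, S.g a i • S.D i : Derivation ℝ A A) : A → A)
      = ∑ i, ((S.g a i • S.D i : Derivation ℝ A A) : A → A) :=
    map_sum (Derivation.coeFnAddMonoidHom (R := ℝ) (A := A) (M := A))
      (fun i => S.g a i • S.D i) univ
  have h2 := congrFun h f
  simpa [DU, Finset.sum_apply] using h2

/-- `∂^a g_{bc}` totally symmetric -/
lemma DU_g (a b c : ι) :
    S.DU a (S.g b c) = - ∑ i, ∑ k, ∑ l, S.g a i * (S.g b k * (S.g c l * S.T i k l)) := by
  rw [DU_apply, ← sum_neg_distrib]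
  refine sum_congr rfl fun i _ => ?_
  rw [S.D_g, mul_neg, mul_sum]
  congr 1
  refine sum_congr rfl fun k _ => ?_
  rw [mul_sum]
  refine sum_congr rfl fun l _ => ?_
  rw [S.g_symm l c]; ring

lemma DU_g_swap23 (a b c : ι) : S.DU a (S.g b c) = S.DU a (S.g c b) := by
  rw [S.g_symm b c]

lemma DU_g_swap12 (a b c : ι) : S.DU a (S.g b c) = S.DU b (S.g a c) := by
  rw [S.DU_g, S.DU_g]
  congr 1
  rw [sum_comm]
  refine sum_congr rfl fun i _ => sum_congr rfl fun k _ => sum_congr rfl fun l _ => ?_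
  rw [S.T_swap12]; ring

lemma DU_g_swap13 (a b c : ι) : S.DU a (S.g b c) = S.DU c (S.g b a) := by
  rw [S.DU_g_swap23, S.DU_g_swap12, S.DU_g_swap23]

lemma DU_comm (a b : ι) (f : A) : S.DU a (S.DU b f) = S.DU b (S.DU a f) := by
  have key : ∀ a b : ι, S.DU a (S.DU b f) = ∑ j, S.DU a (S.g b j) * S.D j f
      + ∑ j, ∑ i, S.g b j * (S.g a i * S.D i (S.D j f)) := by
    intro a b
    rw [S.DU_apply b, map_sum, ← sum_add_distrib]
    refine sum_congr rfl fun j _ => ?_
    rw [Derivation.leibniz, smul_eq_mul, smul_eq_mul, S.DU_apply a (S.D j f), mul_sum]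
    ring
  rw [key, key]
  congr 1
  · refine sum_congr rfl fun j _ => ?_
    rw [S.DU_g_swap12]
  · rw [sum_comm]
    refine sum_congr rfl fun i _ => sum_congr rfl fun j _ => ?_
    rw [S.Dcomm i j]; ring

lemma DU_D (b c : ι) (f : A) :
    S.DU b (S.D c f) = S.D c (S.DU b f) - ∑ i, S.D c (S.g b i) * S.D i f := by
  rw [S.DU_apply, S.DU_apply, map_sum, ← sum_sub_distrib]
  refine sum_congr rfl fun i _ => ?_
  rw [Derivation.leibniz, smul_eq_mul, smul_eq_mul, S.Dcomm i c]; ring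

lemma D_DU (b c : ι) (f : A) :
    S.D c (S.DU b f) = S.DU b (S.D c f) + ∑ i, S.D c (S.g b i) * S.D i f := by
  rw [S.DU_D]; ring

lemma DU_th (a b : ι) : S.DU a (S.th b) = if a = b then 1 else 0 := by
  rw [S.DU_apply]; exact S.g_tau a b

/-- lowering: `D c f = ∑ a, tau c a * DU a f`. -/
lemma D_eq (c : ι) (f : A) : S.D c f = ∑ a, S.tau c a * S.DU a f := by
  simp_rw [S.DU_apply]
  rw [S.tau_g_contr c (fun i => S.D i f)]

/-- gradient of the dual weight -/
def Psi (a : ι) : A := ∑ c, (S.g a c * S.th c - S.D c (S.g a c))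

/-- Hessian of the dual weight -/
def H (a b : ι) : A := S.DU a (S.Psi b)

/-- `v^a = ∂^a φ` -/
def v (φ : A) (a : ι) : A := S.DU a φ

/-- `A^a_c = ∂_c v^a` -/
def Am (φ : A) (a c : ι) : A := S.D c (S.v φ a)

/-- `B_{d c}^a = ∂_d A^a_c` -/
def B (φ : A) (d a c : ι) : A := S.D d (S.Am φ a c)

lemma B_symm (φ : A) (d a c : ι) : S.B φ d a c = S.B φ c a d := by
  simp only [B, Am]; exact S.Dcomm d c _

/-- `p^{ab}` -/
def p (φ : A) (a b : ι) : A := S.DU a (S.v φ b)

lemma p_symm (φ : A) (a b : ι) : S.p φ a b = S.p φ b a := by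
  simp only [p, v]; exact S.DU_comm a b φ

lemma p_eq (φ : A) (a b : ι) : S.p φ a b = ∑ k, S.g a k * S.Am φ b k := by
  simp only [p, Am]; rw [S.DU_apply]

lemma Am_eq (φ : A) (a c : ι) : S.Am φ a c = ∑ k, S.tau c k * S.p φ k a := by
  simp only [Am, p]; rw [S.D_eq]

/-- `q_{ab}` -/
def q (φ : A) (a b : ι) : A := ∑ j, S.tau b j * S.Am φ j a

lemma q_symm (φ : A) (a b : ι) : S.q φ a b = S.q φ b a := by
  simp only [q]
  simp_rw [S.Am_eq, mul_sum]
  rw [sum_comm]
  refine sum_congr rfl fun i _ => sum_congr rfl fun j _ => ?_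
  rw [S.p_symm φ i j]; ring

lemma q_eq' (φ : A) (a b : ι) : S.q φ a b = ∑ j, S.tau a j * S.Am φ j b := by
  rw [q_symm]; rfl

/-- `ψ = -(L+1) φ` -/
def psi (φ : A) : A := ∑ d, (S.th d * S.v φ d - S.D d (S.v φ d)) - φ

/-- `z_a = ∂_a ψ` -/
def z (φ : A) (a : ι) : A := S.D a (S.psi φ)

/-- `N^a_d = ∂^a z_d` -/
def N (φ : A) (a d : ι) : A := S.DU a (S.z φ d)

/-- `L ψ` -/
def Lpsi (φ : A) : A := ∑ a, (S.DU a (S.z φ a) - S.Psi a * S.z φ a)

lemma z1 (φ : A) (a : ι) :
    S.z φ a = ∑ d, (S.th d * S.Am φ d a - S.D d (S.Am φ d a)) := by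
  simp only [z, psi]
  rw [map_sub, map_sum]
  have h : ∀ d, S.D a (S.th d * S.v φ d - S.D d (S.v φ d))
      = (S.th d * S.Am φ d a - S.D d (S.Am φ d a)) + S.tau a d * S.v φ d := by
    intro d
    rw [map_sub, Derivation.leibniz, smul_eq_mul, smul_eq_mul, S.Dcomm a d]
    simp only [Am, tau]; ring
  simp_rw [h]
  rw [sum_add_distrib]
  have h2 : ∑ d, S.tau a d * S.v φ d = S.D a φ := by
    simp only [v]; rw [← S.D_eq]
  rw [h2]; ring

lemma psi_tau (j : ι) : ∑ b, (S.Psi b * S.tau b j - S.DU b (S.tau b j)) = S.th j := by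
  have h1 : ∀ b, S.Psi b * S.tau b j = ∑ c, (S.g b c * S.th c * S.tau b j)
      - ∑ c, S.D c (S.g b c) * S.tau b j := by
    intro b
    rw [Psi, sum_mul, ← sum_sub_distrib]
    refine sum_congr rfl fun c _ => by ring
  have h2 : ∀ c, ∑ b, S.D c (S.g b c) * S.tau b j = - ∑ b, S.g b c * S.D c (S.tau b j) := by
    intro c
    have h : S.D c (∑ b, S.g c b * S.tau b j) = 0 := by
      rw [S.g_tau]
      by_cases hcj : c = j <;> simp [hcj]
    rw [map_sum] at h
    simp only [Derivation.leibniz, smul_eq_mul] at h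
    rw [sum_add_distrib] at h
    have e1 : ∑ b, S.g c b * S.D c (S.tau b j) = ∑ b, S.g b c * S.D c (S.tau b j) :=
      sum_congr rfl fun b _ => by rw [S.g_symm c b]
    have e2 : ∑ b, S.tau b j * S.D c (S.g c b) = ∑ b, S.D c (S.g b c) * S.tau b j :=
      sum_congr rfl fun b _ => by rw [S.g_symm c b]; ring
    rw [e1, e2] at h
    linear_combination h
  rw [sum_sub_distrib]
  simp_rw [h1]
  rw [sum_sub_distrib]
  have h3 : ∑ b, ∑ c, S.D c (S.g b c) * S.tau b j = - ∑ b, S.DU b (S.tau b j) := by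
    rw [sum_comm]
    simp_rw [h2, S.DU_apply]
    rw [sum_neg_distrib]
    congr 1
    rw [sum_comm]
  have h4 : ∑ b, ∑ c, S.g b c * S.th c * S.tau b j = S.th j := by
    rw [sum_comm]
    have : ∀ c, ∑ b, S.g b c * S.th c * S.tau b j = S.th c * (if c = j then 1 else 0) := by
      intro c
      rw [← S.g_tau c j, mul_sum]
      refine sum_congr rfl fun b _ => ?_
      rw [S.g_symm b c]; ring
    simp_rw [this]
    simp
  rw [h3, h4]; ring

lemma z2 (φ : A) (a : ι) :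
    S.z φ a = ∑ b, (S.Psi b * S.q φ a b - S.DU b (S.q φ a b)) := by
  rw [S.z1]
  have h : ∀ b, S.Psi b * S.q φ a b - S.DU b (S.q φ a b)
      = ∑ j, ((S.Psi b * S.tau b j - S.DU b (S.tau b j)) * S.Am φ j a
          - S.tau b j * S.DU b (S.Am φ j a)) := by
    intro b
    rw [q, mul_sum, map_sum, ← sum_sub_distrib]
    refine sum_congr rfl fun j _ => ?_
    rw [Derivation.leibniz, smul_eq_mul, smul_eq_mul]; ring
  simp_rw [h]
  rw [sum_comm]
  refine sum_congr rfl fun j _ => ?_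
  rw [sum_sub_distrib, ← sum_mul, S.psi_tau]
  congr 1
  rw [S.D_eq j]
  refine sum_congr rfl fun b _ => ?_
  rw [S.tau_comm]

end HData

end Crest.Agent.R238
end

-- ▼ part R238/Ident2
section

/-!
# Row 238, node IDENT, part 2: the pointwise identity `X1 + X2 + X3 - X4 = T4`
-/

open Finset

namespace Crest.Agent.R238

namespace HData

variable {ι A : Type*} [Fintype ι] [DecidableEq ι] [CommRing A] [Algebra ℝ A]
variable (S : HData ι A)

set_option linter.unusedSectionVars false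

lemma sum_pull3 {M : Type*} [AddCommMonoid M] (f : ι → ι → ι → M) :
    ∑ a, ∑ b, ∑ c, f a b c = ∑ c, ∑ a, ∑ b, f a b c := by
  calc ∑ a, ∑ b, ∑ c, f a b c = ∑ a, ∑ c, ∑ b, f a b c :=
        sum_congr rfl fun a _ => sum_comm
    _ = _ := sum_comm

lemma sum_pull3' {κ : Type*} [Fintype κ] {M : Type*} [AddCommMonoid M] (f : ι → ι → κ → M) :
    ∑ a, ∑ b, ∑ c, f a b c = ∑ c, ∑ a, ∑ b, f a b c := by
  calc ∑ a, ∑ b, ∑ c, f a b c = ∑ a, ∑ c, ∑ b, f a b c :=
        sum_congr rfl fun a _ => sum_comm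
    _ = _ := sum_comm

lemma sum_pull4 {M : Type*} [AddCommMonoid M] (f : ι → ι → ι → ι → M) :
    ∑ a, ∑ b, ∑ c, ∑ d, f a b c d = ∑ d, ∑ a, ∑ b, ∑ c, f a b c d := by
  calc ∑ a, ∑ b, ∑ c, ∑ d, f a b c d = ∑ a, ∑ d, ∑ b, ∑ c, f a b c d :=
        sum_congr rfl fun a _ => sum_pull3 _
    _ = _ := sum_comm


/-- the trace part of the quartic square -/
def X6 (φ : A) : A := ∑ d, ∑ e, S.g d e * ∑ a, ∑ c, S.B φ d a c * S.B φ e c a

/-- the norm part of the quartic square -/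
def X5 (φ : A) : A := ∑ d, ∑ e, S.g d e * ∑ a, ∑ a', S.tau a a' *
  ∑ b, ∑ b', S.g b b' * (S.B φ d a b * S.B φ e a' b')

def X1 (φ : A) : A := ∑ a, ∑ d, ∑ e, S.B φ e d a * S.DU a (S.Am φ e d)

def X2 (φ : A) : A := ∑ a, ∑ d, ∑ e, ∑ i, S.Am φ d a * (S.D e (S.g a i) * S.B φ i e d)

def X3 (φ : A) : A := ∑ c, ∑ a, ∑ b, S.DU b (S.p φ c a) * S.D c (S.q φ a b)

def X4 (φ : A) : A := ∑ c, ∑ a, ∑ b, ∑ i, S.p φ c a * (S.D c (S.g b i) * S.D i (S.q φ a b))

lemma X1_eq (φ : A) : S.X1 φ = S.X6 φ := by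
  simp only [X1, X6]
  have h : ∀ a d e, S.B φ e d a * S.DU a (S.Am φ e d)
      = ∑ i, S.g a i * (S.B φ a d e * S.B φ i e d) := by
    intro a d e
    rw [S.DU_apply, mul_sum]
    refine sum_congr rfl fun i _ => ?_
    rw [S.B_symm φ e d a]; simp only [B]; ring
  simp_rw [h]
  refine sum_congr rfl fun a _ => ?_
  rw [sum_pull3]
  refine sum_congr rfl fun i _ => ?_
  simp_rw [mul_sum]

/-- `B` with two upper indices. -/
def Bup (φ : A) (b c a : ι) : A := ∑ k, S.g c k * ∑ i, S.g b i * S.B φ i a k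

lemma DU_p (φ : A) (b c a : ι) :
    S.DU b (S.p φ c a) = ∑ k, S.DU b (S.g c k) * S.Am φ a k + S.Bup φ b c a := by
  rw [S.p_eq, map_sum, Bup, ← sum_add_distrib]
  refine sum_congr rfl fun k _ => ?_
  rw [Derivation.leibniz, smul_eq_mul, smul_eq_mul, S.DU_apply b (S.Am φ a k)]
  simp only [B]; ring

lemma X34 (φ : A) : S.X3 φ - S.X4 φ
    = ∑ c, ∑ a, ∑ b, S.Bup φ b c a * S.D c (S.q φ a b) := by
  have h4 : S.X4 φ = ∑ c, ∑ a, ∑ b, (∑ k, S.DU b (S.g c k) * S.Am φ a k)
      * S.D c (S.q φ a b) := by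
    have e1 : S.X4 φ = ∑ i, ∑ c, ∑ a, ∑ b,
        S.p φ c a * (S.D c (S.g b i) * S.D i (S.q φ a b)) := by
      rw [X4, sum_pull4]
    rw [e1]
    refine sum_congr rfl fun i _ => ?_
    rw [sum_comm]
    refine sum_congr rfl fun a _ => ?_
    rw [sum_comm]
    refine sum_congr rfl fun b _ => ?_
    rw [← (show (∑ c, S.p φ c a * S.D c (S.g b i)) * S.D i (S.q φ a b)
      = ∑ c, S.p φ c a * (S.D c (S.g b i) * S.D i (S.q φ a b)) by
        rw [sum_mul]; exact sum_congr rfl fun c _ => by ring)]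
    congr 1
    have e2 : ∀ k, S.DU b (S.g i k) * S.Am φ a k
        = ∑ c, S.g c k * S.Am φ a k * S.D c (S.g b i) := by
      intro k
      rw [S.DU_g_swap13 b i k, S.DU_g_swap23 k i b, S.DU_apply, sum_mul]
      refine sum_congr rfl fun c _ => ?_
      rw [S.g_symm k c]; ring
    simp_rw [e2]
    rw [sum_comm]
    refine sum_congr rfl fun c _ => ?_
    rw [S.p_eq, sum_mul]
  rw [h4, X3, ← sum_sub_distrib]
  refine sum_congr rfl fun c _ => ?_
  rw [← sum_sub_distrib]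
  refine sum_congr rfl fun a _ => ?_
  rw [← sum_sub_distrib]
  refine sum_congr rfl fun b _ => ?_
  rw [S.DU_p]; ring

lemma D_q (φ : A) (c a b : ι) :
    S.D c (S.q φ a b) = ∑ j, S.T c a j * S.Am φ j b + ∑ j, S.tau a j * S.B φ c j b := by
  rw [S.q_eq', map_sum, ← sum_add_distrib]
  refine sum_congr rfl fun j _ => ?_
  rw [Derivation.leibniz, smul_eq_mul, smul_eq_mul]
  simp only [T, B]; ring

lemma X5_eq (φ : A) :
    ∑ c, ∑ a, ∑ b, S.Bup φ b c a * ∑ j, S.tau a j * S.B φ c j b = S.X5 φ := by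
  simp only [X5, Bup]
  -- expand both sides completely
  have hL : ∀ c a b, (∑ k, S.g c k * ∑ i, S.g b i * S.B φ i a k)
        * ∑ j, S.tau a j * S.B φ c j b
      = ∑ j, ∑ k, ∑ i, S.g c k * (S.tau j a * (S.g b i * (S.B φ c j b * S.B φ k a i))) := by
    intro c a b
    rw [mul_sum]
    refine sum_congr rfl fun j _ => ?_
    rw [sum_mul]
    refine sum_congr rfl fun k _ => ?_
    rw [mul_sum, sum_mul]
    refine sum_congr rfl fun i _ => ?_
    rw [S.B_symm φ i a k, S.tau_comm a j]; ring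
  simp_rw [hL]
  simp_rw [mul_sum]
  -- LHS : ∑ c a b j k i ;  RHS : ∑ c k j a b i
  refine sum_congr rfl fun c _ => ?_
  -- ∑ a b j k i  vs ∑ k j a b i
  calc ∑ a, ∑ b, ∑ j, ∑ k, ∑ i,
        S.g c k * (S.tau j a * (S.g b i * (S.B φ c j b * S.B φ k a i)))
      = ∑ k, ∑ a, ∑ b, ∑ j, ∑ i,
        S.g c k * (S.tau j a * (S.g b i * (S.B φ c j b * S.B φ k a i))) :=
        sum_pull4 (fun a b j k => ∑ i, S.g c k * (S.tau j a * (S.g b i *
          (S.B φ c j b * S.B φ k a i))))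
    _ = _ := by
        refine sum_congr rfl fun k _ => ?_
        exact sum_pull3 (fun a b j => ∑ i, S.g c k * (S.tau j a * (S.g b i *
          (S.B φ c j b * S.B φ k a i))))

/-- common normal form for the mixed term -/
def Y2 (φ : A) : A := ∑ a, ∑ c, ∑ k, ∑ i, ∑ j,
  S.g c k * (S.B φ k a i * (S.T c a j * S.p φ i j))

lemma Y2_left (φ : A) :
    ∑ c, ∑ a, ∑ b, S.Bup φ b c a * ∑ j, S.T c a j * S.Am φ j b = S.Y2 φ := by
  simp only [Y2]
  rw [sum_comm]
  refine sum_congr rfl fun a _ => sum_congr rfl fun c _ => ?_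
  simp only [Bup]
  have e1 : ∀ b, (∑ k, S.g c k * ∑ i, S.g b i * S.B φ i a k) * ∑ j, S.T c a j * S.Am φ j b
      = ∑ k, ∑ i, ∑ j, S.g c k * (S.B φ k a i * (S.T c a j * (S.g i b * S.Am φ j b))) := by
    intro b
    rw [sum_mul]
    refine sum_congr rfl fun k _ => ?_
    rw [mul_assoc, sum_mul, mul_sum]
    refine sum_congr rfl fun i _ => ?_
    rw [mul_sum, mul_sum]
    refine sum_congr rfl fun j _ => ?_
    rw [S.B_symm φ i a k, S.g_symm b i]; ring
  simp_rw [e1]
  rw [sum_comm]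
  refine sum_congr rfl fun k _ => ?_
  rw [sum_comm]
  refine sum_congr rfl fun i _ => ?_
  rw [sum_comm]
  refine sum_congr rfl fun j _ => ?_
  rw [S.p_eq]
  simp_rw [mul_sum]

lemma Y2_right (φ : A) : - S.X2 φ = S.Y2 φ := by
  simp only [X2, Y2]
  -- X2 = ∑ a d e i, A d a * (D e (g a i) * B i e d)
  have e1 : ∀ a d e i, - (S.Am φ d a * (S.D e (S.g a i) * S.B φ i e d))
      = ∑ k, ∑ l, S.g l i * (S.B φ i e d * (S.T e k l * (S.g k a * S.Am φ d a))) := by
    intro a d e i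
    rw [S.D_g]
    rw [show -(S.Am φ d a * ((-∑ k, ∑ l, S.g a k * (S.T e k l * S.g l i)) * S.B φ i e d))
      = (∑ k, ∑ l, S.g a k * (S.T e k l * S.g l i)) * (S.Am φ d a * S.B φ i e d) by ring]
    rw [sum_mul]
    refine sum_congr rfl fun k _ => ?_
    rw [sum_mul]
    refine sum_congr rfl fun l _ => ?_
    rw [S.g_symm a k]; ring
  simp_rw [← sum_neg_distrib, e1]
  -- LHS : ∑ a d e i k l ;  pull a inside : ∑ d e i k l a
  have e2 : ∑ a, ∑ d, ∑ e, ∑ i, ∑ k, ∑ l,
      S.g l i * (S.B φ i e d * (S.T e k l * (S.g k a * S.Am φ d a)))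
      = ∑ d, ∑ e, ∑ i, ∑ k, ∑ l, S.g l i * (S.B φ i e d * (S.T e k l * S.p φ k d)) := by
    rw [sum_comm]
    refine sum_congr rfl fun d _ => ?_
    rw [sum_comm]
    refine sum_congr rfl fun e _ => ?_
    rw [sum_comm]
    refine sum_congr rfl fun i _ => ?_
    rw [sum_comm]
    refine sum_congr rfl fun k _ => ?_
    rw [sum_comm]
    refine sum_congr rfl fun l _ => ?_
    rw [S.p_eq]
    simp_rw [mul_sum]
  rw [e2]
  -- ∑ d e i k l → want ∑ e l i d k
  rw [sum_comm]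
  refine sum_congr rfl fun e _ => ?_
  -- ∑ d i k l → ∑ l i d k
  rw [sum_pull4 (fun d i k l => S.g l i * (S.B φ i e d * (S.T e k l * S.p φ k d)))]
  refine sum_congr rfl fun l _ => ?_
  rw [sum_comm]
  refine sum_congr rfl fun i _ => sum_congr rfl fun d _ => sum_congr rfl fun k _ => ?_
  rw [S.T_swap13 e k l, S.T_swap23 l k e, S.p_symm φ k d]

lemma pointwise (φ : A) :
    S.X1 φ + S.X2 φ + S.X3 φ - S.X4 φ = S.X5 φ + S.X6 φ := by
  have h34 := S.X34 φ
  have h : ∑ c, ∑ a, ∑ b, S.Bup φ b c a * S.D c (S.q φ a b) = S.Y2 φ + S.X5 φ := by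
    rw [← S.Y2_left, ← S.X5_eq, ← sum_add_distrib]
    refine sum_congr rfl fun c _ => ?_
    rw [← sum_add_distrib]
    refine sum_congr rfl fun a _ => ?_
    rw [← sum_add_distrib]
    refine sum_congr rfl fun b _ => ?_
    rw [S.D_q]; ring
  have h2 := S.Y2_right φ
  have h1 := S.X1_eq φ
  linear_combination h34 + h + h1 - h2

end HData

end Crest.Agent.R238
end

-- ▼ part R238/Ident3

/-!
# Row 238, node IDENT, part 3: the integrated identity
-/

open Finset

namespace Crest.Agent.R238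

set_option linter.unusedSectionVars false

/-- An integration functional for a Hessian structure: linear, with integration by
parts against `e^{-θ}` on a differential ideal `I`. -/
structure HInt {ι A : Type*} [Fintype ι] [DecidableEq ι] [CommRing A] [Algebra ℝ A]
    (S : HData ι A) where
  I : Ideal A
  hI : ∀ i f, f ∈ I → S.D i f ∈ I
  E : A →ₗ[ℝ] ℝ
  ibp : ∀ i f, f ∈ I → E (S.D i f) = E (S.th i * f)

namespace HInt

variable {ι A : Type*} [Fintype ι] [DecidableEq ι] [CommRing A] [Algebra ℝ A]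
variable {S : HData ι A} (J : HInt S)

lemma memDU (a : ι) (f : A) (hf : f ∈ J.I) : S.DU a f ∈ J.I := by
  rw [S.DU_apply]
  exact Ideal.sum_mem _ fun i _ => J.I.mul_mem_left _ (J.hI i f hf)

lemma ibpU (a : ι) (f : A) (hf : f ∈ J.I) : J.E (S.DU a f) = J.E (S.Psi a * f) := by
  have h : S.DU a f = ∑ c, (S.D c (S.g a c * f) - S.D c (S.g a c) * f) := by
    rw [S.DU_apply]
    refine sum_congr rfl fun c _ => ?_
    rw [Derivation.leibniz, smul_eq_mul, smul_eq_mul]; ring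
  rw [h, map_sum, HData.Psi, sum_mul, map_sum]
  refine sum_congr rfl fun c _ => ?_
  rw [map_sub, J.ibp c _ (J.I.mul_mem_left _ hf), ← map_sub]
  congr 1; ring

/-- `E(∂^a f · h) = E(f · ∂^{a*} h)`, left factor in the ideal. -/
lemma adjU (a : ι) (f h : A) (hf : f ∈ J.I) :
    J.E (f * (S.Psi a * h - S.DU a h)) = J.E (S.DU a f * h) := by
  have h1 := J.ibpU a (f * h) (J.I.mul_mem_right _ hf)
  rw [Derivation.leibniz, smul_eq_mul, smul_eq_mul] at h1
  have h2 : f * (S.Psi a * h - S.DU a h) = S.Psi a * (f * h) - f * S.DU a h := by ring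
  rw [h2, map_sub, ← h1, map_add]
  rw [mul_comm h (S.DU a f)]; ring

lemma adjU' (a : ι) (f h : A) (hh : h ∈ J.I) :
    J.E (f * (S.Psi a * h - S.DU a h)) = J.E (S.DU a f * h) := by
  have h1 := J.ibpU a (f * h) (J.I.mul_mem_left _ hh)
  rw [Derivation.leibniz, smul_eq_mul, smul_eq_mul] at h1
  have h2 : f * (S.Psi a * h - S.DU a h) = S.Psi a * (f * h) - f * S.DU a h := by ring
  rw [h2, map_sub, ← h1, map_add]
  rw [mul_comm h (S.DU a f)]; ring

lemma adjD (i : ι) (f h : A) (hf : f ∈ J.I) :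
    J.E (f * (S.th i * h - S.D i h)) = J.E (S.D i f * h) := by
  have h1 := J.ibp i (f * h) (J.I.mul_mem_right _ hf)
  rw [Derivation.leibniz, smul_eq_mul, smul_eq_mul] at h1
  have h2 : f * (S.th i * h - S.D i h) = S.th i * (f * h) - f * S.D i h := by ring
  rw [h2, map_sub, ← h1, map_add]
  rw [mul_comm h (S.D i f)]; ring

variable (φ : A) (hφ : φ ∈ J.I)
include hφ

lemma v_mem (a : ι) : S.v φ a ∈ J.I := J.memDU a φ hφ

lemma Am_mem (a c : ι) : S.Am φ a c ∈ J.I := J.hI _ _ (J.v_mem φ hφ a)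

lemma B_mem (d a c : ι) : S.B φ d a c ∈ J.I := J.hI _ _ (J.Am_mem φ hφ a c)

lemma p_mem (a b : ι) : S.p φ a b ∈ J.I := J.memDU _ _ (J.v_mem φ hφ b)

lemma q_mem (a b : ι) : S.q φ a b ∈ J.I :=
  Ideal.sum_mem _ fun j _ => J.I.mul_mem_left _ (J.Am_mem φ hφ j a)

lemma psi_mem : S.psi φ ∈ J.I := by
  refine J.I.sub_mem (Ideal.sum_mem _ fun d _ => ?_) hφ
  exact J.I.sub_mem (J.I.mul_mem_left _ (J.v_mem φ hφ d)) (J.hI _ _ (J.v_mem φ hφ d))

lemma z_mem (a : ι) : S.z φ a ∈ J.I := J.hI _ _ (J.psi_mem φ hφ)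

/-- identity (3), Bochner -/
lemma bochner : J.E (S.Lpsi φ * S.Lpsi φ)
    = ∑ a, ∑ b, (J.E (S.H a b * (S.z φ a * S.z φ b)) + J.E (S.N φ b a * S.N φ a b)) := by
  have h0 : S.Lpsi φ * S.Lpsi φ = ∑ a, ∑ b,
      (S.Psi b * S.z φ b - S.DU b (S.z φ b)) * (S.Psi a * S.z φ a - S.DU a (S.z φ a)) := by
    have e : S.Lpsi φ = - ∑ a, (S.Psi a * S.z φ a - S.DU a (S.z φ a)) := by
      rw [HData.Lpsi, ← sum_neg_distrib]
      exact sum_congr rfl fun a _ => by ring
    rw [e, neg_mul_neg, sum_mul_sum]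
    refine sum_congr rfl fun a _ => sum_congr rfl fun b _ => by ring
  rw [h0, map_sum]
  refine sum_congr rfl fun a _ => ?_
  rw [map_sum]
  refine sum_congr rfl fun b _ => ?_
  have hz := J.z_mem φ hφ
  rw [J.adjU' a _ _ (hz a)]
  have e1 : S.DU a (S.Psi b * S.z φ b - S.DU b (S.z φ b)) * S.z φ a
      = S.H a b * (S.z φ a * S.z φ b)
        + S.z φ a * (S.Psi b * S.N φ a b - S.DU b (S.N φ a b)) := by
    rw [map_sub, Derivation.leibniz, smul_eq_mul, smul_eq_mul, S.DU_comm a b (S.z φ b)]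
    simp only [HData.H, HData.N]; ring
  rw [e1, map_add, J.adjU b _ _ (hz a)]
  simp only [HData.N]

/-- identity (1) -/
lemma ident1 : ∑ a, ∑ d, J.E (S.Am φ d a * S.N φ a d)
    = ∑ a, ∑ d, J.E (S.Am φ d a * S.Am φ a d) + J.E (S.X1 φ) + J.E (S.X2 φ) := by
  simp only [HData.X1, HData.X2, map_sum]
  rw [← sum_add_distrib, ← sum_add_distrib]
  refine sum_congr rfl fun a _ => ?_
  rw [← sum_add_distrib, ← sum_add_distrib]
  refine sum_congr rfl fun d _ => ?_
  have hA := J.Am_mem φ hφ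
  -- expand N a d
  have e1 : S.Am φ d a * S.N φ a d = ∑ e, ((if a = e then 1 else 0) * (S.Am φ d a * S.Am φ e d)
      + S.Am φ d a * (S.th e * S.DU a (S.Am φ e d) - S.D e (S.DU a (S.Am φ e d)))
      + ∑ i, S.Am φ d a * (S.D e (S.g a i) * S.B φ i e d)) := by
    rw [HData.N, S.z1, map_sum, mul_sum]
    refine sum_congr rfl fun e _ => ?_
    rw [map_sub, Derivation.leibniz, smul_eq_mul, smul_eq_mul, S.DU_th, S.DU_D a e (S.Am φ e d)]
    rw [← mul_sum]
    simp only [HData.B]; ring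
  rw [e1, map_sum]
  simp_rw [map_add]
  rw [sum_add_distrib, sum_add_distrib]
  congr 1
  · congr 1
    · rw [sum_eq_single a]
      · simp
      · intro b _ hb
        rw [if_neg (Ne.symm hb)]; simp
      · simp
    · refine sum_congr rfl fun e _ => ?_
      rw [J.adjD e _ _ (hA d a)]
      simp only [HData.B]
  · simp_rw [map_sum]

/-- identity (2) -/
lemma ident2 : ∑ a, ∑ d, J.E (S.Am φ d a * S.N φ a d)
    = ∑ d, ∑ b, J.E (S.H d b * ∑ a, S.Am φ a d * S.q φ a b)
      + J.E (S.X3 φ) - J.E (S.X4 φ) := by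
  have hp := J.p_mem φ hφ
  -- rewrite the left side with p
  have e0 : ∑ a, ∑ d, J.E (S.Am φ d a * S.N φ a d)
      = ∑ c, ∑ a, J.E (S.p φ c a * S.D c (S.z φ a)) := by
    have : ∑ a, ∑ d, S.Am φ d a * S.N φ a d = ∑ c, ∑ a, S.p φ c a * S.D c (S.z φ a) := by
      have e : ∀ a d, S.Am φ d a * S.N φ a d
          = ∑ i, S.g i a * S.Am φ d a * S.D i (S.z φ d) := by
        intro a d
        rw [HData.N, S.DU_apply, mul_sum]
        refine sum_congr rfl fun i _ => ?_
        rw [S.g_symm a i]; ring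
      simp_rw [e]
      rw [HData.sum_pull3]
      refine sum_congr rfl fun i _ => ?_
      rw [sum_comm]
      refine sum_congr rfl fun d _ => ?_
      rw [S.p_eq, sum_mul]
    have h := congrArg J.E this
    simpa [map_sum] using h
  rw [e0]
  -- expand D c (z a)
  have e1 : ∀ c a, S.p φ c a * S.D c (S.z φ a)
      = ∑ b, (S.p φ c a * S.D c (S.Psi b) * S.q φ a b
        + S.p φ c a * (S.Psi b * S.D c (S.q φ a b) - S.DU b (S.D c (S.q φ a b)))
        - ∑ i, S.p φ c a * (S.D c (S.g b i) * S.D i (S.q φ a b))) := by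
    intro c a
    rw [S.z2, map_sum, mul_sum]
    refine sum_congr rfl fun b _ => ?_
    rw [map_sub, Derivation.leibniz, smul_eq_mul, smul_eq_mul, S.D_DU b c (S.q φ a b),
      ← mul_sum]
    ring
  have e2 : ∀ c a, J.E (S.p φ c a * S.D c (S.z φ a))
      = ∑ b, J.E (S.p φ c a * S.D c (S.Psi b) * S.q φ a b)
        + ∑ b, J.E (S.DU b (S.p φ c a) * S.D c (S.q φ a b))
        - ∑ b, ∑ i, J.E (S.p φ c a * (S.D c (S.g b i) * S.D i (S.q φ a b))) := by
    intro c a
    rw [e1, map_sum]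
    simp_rw [map_sub, map_add]
    rw [sum_sub_distrib, sum_add_distrib]
    congr 1
    · congr 1
      refine sum_congr rfl fun b _ => ?_
      rw [J.adjU b _ _ (hp c a)]
    · simp_rw [map_sum]
  simp_rw [e2]
  simp only [HData.X3, HData.X4, map_sum]
  simp_rw [sum_sub_distrib, sum_add_distrib]
  congr 1
  congr 1
  -- first term
  have e3 : ∑ c, ∑ a, ∑ b, S.p φ c a * S.D c (S.Psi b) * S.q φ a b
      = ∑ d, ∑ b, S.H d b * ∑ a, S.Am φ a d * S.q φ a b := by
    have e : ∀ c a b, S.p φ c a * S.D c (S.Psi b) * S.q φ a b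
        = ∑ d, (S.g d c * S.D c (S.Psi b)) * (S.Am φ a d * S.q φ a b) := by
      intro c a b
      rw [S.p_eq, sum_mul, sum_mul]
      refine sum_congr rfl fun d _ => ?_
      rw [S.g_symm c d]; ring
    simp_rw [e]
    rw [HData.sum_pull4 (fun c a b d =>
      (S.g d c * S.D c (S.Psi b)) * (S.Am φ a d * S.q φ a b))]
    refine sum_congr rfl fun d _ => ?_
    -- ∑ c a b → ∑ b, H d b * ∑ a
    rw [HData.sum_pull3]
    refine sum_congr rfl fun b _ => ?_
    rw [HData.H, S.DU_apply, sum_mul]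
    refine sum_congr rfl fun c _ => ?_
    rw [mul_sum]
  have h := congrArg J.E e3
  simpa [map_sum] using h

/-- The exact identity. -/
theorem identity : J.E (S.Lpsi φ * S.Lpsi φ)
    = J.E (∑ a, ∑ b, (S.N φ b a - S.Am φ b a) * (S.N φ a b - S.Am φ a b))
      + J.E (∑ a, ∑ b, S.H a b * (S.z φ a * S.z φ b))
      + J.E (∑ d, ∑ b, S.H d b * ∑ a, S.Am φ a d * S.q φ a b)
      + J.E (S.X5 φ + S.X6 φ) := by
  have h3 := J.bochner φ hφ
  have h1 := J.ident1 φ hφ
  have h2 := J.ident2 φ hφ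
  have hp := congrArg J.E (S.pointwise φ)
  have e : ∑ a, ∑ b, (S.N φ b a - S.Am φ b a) * (S.N φ a b - S.Am φ a b)
      = ∑ a, ∑ b, S.N φ b a * S.N φ a b - ∑ a, ∑ b, S.Am φ b a * S.N φ a b
        - ∑ a, ∑ b, S.Am φ b a * S.N φ a b + ∑ a, ∑ b, S.Am φ b a * S.Am φ a b := by
    have e1 : ∑ a, ∑ b, S.Am φ a b * S.N φ b a = ∑ a, ∑ b, S.Am φ b a * S.N φ a b := sum_comm
    calc _ = ∑ a, ∑ b, S.N φ b a * S.N φ a b - ∑ a, ∑ b, S.Am φ b a * S.N φ a b
        - ∑ a, ∑ b, S.Am φ a b * S.N φ b a + ∑ a, ∑ b, S.Am φ b a * S.Am φ a b := by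
          rw [← sum_sub_distrib, ← sum_sub_distrib, ← sum_add_distrib]
          refine sum_congr rfl fun a _ => ?_
          rw [← sum_sub_distrib, ← sum_sub_distrib, ← sum_add_distrib]
          refine sum_congr rfl fun b _ => ?_
          ring
      _ = _ := by rw [e1]
  rw [e]
  simp only [map_add, map_sub, map_sum] at *
  simp only [sum_add_distrib] at h3
  linarith

end HInt

end Crest.Agent.R238
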