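import Crest.Agent.R238.StepLin
import Crest.Agent.R238.StepMat
import Crest.Agent.R238.ExtInv
import Crest.Agent.R238.EStep
import Crest.Agent.R238.StepLog
import Mathlib
import Crest.Agent.R238.HolDefs
import Crest.Agent.R238.XInst2
import Crest.Agent.R238.Ident3
import Crest.Agent.R238.Asm2
import Crest.Agent.R238.TopDefs
import Crest.Agent.R238.GapDat

-- ▼ part R238/StepK
section

/-! Row 238, H5: the operator `K : YS n a →L YS^{n×n}`, multiplication in `YS`, matrices of `YS`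
functions as operators. -/

set_option autoImplicit false

open MeasureTheory Set Filter
open scoped ContDiff Topology BoundedContinuousFunction

namespace Crest.Agent.R238.Step

open Crest.Agent.R238

variable {n : ℕ} {a : ℝ}

/-- type synonym of `YS n a` (fast instance search) -/
def YY (n : ℕ) (a : ℝ) : Type := ↥(YS n a)

noncomputable instance instNAG : NormedAddCommGroup (YY n a) :=
  inferInstanceAs (NormedAddCommGroup ↥(YS n a))

noncomputable instance instNS : NormedSpace ℝ (YY n a) :=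
  inferInstanceAs (NormedSpace ℝ ↥(YS n a))

instance instCS : CompleteSpace (YY n a) := inferInstanceAs (CompleteSpace ↥(YS n a))

/-- the function -/
def fn (r : YY n a) : E n → ℝ := YS.fn (show ↥(YS n a) from r)

theorem fn_add (r s : YY n a) (x : E n) : fn (r + s) x = fn r x + fn s x := rfl

theorem fn_sub (r s : YY n a) (x : E n) : fn (r - s) x = fn r x - fn s x := rfl

theorem fn_neg (r : YY n a) (x : E n) : fn (-r) x = - fn r x := rfl

theorem fn_smul (c : ℝ) (r : YY n a) (x : E n) : fn (c • r) x = c * fn r x := rfl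

theorem fn_zero (x : E n) : fn (0 : YY n a) x = 0 := rfl

theorem fn_sum {ι : Type*} (s : Finset ι) (f : ι → YY n a) (x : E n) :
    fn (∑ i ∈ s, f i) x = ∑ i ∈ s, fn (f i) x := by
  classical
  induction s using Finset.induction_on with
  | empty => simp [fn_zero]
  | insert i s hi ih => rw [Finset.sum_insert hi, Finset.sum_insert hi, fn_add, ih]

theorem fn_even (r : YY n a) (x : E n) : fn r (-x) = fn r x := YS.even _ x

theorem fn_hb (h0 : 0 < a) (r : YY n a) : HB a ‖r‖ (fn r) := YS.hb h0 (show ↥(YS n a) from r)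

theorem YYext {r s : YY n a} (h : ∀ x, fn r x = fn s x) : r = s := YS.ext_fn (funext h)

theorem exists_YY (h0 : 0 < a) {M : ℝ} {f : E n → ℝ} (h : HB a M f)
    (he : ∀ x, f (-x) = f x) : ∃ r : YY n a, fn r = f ∧ ‖r‖ ≤ M := by
  obtain ⟨r, h1, h2⟩ := YS.exists_of_hb h0 h he
  exact ⟨r, h1, h2⟩

theorem fn_norm_le (h0 : 0 < a) (r : YY n a) (x : E n) : |fn r x| ≤ ‖r‖ := (fn_hb h0 r).1 x

theorem YY_norm_le (h0 : 0 < a) {r : YY n a} {M : ℝ} (h : HB a M (fn r)) : ‖r‖ ≤ M := by
  obtain ⟨s, hs, hs'⟩ := exists_YY h0 h (fn_even r)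
  have : r = s := YYext fun x => by rw [hs]
  rw [this]; exact hs'

/-- evaluation at `x` as a continuous linear map -/
noncomputable def evY (h0 : 0 < a) (x : E n) : YY n a →L[ℝ] ℝ :=
  LinearMap.mkContinuous
    { toFun := fun r => fn r x
      map_add' := fun r s => fn_add r s x
      map_smul' := fun c r => fn_smul c r x } 1 fun r => by
        rw [one_mul]; exact fn_norm_le h0 r x

@[simp] theorem evY_apply (h0 : 0 < a) (x : E n) (r : YY n a) : evY h0 x r = fn r x := rfl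

/-- **the solution operator** -/
theorem exists_K (hS : SolStmt) (hR : RepStmt) (n : ℕ) {a : ℝ} (h0 : 0 < a) (h1 : a < 1) :
    ∃ (C : ℝ) (K : YY n a →L[ℝ] (Fin n → Fin n → YY n a)) (vv : YY n a → E n → ℝ), 0 < C ∧
      (∀ r, ContDiff ℝ 2 (vv r)) ∧ (∀ r x, vv r (-x) = vv r x) ∧
      (∀ r i j x, fn (K r i j) x = Hs (vv r) x i j) ∧
      (∀ r x, LA (fun _ => (1 : Matrix (Fin n) (Fin n) ℝ)) (vv r) x + vv r x = fn r x) ∧
      (∀ r i j, ‖K r i j‖ ≤ C * ‖r‖) ∧
      (∀ r (v : E n → ℝ), ContDiff ℝ 2 v → (∀ x, v (-x) = v x) →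
        (∃ B : ℝ, ∀ x i j, |Hs v x i j| ≤ B) →
        (∀ x, LA (fun _ => (1 : Matrix (Fin n) (Fin n) ℝ)) v x + v x = fn r x) → vv r = v) := by
  obtain ⟨C, hC, H⟩ := hS n a h0 h1
  choose vv hvc hve hvb hvs using fun r : YY n a => H (fn r) ‖r‖ (fn_hb h0 r) (fn_even r)
  have hu : ∀ r (v : E n → ℝ), ContDiff ℝ 2 v → (∀ x, v (-x) = v x) →
        (∃ B : ℝ, ∀ x i j, |Hs v x i j| ≤ B) →
        (∀ x, LA (fun _ => (1 : Matrix (Fin n) (Fin n) ℝ)) v x + v x = fn r x) →
        vv r = v := by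
    rintro r v hv he ⟨B, hB⟩ hs
    funext x
    have h := uniq hR (v := fun x => vv r x - v x) ((hvc r).sub hv)
      (fun x => by rw [hve r x, he x]) ⟨C * ‖r‖ + B, fun x i j => by
        rw [Hs_sub (hvc r) hv]
        exact (abs_sub _ _).trans (add_le_add ((hvb r i j).1 x) (hB x i j))⟩
      (fun x => by
        rw [LA_sub _ (hvc r) hv]
        have h1 := hvs r x
        have h2 := hs x
        linarith) x
    linarith
  -- entries of K
  choose kk hk hkn using fun (r : YY n a) (i j : Fin n) =>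
    exists_YY h0 (hvb r i j) (fun x => Hs_even (hvc r) (hve r) x i j)
  have hkf : ∀ r i j x, fn (kk r i j) x = Hs (vv r) x i j := fun r i j x => by
    rw [hk r i j]
  have hbd : ∀ r : YY n a, ∃ B : ℝ, ∀ x i j, |Hs (vv r) x i j| ≤ B := fun r =>
    ⟨C * ‖r‖, fun x i j => (hvb r i j).1 x⟩
  have hadd : ∀ r s, vv (r + s) = fun x => vv r x + vv s x := by
    intro r s
    obtain ⟨B, hB⟩ := hbd r
    obtain ⟨B', hB'⟩ := hbd s
    refine hu (r + s) _ ((hvc r).add (hvc s)) (fun x => by rw [hve r x, hve s x])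
      ⟨B + B', fun x i j => ?_⟩ fun x => ?_
    · rw [Hs_add (hvc r) (hvc s)]
      exact (abs_add_le _ _).trans (add_le_add (hB x i j) (hB' x i j))
    · rw [LA_add _ (hvc r) (hvc s), fn_add, ← hvs r x, ← hvs s x]; ring
  have hsmul : ∀ (c : ℝ) r, vv (c • r) = fun x => c * vv r x := by
    intro c r
    obtain ⟨B, hB⟩ := hbd r
    refine hu (c • r) _ (contDiff_const.mul (hvc r)) (fun x => by rw [hve r x])
      ⟨|c| * B, fun x i j => ?_⟩ fun x => ?_
    · rw [Hs_smul c (hvc r), abs_mul]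
      exact mul_le_mul_of_nonneg_left (hB x i j) (abs_nonneg _)
    · rw [LA_smul _ c (hvc r), fn_smul, ← hvs r x]; ring
  let K0 : YY n a →ₗ[ℝ] (Fin n → Fin n → YY n a) :=
    { toFun := kk
      map_add' := fun r s => by
        funext i j
        refine YYext fun x => ?_
        rw [hkf, hadd, Hs_add (hvc r) (hvc s), Pi.add_apply, Pi.add_apply, fn_add, hkf, hkf]
      map_smul' := fun c r => by
        funext i j
        refine YYext fun x => ?_
        rw [hkf, hsmul, Hs_smul c (hvc r), RingHom.id_apply, Pi.smul_apply, Pi.smul_apply,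
          fn_smul, hkf] }
  have hK0 : ∀ r, ‖K0 r‖ ≤ C * ‖r‖ := by
    intro r
    have hpos : 0 ≤ C * ‖r‖ := by positivity
    refine (pi_norm_le_iff_of_nonneg hpos).2 fun i => (pi_norm_le_iff_of_nonneg hpos).2 fun j => ?_
    exact hkn r i j
  refine ⟨C, K0.mkContinuous C hK0, vv, hC, hvc, hve, hkf, hvs, fun r i j => hkn r i j, hu⟩

/-! ### multiplication -/

theorem exists_mul (h0 : 0 < a) (r s : YY n a) :
    ∃ t : YY n a, (∀ x, fn t x = fn r x * fn s x) ∧ ‖t‖ ≤ 2 * ‖r‖ * ‖s‖ := by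
  obtain ⟨t, ht, ht'⟩ := exists_YY h0 (HB.mul (fn_hb h0 r) (fn_hb h0 s))
    (fun x => by rw [fn_even r x, fn_even s x])
  exact ⟨t, fun x => by rw [ht], ht'⟩

/-- multiplication of `YS` functions -/
noncomputable def mulY (h0 : 0 < a) : YY n a →L[ℝ] YY n a →L[ℝ] YY n a :=
  LinearMap.mkContinuous₂ (LinearMap.mk₂ ℝ (fun r s => (exists_mul h0 r s).choose)
    (fun r r' s => YYext fun x => by
      rw [fn_add, (exists_mul h0 _ _).choose_spec.1, (exists_mul h0 _ _).choose_spec.1,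
        (exists_mul h0 _ _).choose_spec.1, fn_add]; ring)
    (fun c r s => YYext fun x => by
      rw [fn_smul, (exists_mul h0 _ _).choose_spec.1, (exists_mul h0 _ _).choose_spec.1,
        fn_smul]; ring)
    (fun r s s' => YYext fun x => by
      rw [fn_add, (exists_mul h0 _ _).choose_spec.1, (exists_mul h0 _ _).choose_spec.1,
        (exists_mul h0 _ _).choose_spec.1, fn_add]; ring)
    (fun c r s => YYext fun x => by
      rw [fn_smul, (exists_mul h0 _ _).choose_spec.1, (exists_mul h0 _ _).choose_spec.1,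
        fn_smul]; ring)) 2 fun r s => (exists_mul h0 r s).choose_spec.2

theorem mulY_fn (h0 : 0 < a) (r s : YY n a) (x : E n) :
    fn (mulY h0 r s) x = fn r x * fn s x := (exists_mul h0 r s).choose_spec.1 x

theorem mulY_norm (h0 : 0 < a) (r s : YY n a) : ‖mulY h0 r s‖ ≤ 2 * ‖r‖ * ‖s‖ :=
  (exists_mul h0 r s).choose_spec.2

/-- the constant function `1` -/
theorem exists_one (h0 : 0 < a) : ∃ t : YY n a, (∀ x, fn t x = 1) := by
  obtain ⟨t, ht, -⟩ := exists_YY (n := n) h0 (HB.const (a := a) 1) (fun x => rfl)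
  exact ⟨t, fun x => by rw [ht]⟩

noncomputable def oneY (h0 : 0 < a) : YY n a := (exists_one h0).choose

@[simp] theorem oneY_fn (h0 : 0 < a) (x : E n) : fn (oneY (n := n) h0) x = 1 :=
  (exists_one h0).choose_spec x

/-! ### matrices as operators -/

/-- the Banach algebra of operators on `YS^n` -/
abbrev OpA (n : ℕ) (a : ℝ) : Type := (Fin n → YY n a) →L[ℝ] (Fin n → YY n a)

/-- matrix of `YS` functions as a multiplication operator -/
noncomputable def MO (h0 : 0 < a) (m : Fin n → Fin n → YY n a) : OpA n a :=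
  ContinuousLinearMap.pi fun i => ∑ j, (mulY h0 (m i j)).comp (ContinuousLinearMap.proj j)

theorem MO_apply (h0 : 0 < a) (m : Fin n → Fin n → YY n a) (w : Fin n → YY n a) (i : Fin n) :
    MO h0 m w i = ∑ j, mulY h0 (m i j) (w j) := by
  simp [MO]

theorem MO_fn (h0 : 0 < a) (m : Fin n → Fin n → YY n a) (w : Fin n → YY n a) (i : Fin n)
    (x : E n) : fn (MO h0 m w i) x = ∑ j, fn (m i j) x * fn (w j) x := by
  rw [MO_apply, fn_sum]
  exact Finset.sum_congr rfl fun j _ => mulY_fn h0 _ _ _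

theorem OpA_ext {p q : OpA n a} (h : ∀ w i x, fn (p w i) x = fn (q w i) x) : p = q := by
  refine ContinuousLinearMap.ext fun w => ?_
  funext i
  exact YYext fun x => h w i x

theorem MO_norm (h0 : 0 < a) (m : Fin n → Fin n → YY n a) : ‖MO h0 m‖ ≤ 2 * n * ‖m‖ := by
  refine ContinuousLinearMap.opNorm_le_bound _ (by positivity) fun w => ?_
  refine (pi_norm_le_iff_of_nonneg (by positivity)).2 fun i => ?_
  rw [MO_apply]
  calc ‖∑ j, mulY h0 (m i j) (w j)‖ ≤ ∑ j : Fin n, 2 * ‖m‖ * ‖w‖ := by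
        refine norm_sum_le_of_le _ fun j _ => ?_
        refine (mulY_norm h0 _ _).trans ?_
        gcongr
        · exact (norm_le_pi_norm (m i) j).trans (norm_le_pi_norm m i)
        · exact norm_le_pi_norm w j
    _ = 2 * n * ‖m‖ * ‖w‖ := by simp; ring

/-- `MO` as a continuous linear map -/
noncomputable def MOL (n : ℕ) (h0 : 0 < a) : (Fin n → Fin n → YY n a) →L[ℝ] OpA n a :=
  LinearMap.mkContinuous
    { toFun := fun m => MO h0 m
      map_add' := fun m m' => OpA_ext fun w i x => by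
        show fn (MO h0 (m + m') w i) x = fn (MO h0 m w i + MO h0 m' w i) x
        rw [MO_fn, fn_add, MO_fn, MO_fn, ← Finset.sum_add_distrib]
        refine Finset.sum_congr rfl fun j _ => ?_
        rw [Pi.add_apply, Pi.add_apply, fn_add]; ring
      map_smul' := fun c m => OpA_ext fun w i x => by
        show fn (MO h0 (c • m) w i) x = fn (c • MO h0 m w i) x
        rw [MO_fn, fn_smul, MO_fn, Finset.mul_sum]
        refine Finset.sum_congr rfl fun j _ => ?_
        rw [Pi.smul_apply, Pi.smul_apply, fn_smul]; ring } (2 * n) fun m => MO_norm h0 m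

@[simp] theorem MOL_apply (h0 : 0 < a) (m : Fin n → Fin n → YY n a) :
    MOL n h0 m = MO h0 m := rfl

/-- the trace -/
noncomputable def trY (n : ℕ) (h0 : 0 < a) : OpA n a →L[ℝ] YY n a :=
  ∑ i, (ContinuousLinearMap.proj i).comp
    (ContinuousLinearMap.apply ℝ (Fin n → YY n a) (Pi.single i (oneY h0)))

theorem trY_apply (h0 : 0 < a) (p : OpA n a) :
    trY n h0 p = ∑ i, p (Pi.single i (oneY h0)) i := by
  simp [trY]

theorem trY_MO (h0 : 0 < a) (m : Fin n → Fin n → YY n a) (x : E n) :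
    fn (trY n h0 (MO h0 m)) x = ∑ i, fn (m i i) x := by
  rw [trY_apply, fn_sum]
  refine Finset.sum_congr rfl fun i _ => ?_
  rw [MO_fn, Finset.sum_eq_single i]
  · simp
  · intro j _ hj
    rw [Pi.single_eq_of_ne hj, fn_zero, mul_zero]
  · simp

/-- product of matrices of `YS` functions -/
noncomputable def mm (h0 : 0 < a) (m m' : Fin n → Fin n → YY n a) : Fin n → Fin n → YY n a :=
  fun i k => ∑ j, mulY h0 (m i j) (m' j k)

theorem mm_fn (h0 : 0 < a) (m m' : Fin n → Fin n → YY n a) (i k : Fin n) (x : E n) :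
    fn (mm h0 m m' i k) x = ∑ j, fn (m i j) x * fn (m' j k) x := by
  rw [mm, fn_sum]
  exact Finset.sum_congr rfl fun j _ => mulY_fn h0 _ _ _

theorem MO_mul (h0 : 0 < a) (m m' : Fin n → Fin n → YY n a) :
    MO h0 m * MO h0 m' = MO h0 (mm h0 m m') := by
  refine OpA_ext fun w i x => ?_
  show fn (MO h0 m (MO h0 m' w) i) x = _
  rw [MO_fn, MO_fn]
  simp only [MO_fn, mm_fn]
  simp only [Finset.mul_sum, Finset.sum_mul]
  rw [Finset.sum_comm]
  refine Finset.sum_congr rfl fun k _ => Finset.sum_congr rfl fun j _ => by ring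

/-- identity matrix of `YS` functions -/
noncomputable def idY (n : ℕ) (h0 : 0 < a) : Fin n → Fin n → YY n a :=
  fun i j => if i = j then oneY h0 else 0

theorem idY_fn (h0 : 0 < a) (i j : Fin n) (x : E n) :
    fn (idY n h0 i j) x = (1 : Matrix (Fin n) (Fin n) ℝ) i j := by
  unfold idY
  rw [Matrix.one_apply]
  split_ifs <;> simp [fn_zero]

theorem MO_id (h0 : 0 < a) : MO h0 (idY n h0) = 1 := by
  refine OpA_ext fun w i x => ?_
  rw [MO_fn]
  simp only [idY_fn, Matrix.one_apply, ite_mul, one_mul, zero_mul, Finset.sum_ite_eq,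
    Finset.mem_univ, if_true]
  rfl

end Crest.Agent.R238.Step
end

-- ▼ part R238/StepMain
section

/-! Row 238, H5: the uniform step of the continuity method (main file). -/

set_option autoImplicit false

open MeasureTheory Set Filter Metric
open scoped ContDiff Topology BoundedContinuousFunction

namespace Crest.Agent.R238.Step

open Crest.Agent.R238 Crest.Agent.R238.EStep

variable {n : ℕ} {a : ℝ}

/-- data of the solution operator -/
structure KDat (n : ℕ) (a : ℝ) where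
  C : ℝ
  K : YY n a →L[ℝ] (Fin n → Fin n → YY n a)
  vv : YY n a → E n → ℝ
  hC : 0 < C
  c2 : ∀ r, ContDiff ℝ 2 (vv r)
  ev : ∀ r x, vv r (-x) = vv r x
  fnK : ∀ r i j x, fn (K r i j) x = Hs (vv r) x i j
  eqn : ∀ r x, LA (fun _ => (1 : Matrix (Fin n) (Fin n) ℝ)) (vv r) x + vv r x = fn r x
  nK : ∀ r i j, ‖K r i j‖ ≤ C * ‖r‖
  uq : ∀ r (v : E n → ℝ), ContDiff ℝ 2 v → (∀ x, v (-x) = v x) →
        (∃ B : ℝ, ∀ x i j, |Hs v x i j| ≤ B) →
        (∀ x, LA (fun _ => (1 : Matrix (Fin n) (Fin n) ℝ)) v x + v x = fn r x) → vv r = v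

theorem exists_KDat (hS : SolStmt) (hR : RepStmt) (n : ℕ) {a : ℝ} (h0 : 0 < a) (h1 : a < 1) :
    Nonempty (KDat n a) := by
  obtain ⟨C, K, vv, p1, p2, p3, p4, p5, p6, p7⟩ := exists_K hS hR n h0 h1
  exact ⟨⟨C, K, vv, p1, p2, p3, p4, p5, p6, p7⟩⟩

/-- the operator `K` with values in the Banach algebra -/
noncomputable def Kt (h0 : 0 < a) (D : KDat n a) : YY n a →L[ℝ] OpA n a := (MOL n h0).comp D.K

variable (h0 : 0 < a) (D : KDat n a)

theorem Kt_apply (r : YY n a) : Kt h0 D r = MO h0 (D.K r) := rfl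

theorem one_add_Kt (r : YY n a) : 1 + Kt h0 D r = MO h0 (idY n h0 + D.K r) := by
  rw [← MO_id h0, Kt_apply, ← MOL_apply, ← MOL_apply, ← MOL_apply, map_add]

theorem fn_gm (r : YY n a) (i j : Fin n) (x : E n) :
    fn ((idY n h0 + D.K r) i j) x = gm (D.vv r) x i j := by
  rw [Pi.add_apply, Pi.add_apply, fn_add, idY_fn, D.fnK, ExtInv.gm_apply]

include h0 in
theorem cls_vv (r : YY n a) : Cls a (D.C * ‖r‖) (D.vv r) := by
  refine ⟨D.c2 r, D.ev r, fun i j => ?_⟩
  have h := fn_hb h0 (D.K r i j)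
  have h2 : fn (D.K r i j) = fun x => Hs (D.vv r) x i j := funext fun x => D.fnK r i j x
  rw [h2] at h
  exact HB.mono h (D.nK r i j)

/-- the matrix field `τ` as an element of the Banach algebra is the inverse of `1 + K r` -/
theorem unit_of {r : YY n a} {lo hi : ℝ} (hlo : 0 < lo) (hE : ∀ x, Ell lo hi (gm (D.vv r) x))
    {τ : Fin n → Fin n → YY n a} (hτ : ∀ i j x, fn (τ i j) x = tauf (D.vv r) x i j) :
    IsUnit (1 + Kt h0 D r) ∧ ginv (Kt h0 D) r = MO h0 τ := by
  have e1 : (1 + Kt h0 D r) * MO h0 τ = 1 := by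
    rw [one_add_Kt, MO_mul, ← MO_id h0]
    congr 1
    funext i k
    refine YYext fun x => ?_
    rw [mm_fn, idY_fn]
    simp only [fn_gm, hτ]
    have := congrFun (congrFun (Ell.sm_mul_inv hlo (hE x)) i) k
    rw [← this, Matrix.mul_apply]
    rfl
  have e2 : MO h0 τ * (1 + Kt h0 D r) = 1 := by
    rw [one_add_Kt, MO_mul, ← MO_id h0]
    congr 1
    funext i k
    refine YYext fun x => ?_
    rw [mm_fn, idY_fn]
    simp only [fn_gm, hτ]
    have := congrFun (congrFun (Ell.sm_inv_mul hlo (hE x)) i) k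
    rw [← this, Matrix.mul_apply]
    rfl
  refine ⟨⟨⟨_, _, e1, e2⟩, rfl⟩, ?_⟩
  have := Ring.inverse_unit (⟨1 + Kt h0 D r, MO h0 τ, e1, e2⟩ : (OpA n a)ˣ)
  exact this

/-- the linearised operator is `L_τ + 1` -/
theorem fn_DK {τ : Fin n → Fin n → YY n a} {T : E n → Matrix (Fin n) (Fin n) ℝ}
    (hτ : ∀ i j x, fn (τ i j) x = T x i j) (ρ : YY n a) (x : E n) :
    fn (DK (Kt h0 D) (trY n h0) (MO h0 τ) ρ) x = LA T (D.vv ρ) x + D.vv ρ x := by
  have h1 : (MO h0 τ - 1) * Kt h0 D ρ = MO h0 (mm h0 (τ - idY n h0) (D.K ρ)) := by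
    rw [← MO_id h0, Kt_apply, ← MO_mul]
    congr 1
    rw [← MOL_apply, ← MOL_apply, ← MOL_apply, map_sub]
  have h2 : DK (Kt h0 D) (trY n h0) (MO h0 τ) ρ
      = ρ + trY n h0 ((MO h0 τ - 1) * Kt h0 D ρ) := rfl
  rw [h2, h1, fn_add, trY_MO]
  simp only [mm_fn, Pi.sub_apply, fn_sub, idY_fn, hτ, D.fnK]
  rw [← D.eqn ρ x]
  unfold LA
  have h3 : ∑ i, ∑ j, (T x i j - (1 : Matrix (Fin n) (Fin n) ℝ) i j) * Hs (D.vv ρ) x j i
      = ∑ i, ∑ j, T x i j * Hs (D.vv ρ) x i j
        - ∑ i, ∑ j, (1 : Matrix (Fin n) (Fin n) ℝ) i j * Hs (D.vv ρ) x i j := by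
    rw [← Finset.sum_sub_distrib]
    refine Finset.sum_congr rfl fun i _ => ?_
    rw [← Finset.sum_sub_distrib]
    refine Finset.sum_congr rfl fun j _ => ?_
    rw [ExtInv.Hs_symm (D.c2 ρ) x j i]
    ring
  rw [h3]
  ring

include h0 in
/-- the matrix `τ` as a matrix of `YY` functions -/
theorem exists_tau {v : E n → ℝ} {lo hi M : ℝ} (hlo : 0 < lo) (hhi : lo ≤ hi)
    (hv : Cls a M v) (hE : ∀ x, Ell lo hi (gm v x)) :
    ∃ τ : Fin n → Fin n → YY n a, (∀ i j x, fn (τ i j) x = tauf v x i j) ∧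
      ∀ i j, ‖τ i j‖ ≤ 1 / lo + (n : ℝ) ^ 2 * (1 / lo) ^ 2 * (1 + |M|) := by
  have hgm : ∀ i j, HB a (1 + |M|) (fun x => gm v x i j) := by
    intro i j
    have h1 : HB a 1 (fun _ : E n => (1 : Matrix (Fin n) (Fin n) ℝ) i j) := by
      have h2 := HB.const (n := n) (a := a) ((1 : Matrix (Fin n) (Fin n) ℝ) i j)
      refine HB.mono h2 ?_
      rw [Matrix.one_apply]; split_ifs <;> simp
    have h3 := HB.add h1 (HB.mono (hv.hb i j) (le_abs_self M))
    have h4 : (fun x => gm v x i j)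
        = fun x => (1 : Matrix (Fin n) (Fin n) ℝ) i j + Hs v x i j := funext fun x => by
      rw [ExtInv.gm_apply]
    rw [h4]; exact h3
  have hev : ∀ x, gm v (-x) = gm v x := by
    intro x
    ext i j
    rw [ExtInv.gm_apply, ExtInv.gm_apply, Hs_even hv.c2 hv.even]
  choose τ h1 h2 using fun i j => exists_YY h0
    (ExtInv.hb_inv hlo (hlo.trans_le hhi) hE hgm i j) (fun x => by rw [hev x])
  refine ⟨τ, fun i j x => by rw [h1]; rfl, fun i j => ?_⟩
  have := h2 i j
  rwa [abs_of_nonneg (by positivity : (0 : ℝ) ≤ 1 + |M|)] at this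

/-- antilipschitz bound of the linearised operator -/
theorem antilip {v : E n → ℝ} {M2 Cτ : ℝ} (hA : APr a M2 (tauf v))
    {τ : Fin n → Fin n → YY n a} (hτ : ∀ i j x, fn (τ i j) x = tauf v x i j)
    (hτn : ∀ i j, ‖τ i j‖ ≤ Cτ) (ρ : YY n a) :
    ‖ρ‖ ≤ (1 + (n : ℝ) ^ 2 * (2 * (1 + |Cτ|) * |M2|)) *
      ‖DK (Kt h0 D) (trY n h0) (MO h0 τ) ρ‖ := by
  set N : ℝ := ‖DK (Kt h0 D) (trY n h0) (MO h0 τ) ρ‖ with hN
  have hN0 : 0 ≤ N := norm_nonneg _
  have hf : HB a N (fun x => LA (tauf v) (D.vv ρ) x + D.vv ρ x) := by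
    have h := fn_hb h0 (DK (Kt h0 D) (trY n h0) (MO h0 τ) ρ)
    have h2 : fn (DK (Kt h0 D) (trY n h0) (MO h0 τ) ρ)
        = fun x => LA (tauf v) (D.vv ρ) x + D.vv ρ x := funext fun x => fn_DK h0 D hτ ρ x
    rwa [h2] at h
  have hH := hA (D.vv ρ) N ⟨_, cls_vv h0 D ρ⟩ hf
  have hH' : ∀ i j, HB a (|M2| * N) (fun x => Hs (D.vv ρ) x i j) := fun i j =>
    HB.mono (hH i j) (mul_le_mul_of_nonneg_right (le_abs_self _) hN0)
  refine YY_norm_le h0 ?_
  have h1 : fn ρ = fun x => (LA (tauf v) (D.vv ρ) x + D.vv ρ x)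
      + ∑ i, ∑ j, ((1 : Matrix (Fin n) (Fin n) ℝ) i j - tauf v x i j) * Hs (D.vv ρ) x i j := by
    funext x
    rw [← D.eqn ρ x]
    unfold LA
    simp only [sub_mul, Finset.sum_sub_distrib]
    ring
  rw [h1]
  have h2 : ∀ i j, HB a (2 * (1 + |Cτ|) * (|M2| * N)) (fun x =>
      ((1 : Matrix (Fin n) (Fin n) ℝ) i j - tauf v x i j) * Hs (D.vv ρ) x i j) := by
    intro i j
    refine HB.mul ?_ (hH' i j)
    have h3 : HB a 1 (fun _ : E n => (1 : Matrix (Fin n) (Fin n) ℝ) i j) := by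
      have h2 := HB.const (n := n) (a := a) ((1 : Matrix (Fin n) (Fin n) ℝ) i j)
      refine HB.mono h2 ?_
      rw [Matrix.one_apply]; split_ifs <;> simp
    have h4 : HB a |Cτ| (fun x => tauf v x i j) := by
      have h5 := HB.mono (fn_hb h0 (τ i j)) ((hτn i j).trans (le_abs_self _))
      have h6 : fn (τ i j) = fun x => tauf v x i j := funext fun x => hτ i j x
      rwa [h6] at h5
    exact HB.sub h3 h4
  have h3 := HB.add hf (HB.sum Finset.univ fun i _ => HB.sum Finset.univ fun j _ => h2 i j)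
  refine HB.mono h3 (le_of_eq ?_)
  simp
  ring

/-- the linearised operator is invertible -/
theorem isUnit_DK {v : E n → ℝ} {M2 Cτ : ℝ} (hA : APr a M2 (tauf v)) (hSr : Srj a (tauf v))
    {τ : Fin n → Fin n → YY n a} (hτ : ∀ i j x, fn (τ i j) x = tauf v x i j)
    (hτn : ∀ i j, ‖τ i j‖ ≤ Cτ) :
    IsUnit (DK (Kt h0 D) (trY n h0) (MO h0 τ)) := by
  rw [ContinuousLinearMap.isUnit_iff_bijective]
  constructor
  · rw [injective_iff_map_eq_zero]
    intro ρ hρ
    have := antilip h0 D hA hτ hτn ρ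
    rw [hρ, norm_zero, mul_zero] at this
    exact norm_le_zero_iff.1 this
  · intro y
    obtain ⟨h, ⟨B, hB⟩, hh⟩ := hSr (fn y) ‖y‖ (fn_hb h0 y) (fn_even y)
    have h4 : ∀ i j, HB a |Cτ| (fun x => tauf v x i j) := by
      intro i j
      have h5 := HB.mono (fn_hb h0 (τ i j)) ((hτn i j).trans (le_abs_self _))
      have h6 : fn (τ i j) = fun x => tauf v x i j := funext fun x => hτ i j x
      rwa [h6] at h5
    have h1 : (fun x => LA (fun _ => (1 : Matrix (Fin n) (Fin n) ℝ)) h x + h x)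
        = fun x => fn y x
          + ∑ i, ∑ j, ((1 : Matrix (Fin n) (Fin n) ℝ) i j - tauf v x i j) * Hs h x i j := by
      funext x
      rw [← hh x]
      unfold LA
      simp only [sub_mul, Finset.sum_sub_distrib]
      ring
    have h2 : ∀ i j, HB a (2 * (1 + |Cτ|) * B) (fun x =>
        ((1 : Matrix (Fin n) (Fin n) ℝ) i j - tauf v x i j) * Hs h x i j) := by
      intro i j
      refine HB.mul ?_ (hB.hb i j)
      have h3 : HB a 1 (fun _ : E n => (1 : Matrix (Fin n) (Fin n) ℝ) i j) := by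
        have h2 := HB.const (n := n) (a := a) ((1 : Matrix (Fin n) (Fin n) ℝ) i j)
        refine HB.mono h2 ?_
        rw [Matrix.one_apply]; split_ifs <;> simp
      exact HB.sub h3 (h4 i j)
    have h3 := HB.add (fn_hb h0 y)
      (HB.sum Finset.univ fun i _ => HB.sum Finset.univ fun j _ => h2 i j)
    have hev : ∀ x, fn y (-x)
          + ∑ i, ∑ j, ((1 : Matrix (Fin n) (Fin n) ℝ) i j - tauf v (-x) i j) * Hs h (-x) i j
        = fn y x
          + ∑ i, ∑ j, ((1 : Matrix (Fin n) (Fin n) ℝ) i j - tauf v x i j) * Hs h x i j := by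
      intro x
      simp only [← hτ, fn_even, Hs_even hB.c2 hB.even]
    obtain ⟨ρ, hρ, -⟩ := exists_YY h0 h3 hev
    refine ⟨ρ, ?_⟩
    have hvv : D.vv ρ = h := D.uq ρ h hB.c2 hB.even ⟨B, fun x i j => (hB.hb i j).1 x⟩ fun x => by
      rw [hρ]; exact congrFun h1 x
    refine YYext fun x => ?_
    rw [fn_DK h0 D hτ, hvv, hh]

/-- solvability from invertibility -/
theorem srj_of {v : E n → ℝ} {τ : Fin n → Fin n → YY n a}
    (hτ : ∀ i j x, fn (τ i j) x = tauf v x i j)
    (hU : IsUnit (DK (Kt h0 D) (trY n h0) (MO h0 τ))) : Srj a (tauf v) := by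
  intro f N hf he
  obtain ⟨y, hy, -⟩ := exists_YY h0 hf he
  obtain ⟨ρ, hρ⟩ := (ContinuousLinearMap.isUnit_iff_bijective.1 hU).2 y
  refine ⟨D.vv ρ, ⟨_, cls_vv h0 D ρ⟩, fun x => ?_⟩
  rw [← fn_DK h0 D hτ, hρ, hy]

include h0 in
/-- `(L₀+1) v` for a solution of the Monge-Ampere equation -/
theorem exists_r {v P : E n → ℝ} {s M NP : ℝ} (hv : Cls a M v) (hP : HB a NP P) (hPe : ∀ x, P (-x) = P x)
    (hMA : MAeq P s v) (hL : ∃ N, HB a N (fun x => Real.log (gm v x).det)) :
    ∃ r : YY n a, D.vv r = v := by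
  obtain ⟨N, hN⟩ := hL
  have h1 : (fun x => LA (fun _ => (1 : Matrix (Fin n) (Fin n) ℝ)) v x + v x)
      = fun x => (∑ i, Hs v x i i) + (- Real.log (gm v x).det + (-s) * P x) := by
    funext x
    have h2 := hMA x
    have h3 : ∑ i, ∑ j, (1 : Matrix (Fin n) (Fin n) ℝ) i j * Hs v x i j = ∑ i, Hs v x i i := by
      refine Finset.sum_congr rfl fun i _ => ?_
      rw [Finset.sum_eq_single i]
      · simp
      · intro j _ hj; simp [hj.symm]
      · simp
    unfold LA
    rw [h3]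
    linarith
  have h2 := HB.add (HB.sum Finset.univ fun i _ => hv.hb i i)
    (HB.add (HB.neg hN) (HB.const_mul (-s) hP))
  have hev : ∀ x, gm v (-x) = gm v x := by
    intro x
    ext i j
    rw [ExtInv.gm_apply, ExtInv.gm_apply, Hs_even hv.c2 hv.even]
  obtain ⟨r, hr, -⟩ := exists_YY h0 h2 (fun x => by
    simp only [Hs_even hv.c2 hv.even, hev, hPe])
  refine ⟨r, D.uq r v hv.c2 hv.even ⟨M, fun x i j => (hv.hb i j).1 x⟩ fun x => ?_⟩
  rw [hr]
  exact congrFun h1 x

/-- value of the Monge-Ampere functional in terms of `r` -/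
theorem ma_fn (r : YY n a) (x : E n) :
    - fderiv ℝ (D.vv r) x x + D.vv r x = fn r x - ∑ i, fn (D.K r i i) x := by
  rw [← D.eqn r x]
  unfold LA
  have h3 : ∑ i, ∑ j, (1 : Matrix (Fin n) (Fin n) ℝ) i j * Hs (D.vv r) x i j
      = ∑ i, fn (D.K r i i) x := by
    refine Finset.sum_congr rfl fun i _ => ?_
    rw [Finset.sum_eq_single i, D.fnK]
    · simp
    · intro j _ hj; simp [hj.symm]
    · simp
  rw [h3]; ring

/-- the Monge-Ampere equation is preserved along the ODE -/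
theorem ma_path {P : E n → ℝ} {PY : YY n a} (hPY : ∀ x, fn PY x = P x) {s s' lo hi : ℝ}
    (hs : s ≤ s') (hlo : 0 < lo) {α : ℝ → YY n a}
    (hE : ∀ t ∈ Icc s s', ∀ x, Ell lo hi (gm (D.vv (α t)) x))
    (hτ : ∀ t ∈ Icc s s', ∃ τ : Fin n → Fin n → YY n a,
      ∀ i j x, fn (τ i j) x = tauf (D.vv (α t)) x i j)
    (hG : ∀ t ∈ Icc s s', Good (Kt h0 D) (trY n h0) (α t) ∧
      HasDerivWithinAt α (vf (Kt h0 D) (trY n h0) PY (α t)) (Icc s s') t)
    (h : MAeq P s (D.vv (α s))) : MAeq P s' (D.vv (α s')) := by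
  intro x
  set φ : ℝ → ℝ := fun t => Real.log (gm (D.vv (α t)) x).det
    + (fn (α t) x - ∑ i, fn (D.K (α t) i i) x) + t * P x with hφ
  have hd : ∀ t ∈ Icc s s', HasDerivWithinAt φ 0 (Icc s s') t := by
    intro t ht
    obtain ⟨hg, hder⟩ := hG t ht
    obtain ⟨τ, hτt⟩ := hτ t ht
    have hu := unit_of h0 D hlo (hE t ht) hτt
    set β : YY n a := vf (Kt h0 D) (trY n h0) PY (α t) with hβ
    -- evaluation maps
    have e1 : HasDerivWithinAt (fun t => fn (α t) x) (fn β x) (Icc s s') t :=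
      (evY h0 x).hasFDerivAt.comp_hasDerivWithinAt t hder
    have e2 : ∀ i j, HasDerivWithinAt (fun t => fn (D.K (α t) i j) x) (fn (D.K β i j) x)
        (Icc s s') t := by
      intro i j
      have hK1 : HasDerivWithinAt (fun t => D.K (α t)) (D.K β) (Icc s s') t :=
        D.K.hasFDerivAt.comp_hasDerivWithinAt t hder
      have hK2 : HasDerivWithinAt (fun t => D.K (α t) i j) (D.K β i j) (Icc s s') t :=
        (hasDerivWithinAt_pi.1 ((hasDerivWithinAt_pi.1 hK1) i)) j
      exact (evY h0 x).hasFDerivAt.comp_hasDerivWithinAt t hK2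
    have e3 : HasDerivWithinAt (fun t => Real.log (gm (D.vv (α t)) x).det)
        (∑ i, ∑ j, (gm (D.vv (α t)) x)⁻¹ i j * Hs (D.vv β) x i j) (Icc s s') t := by
      refine sm_hasDerivWithinAt_log_det_sum (g := fun t => gm (D.vv (α t)) x)
        (g' := Matrix.of fun i j => Hs (D.vv β) x i j) ?_ ?_ (Ell.sm_det_pos hlo (hE t ht x))
      · intro i j
        have h1 := (e2 i j).const_add ((1 : Matrix (Fin n) (Fin n) ℝ) i j)
        have h2 : (fun t => gm (D.vv (α t)) x i j)
            = fun t => (1 : Matrix (Fin n) (Fin n) ℝ) i j + fn (D.K (α t) i j) x :=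
          funext fun t => by rw [ExtInv.gm_apply, D.fnK]
        rw [D.fnK] at h1
        show HasDerivWithinAt (fun t => gm (D.vv (α t)) x i j) (Hs (D.vv β) x i j) _ _
        rw [h2]
        exact h1
      · intro i j
        exact ExtInv.Hs_symm (D.c2 β) x i j
    have e4 : HasDerivWithinAt (fun t => ∑ i, fn (D.K (α t) i i) x) (∑ i, fn (D.K β i i) x)
        (Icc s s') t := HasDerivWithinAt.fun_sum fun i _ => e2 i i
    have e5 : HasDerivWithinAt (fun t : ℝ => t * P x) (1 * P x) (Icc s s') t :=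
      (hasDerivWithinAt_id t _).mul_const _
    have e6 := (e3.add (e1.sub e4)).add e5
    -- the value of the derivative
    have hDK : DK (Kt h0 D) (trY n h0) (ginv (Kt h0 D) (α t)) β = -PY := by
      rw [hβ, vf, map_neg]
      have := Ring.mul_inverse_cancel _ hg.2
      calc -(DK (Kt h0 D) (trY n h0) (ginv (Kt h0 D) (α t)))
            ((Ring.inverse (DK (Kt h0 D) (trY n h0) (ginv (Kt h0 D) (α t)))) PY)
          = -((DK (Kt h0 D) (trY n h0) (ginv (Kt h0 D) (α t)) *
            Ring.inverse (DK (Kt h0 D) (trY n h0) (ginv (Kt h0 D) (α t)))) PY) := rfl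
        _ = -PY := by rw [this]; rfl
    have hval : (∑ i, ∑ j, (gm (D.vv (α t)) x)⁻¹ i j * Hs (D.vv β) x i j)
        + (fn β x - ∑ i, fn (D.K β i i) x) + 1 * P x = 0 := by
      have h1 : fn (DK (Kt h0 D) (trY n h0) (ginv (Kt h0 D) (α t)) β) x = fn (-PY) x := by
        rw [hDK]
      rw [hu.2, fn_DK h0 D hτt, fn_neg, hPY] at h1
      rw [← ma_fn D β x]
      unfold LA tauf at h1
      linarith
    have e7 : HasDerivWithinAt φ ((∑ i, ∑ j, (gm (D.vv (α t)) x)⁻¹ i j * Hs (D.vv β) x i j)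
        + (fn β x - ∑ i, fn (D.K β i i) x) + 1 * P x) (Icc s s') t := e6
    rwa [hval] at e7
  have hconst : φ s' = φ s := by
    have := (convex_Icc s s').norm_image_sub_le_of_norm_hasDerivWithin_le (f := φ)
      (f' := fun _ => 0) (C := 0) hd (fun _ _ => by simp) (left_mem_Icc.2 hs)
      (right_mem_Icc.2 hs)
    rw [zero_mul] at this
    exact sub_eq_zero.1 (norm_le_zero_iff.1 this)
  have h1 := h x
  have h2 := ma_fn D (α s) x
  have h3 := ma_fn D (α s') x
  simp only [hφ] at hconst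
  linarith

include h0 in
theorem cls_diff (r r' : YY n a) (i j : Fin n) :
    HB a (D.C * ‖r - r'‖) (fun x => Hs (D.vv r) x i j - Hs (D.vv r') x i j) := by
  have h := HB.mono (fn_hb h0 (D.K (r - r') i j)) (D.nK (r - r') i j)
  have h2 : fn (D.K (r - r') i j) = fun x => Hs (D.vv r) x i j - Hs (D.vv r') x i j := by
    funext x
    rw [map_sub, Pi.sub_apply, Pi.sub_apply, fn_sub, D.fnK, D.fnK]
  rwa [h2] at h

end Crest.Agent.R238.Step
end

-- ▼ part R238/StepFin
section

/-! Row 238, H5: final theorem `step_stmt : SolStmt → RepStmt → StepStmt`. -/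

set_option autoImplicit false

open MeasureTheory Set Filter Metric
open scoped ContDiff Topology BoundedContinuousFunction

namespace Crest.Agent.R238.Step

open Crest.Agent.R238 Crest.Agent.R238.EStep

theorem step_stmt (hS : SolStmt) (hR : RepStmt) : StepStmt := by
  intro n a lo hi M M2 NP δ h0 h1 hlo hhi hδ
  obtain ⟨D⟩ := exists_KDat hS hR n h0 h1
  -- constants
  set Cτ : ℝ := 1 / lo + (n : ℝ) ^ 2 * (1 / lo) ^ 2 * (1 + |M|) with hCτ
  have hCτ0 : 0 < Cτ := by positivity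
  set M0 : ℝ := 2 * n * Cτ + 1 with hM0
  have hM00 : 0 < M0 := by positivity
  set M2' : ℝ := 1 + (n : ℝ) ^ 2 * (2 * (1 + |Cτ|) * |M2|) with hM2'
  have hM20 : 0 < M2' := by positivity
  set δ₁ : ℝ := min δ (lo / (2 * (n + 1))) with hδ₁
  have hδ₁0 : 0 < δ₁ := by positivity
  set d0 : ℝ := δ₁ / D.C with hd0
  have hC := D.hC
  have hd00 : 0 < d0 := by positivity
  obtain ⟨t₀, ht₀, H⟩ := ode_step (Kt h0 D) (trY n h0) (max NP 0) M0 M2' d0 hM00 hM20 hd00
    (le_max_right _ _)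
  refine ⟨t₀, ht₀, ?_⟩
  intro P hP hPe s v hv hE hMA hA hSr s' hs'
  obtain ⟨PY, hPY, hPYn⟩ := exists_YY h0 hP hPe
  have hgm : ∀ i j, HB a (1 + |M|) (fun x => gm v x i j) := by
    intro i j
    have h1 : HB a 1 (fun _ : E n => (1 : Matrix (Fin n) (Fin n) ℝ) i j) := by
      have h2 := HB.const (n := n) (a := a) ((1 : Matrix (Fin n) (Fin n) ℝ) i j)
      refine HB.mono h2 ?_
      rw [Matrix.one_apply]; split_ifs <;> simp
    have h3 := HB.add h1 (HB.mono (hv.hb i j) (le_abs_self M))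
    have h4 : (fun x => gm v x i j)
        = fun x => (1 : Matrix (Fin n) (Fin n) ℝ) i j + Hs v x i j := funext fun x => by
      rw [ExtInv.gm_apply]
    rw [h4]; exact h3
  have hL : ∃ N, HB a N (fun x => Real.log (gm v x).det) :=
    hb_logdet h0 hlo hE hgm
  obtain ⟨r, hr⟩ := exists_r h0 D hv hP hPe hMA hL
  obtain ⟨τ, hτ, hτn⟩ := exists_tau h0 hlo hhi hv hE
  have hτr : ∀ i j x, fn (τ i j) x = tauf (D.vv r) x i j := by rw [hr]; exact hτ
  have hEr : ∀ x, Ell lo hi (gm (D.vv r) x) := by rw [hr]; exact hE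
  have hu := unit_of h0 D hlo hEr hτr
  have hUD : IsUnit (DK (Kt h0 D) (trY n h0) (MO h0 τ)) := isUnit_DK h0 D hA hSr hτ hτn
  have hG0 : Good (Kt h0 D) (trY n h0) r := ⟨hu.1, by rw [hu.2]; exact hUD⟩
  have hi0 : ‖ginv (Kt h0 D) r‖ ≤ M0 := by
    rw [hu.2]
    refine (MO_norm h0 τ).trans ?_
    have : ‖τ‖ ≤ Cτ := (pi_norm_le_iff_of_nonneg hCτ0.le).2 fun i =>
      (pi_norm_le_iff_of_nonneg hCτ0.le).2 fun j => hτn i j
    have h2 : 2 * (n : ℝ) * ‖τ‖ ≤ 2 * n * Cτ := by gcongr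
    linarith
  have hi2 : ‖Ring.inverse (DK (Kt h0 D) (trY n h0) (ginv (Kt h0 D) r))‖ ≤ M2' := by
    rw [hu.2]
    exact inverse_le_of_antilip hUD hM20.le (antilip h0 D hA hτ hτn)
  obtain ⟨α, hα0, hα⟩ := H PY (hPYn.trans (le_max_left _ _)) r hG0 hi0 hi2 s
  have hsub : Icc s s' ⊆ Icc s (s + t₀) := Icc_subset_Icc le_rfl hs'.2
  -- closeness along the path
  have hclose : ∀ t ∈ Icc s s', ∀ i j,
      HB a δ₁ (fun x => Hs (D.vv (α t)) x i j - Hs v x i j) := by
    intro t ht i j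
    have h1 := cls_diff h0 D (α t) r i j
    rw [hr] at h1
    refine HB.mono h1 ?_
    calc D.C * ‖α t - r‖ ≤ D.C * d0 := by
          gcongr; exact (hα t (hsub ht)).2.2
      _ = δ₁ := by rw [hd0]; field_simp
  have hEll : ∀ t ∈ Icc s s', ∀ x, Ell (lo / 2) (hi + lo / 2) (gm (D.vv (α t)) x) := by
    intro t ht x
    have h1 : gm (D.vv (α t)) x
        = gm v x + Matrix.of (fun i j => Hs (D.vv (α t)) x i j - Hs v x i j) := by
      ext i j
      rw [Matrix.add_apply, ExtInv.gm_apply, ExtInv.gm_apply, Matrix.of_apply]; ring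
    rw [h1]
    refine Ell.sm_add_small hlo.le (hE x) (fun i j => ?_) (fun i j => ?_)
    · rw [Matrix.of_apply, Matrix.of_apply, ExtInv.Hs_symm (D.c2 (α t)) x i j,
        ExtInv.Hs_symm hv.c2 x i j]
    · rw [Matrix.of_apply]
      refine ((hclose t ht i j).1 x).trans ?_
      have hn : (0 : ℝ) < n := by
        have : 0 < n := Fin.pos i
        exact_mod_cast this
      refine (min_le_right _ _).trans ?_
      exact div_le_div_of_nonneg_left hlo.le (by positivity) (by linarith)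
  have hcls : ∀ t ∈ Icc s s', Cls a (M + δ) (D.vv (α t)) := by
    intro t ht
    refine ⟨D.c2 _, D.ev _, fun i j => ?_⟩
    have h1 := HB.add (hv.hb i j) (HB.mono (hclose t ht i j) (min_le_left _ _))
    have h2 : (fun x => Hs v x i j + (Hs (D.vv (α t)) x i j - Hs v x i j))
        = fun x => Hs (D.vv (α t)) x i j := by funext x; ring
    rwa [h2] at h1
  have hhi2 : lo / 2 ≤ hi + lo / 2 := by linarith
  have htau : ∀ t ∈ Icc s s', ∃ τ : Fin n → Fin n → YY n a,
      ∀ i j x, fn (τ i j) x = tauf (D.vv (α t)) x i j := by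
    intro t ht
    obtain ⟨τ', h1, -⟩ := exists_tau h0 (half_pos hlo) hhi2 (hcls t ht) (hEll t ht)
    exact ⟨τ', h1⟩
  have hs1 : s' ∈ Icc s s' := ⟨hs'.1, le_rfl⟩
  refine ⟨D.vv (α s'), hcls s' hs1, fun i j => HB.mono (hclose s' hs1 i j) (min_le_left _ _),
    hEll s' hs1, ?_, ?_⟩
  · refine ma_path h0 D (fun x => congrFun hPY x) hs'.1 (half_pos hlo) hEll htau
      (fun t ht => ⟨(hα t (hsub ht)).1, (hα t (hsub ht)).2.1.mono hsub⟩) ?_
    rw [hα0, hr]; exact hMA
  · obtain ⟨τ', h1⟩ := htau s' hs1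
    have hu' := unit_of h0 D (half_pos hlo) (hEll s' hs1) h1
    have hg := (hα s' (hsub hs1)).1.2
    rw [hu'.2] at hg
    exact srj_of h0 D h1 hg

end Crest.Agent.R238.Step
end

-- ▼ part R238/XInst3
section

/-! Row 238: the x-side instance of 390's abstract identity: `HData` and `HInt` (helper703). -/

set_option autoImplicit false
open scoped ContDiff Topology
open Set Filter MeasureTheory Finset

noncomputable section

namespace Crest.Agent.R238.XInst

variable {n : ℕ}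

/-- ideal of compactly supported smooth functions -/
def CI (n : ℕ) : Ideal (SA n) where
  carrier := {f | HasCompactSupport (f : E n → ℝ)}
  add_mem' := by
    intro f g hf hg
    rw [Set.mem_ofPred_eq] at *
    exact hf.add hg
  zero_mem' := by
    rw [Set.mem_ofPred_eq]
    exact HasCompactSupport.zero
  smul_mem' := by
    intro c f hf
    rw [Set.mem_ofPred_eq] at *
    exact hf.mul_left

theorem mem_CI {f : SA n} : f ∈ CI n ↔ HasCompactSupport (f : E n → ℝ) := Iff.rfl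

theorem pd_mem {f : SA n} (hf : f ∈ CI n) (a : Fin n) : pd a f ∈ CI n :=
  HasCompactSupport.fderiv_apply ℝ (mem_CI.1 hf) (ee a)

theorem integrable_of_mem {f : SA n} (hf : f ∈ CI n) : Integrable (f : E n → ℝ) :=
  (sm f).continuous.integrable_of_hasCompactSupport (mem_CI.1 hf)

theorem integral_pd {f : SA n} (hf : f ∈ CI n) (g : SA n) (a : Fin n) :
    ∫ x, (pd a f : E n → ℝ) x * (g : E n → ℝ) x = - ∫ x, (f : E n → ℝ) x * (pd a g : E n → ℝ) x := by
  have h1 : Integrable fun x => fderiv ℝ (f : E n → ℝ) x (ee a) * (g : E n → ℝ) x :=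
    integrable_of_mem ((CI n).mul_mem_right g (pd_mem hf a))
  have h2 : Integrable fun x => (f : E n → ℝ) x * fderiv ℝ (g : E n → ℝ) x (ee a) :=
    integrable_of_mem ((CI n).mul_mem_right (pd a g) hf)
  have h3 : Integrable fun x => (f : E n → ℝ) x * (g : E n → ℝ) x :=
    integrable_of_mem ((CI n).mul_mem_right g hf)
  have h := integral_mul_fderiv_eq_neg_fderiv_mul_of_integrable h1 h2 h3
    (fun x _ => sdiffAt f x) (fun x _ => sdiffAt g x)
  have h' : ∫ x, (f : E n → ℝ) x * (pd a g : E n → ℝ) x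
      = - ∫ x, (pd a f : E n → ℝ) x * (g : E n → ℝ) x := h
  rw [h', neg_neg]

/-- integral on the ideal -/
def I0 (n : ℕ) : ((CI n).restrictScalars ℝ) →ₗ[ℝ] ℝ where
  toFun := fun f => ∫ x, ((f : SA n) : E n → ℝ) x
  map_add' := by
    intro f g
    have hf : Integrable fun x => ((f : SA n) : E n → ℝ) x := integrable_of_mem f.2
    have hg : Integrable fun x => ((g : SA n) : E n → ℝ) x := integrable_of_mem g.2
    rw [← integral_add hf hg]
    rfl
  map_smul' := by
    intro c f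
    rw [RingHom.id_apply, smul_eq_mul, ← integral_const_mul]
    rfl

/-- the integral, extended to all smooth functions (algebraically) -/
def I1 (n : ℕ) : SA n →ₗ[ℝ] ℝ := (LinearMap.exists_extend (I0 n)).choose

theorem I1_eq {f : SA n} (hf : f ∈ CI n) : I1 n f = ∫ x, (f : E n → ℝ) x :=
  LinearMap.congr_fun (LinearMap.exists_extend (I0 n)).choose_spec ⟨f, hf⟩

theorem I1_pd {f : SA n} (hf : f ∈ CI n) (g : SA n) (a : Fin n) :
    I1 n (pd a f * g) = - I1 n (f * pd a g) := by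
  rw [I1_eq ((CI n).mul_mem_right _ (pd_mem hf a)), I1_eq ((CI n).mul_mem_right _ hf)]
  exact integral_pd hf g a

namespace XD

variable (X : XD n)

/-- weight `e^{-Ψ}` -/
def W : SA n := ⟨fun x => Real.exp (-X.Psi x), (X.hPsi.neg.exp : ContDiff ℝ ∞ fun x => Real.exp (-X.Psi x))⟩

theorem pd_W (a : Fin n) : pd a X.W = - (pd a X.PS * X.W) := by
  refine ext_ev fun x => ?_
  have h5 : HasFDerivAt X.Psi (fderiv ℝ X.Psi x) x :=
    ((X.hPsi.differentiable (by simp)) x).hasFDerivAt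
  have h6 : HasFDerivAt (fun x => Real.exp (-X.Psi x)) (Real.exp (-X.Psi x) • -fderiv ℝ X.Psi x) x :=
    h5.neg.exp
  show fderiv ℝ (fun x => Real.exp (-X.Psi x)) x (ee a)
    = - (fderiv ℝ X.Psi x (ee a) * Real.exp (-X.Psi x))
  rw [h6.fderiv]
  simp only [smul_apply, neg_apply, smul_eq_mul]
  ring

/-- the functional `f ↦ ∫ f e^{-Ψ}`, extended to all smooth functions -/
def EE : SA n →ₗ[ℝ] ℝ := (I1 n).comp (LinearMap.mulRight ℝ X.W)

theorem EE_apply (f : SA n) : X.EE f = I1 n (f * X.W) := rfl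


theorem ibp (i : Fin n) {f : SA n} (hf : f ∈ CI n) :
    X.EE (DD pd X.T i f) = X.EE (co i * f) := by
  rw [EE_apply, EE_apply]
  have h1 : DD pd X.T i f * X.W = ∑ k, pd k f * (X.T i k * X.W) := by
    rw [DD_apply, Finset.sum_mul]
    exact Finset.sum_congr rfl fun k _ => by ring
  have h2 : ∑ k, pd k (X.T i k * X.W) = - (co i * X.W) := by
    have h3 : ∀ k, pd k (X.T i k * X.W) = pd k (X.T i k) * X.W - X.T i k * pd k X.PS * X.W := by
      intro k
      rw [Derivation.leibniz, smul_eq_mul, smul_eq_mul, X.pd_W]; ring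
    simp only [h3, Finset.sum_sub_distrib, ← Finset.sum_mul, X.div_T]
    ring
  rw [h1, map_sum]
  have h4 : ∀ k, I1 n (pd k f * (X.T i k * X.W)) = I1 n (-(f * pd k (X.T i k * X.W))) := by
    intro k
    rw [I1_pd hf, map_neg]
  rw [Finset.sum_congr rfl fun k _ => h4 k, ← map_sum, Finset.sum_neg_distrib, ← Finset.mul_sum, h2]
  congr 1
  ring

/-- the Hessian structure -/
def hd : HData (Fin n) (SA n) where
  D := DD pd X.T
  Dcomm := X.ad.D_comm
  th := co
  tau_symm := by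
    intro i j
    rw [X.ad.D_coord, X.ad.D_coord, X.ad.symm]
  g := fun i j => pd i (pd j X.U)
  g_symm := fun i j => pd_comm i j _
  g_inv := by
    intro i j
    simp only [X.ad.D_coord]
    exact X.ad.inv' i j

@[simp] theorem hd_D (i : Fin n) (f : SA n) : X.hd.D i f = ∑ k, X.T i k * pd k f := DD_apply i f





/-- the integration functional -/
def hi : HInt X.hd where
  I := CI n
  hI := by
    intro i f hf
    rw [hd_D]
    exact Ideal.sum_mem _ fun k _ => (CI n).mul_mem_left _ (pd_mem hf k)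
  E := X.EE
  ibp := fun i _ hf => X.ibp i hf






end XD

end Crest.Agent.R238.XInst
end
end

-- ▼ part R238/Asm3
section

/-! Row 238, ASM part 3: `Exi n → Ident n → Dens n → Soft.LocalIneq n`. (helper477) -/

set_option autoImplicit false
open scoped ContDiff Topology
open Set Filter MeasureTheory

noncomputable section

namespace Crest.Agent.R238.Asm

open Crest.Agent.R238.Soft

variable {n m : ℕ}

/-! ### smoothness of `Lop v h` -/

theorem Hs_smooth {f : E n → ℝ} (hf : ContDiff ℝ ∞ f) (i j : Fin n) :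
    ContDiff ℝ ∞ (fun x => Hs f x i j) := by
  unfold Hs
  have h1 : ContDiff ℝ ∞ (fderiv ℝ f) := hf.fderiv_right (by simp)
  have h2 : ContDiff ℝ ∞ (fderiv ℝ (fderiv ℝ f)) := h1.fderiv_right (by simp)
  exact (h2.clm_apply contDiff_const).clm_apply contDiff_const












end Crest.Agent.R238.Asm
end
namespace Crest.Agent.R238.Asm.Ell
end Crest.Agent.R238.Asm.Ell
end

-- ▼ part R238/IdMain1
section

/-! Row 238, IDENT (iii), part 1: the instance `XD` attached to a solution `(P, v)`. (helper477) -/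

set_option autoImplicit false
open scoped ContDiff Topology
open Set Filter MeasureTheory Finset

noncomputable section

namespace Crest.Agent.R238.IdM

open Crest.Agent.R238.XInst

variable {n m : ℕ}

/-- `u = |x|²/2 + v` -/
def uu (v : E n → ℝ) (x : E n) : ℝ := ‖x‖ ^ 2 / 2 + v x

/-- `Ψ = |x|²/2 + P` -/
def ps (P : E n → ℝ) (x : E n) : ℝ := ‖x‖ ^ 2 / 2 + P x

theorem smooth_nsq2 : ContDiff ℝ ∞ (fun x : E n => ‖x‖ ^ 2 / 2) :=
  (contDiff_id.norm_sq ℝ).div_const 2

theorem uu_smooth {v : E n → ℝ} (hv : ContDiff ℝ ∞ v) : ContDiff ℝ ∞ (uu v) :=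
  smooth_nsq2.add hv

theorem ps_smooth {P : E n → ℝ} (hP : ContDiff ℝ ∞ P) : ContDiff ℝ ∞ (ps P) :=
  smooth_nsq2.add hP

theorem fderiv_nsq2 : fderiv ℝ (fun x : E n => ‖x‖ ^ 2 / 2) = fun x => innerSL ℝ x := by
  funext x
  have h := ((hasStrictFDerivAt_norm_sq x).hasFDerivAt).mul_const (2⁻¹ : ℝ)
  have h2 : HasFDerivAt (fun x : E n => ‖x‖ ^ 2 / 2) (innerSL ℝ x) x := by
    have e : (fun x : E n => ‖x‖ ^ 2 / 2) = fun x : E n => ‖x‖ ^ 2 * 2⁻¹ := by
      funext x; rw [div_eq_mul_inv]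
    rw [e]
    refine h.congr_fderiv ?_
    ext y; simp
  exact h2.fderiv

theorem fderiv_uu {v : E n → ℝ} (hv : ContDiff ℝ ∞ v) :
    fderiv ℝ (uu v) = fun x => innerSL ℝ x + fderiv ℝ v x := by
  funext x
  have h1 : HasFDerivAt (fun x : E n => ‖x‖ ^ 2 / 2) (innerSL ℝ x) x := by
    have h := ((smooth_nsq2 (n := n)).differentiable (by simp) x).hasFDerivAt
    rwa [fderiv_nsq2] at h
  have h2 := (hv.differentiable (by simp) x).hasFDerivAt
  exact (h1.add h2).fderiv

/-- inner product as a bilinear map -/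
def inn (n : ℕ) : E n →L[ℝ] E n →L[ℝ] ℝ := innerSL ℝ

theorem inn_apply (x y : E n) : inn n x y = inner ℝ x y := rfl

theorem Hs_uu {v : E n → ℝ} (hv : ContDiff ℝ ∞ v) (x : E n) (i j : Fin n) :
    Hs (uu v) x i j = (1 : Matrix (Fin n) (Fin n) ℝ) i j + Hs v x i j := by
  unfold Hs
  rw [fderiv_uu hv]
  have h1 : HasFDerivAt (fun x : E n => (innerSL ℝ x : E n →L[ℝ] ℝ)) (inn n) x :=
    (inn n).hasFDerivAt
  have h2 : HasFDerivAt (fderiv ℝ v) (fderiv ℝ (fderiv ℝ v) x) x :=
    ((hv.fderiv_right (m := 1) (by norm_cast)).differentiable (by norm_num) x).hasFDerivAt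
  have h3 : fderiv ℝ (fun x : E n => (innerSL ℝ x : E n →L[ℝ] ℝ) + fderiv ℝ v x) x
      = inn n + fderiv ℝ (fderiv ℝ v) x := (h1.add h2).fderiv
  rw [h3]
  simp only [add_apply, inn_apply]
  congr 1
  rw [EuclideanSpace.inner_single_left]
  by_cases hij : i = j
  · subst hij; simp
  · simp [hij]





end Crest.Agent.R238.IdM
end
end

-- ▼ part R238/IdMain2
section

/-! Row 238, IDENT (iii), part 2: non-compact integration by parts, the walls in the algebra `SA n`,
the reduction of `Ident n` to the corollary of the exact identity. (helper477) -/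

set_option autoImplicit false
open scoped ContDiff Topology
open Set Filter MeasureTheory Finset

noncomputable section

namespace Crest.Agent.R238.IdM

open Crest.Agent.R238.XInst Crest.Agent.R238.Asm

variable {n m : ℕ}

/-- `∫ L h dμ = 0` -/
theorem int_Lop {P v : E n → ℝ} (hP : PDat P) (hs : Sol P v) {h : E n → ℝ}
    (hh : ContDiff ℝ 2 h) (h1 : ∀ i, Gap.PG (Gap.pd i h))
    (h2 : ∀ i j, Gap.PG (fun x => Gap.H h x i j)) : ∫ x, Lop v h x * wt P x = 0 := by
  obtain ⟨lo, hi, M0, hlo, D⟩ := GapD.dat_of_sol hP hs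
  have h0 : ∀ i, Gap.pd i (fun _ : E n => (1 : ℝ)) = fun _ => 0 := fun i => by
    funext x; simp [Gap.pd]
  have h := D.sym (f := fun _ => (1 : ℝ)) contDiff_const (Gap.pg_const 1)
    (fun i => by rw [h0 i]; exact Gap.pg_const 0) hh h1 h2
  simp only [h0, mul_zero, zero_mul, Finset.sum_const_zero, integral_zero, one_mul, neg_zero] at h
  exact h

theorem pg_of_cs {f : E n → ℝ} (hf : Continuous f) (hs : HasCompactSupport f) : Gap.PG f := by
  obtain ⟨M, hM⟩ := hs.exists_bound_of_continuous hf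
  exact Gap.PG.of_bdd (K := M) fun x => by simpa using hM x

theorem int_Lop_tst {P v : E n → ℝ} (hP : PDat P) (hs : Sol P v) {h : E n → ℝ} (hh : Tst h) :
    ∫ x, Lop v h x * wt P x = 0 := by
  have c1 : ContDiff ℝ ∞ (fderiv ℝ h) := hh.smooth.fderiv_right (by simp)
  refine int_Lop hP hs (hh.smooth.of_le (by norm_cast)) (fun i => ?_) (fun i j => ?_)
  · refine pg_of_cs (c1.continuous.clm_apply continuous_const) ?_
    exact hh.supp.fderiv_apply (𝕜 := ℝ) _
  · have c2 : ContDiff ℝ ∞ (fderiv ℝ (fderiv ℝ h)) := c1.fderiv_right (by simp)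
    refine pg_of_cs ((c2.continuous.clm_apply continuous_const).clm_apply continuous_const) ?_
    have s1 : HasCompactSupport (fderiv ℝ h) := hh.supp.fderiv (𝕜 := ℝ)
    have s2 : HasCompactSupport (fderiv ℝ (fderiv ℝ h)) := s1.fderiv (𝕜 := ℝ)
    exact s2.comp_left (g := fun T : E n →L[ℝ] E n →L[ℝ] ℝ => T (ee i) (ee j)) rfl

/-- the wall: `Hs` -/
theorem Hs_wl {φ : ℝ → ℝ} (h : Soft.Wall φ) (a x : E n) (i j : Fin n) :
    Hs (wl a φ) x i j = deriv (deriv φ) (inner ℝ a x) * a i * a j := by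
  unfold Hs
  rw [fderiv2_wl_apply h]
  simp [EuclideanSpace.inner_single_right]

theorem pg_wl1 {φ : ℝ → ℝ} (h : Soft.Wall φ) (a : E n) (i : Fin n) :
    Gap.PG (Gap.pd i (wl a φ)) := by
  obtain ⟨C, hC0, hC⟩ := h.bdd'
  have e : Gap.pd i (wl a φ) = fun x => deriv φ (inner ℝ a x) * inner ℝ a (ee i) := by
    funext x; exact fderiv_wl_apply h a x (ee i)
  rw [e]
  refine Gap.PG.mul ?_ (Gap.pg_const _)
  have h1 : Gap.PG (fun x : E n => C * inner ℝ a x) := (Gap.pg_const C).mul (Gap.pg_inner a)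
  refine h1.mono fun x => ?_
  rw [abs_mul, abs_of_nonneg hC0]
  exact h.deriv_le hC _

theorem Hs_wl_bdd {φ : ℝ → ℝ} (h : Soft.Wall φ) (a : E n) (i j : Fin n) :
    ∃ C, ∀ x, |Hs (wl a φ) x i j| ≤ C := by
  obtain ⟨C, hC0, hC⟩ := h.bdd'
  refine ⟨C * |a i| * |a j|, fun x => ?_⟩
  rw [Hs_wl h, abs_mul, abs_mul]
  gcongr
  exact hC _

theorem pg_wl2 {φ : ℝ → ℝ} (h : Soft.Wall φ) (a : E n) (i j : Fin n) :
    Gap.PG (fun x => Gap.H (wl a φ) x i j) := by
  obtain ⟨C, hC⟩ := Hs_wl_bdd h a i j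
  exact Gap.PG.of_bdd (K := C) hC

/-- `∫ tr(τ D²Ψ_k) dμ = ∫ x·∇Ψ_k dμ` -/
theorem int_wall {P v : E n → ℝ} (hP : PDat P) (hs : Sol P v) {φ : ℝ → ℝ} (h : Soft.Wall φ)
    (a : E n) (i1 : Integrable fun x => fderiv ℝ (wl a φ) x x * wt P x)
    (i2 : Integrable fun x => (∑ i, ∑ j, tauM v x i j * Hs (wl a φ) x i j) * wt P x) :
    ∫ x, (∑ i, ∑ j, tauM v x i j * Hs (wl a φ) x i j) * wt P x
      = ∫ x, fderiv ℝ (wl a φ) x x * wt P x := by
  have h0 := int_Lop hP hs ((wl_smooth h a).of_le (by norm_cast)) (pg_wl1 h a) (pg_wl2 h a)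
  have h1 : ∫ x, Lop v (wl a φ) x * wt P x
      = (∫ x, (∑ i, ∑ j, tauM v x i j * Hs (wl a φ) x i j) * wt P x)
        - ∫ x, fderiv ℝ (wl a φ) x x * wt P x := by
    rw [← integral_sub i2 i1]
    refine integral_congr_ae (Eventually.of_forall fun x => ?_)
    simp only [Lop, LA]
    ring
  linarith

end Crest.Agent.R238.IdM
end
end

-- ▼ part R238/IdMain3
section

/-! Row 238, IDENT (iii), part 3: `Ident n` from the wall inequality with local right-hand side.
(helper477) -/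

set_option autoImplicit false
open scoped ContDiff Topology
open Set Filter MeasureTheory Finset

noncomputable section

namespace Crest.Agent.R238.IdM

open Crest.Agent.R238.XInst Crest.Agent.R238.Asm

variable {n m : ℕ}

/-- local right-hand side -/
def Nloc {ι : Type*} [Fintype ι] (v : E n → ℝ) (Φ : ι → E n → ℝ) (r : ι → ℝ) (x : E n) : ℝ :=
  ∑ k, r k ^ 2 * ((∑ i, ∑ j, tauM v x i j * Hs (Φ k) x i j)
    + fderiv ℝ (fderiv ℝ (Φ k)) x x x)

/-- 390's inequality, in the form needed here -/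
def Ring390 (n : ℕ) : Prop := ∀ P v : E n → ℝ, PDat P → Sol P v →
  ∀ (m : ℕ) (Φ : Option (Fin m) → E n → ℝ) (r : Option (Fin m) → ℝ),
    (∀ k, ContDiff ℝ ∞ (Φ k)) →
    (∀ x, ∑ k, fderiv ℝ (Φ k) x = fderiv ℝ (ps P) x) →
    (∀ k x w, 0 ≤ fderiv ℝ (fderiv ℝ (Φ k)) x w w) →
    Integrable (fun x => Nloc v Φ r x * wt P x) →
    ∀ ϕ : E n → ℝ, Tst ϕ →
      2 * (∫ x, (∑ k, r k * fderiv ℝ (Φ k) x x) * LL v ϕ x * wt P x)
        - ∫ x, LL v ϕ x ^ 2 * wt P x ≤ ∫ x, Nloc v Φ r x * wt P x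

/-- walls together with `V` -/
def wo (ν : Fin m → E n) (φ : Fin m → ℝ → ℝ) (V : E n → ℝ) : Option (Fin m) → E n → ℝ
  | none => V
  | some k => wl (ν k) (φ k)

/-- coefficients together with `0` -/
def ro (r : Fin m → ℝ) : Option (Fin m) → ℝ
  | none => 0
  | some k => r k

theorem int_wallterm {P v : E n → ℝ} (hP : PDat P) (hs : Sol P v) {φ : ℝ → ℝ}
    (h : Soft.Wall φ) (a : E n) :
    Integrable (fun x => (∑ i, ∑ j, tauM v x i j * Hs (wl a φ) x i j) * wt P x) := by
  obtain ⟨lo, hi, M0, hlo, D⟩ := GapD.dat_of_sol hP hs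
  have hc : ∀ i j, Continuous (fun x => tauM v x i j) := fun i j => (D.hτ i j).continuous
  have hh : ∀ i j, Continuous (fun x => Hs (wl a φ) x i j) := fun i j =>
    (Hs_smooth (wl_smooth h a) i j).continuous
  refine Gap.integrable_pg D.hP.continuous D.bP ?_ ?_
  · exact continuous_finsetSum _ fun i _ => continuous_finsetSum _ fun j _ => (hc i j).mul (hh i j)
  · exact Gap.PG.sum _ fun i _ => Gap.PG.sum _ fun j _ => (D.pgτ i j).mul (pg_wl2 h a i j)

theorem int_wall1 {P : E n → ℝ} (hP : PDat P) {φ : ℝ → ℝ} (h : Soft.Wall φ) (a : E n) :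
    Integrable (fun x => fderiv ℝ (wl a φ) x x * wt P x) := by
  obtain ⟨M, hM⟩ := cs_bounded hP.tst.smooth.continuous hP.tst.supp
  refine Gap.integrable_pg hP.tst.smooth.continuous hM ?_ ?_
  · have := ((wl_smooth h a).fderiv_right (m := ∞) (by simp))
    exact (this.clm_apply contDiff_id).continuous
  · have e : (fun x => fderiv ℝ (wl a φ) x x) = fun x => ∑ b, x b * Gap.pd b (wl a φ) x := by
      funext x; exact Gap.fderiv_apply_eq_sum _ _ _
    rw [e]
    exact Gap.PG.sum _ fun b _ => (Gap.pg_coord b).mul (pg_wl1 h a b)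

theorem int_wall2 {P : E n → ℝ} (hP : PDat P) {φ : ℝ → ℝ} (h : Soft.Wall φ) (a : E n) :
    Integrable (fun x => fderiv ℝ (fderiv ℝ (wl a φ)) x x x * wt P x) := by
  obtain ⟨M, hM⟩ := cs_bounded hP.tst.smooth.continuous hP.tst.supp
  obtain ⟨C, hC0, hC⟩ := h.bdd'
  refine Gap.integrable_pg hP.tst.smooth.continuous hM ?_ ?_
  · have h1 := ((wl_smooth h a).fderiv_right (m := ∞) (by simp))
    have h2 := (h1.fderiv_right (m := ∞) (by simp))
    exact ((h2.clm_apply contDiff_id).clm_apply contDiff_id).continuous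
  · have e : (fun x => fderiv ℝ (fderiv ℝ (wl a φ)) x x x)
        = fun x => deriv (deriv φ) (inner ℝ a x) * inner ℝ a x * inner ℝ a x := by
      funext x; exact fderiv2_wl_apply h a x x x
    rw [e]
    exact ((Gap.PG.of_bdd (K := C) fun x => hC _).mul (Gap.pg_inner a)).mul (Gap.pg_inner a)

theorem int_sum2 {A B : Fin m → E n → ℝ} (c : Fin m → ℝ) (hA : ∀ k, Integrable (A k))
    (hB : ∀ k, Integrable (B k)) :
    ∫ x, ∑ k, c k * (A k x + B k x) = ∑ k, c k * ((∫ x, A k x) + ∫ x, B k x) := by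
  have h : ∀ k ∈ (Finset.univ : Finset (Fin m)), Integrable (fun x => c k * (A k x + B k x)) :=
    fun k _ => ((hA k).add (hB k)).const_mul (c k)
  rw [integral_finsetSum _ h]
  refine Finset.sum_congr rfl fun k _ => ?_
  rw [integral_const_mul, integral_add (hA k) (hB k)]

theorem ident_of_ring (h390 : Ring390 n) : Ident n := by
  intro P v hP hs
  refine ⟨fun h hh => int_Lop_tst hP hs hh, ?_⟩
  intro m ν φ r V b hw hV hVe hVc hU ϕ hϕ
  set Φ := wo ν φ V with hΦ
  have hsm : ∀ k, ContDiff ℝ ∞ (Φ k) := by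
    intro k
    cases k with
    | none => exact hV
    | some k => exact wl_smooth (hw k) _
  have hsum : ∀ x, ∑ k, fderiv ℝ (Φ k) x = fderiv ℝ (ps P) x := by
    intro x
    have e1 : ps P = fun x => (∑ k, Φ k x) - b := by
      funext x
      rw [Fintype.sum_option]
      have := hU x
      rw [Hw_eq] at this
      show ‖x‖ ^ 2 / 2 + P x = V x + (∑ k, wl (ν k) (φ k) x) - b
      rw [this]; ring
    rw [e1]
    have h1 : HasFDerivAt (fun x => ∑ k, Φ k x) (∑ k, fderiv ℝ (Φ k) x) x :=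
      HasFDerivAt.fun_sum fun k _ => ((hsm k).differentiable (by simp) x).hasFDerivAt
    exact ((h1.sub_const b).fderiv).symm
  have hpos : ∀ k x w, 0 ≤ fderiv ℝ (fderiv ℝ (Φ k)) x w w := by
    intro k
    cases k with
    | none => exact fun x w => convex_snd (hV.of_le (by norm_cast)) hVc x w
    | some k =>
      exact fun x w => convex_snd (f := wl (ν k) (φ k))
        ((wl_smooth (hw k) (ν k)).of_le (by norm_cast)) (wl_convex (hw k) (ν k)) x w
  have hN : ∀ x, Nloc v Φ (ro r) x = ∑ k, r k ^ 2 *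
      ((∑ i, ∑ j, tauM v x i j * Hs (wl (ν k) (φ k)) x i j)
        + fderiv ℝ (fderiv ℝ (wl (ν k) (φ k))) x x x) := by
    intro x
    unfold Nloc
    rw [Fintype.sum_option]
    simp [ro, hΦ, wo]
  have i1 : ∀ k, Integrable (fun x => (∑ i, ∑ j, tauM v x i j * Hs (wl (ν k) (φ k)) x i j) * wt P x) :=
    fun k => int_wallterm hP hs (hw k) (ν k)
  have i2 : ∀ k, Integrable (fun x => fderiv ℝ (wl (ν k) (φ k)) x x * wt P x) :=
    fun k => int_wall1 hP (hw k) (ν k)
  have i3 : ∀ k, Integrable (fun x => fderiv ℝ (fderiv ℝ (wl (ν k) (φ k))) x x x * wt P x) :=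
    fun k => int_wall2 hP (hw k) (ν k)
  have hNe : (fun x => Nloc v Φ (ro r) x * wt P x) = fun x => ∑ k, r k ^ 2 *
      ((∑ i, ∑ j, tauM v x i j * Hs (wl (ν k) (φ k)) x i j) * wt P x
        + fderiv ℝ (fderiv ℝ (wl (ν k) (φ k))) x x x * wt P x) := by
    funext x
    rw [hN, Finset.sum_mul]
    exact Finset.sum_congr rfl fun k _ => by ring
  have hNi : Integrable (fun x => Nloc v Φ (ro r) x * wt P x) := by
    rw [hNe]
    exact integrable_finsetSum _ fun k _ => ((i1 k).add (i3 k)).const_mul _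
  have hNr : ∫ x, Nloc v Φ (ro r) x * wt P x = ∫ x, Soft.Nr ν φ r x * wt P x := by
    have e2 : ∀ x, Soft.Nr ν φ r x * wt P x = ∑ k, r k ^ 2 *
      (fderiv ℝ (wl (ν k) (φ k)) x x * wt P x
        + fderiv ℝ (fderiv ℝ (wl (ν k) (φ k))) x x x * wt P x) := by
      intro x
      rw [Nr_eq hw, Finset.sum_mul]
      exact Finset.sum_congr rfl fun k _ => by ring
    have g1 := int_sum2 (fun k => r k ^ 2) i1 i3
    have g2 := int_sum2 (fun k => r k ^ 2) i2 i3
    calc ∫ x, Nloc v Φ (ro r) x * wt P x = _ := by rw [hNe]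
      _ = _ := g1
      _ = _ := by
        refine Finset.sum_congr rfl fun k _ => ?_
        rw [int_wall hP hs (hw k) (ν k) (i2 k) (i1 k)]
      _ = _ := g2.symm
      _ = _ := integral_congr_ae (Eventually.of_forall fun x => (e2 x).symm)
  have hf : ∀ x, ∑ k, ro r k * fderiv ℝ (Φ k) x x = Soft.fr ν φ r x := by
    intro x
    rw [fr_eq hw, Fintype.sum_option]
    simp [ro, hΦ, wo]
  have := h390 P v hP hs m Φ (ro r) hsm hsum hpos hNi ϕ hϕ
  simp only [hf] at this
  rw [hNr] at this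
  exact this

end Crest.Agent.R238.IdM
end
private theorem rz_081464df26 : type_of% @_root_.Crest.Agent.R238.IdM.ro.eq_1 := @_root_.Crest.Agent.R238.IdM.ro.eq_1 -- L40
private theorem rz_9b858937c5 : type_of% @_root_.Crest.Agent.R238.IdM.wo.eq_1 := @_root_.Crest.Agent.R238.IdM.wo.eq_1 -- L35
end

-- ▼ part R238/IdentX1
section

/-!
# Row 238, node IDENT, x-side instance, part 1: the ring of smooth functions
-/

set_option autoImplicit false
set_option linter.unusedSectionVars false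

open Finset MeasureTheory
open scoped ContDiff

namespace Crest.Agent.R238.IdX

/-! ### Jacobi's formula for derivations -/

section Jacobi

variable {ι A : Type*} [Fintype ι] [DecidableEq ι] [CommRing A] [Algebra ℝ A]

lemma der_prod (D : Derivation ℝ A A) (f : ι → A) (s : Finset ι) :
    D (∏ i ∈ s, f i) = ∑ i ∈ s, (∏ j ∈ s.erase i, f j) * D (f i) := by
  induction s using Finset.induction_on with
  | empty => simp
  | insert a s ha ih =>
    rw [prod_insert ha, Derivation.leibniz, ih, sum_insert ha, erase_insert ha, smul_eq_mul,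
      smul_eq_mul, mul_sum, add_comm]
    congr 1
    refine sum_congr rfl fun i hi => ?_
    have hia : i ≠ a := fun h => ha (h ▸ hi)
    rw [erase_insert_of_ne (Ne.symm hia), prod_insert (fun h => ha (mem_of_mem_erase h))]
    ring

lemma der_det (D : Derivation ℝ A A) (M : Matrix ι ι A) :
    D M.det = ∑ i, ∑ j, M.adjugate i j * D (M j i) := by
  have h1 : ∀ i, ∑ j, M.adjugate i j * D (M j i)
      = (M.updateCol i (fun k => D (M k i))).det := by
    intro i
    rw [← Matrix.cramer_apply, Matrix.cramer_eq_adjugate_mulVec, Matrix.mulVec, dotProduct]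
  simp_rw [h1]
  rw [Matrix.det_apply', map_sum]
  simp_rw [Matrix.det_apply']
  rw [sum_comm]
  refine sum_congr rfl fun σ _ => ?_
  have h2 : D (((Equiv.Perm.sign σ : ℤ) : A) * ∏ i, M (σ i) i)
      = ((Equiv.Perm.sign σ : ℤ) : A) * D (∏ i, M (σ i) i) := by
    rw [Derivation.leibniz, smul_eq_mul, smul_eq_mul]
    have : D ((Equiv.Perm.sign σ : ℤ) : A) = 0 := by
      exact D.map_intCast _
    rw [this, mul_zero, add_zero]
  rw [h2, der_prod, mul_sum]
  refine sum_congr rfl fun i _ => ?_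
  congr 1
  rw [← mul_prod_erase univ _ (mem_univ i)]
  rw [mul_comm]
  congr 1
  · simp
  · refine prod_congr rfl fun j hj => ?_
    rw [Matrix.updateCol_apply, if_neg (ne_of_mem_erase hj)]

end Jacobi

variable {n : ℕ}

/-- The ring of smooth functions on `E n`. -/
def Sm (n : ℕ) : Subalgebra ℝ (E n → ℝ) where
  carrier := {f | ContDiff ℝ ∞ f}
  mul_mem' := by
    intro f g hf hg
    rw [Set.mem_ofPred_eq] at *
    exact ContDiff.mul hf hg
  add_mem' := by
    intro f g hf hg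
    rw [Set.mem_ofPred_eq] at *
    exact ContDiff.add hf hg
  algebraMap_mem' := by
    intro c
    rw [Set.mem_ofPred_eq]
    exact contDiff_const

lemma mem_Sm {f : E n → ℝ} : f ∈ Sm n ↔ ContDiff ℝ ∞ f := by
  show f ∈ {f | ContDiff ℝ ∞ f} ↔ _
  rw [Set.mem_ofPred_eq]

lemma smth (f : Sm n) : ContDiff ℝ ∞ (f : E n → ℝ) := mem_Sm.1 f.2

lemma sdiff (f : Sm n) : Differentiable ℝ (f : E n → ℝ) :=
  (smth f).differentiable (by simp)

/-- constructor -/
def mkS (f : E n → ℝ) (hf : ContDiff ℝ ∞ f) : Sm n := ⟨f, mem_Sm.2 hf⟩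

/-- partial derivative as a function -/
lemma contDiff_pd {f : E n → ℝ} (hf : ContDiff ℝ ∞ f) (a : Fin n) :
    ContDiff ℝ ∞ (fun x => fderiv ℝ f x (ee a)) :=
  (hf.fderiv_right (m := ∞) (by simp)).clm_apply contDiff_const

/-- partial derivative on the ring of smooth functions -/
noncomputable def pd (a : Fin n) : Derivation ℝ (Sm n) (Sm n) :=
  Derivation.mk'
    { toFun := fun f => mkS (fun x => fderiv ℝ (f : E n → ℝ) x (ee a)) (contDiff_pd (smth f) a)
      map_add' := by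
        intro f g
        ext x
        show fderiv ℝ (fun y => (f : E n → ℝ) y + (g : E n → ℝ) y) x (ee a) = _
        rw [fderiv_fun_add (sdiff f x) (sdiff g x)]
        rfl
      map_smul' := by
        intro c f
        ext x
        show fderiv ℝ (fun y => c • (f : E n → ℝ) y) x (ee a) = _
        rw [fderiv_fun_const_smul (sdiff f x)]
        rfl }
    (by
      intro f g
      ext x
      show fderiv ℝ (fun y => (f : E n → ℝ) y * (g : E n → ℝ) y) x (ee a) = _
      rw [fderiv_fun_mul (sdiff f x) (sdiff g x)]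
      rfl)

lemma pd_apply (a : Fin n) (f : Sm n) (x : E n) :
    (pd a f : Sm n).1 x = fderiv ℝ (f : E n → ℝ) x (ee a) := rfl

lemma fderiv_pd {f : E n → ℝ} (hf : ContDiff ℝ ∞ f) (a : Fin n) (x v : E n) :
    fderiv ℝ (fun y => fderiv ℝ f y (ee a)) x v = fderiv ℝ (fderiv ℝ f) x v (ee a) := by
  have h1 : DifferentiableAt ℝ (fderiv ℝ f) x :=
    ((hf.fderiv_right (m := ∞) (by simp)).differentiable (by simp)) x
  rw [fderiv_clm_apply h1 (differentiableAt_const _)]
  simp

lemma pd_pd (a b : Fin n) (f : Sm n) (x : E n) :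
    (pd a (pd b f) : Sm n).1 x = Hs (f : E n → ℝ) x a b := by
  rw [pd_apply]
  exact fderiv_pd (smth f) b x (ee a)

lemma Hs_symm {f : E n → ℝ} (hf : ContDiff ℝ ∞ f) (x : E n) (a b : Fin n) :
    Hs f x a b = Hs f x b a := by
  have h : IsSymmSndFDerivAt ℝ f x := by
    refine (hf.contDiffAt (x := x)).isSymmSndFDerivAt ?_
    rw [minSmoothness_of_isRCLikeNormedField]
    exact WithTop.coe_le_coe.2 le_top
  exact h (ee a) (ee b)

lemma pd_comm (a b : Fin n) (f : Sm n) : pd a (pd b f) = pd b (pd a f) := by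
  ext x
  rw [pd_pd, pd_pd, Hs_symm (smth f)]

lemma pd_mkS (a : Fin n) (f : E n → ℝ) (hf : ContDiff ℝ ∞ f) (x : E n) :
    (pd a (mkS f hf) : Sm n).1 x = fderiv ℝ f x (ee a) := rfl

/-- coordinate functions -/
noncomputable def xc (i : Fin n) : Sm n := mkS (fun x => x i) (contDiff_piLp_apply 2)

lemma pd_xc (a i : Fin n) : pd a (xc i : Sm n) = if a = i then 1 else 0 := by
  ext x
  rw [xc, pd_mkS]
  have h : HasFDerivAt (fun x : E n => x i) (EuclideanSpace.proj i : E n →L[ℝ] ℝ) x :=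
    (EuclideanSpace.proj i : E n →L[ℝ] ℝ).hasFDerivAt
  rw [h.fderiv]
  by_cases hai : a = i
  · subst hai; simp
  · simp [hai, Ne.symm hai]

/-! ### compactly supported functions -/

/-- ideal of compactly supported smooth functions -/
def Cc (n : ℕ) : Ideal (Sm n) where
  carrier := {f | HasCompactSupport (f : E n → ℝ)}
  add_mem' := by
    intro f g hf hg
    rw [Set.mem_ofPred_eq] at *
    exact HasCompactSupport.add hf hg
  zero_mem' := by
    rw [Set.mem_ofPred_eq]
    exact HasCompactSupport.zero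
  smul_mem' := by
    intro c f hf
    rw [Set.mem_ofPred_eq] at *
    exact HasCompactSupport.mul_left hf

lemma mem_Cc {f : Sm n} : f ∈ Cc n ↔ HasCompactSupport (f : E n → ℝ) := Iff.rfl

lemma pd_mem_Cc (a : Fin n) {f : Sm n} (hf : f ∈ Cc n) : pd a f ∈ Cc n := by
  rw [mem_Cc] at *
  exact hf.fderiv_apply (𝕜 := ℝ) (ee a)

section functional

variable (Psi : Sm n)

/-- the weight -/
noncomputable def wt (x : E n) : ℝ := Real.exp (-(Psi : E n → ℝ) x)

lemma wt_cont : Continuous (wt Psi) :=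
  Real.continuous_exp.comp (smth Psi).continuous.neg

lemma wt_pos (x : E n) : 0 < wt Psi x := Real.exp_pos _

lemma integrable_Cc {f : Sm n} (hf : f ∈ Cc n) :
    Integrable (fun x => (f : E n → ℝ) x * wt Psi x) := by
  refine Continuous.integrable_of_hasCompactSupport ?_ ?_
  · exact (smth f).continuous.mul (wt_cont Psi)
  · exact HasCompactSupport.mul_right hf

/-- integration on the ideal -/
noncomputable def E0 : ((Cc n).restrictScalars ℝ) →ₗ[ℝ] ℝ where
  toFun f := ∫ x, (f : Sm n).1 x * wt Psi x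
  map_add' := by
    intro f g
    rw [← integral_add (integrable_Cc Psi f.2) (integrable_Cc Psi g.2)]
    refine integral_congr_ae (Filter.Eventually.of_forall fun x => ?_)
    show ((f : Sm n).1 x + (g : Sm n).1 x) * wt Psi x = _
    ring
  map_smul' := by
    intro c f
    rw [RingHom.id_apply, smul_eq_mul, ← integral_const_mul]
    refine integral_congr_ae (Filter.Eventually.of_forall fun x => ?_)
    show (c * (f : Sm n).1 x) * wt Psi x = _
    ring

/-- a linear extension of the integral to all smooth functions -/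
noncomputable def EE : Sm n →ₗ[ℝ] ℝ := (LinearMap.exists_extend (E0 Psi)).choose

lemma EE_eq {f : Sm n} (hf : f ∈ Cc n) : EE Psi f = ∫ x, (f : E n → ℝ) x * wt Psi x := by
  have h := (LinearMap.exists_extend (E0 Psi)).choose_spec
  have h2 := congrArg (fun L : ((Cc n).restrictScalars ℝ) →ₗ[ℝ] ℝ => L ⟨f, hf⟩) h
  exact h2

lemma EE_pd (a : Fin n) {f : Sm n} (hf : f ∈ Cc n) :
    EE Psi (pd a f) = EE Psi (pd a Psi * f) := by
  rw [EE_eq Psi (pd_mem_Cc a hf), EE_eq Psi ((Cc n).mul_mem_left _ hf)]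
  have hw : ContDiff ℝ ∞ (wt Psi) := (smth Psi).neg.exp
  have hwd : Differentiable ℝ (wt Psi) := hw.differentiable (by simp)
  have hw' : ∀ x, fderiv ℝ (wt Psi) x (ee a)
      = - (pd a Psi : Sm n).1 x * wt Psi x := by
    intro x
    have h1 : HasFDerivAt (fun y => -(Psi : E n → ℝ) y) (-(fderiv ℝ (Psi : E n → ℝ) x)) x :=
      ((sdiff Psi x).hasFDerivAt).neg
    have h2 := h1.exp
    have h3 : fderiv ℝ (wt Psi) x
        = Real.exp (-(Psi : E n → ℝ) x) • (-(fderiv ℝ (Psi : E n → ℝ) x)) := h2.fderiv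
    rw [h3, pd_apply]
    simp only [wt, smul_apply, neg_apply, smul_eq_mul]
    ring
  have key := integral_mul_fderiv_eq_neg_fderiv_mul_of_integrable (μ := (volume : Measure (E n)))
    (f := wt Psi) (g := (f : E n → ℝ)) (v := ee a) ?_ ?_ ?_
    (fun x _ => hwd x) (fun x _ => sdiff f x)
  · calc ∫ x, (pd a f : Sm n).1 x * wt Psi x
        = ∫ x, wt Psi x * fderiv ℝ (f : E n → ℝ) x (ee a) := by
          refine integral_congr_ae (Filter.Eventually.of_forall fun x => ?_)
          show (pd a f : Sm n).1 x * wt Psi x = _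
          rw [pd_apply]; ring
      _ = - ∫ x, fderiv ℝ (wt Psi) x (ee a) * (f : E n → ℝ) x := key
      _ = ∫ x, (pd a Psi * f : Sm n).1 x * wt Psi x := by
          rw [← integral_neg]
          refine integral_congr_ae (Filter.Eventually.of_forall fun x => ?_)
          show -(fderiv ℝ (wt Psi) x (ee a) * (f : E n → ℝ) x)
            = ((pd a Psi : Sm n).1 x * (f : E n → ℝ) x) * wt Psi x
          rw [hw']; ring
  · refine Continuous.integrable_of_hasCompactSupport ?_ ?_
    · exact (contDiff_pd hw a).continuous.mul (smth f).continuous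
    · exact HasCompactSupport.mul_left hf
  · refine Continuous.integrable_of_hasCompactSupport ?_ ?_
    · exact (wt_cont Psi).mul (contDiff_pd (smth f) a).continuous
    · exact HasCompactSupport.mul_left (hf.fderiv_apply (𝕜 := ℝ) (ee a))
  · refine Continuous.integrable_of_hasCompactSupport ?_ ?_
    · exact (wt_cont Psi).mul (smth f).continuous
    · exact HasCompactSupport.mul_left hf

end functional

end Crest.Agent.R238.IdX
end

-- ▼ part R238/IdentX2
section

/-!
# Row 238, node IDENT, x-side instance, part 2: the dual Hessian structure and the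
Monge-Ampere equation
-/

set_option autoImplicit false
set_option linter.unusedSectionVars false

open Finset MeasureTheory
open scoped ContDiff

/-! ### Dual structure (abstract) -/

namespace Crest.Agent.R238.HData

variable {ι A : Type*} [Fintype ι] [DecidableEq ι] [CommRing A] [Algebra ℝ A]

/-- the dual Hessian structure -/
def dual (S : HData ι A) (x : ι → A) (hx : ∀ a i, S.D a (x i) = if a = i then 1 else 0) :
    HData ι A where
  D := fun i => S.DU i
  Dcomm := S.DU_comm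
  th := x
  tau_symm := by
    have h : ∀ i j, S.DU i (x j) = S.g i j := by
      intro i j
      rw [S.DU_apply]
      simp [hx]
    intro i j
    rw [h, h, S.g_symm]
  g := S.tau
  g_symm := S.tau_comm
  g_inv := by
    have h : ∀ i j, S.DU i (x j) = S.g i j := by
      intro i j
      rw [S.DU_apply]
      simp [hx]
    intro i j
    simp_rw [h]
    exact S.g_tau i j

variable (S : HData ι A) (x : ι → A) (hx : ∀ a i, S.D a (x i) = if a = i then 1 else 0)

lemma dual_tau (i j : ι) : (S.dual x hx).tau i j = S.g i j := by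
  show S.DU i (x j) = S.g i j
  rw [S.DU_apply]
  simp [hx]

lemma dual_DU (a : ι) (f : A) : (S.dual x hx).DU a f = S.D a f := by
  rw [(S.dual x hx).DU_apply]
  show ∑ i, S.tau a i * S.DU i f = _
  rw [← S.D_eq]

/-- integration functional for the dual structure -/
def dualInt (I : Ideal A) (hI : ∀ a f, f ∈ I → S.D a f ∈ I) (E : A →ₗ[ℝ] ℝ)
    (hE : ∀ a f, f ∈ I → E (S.D a f) = E ((S.dual x hx).Psi a * f)) :
    HInt (S.dual x hx) where
  I := I
  hI := by
    intro i f hf
    show S.DU i f ∈ I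
    rw [S.DU_apply]
    exact Ideal.sum_mem _ fun a _ => I.mul_mem_left _ (hI a f hf)
  E := E
  ibp := by
    intro i f hf
    show E (S.DU i f) = E (x i * f)
    have h1 : S.DU i f = ∑ a, (S.D a (S.g a i * f) - S.D a (S.g a i) * f) := by
      rw [S.DU_apply]
      refine sum_congr rfl fun a _ => ?_
      rw [Derivation.leibniz, smul_eq_mul, smul_eq_mul, S.g_symm i a]; ring
    have h2 := (S.dual x hx).psi_tau i
    simp_rw [S.dual_tau, S.dual_DU] at h2
    have h3 : (S.dual x hx).th i = x i := rfl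
    rw [h3] at h2
    rw [h1, map_sum, ← h2, sum_mul, map_sum]
    refine sum_congr rfl fun a _ => ?_
    rw [map_sub, hE a _ (I.mul_mem_left _ hf), ← map_sub]
    congr 1; ring

end Crest.Agent.R238.HData

namespace Crest.Agent.R238.IdX

variable {n : ℕ}

/-- Hessian matrix with entries in the ring of smooth functions -/
noncomputable def hM (u : Sm n) : Matrix (Fin n) (Fin n) (Sm n) :=
  fun i j => pd i (pd j u)

/-- evaluation at a point -/
def evx (x : E n) : Sm n →+* ℝ where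
  toFun f := f.1 x
  map_one' := rfl
  map_mul' _ _ := rfl
  map_zero' := rfl
  map_add' _ _ := rfl

lemma evx_apply (x : E n) (f : Sm n) : evx x f = f.1 x := rfl

/-- real Hessian matrix -/
noncomputable def hR (u : E n → ℝ) (x : E n) : Matrix (Fin n) (Fin n) ℝ :=
  fun i j => Hs u x i j

lemma evx_hM (u : Sm n) (x : E n) : (evx x).mapMatrix (hM u) = hR u.1 x := by
  ext i j
  show (pd i (pd j u) : Sm n).1 x = _
  rw [pd_pd]; rfl

lemma isUnit_Sm {f : Sm n} (hf : ∀ x, f.1 x ≠ 0) : IsUnit f := by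
  refine ⟨⟨f, mkS (fun x => (f.1 x)⁻¹) ((smth f).inv hf), ?_, ?_⟩, rfl⟩
  · ext x
    show f.1 x * (f.1 x)⁻¹ = 1
    exact mul_inv_cancel₀ (hf x)
  · ext x
    show (f.1 x)⁻¹ * f.1 x = 1
    exact inv_mul_cancel₀ (hf x)

lemma det_hM (u : Sm n) (x : E n) : ((hM u).det).1 x = (hR u.1 x).det := by
  rw [← evx_hM, ← RingHom.map_det]; rfl

lemma isUnit_det {u : Sm n} (hu : ∀ x, (hR u.1 x).det ≠ 0) : IsUnit (hM u).det :=
  isUnit_Sm fun x => by rw [det_hM]; exact hu x

/-- inverse Hessian matrix -/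
noncomputable def tM (u : Sm n) : Matrix (Fin n) (Fin n) (Sm n) := (hM u)⁻¹

/-- the Hessian structure on the x-side, `D_a = ∂_a`, `g = (D²u)⁻¹`. -/
noncomputable def xS (u : Sm n) (hu : ∀ x, (hR u.1 x).det ≠ 0) : HData (Fin n) (Sm n) where
  D := pd
  Dcomm := pd_comm
  th := fun a => pd a u
  tau_symm := fun i j => pd_comm i j u
  g := tM u
  g_symm := by
    intro i j
    have h : (hM u).transpose = hM u := by
      ext1 i j
      exact pd_comm j i u
    have h2 : (tM u).transpose = tM u := by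
      rw [tM, Matrix.transpose_nonsing_inv, h]
    exact congrFun (congrFun h2 j) i
  g_inv := by
    intro i j
    have h := Matrix.mul_nonsing_inv (hM u) (isUnit_det hu)
    have h2 := congrFun (congrFun h i) j
    rw [Matrix.mul_apply, Matrix.one_apply] at h2
    exact h2

/-- the structure used for the identity: `D_i = ∑ τ_ia ∂_a`, `th_i = x_i` -/
noncomputable def xD (u : Sm n) (hu : ∀ x, (hR u.1 x).det ≠ 0) : HData (Fin n) (Sm n) :=
  (xS u hu).dual xc pd_xc

/-- Monge-Ampere equation -/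
def MA (u Psi : Sm n) (c : ℝ) : Prop :=
  ∀ x, Real.log (hR u.1 x).det - fderiv ℝ u.1 x x + u.1 x = c - Psi.1 x

lemma xD_Psi (u : Sm n) (hu : ∀ x, (hR u.1 x).det ≠ 0) (a : Fin n) :
    (xD u hu).Psi a = ∑ c, hM u a c * xc c - ∑ i, ∑ j, tM u i j * pd a (hM u j i) := by
  show ∑ c, ((xS u hu).tau a c * xc c - (xS u hu).DU c ((xS u hu).tau a c)) = _
  rw [sum_sub_distrib]
  congr 1
  simp_rw [(xS u hu).DU_apply]
  refine sum_congr rfl fun i _ => sum_congr rfl fun j _ => ?_
  congr 1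
  show pd j (pd a (pd i u)) = pd a (pd j (pd i u))
  exact pd_comm _ _ _

lemma pd_det (u : Sm n) (hu : ∀ x, (hR u.1 x).det ≠ 0) (a : Fin n) :
    pd a (hM u).det = (hM u).det * ∑ i, ∑ j, tM u i j * pd a (hM u j i) := by
  rw [der_det, mul_sum]
  refine sum_congr rfl fun i _ => ?_
  rw [mul_sum]
  refine sum_congr rfl fun j _ => ?_
  have h : (hM u).adjugate i j = (hM u).det * tM u i j := by
    rw [tM, Matrix.inv_def, Matrix.smul_apply, smul_eq_mul, ← mul_assoc,
      Ring.mul_inverse_cancel _ (isUnit_det hu), one_mul]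
  rw [h]; ring

lemma clm_expand (L : E n →L[ℝ] ℝ) (x : E n) : L x = ∑ i, x i * L (ee i) := by
  have h : x = ∑ i, x i • (ee i : E n) := by
    ext j
    simp [Finset.sum_apply, Pi.single_apply]
  conv_lhs => rw [h]
  simp [map_sum]

lemma MA_pd {u Psi : Sm n} {c : ℝ} (hu : ∀ x, (hR u.1 x).det ≠ 0) (h : MA u Psi c)
    (a : Fin n) : (xD u hu).Psi a = pd a Psi := by
  rw [xD_Psi]
  have hd : ∀ x, (hM u).det.1 x ≠ 0 := fun x => by rw [det_hM]; exact hu x
  set l : Sm n := mkS (fun x => Real.log ((hM u).det.1 x)) ((smth (hM u).det).log hd) with hl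
  have hPsi : Psi = algebraMap ℝ (Sm n) c - l + ∑ i, xc i * pd i u - u := by
    ext x
    have h1 := h x
    have h2 : (∑ i, xc i * pd i u : Sm n).1 x = fderiv ℝ u.1 x x := by
      rw [clm_expand, ← evx_apply, map_sum]
      rfl
    show Psi.1 x = c - Real.log ((hM u).det.1 x) + (∑ i, xc i * pd i u : Sm n).1 x - u.1 x
    rw [det_hM, h2]
    linarith
  have hdl : pd a l = ∑ i, ∑ j, tM u i j * pd a (hM u j i) := by
    have h3 : (hM u).det * pd a l = pd a (hM u).det := by
      ext x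
      show (hM u).det.1 x * fderiv ℝ (fun x => Real.log ((hM u).det.1 x)) x (ee a)
        = fderiv ℝ (hM u).det.1 x (ee a)
      rw [fderiv.log (sdiff _ x) (hd x)]
      simp only [smul_apply, smul_eq_mul]
      rw [← mul_assoc, mul_inv_cancel₀ (hd x), one_mul]
    rw [pd_det u hu] at h3
    exact (isUnit_det hu).mul_left_cancel h3
  have h4 : pd a Psi = - pd a l + ∑ i, xc i * hM u a i := by
    conv_lhs => rw [hPsi]
    rw [map_sub, map_add, map_sub, Derivation.map_algebraMap, map_sum]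
    have h5 : ∀ i, pd a (xc i * pd i u : Sm n) = xc i * hM u a i
        + (if a = i then 1 else 0) * pd i u := by
      intro i
      rw [Derivation.leibniz, smul_eq_mul, smul_eq_mul, pd_xc]
      show _ = xc i * pd a (pd i u) + _
      ring
    simp_rw [h5]
    rw [sum_add_distrib]
    simp
    ring
  rw [h4, hdl, sum_congr rfl (fun i _ => mul_comm (hM u a i) (xc i))]
  ring

end Crest.Agent.R238.IdX
end

-- ▼ part R238/IdentX3
section

/-!
# Row 238, node IDENT, x-side instance, part 3: pointwise positivity (real matrices)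
-/

set_option autoImplicit false
set_option linter.unusedSectionVars false

open Finset MeasureTheory Matrix
open scoped ContDiff MatrixOrder ComplexOrder

namespace Crest.Agent.R238.IdX

section RealMat

variable {ι : Type*} [Fintype ι] [DecidableEq ι]

lemma trace_mul_eq (X Y : Matrix ι ι ℝ) : trace (X * Y) = ∑ i, ∑ j, X i j * Y j i := by
  simp [Matrix.trace, Matrix.mul_apply]

lemma exists_factor {G : Matrix ι ι ℝ} (hG : G.PosSemidef) :
    ∃ R : Matrix ι ι ℝ, G = Rᵀ * R := by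
  obtain ⟨a, ha⟩ := CStarAlgebra.nonneg_iff_eq_star_mul_self.mp hG.nonneg
  refine ⟨a, ?_⟩
  rw [ha, star_eq_conjTranspose, conjTranspose_eq_transpose_of_trivial]

lemma factor_apply {G R : Matrix ι ι ℝ} (h : G = Rᵀ * R) (i j : ι) :
    G i j = ∑ k, R k i * R k j := by
  rw [h, mul_apply]; rfl

lemma psd_quad {Q : Matrix ι ι ℝ} (hQ : Q.PosSemidef) (v : ι → ℝ) :
    0 ≤ ∑ a, ∑ b, Q a b * (v a * v b) := by
  have h := hQ.dotProduct_mulVec_nonneg v
  have e : star v ⬝ᵥ (Q *ᵥ v) = ∑ a, ∑ b, Q a b * (v a * v b) := by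
    simp only [dotProduct, mulVec, star_trivial, mul_sum]
    refine sum_congr rfl fun a _ => sum_congr rfl fun b _ => by ring
  rwa [e] at h

lemma psd_hs {P Q : Matrix ι ι ℝ} (hP : P.PosSemidef) (hQ : Q.PosSemidef) :
    0 ≤ ∑ a, ∑ b, P a b * Q a b := by
  obtain ⟨R, hR⟩ := exists_factor hP
  have e : ∑ a, ∑ b, P a b * Q a b = ∑ k, ∑ a, ∑ b, Q a b * (R k a * R k b) := by
    simp_rw [factor_apply hR, sum_mul]
    calc ∑ a, ∑ b, ∑ k, R k a * R k b * Q a b = ∑ k, ∑ a, ∑ b, R k a * R k b * Q a b := by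
          rw [HData.sum_pull3]
      _ = _ := by
          refine sum_congr rfl fun k _ => sum_congr rfl fun a _ => sum_congr rfl fun b _ => ?_
          ring
  rw [e]
  exact sum_nonneg fun k _ => psd_quad hQ _

lemma T1_nonneg {G S : Matrix ι ι ℝ} (hG : G.PosSemidef) (hS : Sᵀ = S) :
    0 ≤ ∑ a, ∑ b, (G * S) b a * (G * S) a b := by
  obtain ⟨R, hR⟩ := exists_factor hG
  have e : ∑ a, ∑ b, (G * S) b a * (G * S) a b = trace ((G * S) * (G * S)) := by
    rw [trace_mul_eq, sum_comm]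
  rw [e]
  have e2 : trace ((G * S) * (G * S)) = trace ((R * S * Rᵀ) * (R * S * Rᵀ)) := by
    rw [hR]
    calc trace (Rᵀ * R * S * (Rᵀ * R * S)) = trace (Rᵀ * (R * S * Rᵀ * R * S)) := by
          simp only [Matrix.mul_assoc]
      _ = trace ((R * S * Rᵀ * R * S) * Rᵀ) := Matrix.trace_mul_comm _ _
      _ = _ := by simp only [Matrix.mul_assoc]
  rw [e2]
  have hs : (R * S * Rᵀ)ᵀ = R * S * Rᵀ := by
    rw [transpose_mul, transpose_mul, transpose_transpose, hS, Matrix.mul_assoc]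
  rw [trace_mul_eq]
  refine sum_nonneg fun i _ => sum_nonneg fun j _ => ?_
  have : (R * S * Rᵀ) j i = (R * S * Rᵀ) i j := congrFun (congrFun hs i) j
  rw [this]
  exact mul_self_nonneg _

/-- The bilinear form of the quartic term. -/
noncomputable def Fb (Tau G : Matrix ι ι ℝ) : Matrix ι ι ℝ →ₗ[ℝ] Matrix ι ι ℝ →ₗ[ℝ] ℝ :=
  LinearMap.mk₂ ℝ (fun C C' => trace (Cᵀ * Tau * C' * G) + trace (C * C'))
    (by intro a b c; simp only [transpose_add, Matrix.add_mul, trace_add]; ring)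
    (by intro r a b; simp only [transpose_smul, Matrix.smul_mul, trace_smul, smul_eq_mul]; ring)
    (by intro a b c; simp only [Matrix.mul_add, Matrix.add_mul, trace_add]; ring)
    (by intro r a b; simp only [Matrix.mul_smul, Matrix.smul_mul, trace_smul, smul_eq_mul]; ring)

lemma Fb_apply (Tau G C C' : Matrix ι ι ℝ) :
    Fb Tau G C C' = trace (Cᵀ * Tau * C' * G) + trace (C * C') := rfl

lemma Fb_nonneg {Tau G : Matrix ι ι ℝ} (hG : G.PosSemidef) (hTG : Tau * G = 1)
    (C : Matrix ι ι ℝ) : 0 ≤ Fb Tau G C C := by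
  obtain ⟨R, hR⟩ := exists_factor hG
  have h1 : (Tau * Rᵀ) * R = 1 := by rw [Matrix.mul_assoc, ← hR, hTG]
  have h2 : R * (Tau * Rᵀ) = 1 := mul_eq_one_comm.mp h1
  -- P = (R * Tau), with P * Rᵀ = 1 and Tau = Pᵀ P
  have hTs : Tauᵀ = Tau := by
    have hGs : Gᵀ = G := by rw [hR, transpose_mul, transpose_transpose]
    have h3 : G * Tauᵀ = 1 := by
      have := congrArg transpose hTG
      rwa [transpose_mul, transpose_one, hGs] at this
    calc Tauᵀ = (Tau * G) * Tauᵀ := by rw [hTG, Matrix.one_mul]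
      _ = Tau * (G * Tauᵀ) := by rw [Matrix.mul_assoc]
      _ = Tau := by rw [h3, Matrix.mul_one]
  have h4 : (R * Tau) * Rᵀ = 1 := by rw [Matrix.mul_assoc, h2]
  have h5 : Rᵀ * (R * Tau) = 1 := mul_eq_one_comm.mp h4
  have h6 : (R * Tau)ᵀ * (R * Tau) = Tau := by
    rw [transpose_mul, hTs, Matrix.mul_assoc, h5, Matrix.mul_one]
  set P := R * Tau with hP
  set X := P * C * Rᵀ with hX
  have e1 : trace (Cᵀ * Tau * C * G) = trace (Xᵀ * X) := by
    rw [← h6, hR, hX]
    simp only [transpose_mul, transpose_transpose]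
    calc trace (Cᵀ * (Pᵀ * P) * C * (Rᵀ * R)) = trace ((Cᵀ * Pᵀ * P * C * Rᵀ) * R) := by
          simp only [Matrix.mul_assoc]
      _ = trace (R * (Cᵀ * Pᵀ * P * C * Rᵀ)) := Matrix.trace_mul_comm _ _
      _ = _ := by simp only [Matrix.mul_assoc]
  have e2 : trace (C * C) = trace (X * X) := by
    rw [hX]
    calc trace (C * C) = trace (C * (Rᵀ * P) * C * (Rᵀ * P)) := by
          rw [h5, Matrix.mul_one, Matrix.mul_one]
      _ = trace ((C * Rᵀ * P * C * Rᵀ) * P) := by simp only [Matrix.mul_assoc]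
      _ = trace (P * (C * Rᵀ * P * C * Rᵀ)) := Matrix.trace_mul_comm _ _
      _ = _ := by simp only [Matrix.mul_assoc]
  rw [Fb_apply, e1, e2]
  have e3 : trace (Xᵀ * X) + trace (X * X) = ∑ i, ∑ j, (X i j + X j i) ^ 2 / 2 := by
    have a1 : trace (Xᵀ * X) = ∑ i, ∑ j, X i j ^ 2 := by
      rw [trace_mul_eq, sum_comm]
      refine sum_congr rfl fun a _ => sum_congr rfl fun b _ => ?_
      rw [transpose_apply]; ring
    have a2 : trace (X * X) = ∑ i, ∑ j, X i j * X j i := trace_mul_eq X X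
    have a3 : ∑ i, ∑ j, X i j ^ 2 = ∑ i, ∑ j, X j i ^ 2 := sum_comm
    calc trace (Xᵀ * X) + trace (X * X)
        = (∑ i, ∑ j, X i j ^ 2) / 2 + (∑ i, ∑ j, X j i ^ 2) / 2 + ∑ i, ∑ j, X i j * X j i := by
          rw [a1, a2, ← a3]; ring
      _ = _ := by
          rw [sum_div, sum_div, ← sum_add_distrib, ← sum_add_distrib]
          refine sum_congr rfl fun i _ => ?_
          rw [sum_div, sum_div, ← sum_add_distrib, ← sum_add_distrib]
          refine sum_congr rfl fun j _ => by ring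
  rw [e3]
  exact sum_nonneg fun i _ => sum_nonneg fun j _ => by positivity

lemma Fb_sum_nonneg {Tau G : Matrix ι ι ℝ} (hG : G.PosSemidef) (hTG : Tau * G = 1)
    (B : ι → Matrix ι ι ℝ) : 0 ≤ ∑ d, ∑ e, G d e * Fb Tau G (B d) (B e) := by
  obtain ⟨R, hR⟩ := exists_factor hG
  have e1 : ∑ d, ∑ e, G d e * Fb Tau G (B d) (B e)
      = ∑ k, Fb Tau G (∑ d, R k d • B d) (∑ e, R k e • B e) := by
    have a1 : ∀ k, Fb Tau G (∑ d, R k d • B d) (∑ e, R k e • B e)
        = ∑ d, ∑ e, R k d * R k e * Fb Tau G (B d) (B e) := by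
      intro k
      rw [map_sum (Fb Tau G) (fun d => R k d • B d) univ, LinearMap.sum_apply]
      refine sum_congr rfl fun d _ => ?_
      rw [map_sum]
      refine sum_congr rfl fun e _ => ?_
      rw [map_smul, map_smul, LinearMap.smul_apply, smul_eq_mul, smul_eq_mul]
      ring
    rw [sum_congr rfl fun k _ => a1 k]
    have a2 : ∀ d e, G d e * Fb Tau G (B d) (B e)
        = ∑ k, R k d * R k e * Fb Tau G (B d) (B e) := by
      intro d e
      rw [factor_apply hR, sum_mul]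
    rw [sum_congr rfl fun d _ => sum_congr rfl fun e _ => a2 d e]
    exact HData.sum_pull3 _
  rw [e1]
  exact sum_nonneg fun k _ => Fb_nonneg hG hTG _

lemma trace_form (C C' Tau G : Matrix ι ι ℝ) (hG : Gᵀ = G) :
    trace (Cᵀ * Tau * C' * G)
      = ∑ a, ∑ a', Tau a a' * ∑ b, ∑ b', G b b' * (C a b * C' a' b') := by
  have e : ∀ b, (Cᵀ * Tau * C' * G) b b
      = ∑ b', ∑ a', ∑ a, Tau a a' * (G b b' * (C a b * C' a' b')) := by
    intro b
    rw [mul_apply]
    refine sum_congr rfl fun b' _ => ?_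
    rw [mul_apply, sum_mul]
    refine sum_congr rfl fun a' _ => ?_
    rw [mul_apply, sum_mul, sum_mul]
    refine sum_congr rfl fun a _ => ?_
    have : G b' b = G b b' := congrFun (congrFun hG b) b'
    rw [this, transpose_apply]; ring
  have e0 : trace (Cᵀ * Tau * C' * G) = ∑ b, (Cᵀ * Tau * C' * G) b b := rfl
  rw [e0, sum_congr rfl fun b _ => e b]
  -- b b' a' a → a a' b b'
  calc ∑ b, ∑ b', ∑ a', ∑ a, Tau a a' * (G b b' * (C a b * C' a' b'))
      = ∑ a, ∑ b, ∑ b', ∑ a', Tau a a' * (G b b' * (C a b * C' a' b')) := by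
        rw [HData.sum_pull4]
    _ = _ := by
        refine sum_congr rfl fun a _ => ?_
        rw [HData.sum_pull3]
        refine sum_congr rfl fun a' _ => ?_
        rw [mul_sum]
        refine sum_congr rfl fun b _ => ?_
        rw [mul_sum]

end RealMat

end Crest.Agent.R238.IdX
end

-- ▼ part R238/IdentX4
section

/-!
# Row 238, node IDENT, x-side instance, part 4: the inequality for test functions
-/

set_option autoImplicit false
set_option linter.unusedSectionVars false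

open Finset MeasureTheory Matrix
open scoped ContDiff

/-! ### abstract facts -/

namespace Crest.Agent.R238.HInt

variable {ι A : Type*} [Fintype ι] [DecidableEq ι] [CommRing A] [Algebra ℝ A]
variable {S : HData ι A} (J : HInt S) (φ : A) (hφ : φ ∈ J.I)
include hφ

lemma Lpsi_mem : S.Lpsi φ ∈ J.I :=
  Ideal.sum_mem _ fun a _ => J.I.sub_mem (J.memDU a _ (J.z_mem φ hφ a))
    (J.I.mul_mem_left _ (J.z_mem φ hφ a))

lemma E_mul_Lpsi (f : A) : J.E (f * S.Lpsi φ) = - ∑ a, J.E (S.DU a f * S.z φ a) := by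
  have h : f * S.Lpsi φ = - ∑ a, f * (S.Psi a * S.z φ a - S.DU a (S.z φ a)) := by
    rw [HData.Lpsi, mul_sum, ← sum_neg_distrib]
    exact sum_congr rfl fun a _ => by ring
  rw [h, map_neg, map_sum]
  congr 1
  exact sum_congr rfl fun a _ => J.adjU' a f _ (J.z_mem φ hφ a)

lemma E_U_z (U : ι → A) : ∑ a, J.E (U a * S.z φ a)
    = ∑ a, ∑ b, J.E (S.DU b (U a) * S.q φ a b) := by
  refine sum_congr rfl fun a _ => ?_
  rw [S.z2, mul_sum, map_sum]
  exact sum_congr rfl fun b _ => J.adjU' b (U a) _ (J.q_mem φ hφ a b)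

end Crest.Agent.R238.HInt

namespace Crest.Agent.R238.HData

variable {ι A : Type*} [Fintype ι] [DecidableEq ι] [CommRing A] [Algebra ℝ A]
variable (S : HData ι A)

lemma Am_eq_g (φ : A) (a b : ι) : S.Am φ a b = ∑ i, S.g a i * S.q φ i b := by
  simp_rw [S.q_eq' φ _ b]
  rw [S.g_tau_contr a (fun j => S.Am φ j b)]

/-- `L f` in non-divergence form -/
lemma Lop_eq (f : A) : ∑ a, (S.DU a (S.D a f) - S.Psi a * S.D a f)
    = ∑ a, ∑ b, S.tau a b * S.DU a (S.DU b f) - ∑ b, S.th b * S.DU b f := by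
  have h : ∀ a, S.DU a (S.D a f) - S.Psi a * S.D a f
      = ∑ b, (S.tau a b * S.DU a (S.DU b f)
        - (S.Psi a * S.tau a b - S.DU a (S.tau a b)) * S.DU b f) := by
    intro a
    rw [S.D_eq a f, map_sum, mul_sum, ← sum_sub_distrib]
    refine sum_congr rfl fun b _ => ?_
    rw [Derivation.leibniz, smul_eq_mul, smul_eq_mul]; ring
  simp_rw [h, sum_sub_distrib]
  congr 1
  rw [sum_comm]
  refine sum_congr rfl fun b _ => ?_
  rw [← sum_mul, S.psi_tau]

end Crest.Agent.R238.HData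

namespace Crest.Agent.R238.IdX

variable {n : ℕ}

/-- The operator `L h = tr((D²u)⁻¹ D²h) - x·∇h`. -/
noncomputable def Lu (u : E n → ℝ) (h : E n → ℝ) : E n → ℝ := LA (fun x => (hR u x)⁻¹) h

/-- `G = L(L φ + φ)` -/
noncomputable def Gu (u : E n → ℝ) (φ : E n → ℝ) : E n → ℝ :=
  Lu u (fun x => Lu u φ x + φ x)

lemma tM_apply {u : Sm n} (hu : ∀ x, (hR u.1 x).det ≠ 0) (x : E n) (i j : Fin n) :
    (tM u i j).1 x = (hR u.1 x)⁻¹ i j := by
  have h := Matrix.mul_nonsing_inv (hM u) (isUnit_det hu)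
  have h2 := congrArg (evx x).mapMatrix h
  rw [map_mul, map_one, evx_hM] at h2
  have h3 := (Matrix.inv_eq_right_inv h2).symm
  exact congrFun (congrFun h3 i) j

/-- `L` on the ring of smooth functions -/
noncomputable def Lel (u : Sm n) (f : Sm n) : Sm n :=
  ∑ a, ∑ b, tM u a b * pd a (pd b f) - ∑ b, xc b * pd b f

lemma Lel_apply {u : Sm n} (hu : ∀ x, (hR u.1 x).det ≠ 0) (f : Sm n) (x : E n) :
    (Lel u f).1 x = Lu u.1 f.1 x := by
  rw [Lu, LA, clm_expand, Lel, ← evx_apply, map_sub, map_sum, map_sum]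
  simp_rw [map_sum, map_mul]
  congr 1
  refine sum_congr rfl fun a _ => sum_congr rfl fun b _ => ?_
  rw [evx_apply, evx_apply, tM_apply hu, pd_pd]

lemma Lel_neg (u f : Sm n) : Lel u (-f) = - Lel u f := by
  rw [eq_neg_iff_add_eq_zero]
  have e1 : ∀ a b, tM u a b * pd a (pd b (-f)) + tM u a b * pd a (pd b f) = 0 := by
    intro a b
    rw [map_neg, map_neg]; ring
  have e2 : ∀ b, xc b * pd b (-f) + xc b * pd b f = 0 := by
    intro b
    rw [map_neg]; ring
  have e3 : ∑ a, ∑ b, tM u a b * pd a (pd b (-f)) + ∑ a, ∑ b, tM u a b * pd a (pd b f) = 0 := by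
    rw [← sum_add_distrib]
    refine sum_eq_zero fun a _ => ?_
    rw [← sum_add_distrib]
    exact sum_eq_zero fun b _ => e1 a b
  have e4 : ∑ b, xc b * pd b (-f) + ∑ b, xc b * pd b f = 0 := by
    rw [← sum_add_distrib]
    exact sum_eq_zero fun b _ => e2 b
  rw [Lel, Lel]
  linear_combination e3 - e4

section

variable {u : Sm n} (hu : ∀ x, (hR u.1 x).det ≠ 0)

lemma xD_D (i : Fin n) (f : Sm n) : (xD u hu).D i f = ∑ a, tM u i a * pd a f := by
  show (xS u hu).DU i f = _
  rw [(xS u hu).DU_apply]; rfl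

lemma xD_DU (a : Fin n) (f : Sm n) : (xD u hu).DU a f = pd a f :=
  (xS u hu).dual_DU xc pd_xc a f

lemma xD_tau (a b : Fin n) : (xD u hu).tau a b = tM u a b :=
  (xS u hu).dual_tau xc pd_xc a b


lemma xD_th (a : Fin n) : (xD u hu).th a = xc a := rfl

lemma xD_psi (φ : Sm n) : (xD u hu).psi φ = - (Lel u φ + φ) := by
  rw [HData.psi, Lel]
  simp_rw [HData.v, xD_DU, xD_D, xD_th, sum_sub_distrib]
  have h : ∑ d, ∑ a, tM u d a * pd a (pd d φ) = ∑ d, ∑ a, tM u d a * pd d (pd a φ) :=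
    sum_congr rfl fun d _ => sum_congr rfl fun a _ => by rw [pd_comm]
  rw [h]
  ring

lemma xD_Lpsi (φ : Sm n) : (xD u hu).Lpsi φ = Lel u ((xD u hu).psi φ) := by
  have h := (xD u hu).Lop_eq ((xD u hu).psi φ)
  rw [HData.Lpsi]
  simp only [HData.z]
  rw [h, Lel]
  simp_rw [xD_DU, xD_tau, xD_th]

lemma Gu_eq (φ : Sm n) (x : E n) :
    Gu u.1 φ.1 x = - ((xD u hu).Lpsi φ).1 x := by
  have h1 : (fun x => Lu u.1 φ.1 x + φ.1 x) = (Lel u φ + φ : Sm n).1 := by
    funext y
    show _ = (Lel u φ).1 y + φ.1 y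
    rw [Lel_apply hu]
  rw [Gu, h1, ← Lel_apply hu, xD_Lpsi, xD_psi, Lel_neg]
  show _ = - -(Lel u (Lel u φ + φ)).1 x
  rw [neg_neg]

end

section main

variable {u Psi : Sm n} {c : ℝ} (hpos : ∀ x, (hR u.1 x).PosDef) (hMA : MA u Psi c)

lemma det_ne (hpos : ∀ x, (hR u.1 x).PosDef) (x : E n) : (hR u.1 x).det ≠ 0 :=
  (hpos x).det_pos.ne'

/-- the integration functional -/
noncomputable def xJ : HInt (xD u (det_ne hpos)) :=
  (xS u (det_ne hpos)).dualInt xc pd_xc (Cc n) (fun a _ hf => pd_mem_Cc a hf) (EE Psi)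
    (by
      intro a f hf
      show EE Psi (pd a f) = EE Psi ((xD u (det_ne hpos)).Psi a * f)
      rw [EE_pd Psi a hf, MA_pd (det_ne hpos) hMA a])

lemma EE_nonneg {f : Sm n} (hf : f ∈ Cc n) (h : ∀ x, 0 ≤ f.1 x) : 0 ≤ EE Psi f := by
  rw [EE_eq Psi hf]
  exact integral_nonneg fun x => mul_nonneg (h x) (wt_pos Psi x).le

lemma EE_le {f : Sm n} (hf : f ∈ Cc n) (N : E n → ℝ) (h : ∀ x, f.1 x ≤ N x)
    (hN : Integrable (fun x => N x * wt Psi x)) :
    EE Psi f ≤ ∫ x, N x * wt Psi x := by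
  rw [EE_eq Psi hf]
  exact integral_mono (integrable_Cc Psi hf) hN fun x =>
    mul_le_mul_of_nonneg_right (h x) (wt_pos Psi x).le

lemma inv_mul_hR (hpos : ∀ x, (hR u.1 x).PosDef) (x : E n) :
    (hR u.1 x)⁻¹ * hR u.1 x = 1 :=
  Matrix.nonsing_inv_mul _ (isUnit_iff_ne_zero.mpr (det_ne hpos x))

lemma X56_nonneg (φ : Sm n) (x : E n) :
    0 ≤ ((xD u (det_ne hpos)).X5 φ + (xD u (det_ne hpos)).X6 φ).1 x := by
  set S := xD u (det_ne hpos) with hS
  set G := hR u.1 x with hG
  set Bx : Fin n → Matrix (Fin n) (Fin n) ℝ := fun d => fun a b => (S.B φ d a b).1 x with hBx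
  have hGt : Gᵀ = G := (hpos x).1
  have h1 : (S.X5 φ + S.X6 φ).1 x = ∑ d, ∑ e, G d e * Fb G⁻¹ G (Bx d) (Bx e) := by
    show (S.X5 φ).1 x + (S.X6 φ).1 x = _
    rw [← evx_apply x (S.X5 φ), ← evx_apply x (S.X6 φ), HData.X5, HData.X6, map_sum, map_sum,
      ← sum_add_distrib]
    refine sum_congr rfl fun d _ => ?_
    rw [map_sum, map_sum, ← sum_add_distrib]
    refine sum_congr rfl fun e _ => ?_
    rw [map_mul, map_mul, ← mul_add]
    have hg : evx x (S.g d e) = G d e := by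
      rw [evx_apply]; show (pd d (pd e u) : Sm n).1 x = _; rw [pd_pd]; rfl
    rw [hg, Fb_apply, trace_form _ _ _ _ hGt, trace_mul_eq]
    congr 2
    · rw [map_sum]
      refine sum_congr rfl fun a _ => ?_
      rw [map_sum]
      refine sum_congr rfl fun a' _ => ?_
      rw [map_mul, map_sum]
      have ht : evx x (S.tau a a') = G⁻¹ a a' := by
        rw [evx_apply, hS, xD_tau, tM_apply (det_ne hpos)]
      rw [ht]
      congr 1
      refine sum_congr rfl fun b _ => ?_
      rw [map_sum]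
      refine sum_congr rfl fun b' _ => ?_
      have hg' : evx x (S.g b b') = G b b' := by
        rw [evx_apply]; show (pd b (pd b' u) : Sm n).1 x = _; rw [pd_pd]; rfl
      rw [map_mul, map_mul, hg']
      rfl
    · rw [map_sum]
      refine sum_congr rfl fun a _ => ?_
      rw [map_sum]
      refine sum_congr rfl fun b _ => ?_
      rw [map_mul]
      rfl
  rw [h1]
  exact Fb_sum_nonneg (hpos x).posSemidef (inv_mul_hR hpos x) Bx

lemma T1x_nonneg (φ : Sm n) (x : E n) :
    0 ≤ (∑ a, ∑ b, ((xD u (det_ne hpos)).N φ b a - (xD u (det_ne hpos)).Am φ b a)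
      * ((xD u (det_ne hpos)).N φ a b - (xD u (det_ne hpos)).Am φ a b) : Sm n).1 x := by
  set S := xD u (det_ne hpos) with hS
  set G := hR u.1 x with hG
  set Sx : Matrix (Fin n) (Fin n) ℝ := fun i b => (S.D i (S.z φ b) - S.q φ i b).1 x with hSx
  have hGt : Gᵀ = G := (hpos x).1
  have hs : Sxᵀ = Sx := by
    ext i b
    show (S.D b (S.z φ i) - S.q φ b i).1 x = (S.D i (S.z φ b) - S.q φ i b).1 x
    rw [S.q_symm φ b i]
    simp only [HData.z]
    rw [S.Dcomm]
  have e1 : ∀ a b, evx x (S.N φ a b - S.Am φ a b) = (G * Sx) a b := by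
    intro a b
    rw [HData.N, S.DU_apply, S.Am_eq_g, ← sum_sub_distrib, map_sum, Matrix.mul_apply]
    refine sum_congr rfl fun i _ => ?_
    rw [← mul_sub, map_mul]
    have hg' : evx x (S.g a i) = G a i := by
      rw [evx_apply]; show (pd a (pd i u) : Sm n).1 x = _; rw [pd_pd]; rfl
    rw [hg']
    rfl
  rw [← evx_apply, map_sum]
  simp_rw [map_sum, map_mul, e1]
  exact T1_nonneg (hpos x).posSemidef hs

end main

end Crest.Agent.R238.IdX
end

-- ▼ part R238/IdentX5
section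

/-!
# Row 238, node IDENT, x-side instance, part 5: the inequality for test functions
-/

set_option autoImplicit false
set_option linter.unusedSectionVars false

open Finset MeasureTheory Matrix
open scoped ContDiff

namespace Crest.Agent.R238.IdX

variable {n : ℕ} {κ : Type*} [Fintype κ]
variable {u Psi : Sm n} {c : ℝ} (hpos : ∀ x, (hR u.1 x).PosDef) (hMA : MA u Psi c)
variable (Φ : κ → Sm n) (r : κ → ℝ) (φ : Sm n)

/-- the field `f = ∑ r_k <x, ∇Φ_k>` -/
noncomputable def fel (Φ : κ → Sm n) (r : κ → ℝ) : Sm n := ∑ k, r k • ∑ b, xc b * pd b (Φ k)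

/-- one wall contribution -/
noncomputable def Fk (k : κ) : Sm n :=
  (2 * r k) • (∑ a, ∑ b, hM (Φ k) b a * (xD u (det_ne hpos)).q φ a b
      + ∑ a, ∑ b, xc b * hM (Φ k) a b * (xD u (det_ne hpos)).z φ a)
    - ∑ a, ∑ b, hM (Φ k) a b * ((xD u (det_ne hpos)).z φ a * (xD u (det_ne hpos)).z φ b)
    - ∑ d, ∑ b, hM (Φ k) d b * ∑ a, (xD u (det_ne hpos)).Am φ a d * (xD u (det_ne hpos)).q φ a b

lemma pd_fel (a : Fin n) :
    pd a (fel Φ r) = ∑ k, r k • (pd a (Φ k) + ∑ b, xc b * hM (Φ k) a b) := by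
  rw [fel, map_sum]
  refine sum_congr rfl fun k _ => ?_
  rw [Derivation.map_smul, map_sum]
  congr 1
  have h5 : ∀ i, pd a (xc i * pd i (Φ k) : Sm n) = xc i * hM (Φ k) a i
      + (if a = i then 1 else 0) * pd i (Φ k) := by
    intro i
    rw [Derivation.leibniz, smul_eq_mul, smul_eq_mul, pd_xc]
    show _ = xc i * pd a (pd i (Φ k)) + _
    ring
  simp_rw [h5, sum_add_distrib]
  simp
  ring

include hMA in
lemma main_E (hφ : φ ∈ Cc n) (hΦ : ∀ a, pd a Psi = ∑ k, pd a (Φ k)) :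
    - 2 * EE Psi (fel Φ r * (xD u (det_ne hpos)).Lpsi φ)
      - EE Psi ((xD u (det_ne hpos)).Lpsi φ * (xD u (det_ne hpos)).Lpsi φ)
    = EE Psi (∑ k, Fk hpos Φ r φ k)
      - EE Psi (∑ a, ∑ b, ((xD u (det_ne hpos)).N φ b a - (xD u (det_ne hpos)).Am φ b a)
          * ((xD u (det_ne hpos)).N φ a b - (xD u (det_ne hpos)).Am φ a b))
      - EE Psi ((xD u (det_ne hpos)).X5 φ + (xD u (det_ne hpos)).X6 φ) := by
  set S := xD u (det_ne hpos) with hS
  set J := xJ hpos hMA with hJ
  have hE : ∀ f, J.E f = EE Psi f := fun f => rfl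
  have id := J.identity φ hφ
  have e1 := J.E_mul_Lpsi φ hφ (fel Φ r)
  simp only [hE] at id e1
  -- H
  have hH : ∀ a b, S.H a b = ∑ k, hM (Φ k) a b := by
    intro a b
    rw [HData.H, hS, xD_DU, MA_pd (det_ne hpos) hMA b, hΦ, map_sum]
    rfl
  -- the linear term
  have e2 : ∑ a, EE Psi (S.DU a (fel Φ r) * S.z φ a)
      = ∑ k, r k * (EE Psi (∑ a, ∑ b, hM (Φ k) b a * S.q φ a b)
        + EE Psi (∑ a, ∑ b, xc b * hM (Φ k) a b * S.z φ a)) := by
    have a1 : ∀ a, S.DU a (fel Φ r) * S.z φ a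
        = ∑ k, r k • (pd a (Φ k) * S.z φ a + ∑ b, xc b * hM (Φ k) a b * S.z φ a) := by
      intro a
      rw [hS, xD_DU, pd_fel, sum_mul]
      refine sum_congr rfl fun k _ => ?_
      rw [smul_mul_assoc, add_mul, sum_mul]
    have a2 : ∀ a, EE Psi (S.DU a (fel Φ r) * S.z φ a)
        = ∑ k, r k * (EE Psi (pd a (Φ k) * S.z φ a)
          + EE Psi (∑ b, xc b * hM (Φ k) a b * S.z φ a)) := by
      intro a
      rw [a1, map_sum]
      refine sum_congr rfl fun k _ => ?_
      rw [map_smul, map_add, smul_eq_mul]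
    simp_rw [a2]
    rw [sum_comm]
    refine sum_congr rfl fun k _ => ?_
    rw [← mul_sum, sum_add_distrib, map_sum (EE Psi) (fun a => ∑ b, xc b * hM (Φ k) a b * S.z φ a)]
    congr 2
    have a3 := J.E_U_z φ hφ (fun a => pd a (Φ k))
    simp only [hE] at a3
    rw [a3, map_sum]
    refine sum_congr rfl fun a _ => ?_
    rw [map_sum]
    refine sum_congr rfl fun b _ => ?_
    rw [xD_DU]
    rfl
  -- the quadratic terms
  have e3 : EE Psi (∑ a, ∑ b, S.H a b * (S.z φ a * S.z φ b))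
      = ∑ k, EE Psi (∑ a, ∑ b, hM (Φ k) a b * (S.z φ a * S.z φ b)) := by
    rw [← map_sum]
    congr 1
    simp_rw [hH, sum_mul]
    exact HData.sum_pull3' _
  have e4 : EE Psi (∑ d, ∑ b, S.H d b * ∑ a, S.Am φ a d * S.q φ a b)
      = ∑ k, EE Psi (∑ d, ∑ b, hM (Φ k) d b * ∑ a, S.Am φ a d * S.q φ a b) := by
    rw [← map_sum]
    congr 1
    simp_rw [hH, sum_mul]
    exact HData.sum_pull3' _
  have e5 : EE Psi (∑ k, Fk hpos Φ r φ k)
      = 2 * ∑ k, r k * (EE Psi (∑ a, ∑ b, hM (Φ k) b a * S.q φ a b)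
        + EE Psi (∑ a, ∑ b, xc b * hM (Φ k) a b * S.z φ a))
        - ∑ k, EE Psi (∑ a, ∑ b, hM (Φ k) a b * (S.z φ a * S.z φ b))
        - ∑ k, EE Psi (∑ d, ∑ b, hM (Φ k) d b * ∑ a, S.Am φ a d * S.q φ a b) := by
    rw [map_sum, mul_sum, ← sum_sub_distrib, ← sum_sub_distrib]
    refine sum_congr rfl fun k _ => ?_
    rw [Fk, map_sub, map_sub, map_smul, map_add, smul_eq_mul]
    ring
  rw [e5, id, e1, e2, e3, e4]
  ring

/-- local right hand side (before the Stein step) -/
noncomputable def Nloc (u : E n → ℝ) (Φ : κ → Sm n) (r : κ → ℝ) (x : E n) : ℝ :=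
  ∑ k, r k ^ 2 * (∑ a, ∑ b, Hs (Φ k).1 x a b * (hR u x)⁻¹ a b
    + ∑ a, ∑ b, Hs (Φ k).1 x a b * (x a * x b))

lemma evx_hM_apply (f : Sm n) (x : E n) (a b : Fin n) : evx x (hM f a b) = Hs f.1 x a b := by
  rw [evx_apply]
  show (pd a (pd b f) : Sm n).1 x = _
  rw [pd_pd]

lemma evx_smul (x : E n) (t : ℝ) (f : Sm n) : evx x (t • f) = t * evx x f := rfl

lemma Fk_le (hconv : ∀ k x, (hR (Φ k).1 x).PosSemidef) (k : κ) (x : E n) :
    evx x (Fk hpos Φ r φ k) ≤ r k ^ 2 * (∑ a, ∑ b, Hs (Φ k).1 x a b * (hR u.1 x)⁻¹ a b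
    + ∑ a, ∑ b, Hs (Φ k).1 x a b * (x a * x b)) := by
  set S := xD u (det_ne hpos) with hS
  set Hx := hR (Φ k).1 x with hHx
  set G := hR u.1 x with hG
  set Q : Matrix (Fin n) (Fin n) ℝ := fun a b => evx x (S.q φ a b) with hQ
  set zx : Fin n → ℝ := fun a => evx x (S.z φ a) with hzx
  have hGt : Gᵀ = G := (hpos x).1
  have hHt : ∀ a b, Hx a b = Hx b a := fun a b => by
    have h : Hxᵀ = Hx := (hconv k x).1
    exact congrFun (congrFun h b) a
  have hQt : Qᵀ = Q := by
    ext a b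
    show evx x (S.q φ b a) = evx x (S.q φ a b)
    rw [S.q_symm]
  have hTG : G⁻¹ * G = 1 := inv_mul_hR hpos x
  have hGT : G * G⁻¹ = 1 := mul_eq_one_comm.mp hTG
  have hTt : (G⁻¹)ᵀ = G⁻¹ := by rw [transpose_nonsing_inv, hGt]
  -- evaluation of `F_k`
  have e1 : evx x (Fk hpos Φ r φ k) = 2 * r k * (∑ a, ∑ b, Hx a b * Q a b
      + ∑ a, ∑ b, Hx a b * (zx a * x b))
      - ∑ a, ∑ b, Hx a b * (zx a * zx b)
      - ∑ a, ∑ b, Hx a b * (Q * G * Q) a b := by
    rw [Fk, map_sub, map_sub, evx_smul, map_add, map_sum, map_sum, map_sum, map_sum]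
    congr 1
    · congr 1
      · congr 2
        · refine sum_congr rfl fun a _ => ?_
          rw [map_sum]
          refine sum_congr rfl fun b _ => ?_
          rw [map_mul, evx_hM_apply]
          show Hx b a * Q a b = _
          rw [hHt b a]
        · refine sum_congr rfl fun a _ => ?_
          rw [map_sum]
          refine sum_congr rfl fun b _ => ?_
          rw [map_mul, map_mul, evx_hM_apply]
          show x b * Hx a b * zx a = _
          ring
      · refine sum_congr rfl fun a _ => ?_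
        rw [map_sum]
        refine sum_congr rfl fun b _ => ?_
        rw [map_mul, map_mul, evx_hM_apply]
        rfl
    · refine sum_congr rfl fun d _ => ?_
      rw [map_sum]
      refine sum_congr rfl fun b _ => ?_
      rw [map_mul, evx_hM_apply]
      show Hx d b * _ = _
      congr 1
      rw [map_sum, Matrix.mul_apply]
      refine sum_congr rfl fun a _ => ?_
      rw [map_mul, S.Am_eq_g, map_sum]
      show (∑ i, evx x (S.g a i * S.q φ i d)) * Q a b = (Q * G) d a * Q a b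
      congr 1
      rw [Matrix.mul_apply]
      refine sum_congr rfl fun i _ => ?_
      rw [map_mul]
      have hg' : evx x (S.g a i) = G a i := by
        rw [evx_apply]; show (pd a (pd i u) : Sm n).1 x = _; rw [pd_pd]; rfl
      have hga : G a i = G i a := congrFun (congrFun hGt i) a
      rw [hg', hga]
      show G i a * Q i d = Q d i * G i a
      have hq : Q i d = Q d i := congrFun (congrFun hQt d) i
      rw [hq]; ring
  -- first square
  have p1 := psd_quad (hconv k x) (fun a => zx a - r k * x a)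
  -- second square
  set Y : Matrix (Fin n) (Fin n) ℝ := Q - r k • G⁻¹ with hY
  have hYt : Yᵀ = Y := by rw [hY, transpose_sub, transpose_smul, hQt, hTt]
  have hP : (Y * G * Y).PosSemidef := by
    have := (hpos x).posSemidef.conjTranspose_mul_mul_same Y
    rwa [conjTranspose_eq_transpose_of_trivial, hYt] at this
  have p2 := psd_hs (hconv k x) hP
  have hexp : Y * G * Y = Q * G * Q - (2 * r k) • Q + (r k ^ 2) • G⁻¹ := by
    rw [hY]
    have a1 : Q * G * G⁻¹ = Q := by rw [Matrix.mul_assoc, hGT, Matrix.mul_one]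
    have a2 : G⁻¹ * G * Q = Q := by rw [hTG, Matrix.one_mul]
    have a3 : G⁻¹ * G * G⁻¹ = G⁻¹ := by rw [hTG, Matrix.one_mul]
    simp only [Matrix.sub_mul, Matrix.mul_sub, Matrix.smul_mul, Matrix.mul_smul, a1, a2, a3,
      smul_sub, smul_smul]
    module
  rw [hexp] at p2
  have p2' : ∑ a, ∑ b, Hx a b * (Q * G * Q - (2 * r k) • Q + (r k ^ 2) • G⁻¹) a b
      = ∑ a, ∑ b, Hx a b * (Q * G * Q) a b - 2 * r k * ∑ a, ∑ b, Hx a b * Q a b
        + r k ^ 2 * ∑ a, ∑ b, Hx a b * G⁻¹ a b := by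
    simp_rw [mul_sum]
    rw [← sum_sub_distrib, ← sum_add_distrib]
    refine sum_congr rfl fun a _ => ?_
    rw [← sum_sub_distrib, ← sum_add_distrib]
    refine sum_congr rfl fun b _ => ?_
    rw [Matrix.add_apply, Matrix.sub_apply, Matrix.smul_apply, Matrix.smul_apply, smul_eq_mul,
      smul_eq_mul]
    ring
  have p1' : ∑ a, ∑ b, Hx a b * ((zx a - r k * x a) * (zx b - r k * x b))
      = ∑ a, ∑ b, Hx a b * (zx a * zx b) - 2 * r k * ∑ a, ∑ b, Hx a b * (zx a * x b)
        + r k ^ 2 * ∑ a, ∑ b, Hx a b * (x a * x b) := by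
    have hsw : ∑ a, ∑ b, Hx a b * (zx a * x b) = ∑ a, ∑ b, Hx a b * (x a * zx b) := by
      rw [sum_comm]
      refine sum_congr rfl fun a _ => sum_congr rfl fun b _ => ?_
      rw [hHt b a]; ring
    have h2 : 2 * r k * ∑ a, ∑ b, Hx a b * (zx a * x b)
        = r k * ∑ a, ∑ b, Hx a b * (zx a * x b) + r k * ∑ a, ∑ b, Hx a b * (x a * zx b) := by
      rw [← hsw]; ring
    rw [h2]
    simp_rw [mul_sum]
    rw [← sum_add_distrib, ← sum_sub_distrib, ← sum_add_distrib]
    refine sum_congr rfl fun a _ => ?_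
    rw [← sum_add_distrib, ← sum_sub_distrib, ← sum_add_distrib]
    refine sum_congr rfl fun b _ => ?_
    ring
  rw [p2'] at p2
  rw [p1'] at p1
  rw [e1]
  have f1 : ∑ a, ∑ b, Hs (Φ k).1 x a b * (hR u.1 x)⁻¹ a b = ∑ a, ∑ b, Hx a b * G⁻¹ a b := rfl
  have f2 : ∑ a, ∑ b, Hs (Φ k).1 x a b * (x a * x b) = ∑ a, ∑ b, Hx a b * (x a * x b) := rfl
  rw [f1, f2]
  linarith

lemma Fk_mem (hφ : φ ∈ Cc n) (k : κ) (J : HInt (xD u (det_ne hpos))) (hJ : J.I = Cc n) :
    Fk hpos Φ r φ k ∈ Cc n := by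
  have hφ' : φ ∈ J.I := by rw [hJ]; exact hφ
  have hz := fun a => J.z_mem φ hφ' a
  have hq := fun a b => J.q_mem φ hφ' a b
  have hsm : ∀ (t : ℝ) (X : Sm n), X ∈ J.I → t • X ∈ J.I := by
    intro t X hX
    rw [Algebra.smul_def]
    exact J.I.mul_mem_left _ hX
  rw [← hJ, Fk]
  refine J.I.sub_mem (J.I.sub_mem (hsm _ _ (J.I.add_mem ?_ ?_)) ?_) ?_
  · exact Ideal.sum_mem _ fun a _ => Ideal.sum_mem _ fun b _ => J.I.mul_mem_left _ (hq a b)
  · exact Ideal.sum_mem _ fun a _ => Ideal.sum_mem _ fun b _ => J.I.mul_mem_left _ (hz a)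
  · exact Ideal.sum_mem _ fun a _ => Ideal.sum_mem _ fun b _ =>
      J.I.mul_mem_left _ (J.I.mul_mem_left _ (hz b))
  · exact Ideal.sum_mem _ fun a _ => Ideal.sum_mem _ fun b _ => J.I.mul_mem_left _
      (Ideal.sum_mem _ fun d _ => J.I.mul_mem_left _ (hq d b))

include hpos hMA in
/-- IDENT, ring form. -/
theorem ident_ring (hφ : φ ∈ Cc n) (hΦ : ∀ a, pd a Psi = ∑ k, pd a (Φ k))
    (hconv : ∀ k x, (hR (Φ k).1 x).PosSemidef)
    (hN : Integrable (fun x => Nloc u.1 Φ r x * wt Psi x)) :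
    2 * (∫ x, (fel Φ r).1 x * Gu u.1 φ.1 x * wt Psi x)
      - ∫ x, (Gu u.1 φ.1 x) ^ 2 * wt Psi x ≤ ∫ x, Nloc u.1 Φ r x * wt Psi x := by
  set S := xD u (det_ne hpos) with hS
  set J := xJ hpos hMA with hJ
  have hL : S.Lpsi φ ∈ Cc n := J.Lpsi_mem φ hφ
  have hm := main_E hpos hMA Φ r φ hφ hΦ
  have e1 : EE Psi (fel Φ r * S.Lpsi φ) = - ∫ x, (fel Φ r).1 x * Gu u.1 φ.1 x * wt Psi x := by
    rw [EE_eq Psi ((Cc n).mul_mem_left _ hL), ← integral_neg]
    refine integral_congr_ae (Filter.Eventually.of_forall fun x => ?_)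
    show ((fel Φ r).1 x * (S.Lpsi φ).1 x) * wt Psi x
      = -((fel Φ r).1 x * Gu u.1 φ.1 x * wt Psi x)
    rw [Gu_eq (det_ne hpos) φ x]
    ring
  have e2 : EE Psi (S.Lpsi φ * S.Lpsi φ) = ∫ x, (Gu u.1 φ.1 x) ^ 2 * wt Psi x := by
    rw [EE_eq Psi ((Cc n).mul_mem_left _ hL)]
    refine integral_congr_ae (Filter.Eventually.of_forall fun x => ?_)
    show ((S.Lpsi φ).1 x * (S.Lpsi φ).1 x) * wt Psi x = (Gu u.1 φ.1 x) ^ 2 * wt Psi x
    rw [Gu_eq (det_ne hpos) φ x]
    ring
  have hA := fun a b => J.Am_mem φ hφ a b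
  have hNm : ∀ a b, S.N φ a b ∈ Cc n := fun a b => J.memDU a _ (J.z_mem φ hφ b)
  have h1 : 0 ≤ EE Psi (∑ a, ∑ b, (S.N φ b a - S.Am φ b a) * (S.N φ a b - S.Am φ a b)) := by
    refine EE_nonneg ?_ (T1x_nonneg hpos φ)
    exact Ideal.sum_mem _ fun a _ => Ideal.sum_mem _ fun b _ =>
      (Cc n).mul_mem_left _ ((Cc n).sub_mem (hNm a b) (hA a b))
  have h2 : 0 ≤ EE Psi (S.X5 φ + S.X6 φ) := by
    refine EE_nonneg ?_ (X56_nonneg hpos φ)
    have hB := fun d a b => J.B_mem φ hφ d a b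
    refine (Cc n).add_mem ?_ ?_
    · exact Ideal.sum_mem _ fun d _ => Ideal.sum_mem _ fun e _ => (Cc n).mul_mem_left _
        (Ideal.sum_mem _ fun a _ => Ideal.sum_mem _ fun a' _ => (Cc n).mul_mem_left _
          (Ideal.sum_mem _ fun b _ => Ideal.sum_mem _ fun b' _ => (Cc n).mul_mem_left _
            ((Cc n).mul_mem_left _ (hB _ _ _))))
    · exact Ideal.sum_mem _ fun d _ => Ideal.sum_mem _ fun e _ => (Cc n).mul_mem_left _
        (Ideal.sum_mem _ fun a _ => Ideal.sum_mem _ fun a' _ =>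
          (Cc n).mul_mem_left _ (hB _ _ _))
  have h3 : EE Psi (∑ k, Fk hpos Φ r φ k) ≤ ∫ x, Nloc u.1 Φ r x * wt Psi x := by
    refine EE_le (Ideal.sum_mem _ fun k _ => Fk_mem hpos Φ r φ hφ k J rfl) _ ?_ hN
    intro x
    rw [← evx_apply, map_sum, Nloc]
    exact sum_le_sum fun k _ => Fk_le hpos Φ r φ hconv k x
  rw [e1, e2] at hm
  have h4 : 2 * (∫ x, (fel Φ r).1 x * Gu u.1 φ.1 x * wt Psi x)
      - ∫ x, (Gu u.1 φ.1 x) ^ 2 * wt Psi x
      = EE Psi (∑ k, Fk hpos Φ r φ k)
        - EE Psi (∑ a, ∑ b, (S.N φ b a - S.Am φ b a) * (S.N φ a b - S.Am φ a b))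
        - EE Psi (S.X5 φ + S.X6 φ) := by
    rw [← hm]; ring
  rw [h4]
  linarith

end Crest.Agent.R238.IdX
end

-- ▼ part R238/IdentMain

/-! Row 238: `ident n : Ident n`, from 390's `ident_ring`. (helper477) -/

set_option autoImplicit false
open scoped ContDiff Topology
open Set Filter MeasureTheory Finset

noncomputable section

namespace Crest.Agent.R238.IdM

open Crest.Agent.R238.Asm Crest.Agent.R238.IdX

variable {n m : ℕ}

theorem hR_uu {v : E n → ℝ} (hv : ContDiff ℝ ∞ v) (x : E n) : hR (uu v) x = gM v x := by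
  ext i j
  show Hs (uu v) x i j = _
  rw [Hs_uu hv]
  rfl

theorem ell_posDef {lo hi : ℝ} (hlo : 0 < lo) {A : Matrix (Fin n) (Fin n) ℝ}
    (hA : Ell lo hi A) : A.PosDef := by
  refine Matrix.PosDef.of_dotProduct_mulVec_pos ?_ fun z hz => ?_
  · ext i j
    simp only [Matrix.conjTranspose_apply, star_trivial]
    exact hA.1 j i
  · have h1 := (hA.2 z).1
    have h2 : 0 < ∑ i, z i ^ 2 := by
      obtain ⟨i, hi⟩ : ∃ i, z i ≠ 0 := by
        by_contra hcon
        push Not at hcon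
        exact hz (funext hcon)
      exact Finset.sum_pos' (fun i _ => sq_nonneg _) ⟨i, Finset.mem_univ _, by positivity⟩
    have h3 : star z ⬝ᵥ A.mulVec z = ∑ i, ∑ j, A i j * z i * z j := by
      simp only [dotProduct, Matrix.mulVec, Pi.star_apply, star_trivial, Finset.mul_sum]
      refine Finset.sum_congr rfl fun i _ => Finset.sum_congr rfl fun j _ => ?_
      ring
    rw [h3]
    exact lt_of_lt_of_le (by positivity) h1

theorem vec_sum (z : Fin n → ℝ) (T : E n →L[ℝ] ℝ) :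
    T (∑ j, z j • ee j) = ∑ j, z j * T (ee j) := by
  rw [map_sum]
  simp only [map_smul, smul_eq_mul]

theorem quad_Hs (f : E n → ℝ) (x : E n) (z : Fin n → ℝ) :
    fderiv ℝ (fderiv ℝ f) x (∑ j, z j • ee j) (∑ j, z j • ee j)
      = ∑ i, ∑ j, Hs f x i j * z i * z j := by
  have h1 : fderiv ℝ (fderiv ℝ f) x (∑ j, z j • ee j)
      = ∑ i, z i • fderiv ℝ (fderiv ℝ f) x (ee i) := by
    rw [map_sum]
    simp only [map_smul]
  rw [h1, _root_.sum_apply]
  refine Finset.sum_congr rfl fun i _ => ?_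
  rw [smul_apply, vec_sum, smul_eq_mul, Finset.mul_sum]
  refine Finset.sum_congr rfl fun j _ => ?_
  unfold Hs
  ring

theorem vec_eq (x : E n) : x = ∑ j, x j • (ee j : E n) := by
  ext k
  simp [Finset.sum_apply, Pi.single_apply]

theorem hR_psd {f : E n → ℝ} (hf : ContDiff ℝ ∞ f)
    (h : ∀ x w, 0 ≤ fderiv ℝ (fderiv ℝ f) x w w) (x : E n) : (hR f x).PosSemidef := by
  refine Matrix.PosSemidef.of_dotProduct_mulVec_nonneg ?_ fun z => ?_
  · ext i j
    simp only [Matrix.conjTranspose_apply, star_trivial]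
    exact IdX.Hs_symm hf x j i
  · have h3 : star z ⬝ᵥ (hR f x).mulVec z = ∑ i, ∑ j, Hs f x i j * z i * z j := by
      simp only [dotProduct, Matrix.mulVec, Pi.star_apply, star_trivial, Finset.mul_sum]
      refine Finset.sum_congr rfl fun i _ => Finset.sum_congr rfl fun j _ => ?_
      show z i * (Hs f x i j * z j) = _
      ring
    rw [h3, ← quad_Hs]
    exact h x _

theorem ring390 (n : ℕ) : Ring390 n := by
  intro P v hP hs m Φ r hΦ hsum hpos hN ϕ hϕ
  obtain ⟨lo, hi, hlo, hE⟩ := hs.ell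
  have hvs := hs.nice.smooth
  set U : Sm n := mkS (uu v) (uu_smooth hvs) with hU
  set PS : Sm n := mkS (ps P) (ps_smooth hP.tst.smooth) with hPS
  set W : Option (Fin m) → Sm n := fun k => mkS (Φ k) (hΦ k) with hW
  have hpos' : ∀ x, (hR U.1 x).PosDef := fun x => by
    show (hR (uu v) x).PosDef
    rw [hR_uu hvs]
    exact ell_posDef hlo (hE x)
  have hMA : MA U PS 0 := by
    intro x
    show Real.log (hR (uu v) x).det - fderiv ℝ (uu v) x x + uu v x = 0 - ps P x
    rw [hR_uu hvs, hs.ma x, fderiv_uu hvs]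
    simp only [add_apply, innerSL_apply_apply, real_inner_self_eq_norm_sq, uu, ps]
    ring
  have hΦ' : ∀ a, IdX.pd a PS = ∑ k, IdX.pd a (W k) := by
    intro a
    apply Subtype.ext
    funext x
    have h1 := congrArg (fun T : E n →L[ℝ] ℝ => T (ee a)) (hsum x)
    simp only [_root_.sum_apply] at h1
    have h2 : ((∑ k, IdX.pd a (W k) : Sm n) : E n → ℝ) x
        = ∑ k, ((IdX.pd a (W k) : Sm n) : E n → ℝ) x := by
      rw [AddSubmonoidClass.coe_finsetSum, Finset.sum_apply]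
    rw [h2]
    exact h1.symm
  have hconv : ∀ k x, (hR (W k).1 x).PosSemidef := fun k x => hR_psd (hΦ k) (hpos k) x
  have hinv : ∀ x, (hR U.1 x)⁻¹ = tauM v x := fun x => by
    show (hR (uu v) x)⁻¹ = _
    rw [hR_uu hvs]; rfl
  have hwt : ∀ x, IdX.wt PS x = R238.wt P x := fun x => rfl
  have hNl : ∀ x, IdX.Nloc U.1 W r x = IdM.Nloc v Φ r x := by
    intro x
    unfold IdX.Nloc IdM.Nloc
    refine Finset.sum_congr rfl fun k _ => ?_
    rw [hinv]
    congr 1
    congr 1
    · refine Finset.sum_congr rfl fun i _ => Finset.sum_congr rfl fun j _ => ?_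
      exact mul_comm _ _
    · have e := quad_Hs (Φ k) x (fun i => x i)
      rw [← vec_eq] at e
      rw [e]
      refine Finset.sum_congr rfl fun i _ => Finset.sum_congr rfl fun j _ => ?_
      show Hs (Φ k) x i j * (x i * x j) = _
      ring
  have hGu : ∀ x, Gu U.1 ϕ x = LL v ϕ x := by
    intro x
    have e1 : ∀ h : E n → ℝ, Lu U.1 h = Lop v h := by
      intro h
      unfold Lu Lop
      congr 1
      funext y
      exact hinv y
    unfold Gu LL
    simp only [e1]
  have hfel : ∀ x, (fel W r).1 x = ∑ k, r k * fderiv ℝ (Φ k) x x := by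
    intro x
    have h2 : (fel W r).1 x = ∑ k, r k * ∑ b, x b * fderiv ℝ (Φ k) x (ee b) := by
      unfold fel
      have h3 : ((∑ k, r k • ∑ b, xc b * IdX.pd b (W k) : Sm n) : E n → ℝ) x
          = ∑ k, ((r k • ∑ b, xc b * IdX.pd b (W k) : Sm n) : E n → ℝ) x := by
        rw [AddSubmonoidClass.coe_finsetSum, Finset.sum_apply]
      refine h3.trans (Finset.sum_congr rfl fun k _ => ?_)
      have h4 : ((∑ b, xc b * IdX.pd b (W k) : Sm n) : E n → ℝ) x
          = ∑ b, ((xc b * IdX.pd b (W k) : Sm n) : E n → ℝ) x := by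
        rw [AddSubmonoidClass.coe_finsetSum, Finset.sum_apply]
      show r k * ((∑ b, xc b * IdX.pd b (W k) : Sm n) : E n → ℝ) x = _
      rw [h4]
      rfl
    rw [h2]
    refine Finset.sum_congr rfl fun k _ => ?_
    congr 1
    conv_rhs => rw [vec_eq x, map_sum]
    refine Finset.sum_congr rfl fun b _ => ?_
    rw [map_smul, smul_eq_mul, ← vec_eq x]
  have hN' : Integrable (fun x => IdX.Nloc U.1 W r x * IdX.wt PS x) := by
    have e : (fun x => IdX.Nloc U.1 W r x * IdX.wt PS x)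
        = fun x => IdM.Nloc v Φ r x * R238.wt P x := by
      funext x; rw [hNl, hwt]
    rw [e]; exact hN
  have key := ident_ring hpos' hMA W r (mkS ϕ hϕ.smooth) (show mkS ϕ hϕ.smooth ∈ Cc n from hϕ.supp)
    hΦ' hconv hN'
  have k1 : ∀ x, (fel W r).1 x * Gu U.1 (mkS ϕ hϕ.smooth : Sm n).1 x * IdX.wt PS x
      = (∑ k, r k * fderiv ℝ (Φ k) x x) * LL v ϕ x * R238.wt P x := fun x => by
    rw [hfel, hwt]
    congr 2
    exact hGu x
  have k2 : ∀ x, (Gu U.1 (mkS ϕ hϕ.smooth : Sm n).1 x) ^ 2 * IdX.wt PS x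
      = LL v ϕ x ^ 2 * R238.wt P x := fun x => by
    rw [hwt]
    congr 2
    exact hGu x
  have a1 := integral_congr_ae (μ := volume) (Eventually.of_forall k1)
  have a2 := integral_congr_ae (μ := volume) (Eventually.of_forall k2)
  have a3 : ∫ x, IdX.Nloc U.1 W r x * IdX.wt PS x = ∫ x, IdM.Nloc v Φ r x * R238.wt P x :=
    integral_congr_ae (Eventually.of_forall fun x => by simp only [hNl, hwt])
  rw [a1, a2, a3] at key
  exact key

/-- **IDENT** -/
theorem ident (n : ℕ) : Ident n := ident_of_ring (ring390 n)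

end Crest.Agent.R238.IdM
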