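import Crest.Agent.R238.BootD
import Crest.Agent.R238.IsoMain
import Mathlib
import Crest.Agent.R238.GapDefs
import Crest.Agent.R238.GapIBP
import Crest.Agent.R238.GapMol
import Crest.Agent.R238.GapPoinc
import Crest.Agent.R238.DenPoi_Mg
import Crest.Agent.R238.TopAux
import Crest.Agent.R238.SoftConc
import Crest.Agent.R238.SoftDefs
import Crest.Agent.R238.Hol4
import Crest.Agent.R238.IdentMain_Mg
import Crest.Agent.R238.AEstF
import Crest.Agent.R238.EReg
import Crest.Agent.R238.SchAll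
import Crest.Agent.R238.ExiAsm
import Crest.Agent.R238.AprMain
import Crest.Agent.R238.ECalE12
import Crest.Agent.R238.ECalD3

-- ▼ part R238/BootE
section

/-!
Row 238 (S0369): BOOTSTRAP, part E (helper303): `IsoAsm.BootStep`, hence
`Apr.SchStmt → IsoStmt`.
-/

set_option autoImplicit false

namespace Crest.Agent.R238.Boot

open Crest.Agent.R238

theorem bootStep : IsoAsm.BootStep := fun _ _ ha ha1 _ hτ hS =>
  ⟨step0 ha ha1.le hS hτ, step1 ha hS hτ⟩

theorem iso_stmt (hS : Apr.SchStmt) : IsoStmt := IsoAsm.iso_of_boot hS bootStep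

end Crest.Agent.R238.Boot
end

-- ▼ part R238/GapBoch
section

/-!
Row 238 (S0369), module H4 (GAP): weighted Bochner identity in `x`-coordinates (helper469).
-/

set_option autoImplicit false

open MeasureTheory Real Set Filter Topology

namespace Crest.Agent.R238.Gap

namespace B

variable {n : ℕ}


lemma cd_pd1 {f : E n → ℝ} (hf : ContDiff ℝ 2 f) (i : Fin n) : ContDiff ℝ 1 (pd i f) := by
  have h1 : ContDiff ℝ 1 (fderiv ℝ f) := hf.fderiv_right (by norm_num)
  exact h1.clm_apply contDiff_const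

lemma cd_pd2 {f : E n → ℝ} (hf : ContDiff ℝ 3 f) (i : Fin n) : ContDiff ℝ 2 (pd i f) := by
  have h1 : ContDiff ℝ 2 (fderiv ℝ f) := hf.fderiv_right (by norm_num)
  exact h1.clm_apply contDiff_const

lemma cont_pd {f : E n → ℝ} (hf : ContDiff ℝ 1 f) (i : Fin n) : Continuous (pd i f) := by
  have h1 : Continuous (fderiv ℝ f) := hf.continuous_fderiv (by norm_num)
  exact h1.clm_apply continuous_const

lemma pd_add {f g : E n → ℝ} {x : E n} (i : Fin n) (hf : DifferentiableAt ℝ f x)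
    (hg : DifferentiableAt ℝ g x) : pd i (fun y => f y + g y) x = pd i f x + pd i g x := by
  unfold pd
  rw [fderiv_fun_add hf hg]; rfl

lemma pd_sub {f g : E n → ℝ} {x : E n} (i : Fin n) (hf : DifferentiableAt ℝ f x)
    (hg : DifferentiableAt ℝ g x) : pd i (fun y => f y - g y) x = pd i f x - pd i g x := by
  unfold pd
  rw [fderiv_fun_sub hf hg]; rfl

lemma pd_mul {f g : E n → ℝ} {x : E n} (i : Fin n) (hf : DifferentiableAt ℝ f x)
    (hg : DifferentiableAt ℝ g x) :
    pd i (fun y => f y * g y) x = pd i f x * g x + f x * pd i g x := by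
  unfold pd
  rw [fderiv_fun_mul hf hg]
  simp only [_root_.add_apply, _root_.smul_apply, smul_eq_mul]
  ring

lemma pd_sum {ι : Type*} {s : Finset ι} {f : ι → E n → ℝ} {x : E n} (i : Fin n)
    (hf : ∀ k ∈ s, DifferentiableAt ℝ (f k) x) :
    pd i (fun y => ∑ k ∈ s, f k y) x = ∑ k ∈ s, pd i (f k) x := by
  unfold pd
  rw [fderiv_fun_sum hf]
  simp

lemma pd_coord (i j : Fin n) (x : E n) : pd i (fun y : E n => y j) x = if i = j then 1 else 0 := by
  unfold pd
  have h : HasFDerivAt (fun y : E n => y j)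
      (EuclideanSpace.proj (𝕜 := ℝ) j : E n →L[ℝ] ℝ) x :=
    (EuclideanSpace.proj (𝕜 := ℝ) j : E n →L[ℝ] ℝ).hasFDerivAt
  rw [h.fderiv]
  simp [e, eq_comm]

lemma fderiv_eq_sum (f : E n → ℝ) (x v : E n) : fderiv ℝ f x v = ∑ i, v i * pd i f x := by
  have h : v = ∑ i, v i • (e i : E n) := by
    ext j
    simp [e, Pi.single_apply]
  conv_lhs => rw [h]
  simp [pd, map_sum]

lemma H_eq {h : E n → ℝ} (hh : ContDiff ℝ 2 h) (x : E n) (i j : Fin n) :
    H h x i j = pd i (pd j h) x := by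
  unfold H pd
  have h1 : DifferentiableAt ℝ (fun y => fderiv ℝ h y) x :=
    (hh.fderiv_right (m := 1) (by norm_num)).differentiable (by norm_num) x
  have h2 : HasFDerivAt (fun y => fderiv ℝ h y (e j))
      ((fderiv ℝ (fun y => fderiv ℝ h y) x).flip (e j)) x := by
    have h3 := h1.hasFDerivAt.clm_apply (hasFDerivAt_const (e j : E n) x)
    simpa using h3
  rw [h2.fderiv]
  rfl

lemma H_symm {h : E n → ℝ} (hh : ContDiff ℝ 2 h) (x : E n) (i j : Fin n) :
    H h x i j = H h x j i := by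
  have h1 : IsSymmSndFDerivAt ℝ h x :=
    hh.contDiffAt.isSymmSndFDerivAt (by simp)
  exact h1 _ _

lemma pd_comm {h : E n → ℝ} (hh : ContDiff ℝ 2 h) (x : E n) (i j : Fin n) :
    pd i (pd j h) x = pd j (pd i h) x := by
  rw [← H_eq hh, ← H_eq hh, H_symm hh]

lemma Lop_eq (τ : E n → Matrix (Fin n) (Fin n) ℝ) {h : E n → ℝ} (hh : ContDiff ℝ 2 h) (x : E n) :
    Lop τ h x = (∑ i, ∑ j, τ x i j * pd i (pd j h) x) - ∑ i, x i * pd i h x := by
  unfold Lop
  rw [fderiv_eq_sum]
  simp only [H_eq hh]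

lemma sum4_comm (F : Fin n → Fin n → Fin n → Fin n → ℝ) :
    ∑ c, ∑ d, ∑ i, ∑ j, F c d i j = ∑ j, ∑ i, ∑ d, ∑ c, F c d i j := by
  have h1 : ∀ d, ∑ c, ∑ i, ∑ j, F c d i j = ∑ j, ∑ i, ∑ c, F c d i j := by
    intro d
    have : ∀ i, ∑ c, ∑ j, F c d i j = ∑ j, ∑ c, F c d i j := fun i => Finset.sum_comm
    rw [Finset.sum_comm, Finset.sum_congr rfl fun i _ => this i, Finset.sum_comm]
  rw [Finset.sum_comm, Finset.sum_congr rfl fun d _ => h1 d, Finset.sum_comm]
  exact Finset.sum_congr rfl fun j _ => Finset.sum_comm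

/-- `V = τ ∇h`. -/
noncomputable def Vf (τ : E n → Matrix (Fin n) (Fin n) ℝ) (h : E n → ℝ) (a : Fin n) (x : E n) : ℝ :=
  ∑ b, τ x a b * pd b h x

lemma cd_Vf {τ : E n → Matrix (Fin n) (Fin n) ℝ} (hτ : ∀ i j, ContDiff ℝ 1 (fun x => τ x i j))
    {h : E n → ℝ} (hh : ContDiff ℝ 2 h) (a : Fin n) : ContDiff ℝ 1 (Vf τ h a) := by
  unfold Vf
  exact ContDiff.sum fun b _ => (hτ a b).mul (cd_pd1 hh b)

lemma pd_Vf {τ : E n → Matrix (Fin n) (Fin n) ℝ} (hτ : ∀ i j, ContDiff ℝ 1 (fun x => τ x i j))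
    {h : E n → ℝ} (hh : ContDiff ℝ 2 h) (c a : Fin n) (x : E n) :
    pd c (Vf τ h a) x = ∑ b, (pd c (fun y => τ y a b) x * pd b h x + τ x a b * pd c (pd b h) x) := by
  have h1 : ∀ b, DifferentiableAt ℝ (fun y => τ y a b) x := fun b =>
    (hτ a b).differentiable (by norm_num) x
  have h2 : ∀ b, DifferentiableAt ℝ (pd b h) x := fun b =>
    (cd_pd1 hh b).differentiable (by norm_num) x
  unfold Vf
  rw [pd_sum c (f := fun b y => τ y a b * pd b h y) (fun b _ => (h1 b).fun_mul (h2 b))]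
  exact Finset.sum_congr rfl fun b _ => pd_mul c (h1 b) (h2 b)

/-- the weighted divergence. -/
noncomputable def dv (P : E n → ℝ) (V : Fin n → E n → ℝ) (x : E n) : ℝ :=
  ∑ a, (pd a (V a) x - V a x * (x a + pd a P x))

lemma dv_Vf {lo hi M0 : ℝ} {P : E n → ℝ} {τ : E n → Matrix (Fin n) (Fin n) ℝ}
    (D : Dat lo hi M0 P τ) {h : E n → ℝ} (hh : ContDiff ℝ 2 h) (x : E n) :
    dv P (Vf τ h) x = Lop τ h x := by
  rw [Lop_eq τ hh]
  unfold dv
  simp only [pd_Vf D.hτ hh]
  have h1 : ∀ a, (∑ b, (pd a (fun y => τ y a b) x * pd b h x + τ x a b * pd a (pd b h) x)) -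
      Vf τ h a x * (x a + pd a P x) = (∑ b, τ x a b * pd a (pd b h) x) +
      ∑ b, pd b h x * (pd a (fun y => τ y a b) x - τ x a b * (x a + pd a P x)) := by
    intro a
    unfold Vf
    rw [Finset.sum_mul, ← Finset.sum_sub_distrib, ← Finset.sum_add_distrib]
    exact Finset.sum_congr rfl fun b _ => by ring
  rw [Finset.sum_congr rfl fun a _ => h1 a, Finset.sum_add_distrib, sub_eq_add_neg]
  congr 1
  rw [Finset.sum_comm]
  have h2 : ∀ b, (∑ a, pd b h x * (pd a (fun y => τ y a b) x - τ x a b * (x a + pd a P x))) =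
      - (x b * pd b h x) := by
    intro b
    rw [← Finset.mul_sum, D.div x b]
    ring
  rw [Finset.sum_congr rfl fun b _ => h2 b, Finset.sum_neg_distrib]

lemma dv_smul {P : E n → ℝ} {V : Fin n → E n → ℝ} {f : E n → ℝ} (x : E n)
    (hV : ∀ a, DifferentiableAt ℝ (V a) x) (hf : DifferentiableAt ℝ f x) :
    dv P (fun a y => V a y * f y) x = dv P V x * f x + ∑ a, V a x * pd a f x := by
  unfold dv
  rw [Finset.sum_mul, ← Finset.sum_add_distrib]
  refine Finset.sum_congr rfl fun a _ => ?_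
  rw [pd_mul a (hV a) hf]
  ring

lemma dv_sub {P : E n → ℝ} {V W : Fin n → E n → ℝ} (x : E n)
    (hV : ∀ a, DifferentiableAt ℝ (V a) x) (hW : ∀ a, DifferentiableAt ℝ (W a) x) :
    dv P (fun a y => V a y - W a y) x = dv P V x - dv P W x := by
  unfold dv
  rw [← Finset.sum_sub_distrib]
  refine Finset.sum_congr rfl fun a _ => ?_
  rw [pd_sub a (hV a) (hW a)]
  ring

lemma dv_sum {ι : Type*} {s : Finset ι} {P : E n → ℝ} {V : ι → Fin n → E n → ℝ} (x : E n)
    (hV : ∀ c ∈ s, ∀ a, DifferentiableAt ℝ (V c a) x) :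
    dv P (fun a y => ∑ c ∈ s, V c a y) x = ∑ c ∈ s, dv P (V c) x := by
  unfold dv
  rw [Finset.sum_comm]
  refine Finset.sum_congr rfl fun a _ => ?_
  rw [pd_sum a (f := fun c y => V c a y) (fun c hc => hV c hc a), Finset.sum_mul,
    ← Finset.sum_sub_distrib]

lemma cd_Lop {τ : E n → Matrix (Fin n) (Fin n) ℝ} (hτ : ∀ i j, ContDiff ℝ 1 (fun x => τ x i j))
    {h : E n → ℝ} (hh : ContDiff ℝ 3 h) : ContDiff ℝ 1 (Lop τ h) := by
  have h2 : ContDiff ℝ 2 h := hh.of_le (by norm_num)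
  have : Lop τ h = fun x => (∑ i, ∑ j, τ x i j * pd i (pd j h) x) - ∑ i, x i * pd i h x :=
    funext fun x => Lop_eq τ h2 x
  rw [this]
  refine ContDiff.sub (ContDiff.sum fun i _ => ContDiff.sum fun j _ => (hτ i j).mul
    (cd_pd1 (cd_pd2 hh j) i)) (ContDiff.sum fun i _ => ContDiff.mul ?_ (cd_pd1 h2 i))
  exact (EuclideanSpace.proj (𝕜 := ℝ) i : E n →L[ℝ] ℝ).contDiff

lemma pd_Lop {τ : E n → Matrix (Fin n) (Fin n) ℝ} (hτ : ∀ i j, ContDiff ℝ 1 (fun x => τ x i j))
    {h : E n → ℝ} (hh : ContDiff ℝ 3 h) (c : Fin n) (x : E n) :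
    pd c (Lop τ h) x = Lop τ (pd c h) x - pd c h x +
      ∑ i, ∑ j, pd c (fun y => τ y i j) x * pd i (pd j h) x := by
  have h2 : ContDiff ℝ 2 h := hh.of_le (by norm_num)
  have : Lop τ h = fun x => (∑ i, ∑ j, τ x i j * pd i (pd j h) x) - ∑ i, x i * pd i h x :=
    funext fun x => Lop_eq τ h2 x
  have d1 : ∀ i j, DifferentiableAt ℝ (fun y => τ y i j) x := fun i j =>
    (hτ i j).differentiable (by norm_num) x
  have d2 : ∀ i j, DifferentiableAt ℝ (pd i (pd j h)) x := fun i j =>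
    (cd_pd1 (cd_pd2 hh j) i).differentiable (by norm_num) x
  have d3 : ∀ i, DifferentiableAt ℝ (fun y : E n => y i) x := fun i =>
    (EuclideanSpace.proj (𝕜 := ℝ) i : E n →L[ℝ] ℝ).differentiableAt
  have d4 : ∀ i, DifferentiableAt ℝ (pd i h) x := fun i =>
    (cd_pd1 h2 i).differentiable (by norm_num) x
  rw [this, pd_sub c (DifferentiableAt.fun_sum fun i _ => DifferentiableAt.fun_sum fun j _ =>
    (d1 i j).fun_mul (d2 i j)) (DifferentiableAt.fun_sum fun i _ => (d3 i).fun_mul (d4 i)),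
    pd_sum c (f := fun i y => ∑ j, τ y i j * pd i (pd j h) y)
      (fun i _ => DifferentiableAt.fun_sum fun j _ => (d1 i j).fun_mul (d2 i j)),
    pd_sum c (f := fun i y => y i * pd i h y) (fun i _ => (d3 i).fun_mul (d4 i)),
    Lop_eq τ (cd_pd2 hh c)]
  have e1 : ∀ i, pd c (fun y => ∑ j, τ y i j * pd i (pd j h) y) x =
      ∑ j, (pd c (fun y => τ y i j) x * pd i (pd j h) x + τ x i j * pd i (pd j (pd c h)) x) := by
    intro i
    rw [pd_sum c (f := fun j y => τ y i j * pd i (pd j h) y) (fun j _ => (d1 i j).fun_mul (d2 i j))]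
    refine Finset.sum_congr rfl fun j _ => ?_
    rw [pd_mul c (d1 i j) (d2 i j)]
    congr 2
    rw [pd_comm (cd_pd2 hh j) x c i]
    have : pd c (pd j h) = pd j (pd c h) := funext fun y => pd_comm h2 y c j
    rw [this]
  have e2 : ∀ i, pd c (fun y => y i * pd i h y) x =
      (if c = i then 1 else 0) * pd i h x + x i * pd i (pd c h) x := by
    intro i
    rw [pd_mul c (d3 i) (d4 i), pd_coord, pd_comm h2 x c i]
  simp only [e1, e2, Finset.sum_add_distrib, ite_mul, one_mul, zero_mul, Finset.sum_ite_eq,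
    Finset.mem_univ, if_true]
  ring

/-- `<τ∇h, ∇h>`. -/
noncomputable def Ga (τ : E n → Matrix (Fin n) (Fin n) ℝ) (h : E n → ℝ) (x : E n) : ℝ :=
  ∑ a, ∑ b, τ x a b * pd a h x * pd b h x

/-- `tr (τ H τ H)`. -/
noncomputable def Qh (τ : E n → Matrix (Fin n) (Fin n) ℝ) (h : E n → ℝ) (x : E n) : ℝ :=
  ∑ a, ∑ c, (∑ d, τ x c d * pd a (pd d h) x) * (∑ b, τ x a b * pd b (pd c h) x)

/-- the field whose divergence gives Bochner. -/
noncomputable def Zf (τ : E n → Matrix (Fin n) (Fin n) ℝ) (h : E n → ℝ) (a : Fin n) (x : E n) : ℝ :=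
  Vf τ h a x * Lop τ h x - ∑ c, Vf τ (pd c h) a x * Vf τ h c x


theorem dv_Zf {lo hi M0 : ℝ} {P : E n → ℝ} {τ : E n → Matrix (Fin n) (Fin n) ℝ}
    (D : Dat lo hi M0 P τ) {h : E n → ℝ} (hh : ContDiff ℝ 3 h) (x : E n) :
    dv P (Zf τ h) x = Lop τ h x ^ 2 - Ga τ h x - Qh τ h x := by
  have h2 : ContDiff ℝ 2 h := hh.of_le (by norm_num)
  have dV : ∀ a, DifferentiableAt ℝ (Vf τ h a) x := fun a =>
    (cd_Vf D.hτ h2 a).differentiable (by norm_num) x
  have dW : ∀ c a, DifferentiableAt ℝ (Vf τ (pd c h) a) x := fun c a =>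
    (cd_Vf D.hτ (cd_pd2 hh c) a).differentiable (by norm_num) x
  have dL : DifferentiableAt ℝ (Lop τ h) x := (cd_Lop D.hτ hh).differentiable (by norm_num) x
  unfold Zf
  rw [dv_sub (V := fun a y => Vf τ h a y * Lop τ h y)
    (W := fun a y => ∑ c, Vf τ (pd c h) a y * Vf τ h c y) x (fun a => (dV a).fun_mul dL)
    (fun a => DifferentiableAt.fun_sum fun c _ => (dW c a).fun_mul (dV c)),
    dv_smul x dV dL, dv_sum (V := fun c a y => Vf τ (pd c h) a y * Vf τ h c y) x
    (fun c _ a => (dW c a).fun_mul (dV c)), dv_Vf D h2]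
  have e1 : ∀ c, dv P (fun a y => Vf τ (pd c h) a y * Vf τ h c y) x =
      Lop τ (pd c h) x * Vf τ h c x + ∑ a, Vf τ (pd c h) a x * pd a (Vf τ h c) x := by
    intro c
    rw [dv_smul x (dW c) (dV c), dv_Vf D (cd_pd2 hh c)]
  rw [Finset.sum_congr rfl fun c _ => e1 c]
  -- now the algebra
  have e2 : ∑ a, Vf τ h a x * pd a (Lop τ h) x =
      (∑ c, Lop τ (pd c h) x * Vf τ h c x) - Ga τ h x +
      ∑ c, Vf τ h c x * ∑ i, ∑ j, pd c (fun y => τ y i j) x * pd i (pd j h) x := by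
    have : Ga τ h x = ∑ c, Vf τ h c x * pd c h x := by
      unfold Ga Vf
      refine Finset.sum_congr rfl fun a _ => ?_
      rw [Finset.sum_mul]
      exact Finset.sum_congr rfl fun b _ => by ring
    rw [this, ← Finset.sum_sub_distrib, ← Finset.sum_add_distrib]
    refine Finset.sum_congr rfl fun c _ => ?_
    rw [pd_Lop D.hτ hh]
    ring
  have e3 : ∑ c, ∑ a, Vf τ (pd c h) a x * pd a (Vf τ h c) x = Qh τ h x +
      ∑ c, ∑ a, (∑ b, τ x a b * pd b (pd c h) x) *
        (∑ d, pd a (fun y => τ y c d) x * pd d h x) := by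
    unfold Qh
    rw [Finset.sum_comm (f := fun a c => (∑ d, τ x c d * pd a (pd d h) x) *
      (∑ b, τ x a b * pd b (pd c h) x)), ← Finset.sum_add_distrib]
    refine Finset.sum_congr rfl fun c _ => ?_
    rw [← Finset.sum_add_distrib]
    refine Finset.sum_congr rfl fun a _ => ?_
    rw [pd_Vf D.hτ h2, Finset.sum_add_distrib]
    unfold Vf
    ring
  have e4 : ∑ c, ∑ a, (∑ b, τ x a b * pd b (pd c h) x) *
        (∑ d, pd a (fun y => τ y c d) x * pd d h x) =
      ∑ c, Vf τ h c x * ∑ i, ∑ j, pd c (fun y => τ y i j) x * pd i (pd j h) x := by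
    have l1 : ∑ c, ∑ a, (∑ b, τ x a b * pd b (pd c h) x) *
        (∑ d, pd a (fun y => τ y c d) x * pd d h x) =
        ∑ c, ∑ b, ∑ d, pd b (pd c h) x * pd d h x *
          ∑ a, τ x a b * pd a (fun y => τ y c d) x := by
      refine Finset.sum_congr rfl fun c _ => ?_
      have k1 : ∀ a, (∑ b, τ x a b * pd b (pd c h) x) * (∑ d, pd a (fun y => τ y c d) x * pd d h x) =
          ∑ b, ∑ d, (τ x a b * pd b (pd c h) x) * (pd a (fun y => τ y c d) x * pd d h x) := by
        intro a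
        exact Finset.sum_mul_sum _ _ _ _
      rw [Finset.sum_congr rfl fun a _ => k1 a, Finset.sum_comm]
      refine Finset.sum_congr rfl fun b _ => ?_
      rw [Finset.sum_comm]
      refine Finset.sum_congr rfl fun d _ => ?_
      rw [Finset.mul_sum]
      exact Finset.sum_congr rfl fun a _ => by ring
    have l2 : ∑ c, Vf τ h c x * ∑ i, ∑ j, pd c (fun y => τ y i j) x * pd i (pd j h) x =
        ∑ j, ∑ i, ∑ d, pd i (pd j h) x * pd d h x *
          ∑ c, τ x c d * pd c (fun y => τ y i j) x := by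
      have h4 := sum4_comm (fun c d i j : Fin n =>
        τ x c d * pd d h x * (pd c (fun y => τ y i j) x * pd i (pd j h) x))
      have k1 : ∀ c, Vf τ h c x * ∑ i, ∑ j, pd c (fun y => τ y i j) x * pd i (pd j h) x =
          ∑ d, ∑ i, ∑ j, τ x c d * pd d h x * (pd c (fun y => τ y i j) x * pd i (pd j h) x) := by
        intro c
        unfold Vf
        rw [Finset.sum_mul]
        refine Finset.sum_congr rfl fun d _ => ?_
        rw [Finset.mul_sum]
        refine Finset.sum_congr rfl fun i _ => ?_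
        rw [Finset.mul_sum]
      rw [Finset.sum_congr rfl fun c _ => k1 c, h4]
      refine Finset.sum_congr rfl fun j _ => Finset.sum_congr rfl fun i _ =>
        Finset.sum_congr rfl fun d _ => ?_
      rw [Finset.mul_sum]
      exact Finset.sum_congr rfl fun c _ => by ring
    rw [l1, l2]
    refine Finset.sum_congr rfl fun c _ => Finset.sum_congr rfl fun b _ =>
      Finset.sum_congr rfl fun d _ => ?_
    congr 1
    -- S3(b;c,d) = S3(d;b,c)
    have s1 : (∑ a, τ x a b * pd a (fun y => τ y c d) x) =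
        ∑ a, τ x a b * pd a (fun y => τ y d c) x := by
      refine Finset.sum_congr rfl fun a _ => ?_
      congr 1
      have : (fun y => τ y c d) = fun y => τ y d c := funext fun y => D.symm y c d
      rw [this]
    rw [s1]
    exact D.tsym x b d c
  rw [e2, Finset.sum_add_distrib, e3, e4]
  ring

end B

end Crest.Agent.R238.Gap
end

-- ▼ part R238/GapB3
section

/-!
Row 238 (S0369), module H4 (GAP): integrated Bochner identity for `C³` functions (helper469).
-/

set_option autoImplicit false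

open MeasureTheory Real Set Filter Topology

namespace Crest.Agent.R238.Gap

variable {n : ℕ}

/-- `C¹` functions with polynomial growth of the function and its first derivatives. -/
structure G1 (f : E n → ℝ) : Prop where
  cd : ContDiff ℝ 1 f
  g0 : PG f
  g1 : ∀ i, PG (pd i f)

namespace G1

lemma diff {f : E n → ℝ} (hf : G1 f) (x : E n) : DifferentiableAt ℝ f x :=
  hf.cd.differentiable (by norm_num) x

lemma add {f g : E n → ℝ} (hf : G1 f) (hg : G1 g) : G1 (fun x => f x + g x) where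
  cd := hf.cd.add hg.cd
  g0 := hf.g0.add hg.g0
  g1 i := by
    have : pd i (fun x => f x + g x) = fun x => pd i f x + pd i g x :=
      funext fun x => B.pd_add i (hf.diff x) (hg.diff x)
    rw [this]
    exact (hf.g1 i).add (hg.g1 i)

lemma sub {f g : E n → ℝ} (hf : G1 f) (hg : G1 g) : G1 (fun x => f x - g x) where
  cd := hf.cd.sub hg.cd
  g0 := hf.g0.sub hg.g0
  g1 i := by
    have : pd i (fun x => f x - g x) = fun x => pd i f x - pd i g x :=
      funext fun x => B.pd_sub i (hf.diff x) (hg.diff x)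
    rw [this]
    exact (hf.g1 i).sub (hg.g1 i)

lemma mul {f g : E n → ℝ} (hf : G1 f) (hg : G1 g) : G1 (fun x => f x * g x) where
  cd := hf.cd.mul hg.cd
  g0 := hf.g0.mul hg.g0
  g1 i := by
    have : pd i (fun x => f x * g x) = fun x => pd i f x * g x + f x * pd i g x :=
      funext fun x => B.pd_mul i (hf.diff x) (hg.diff x)
    rw [this]
    exact ((hf.g1 i).mul hg.g0).add (hf.g0.mul (hg.g1 i))

lemma sum {ι : Type*} (s : Finset ι) {f : ι → E n → ℝ} (hf : ∀ k ∈ s, G1 (f k)) :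
    G1 (fun x => ∑ k ∈ s, f k x) where
  cd := ContDiff.sum fun k hk => (hf k hk).cd
  g0 := PG.sum s fun k hk => (hf k hk).g0
  g1 i := by
    have : pd i (fun x => ∑ k ∈ s, f k x) = fun x => ∑ k ∈ s, pd i (f k) x :=
      funext fun x => B.pd_sum i (fun k hk => (hf k hk).diff x)
    rw [this]
    exact PG.sum s fun k hk => (hf k hk).g1 i

lemma coord (j : Fin n) : G1 (fun x : E n => x j) where
  cd := (EuclideanSpace.proj (𝕜 := ℝ) j : E n →L[ℝ] ℝ).contDiff
  g0 := pg_coord j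
  g1 i := by
    have : pd i (fun x : E n => x j) = fun _ => if i = j then 1 else 0 :=
      funext fun x => B.pd_coord i j x
    rw [this]
    exact pg_const _

end G1

/-- `C³` functions with polynomial growth of the derivatives of order `1, 2, 3`. -/
structure G3 (h : E n → ℝ) : Prop where
  cd : ContDiff ℝ 3 h
  g1 : ∀ i, PG (pd i h)
  g2 : ∀ i j, PG (pd i (pd j h))
  g3 : ∀ i j k, PG (pd i (pd j (pd k h)))

lemma G3.c2 {h : E n → ℝ} (hh : G3 h) : ContDiff ℝ 2 h := hh.cd.of_le (by norm_num)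

lemma G3.pd1 {h : E n → ℝ} (hh : G3 h) (i : Fin n) : G1 (pd i h) where
  cd := B.cd_pd1 hh.c2 i
  g0 := hh.g1 i
  g1 j := hh.g2 j i

lemma G3.pd2 {h : E n → ℝ} (hh : G3 h) (i j : Fin n) : G1 (pd i (pd j h)) where
  cd := B.cd_pd1 (B.cd_pd2 hh.cd j) i
  g0 := hh.g2 i j
  g1 k := hh.g3 k i j

lemma Dat.g1τ {lo hi M0 : ℝ} {P : E n → ℝ} {τ : E n → Matrix (Fin n) (Fin n) ℝ}
    (D : Dat lo hi M0 P τ) (i j : Fin n) : G1 (fun x => τ x i j) where
  cd := D.hτ i j
  g0 := D.pgτ i j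
  g1 k := D.gτ k i j

lemma g1_Vf {lo hi M0 : ℝ} {P : E n → ℝ} {τ : E n → Matrix (Fin n) (Fin n) ℝ}
    (D : Dat lo hi M0 P τ) {h : E n → ℝ} (hh : ∀ i, G1 (pd i h)) (a : Fin n) :
    G1 (B.Vf τ h a) :=
  G1.sum _ fun b _ => (D.g1τ a b).mul (hh b)

lemma g1_Lop {lo hi M0 : ℝ} {P : E n → ℝ} {τ : E n → Matrix (Fin n) (Fin n) ℝ}
    (D : Dat lo hi M0 P τ) {h : E n → ℝ} (hh : G3 h) : G1 (Lop τ h) := by
  have : Lop τ h = fun x => (∑ i, ∑ j, τ x i j * pd i (pd j h) x) - ∑ i, x i * pd i h x :=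
    funext fun x => B.Lop_eq τ hh.c2 x
  rw [this]
  exact (G1.sum _ fun i _ => G1.sum _ fun j _ => (D.g1τ i j).mul (hh.pd2 i j)).sub
    (G1.sum _ fun i _ => (G1.coord i).mul (hh.pd1 i))

lemma g1_Zf {lo hi M0 : ℝ} {P : E n → ℝ} {τ : E n → Matrix (Fin n) (Fin n) ℝ}
    (D : Dat lo hi M0 P τ) {h : E n → ℝ} (hh : G3 h) (a : Fin n) : G1 (B.Zf τ h a) :=
  ((g1_Vf D hh.pd1 a).mul (g1_Lop D hh)).sub (G1.sum _ fun c _ =>
    (g1_Vf D (h := pd c h) (fun i => hh.pd2 i c) a).mul (g1_Vf D hh.pd1 c))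

lemma cont_Ga {τ : E n → Matrix (Fin n) (Fin n) ℝ} (hτ : ∀ i j, ContDiff ℝ 1 (fun x => τ x i j))
    {h : E n → ℝ} (hh : ContDiff ℝ 1 h) : Continuous (B.Ga τ h) := by
  unfold B.Ga
  exact continuous_finsetSum _ fun a _ => continuous_finsetSum _ fun b _ =>
    (((hτ a b).continuous).mul (B.cont_pd hh a)).mul (B.cont_pd hh b)

lemma cont_Qh {τ : E n → Matrix (Fin n) (Fin n) ℝ} (hτ : ∀ i j, ContDiff ℝ 1 (fun x => τ x i j))
    {h : E n → ℝ} (hh : ContDiff ℝ 2 h) : Continuous (B.Qh τ h) := by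
  unfold B.Qh
  have h2 : ∀ i j, Continuous (pd i (pd j h)) := fun i j => B.cont_pd (B.cd_pd1 hh j) i
  exact continuous_finsetSum _ fun a _ => continuous_finsetSum _ fun c _ =>
    (continuous_finsetSum _ fun d _ => (hτ c d).continuous.mul (h2 a d)).mul
      (continuous_finsetSum _ fun b _ => (hτ a b).continuous.mul (h2 b c))

lemma pg_Ga {lo hi M0 : ℝ} {P : E n → ℝ} {τ : E n → Matrix (Fin n) (Fin n) ℝ}
    (D : Dat lo hi M0 P τ) {h : E n → ℝ} (hh : ∀ i, PG (pd i h)) : PG (B.Ga τ h) :=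
  PG.sum _ fun a _ => PG.sum _ fun b _ => ((D.pgτ a b).mul (hh a)).mul (hh b)

lemma pg_Qh {lo hi M0 : ℝ} {P : E n → ℝ} {τ : E n → Matrix (Fin n) (Fin n) ℝ}
    (D : Dat lo hi M0 P τ) {h : E n → ℝ} (hh : ∀ i j, PG (pd i (pd j h))) : PG (B.Qh τ h) :=
  PG.sum _ fun a _ => PG.sum _ fun c _ => (PG.sum _ fun d _ => (D.pgτ c d).mul (hh a d)).mul
    (PG.sum _ fun b _ => (D.pgτ a b).mul (hh b c))

lemma cont_Lop {τ : E n → Matrix (Fin n) (Fin n) ℝ} (hτ : ∀ i j, ContDiff ℝ 1 (fun x => τ x i j))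
    {h : E n → ℝ} (hh : ContDiff ℝ 2 h) : Continuous (Lop τ h) := by
  have : Lop τ h = fun x => (∑ i, ∑ j, τ x i j * pd i (pd j h) x) - ∑ i, x i * pd i h x :=
    funext fun x => B.Lop_eq τ hh x
  rw [this]
  have h2 : ∀ i j, Continuous (pd i (pd j h)) := fun i j => B.cont_pd (B.cd_pd1 hh j) i
  refine (continuous_finsetSum _ fun i _ => continuous_finsetSum _ fun j _ =>
    (hτ i j).continuous.mul (h2 i j)).sub (continuous_finsetSum _ fun i _ => ?_)
  exact ((EuclideanSpace.proj (𝕜 := ℝ) i : E n →L[ℝ] ℝ).continuous).mul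
    (B.cont_pd (hh.of_le (by norm_num)) i)

/-- **Bochner**, `C³` functions. -/
theorem boch3 {lo hi M0 : ℝ} {P : E n → ℝ} {τ : E n → Matrix (Fin n) (Fin n) ℝ}
    (D : Dat lo hi M0 P τ) {h : E n → ℝ} (hh : G3 h) :
    ∫ x, Lop τ h x ^ 2 * wt P x = (∫ x, B.Ga τ h x * wt P x) + ∫ x, B.Qh τ h x * wt P x := by
  have h0 := ibp_zero D.hP D.bP D.gP (V := B.Zf τ h) (fun i => (g1_Zf D hh i).cd)
    (fun i => (g1_Zf D hh i).g0) (fun i => (g1_Zf D hh i).g1 i)
  have h1 : ∀ x, (∑ i, (pd i (B.Zf τ h i) x - B.Zf τ h i x * (x i + pd i P x))) * wt P x =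
      Lop τ h x ^ 2 * wt P x - (B.Ga τ h x * wt P x + B.Qh τ h x * wt P x) := by
    intro x
    have := B.dv_Zf D hh.cd x
    unfold B.dv at this
    rw [this]; ring
  simp only [h1] at h0
  have hc := D.hP.continuous
  have iL : Integrable (fun x => Lop τ h x ^ 2 * wt P x) :=
    integrable_pg hc D.bP ((cont_Lop D.hτ hh.c2).pow 2) ((g1_Lop D hh).g0.pow 2)
  have iG : Integrable (fun x => B.Ga τ h x * wt P x) :=
    integrable_pg hc D.bP (cont_Ga D.hτ (hh.cd.of_le (by norm_num))) (pg_Ga D hh.g1)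
  have iQ : Integrable (fun x => B.Qh τ h x * wt P x) :=
    integrable_pg hc D.bP (cont_Qh D.hτ hh.c2) (pg_Qh D hh.g2)
  have hs : Integrable (fun x => B.Ga τ h x * wt P x + B.Qh τ h x * wt P x) := iG.add iQ
  rw [integral_sub iL hs, integral_add iG iQ] at h0
  linarith

end Crest.Agent.R238.Gap
end

-- ▼ part R238/GapBochC2
section

/-!
Row 238 (S0369), module H4 (GAP): integrated Bochner identity for even `C²` functions with bounded
Hessian, by mollification (helper609, on top of helper469's `boch3` and helper470's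
`exists_mollification`).
-/

set_option autoImplicit false

open MeasureTheory Real Set Filter Topology
open scoped ContDiff

namespace Crest.Agent.R238.Gap

variable {n : ℕ}

namespace BC2

lemma abs_coord_le (v : E n) (i : Fin n) : |v i| ≤ ‖v‖ := by
  simpa using PiLp.norm_apply_le v i

lemma pd_odd {h : E n → ℝ} (hd : Differentiable ℝ h) (hev : Ev h) (i : Fin n) :
    pd i h 0 = 0 := by
  have h1 : (fun x => h (-x)) = h := funext hev
  have h2 : HasFDerivAt (fun x : E n => h (-x))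
      ((fderiv ℝ h (-(0 : E n))).comp (-(ContinuousLinearMap.id ℝ (E n)))) 0 :=
    ((hd (-(0 : E n))).hasFDerivAt).comp (0 : E n) ((hasFDerivAt_id (0 : E n)).neg)
  rw [h1, neg_zero] at h2
  have h3 := h2.fderiv
  have h4 : pd i h 0 = - pd i h 0 := by
    unfold pd
    conv_lhs => rw [h3]
    simp
  linarith

lemma norm_fderiv_le {f : E n → ℝ} {K : ℝ} (hB : ∀ x i, |pd i f x| ≤ K) (x : E n) :
    ‖fderiv ℝ f x‖ ≤ n * |K| := by
  refine ContinuousLinearMap.opNorm_le_bound _ (by positivity) fun v => ?_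
  rw [B.fderiv_eq_sum, Real.norm_eq_abs]
  calc |∑ i, v i * pd i f x| ≤ ∑ i, |v i * pd i f x| := Finset.abs_sum_le_sum_abs _ _
    _ ≤ ∑ _i : Fin n, ‖v‖ * |K| := by
        refine Finset.sum_le_sum fun i _ => ?_
        rw [abs_mul]
        exact mul_le_mul (abs_coord_le v i) ((hB x i).trans (le_abs_self K)) (abs_nonneg _)
          (norm_nonneg _)
    _ = n * |K| * ‖v‖ := by simp; ring

/-- linear growth of the gradient of an even function with bounded Hessian. -/
lemma grad_bound {h : E n → ℝ} (hh : ContDiff ℝ 2 h) (hev : Ev h) {K : ℝ}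
    (hB : ∀ x i j, |H h x i j| ≤ K) (x : E n) (i : Fin n) : |pd i h x| ≤ n * |K| * ‖x‖ := by
  have h1 : Differentiable ℝ (pd i h) := (B.cd_pd1 hh i).differentiable (by norm_num)
  have h2 : ∀ y, ‖fderiv ℝ (pd i h) y‖ ≤ n * |K| := fun y =>
    norm_fderiv_le (fun z k => by rw [← B.H_eq hh z k i]; exact hB z k i) y
  have h3 := Convex.norm_image_sub_le_of_norm_fderiv_le (𝕜 := ℝ) (s := Set.univ)
    (fun y _ => h1 y) (fun y _ => h2 y) convex_univ (Set.mem_univ (0 : E n)) (Set.mem_univ x)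
  rw [pd_odd (hh.differentiable (by norm_num)) hev i, sub_zero, sub_zero, Real.norm_eq_abs] at h3
  exact h3

/-- dominated convergence for `∫ F_j wt`. -/
lemma dct {P : E n → ℝ} {M0 : ℝ} (hP : Continuous P) (bP : ∀ x, |P x| ≤ M0)
    {F : ℕ → E n → ℝ} {f g : E n → ℝ} (hF : ∀ j, Continuous (F j)) (hg : Continuous g)
    (pg : PG g) (hb : ∀ j x, |F j x| ≤ g x) (hl : ∀ x, Tendsto (fun j => F j x) atTop (𝓝 (f x))) :
    Tendsto (fun j => ∫ x, F j x * wt P x) atTop (𝓝 (∫ x, f x * wt P x)) := by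
  have hw : Continuous (wt P) := by unfold wt; fun_prop
  refine tendsto_integral_of_dominated_convergence (fun x => g x * wt P x) (fun j => ?_) ?_
    (fun j => ?_) ?_
  · exact ((hF j).mul hw).aestronglyMeasurable
  · exact integrable_pg hP bP hg pg
  · refine Eventually.of_forall fun x => ?_
    rw [norm_mul, Real.norm_eq_abs, Real.norm_eq_abs, abs_of_pos (wt_pos P x)]
    exact mul_le_mul_of_nonneg_right (hb j x) (wt_pos P x).le
  · exact Eventually.of_forall fun x => (hl x).mul_const _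

end BC2

open BC2

/-- **Bochner** for even `C²` functions with bounded Hessian. -/
theorem boch2 {lo hi M0 : ℝ} {P : E n → ℝ} {τ : E n → Matrix (Fin n) (Fin n) ℝ}
    (D : Dat lo hi M0 P τ) {h : E n → ℝ} (hev : Ev h) (h2 : ContDiff ℝ 2 h) {Bd : ℝ}
    (hB : ∀ x i j, |H h x i j| ≤ Bd) :
    ∫ x, Lop τ h x ^ 2 * wt P x = (∫ x, B.Ga τ h x * wt P x) + ∫ x, B.Qh τ h x * wt P x := by
  obtain ⟨hj, c1, e1, b1, b2, -, l1, l2, -, -⟩ := exists_mollification h2 hev hB
  have c2 : ∀ j, ContDiff ℝ 2 (hj j) := fun j => by exact_mod_cast contDiff_infty.1 (c1 j) 2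
  have c3 : ∀ j, ContDiff ℝ 3 (hj j) := fun j => by exact_mod_cast contDiff_infty.1 (c1 j) 3
  have hB0 : 0 ≤ |Bd| := abs_nonneg _
  set T : ℝ := |lo| + |hi| with hT
  have hT0 : 0 ≤ T := by positivity
  set C : ℝ := n * |Bd| with hC
  have hC0 : 0 ≤ C := by positivity
  have gb : ∀ j x i, |pd i (hj j) x| ≤ C * ‖x‖ := fun j x i => grad_bound (c2 j) (e1 j) (b1 j) x i
  have hb : ∀ j x i k, |pd i (pd k (hj j)) x| ≤ |Bd| := fun j x i k => by
    rw [← B.H_eq (c2 j)]
    exact (b1 j x i k).trans (le_abs_self _)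
  have pgC : PG (fun x : E n => C * ‖x‖) := (pg_const C).mul pg_norm
  -- `G3`
  have g3 : ∀ j, G3 (hj j) := fun j => by
    refine ⟨c3 j, fun i => ?_, fun i k => ?_, fun i k l => ?_⟩
    · refine pgC.mono fun x => ?_
      rw [abs_of_nonneg (by positivity : 0 ≤ C * ‖x‖)]
      exact gb j x i
    · exact PG.of_bdd (K := |Bd|) fun x => hb j x i k
    · obtain ⟨B', hB'⟩ := b2 j
      refine PG.of_bdd (K := B') fun x => ?_
      have : pd k (pd l (hj j)) = fun y => H (hj j) y k l := funext fun y => (B.H_eq (c2 j) y k l).symm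
      rw [this]
      exact hB' x k l i
  have key : ∀ j, ∫ x, Lop τ (hj j) x ^ 2 * wt P x =
      (∫ x, B.Ga τ (hj j) x * wt P x) + ∫ x, B.Qh τ (hj j) x * wt P x := fun j => boch3 D (g3 j)
  have hPc := D.hP.continuous
  -- pointwise limits
  have l2' : ∀ x a b, Tendsto (fun j => pd a (pd b (hj j)) x) atTop (𝓝 (pd a (pd b h) x)) := by
    intro x a b
    have := l2 x a b
    rw [B.H_eq h2] at this
    exact this.congr fun j => B.H_eq (c2 j) x a b
  have tL : ∀ x, Tendsto (fun j => Lop τ (hj j) x) atTop (𝓝 (Lop τ h x)) := by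
    intro x
    rw [B.Lop_eq τ h2]
    refine Tendsto.congr (fun j => (B.Lop_eq τ (c2 j) x).symm) ?_
    refine Tendsto.sub (tendsto_finsetSum _ fun i _ => tendsto_finsetSum _ fun k _ =>
      (l2' x i k).const_mul _) (tendsto_finsetSum _ fun i _ => (l1 i x).const_mul _)
  have tG : ∀ x, Tendsto (fun j => B.Ga τ (hj j) x) atTop (𝓝 (B.Ga τ h x)) := by
    intro x
    unfold B.Ga
    exact tendsto_finsetSum _ fun a _ => tendsto_finsetSum _ fun b _ =>
      ((l1 a x).const_mul _).mul (l1 b x)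
  have tQ : ∀ x, Tendsto (fun j => B.Qh τ (hj j) x) atTop (𝓝 (B.Qh τ h x)) := by
    intro x
    unfold B.Qh
    exact tendsto_finsetSum _ fun a _ => tendsto_finsetSum _ fun c _ =>
      (tendsto_finsetSum _ fun d _ => (l2' x a d).const_mul _).mul
        (tendsto_finsetSum _ fun b _ => (l2' x b c).const_mul _)
  -- dominating functions
  set gL : E n → ℝ := fun x => (∑ _i : Fin n, ∑ _k : Fin n, T * |Bd|) + ∑ _i : Fin n, ‖x‖ * (C * ‖x‖)
    with hgL
  have gLc : Continuous gL := by rw [hgL]; fun_prop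
  have gLp : PG gL := (pg_const _).add (PG.sum _ fun _ _ => pg_norm.mul pgC)
  have gL0 : ∀ x, 0 ≤ gL x := fun x => by rw [hgL]; positivity
  have bL : ∀ j x, |Lop τ (hj j) x| ≤ gL x := by
    intro j x
    rw [B.Lop_eq τ (c2 j)]
    refine (abs_sub _ _).trans (add_le_add ?_ ?_)
    · refine (Finset.abs_sum_le_sum_abs _ _).trans (Finset.sum_le_sum fun i _ => ?_)
      refine (Finset.abs_sum_le_sum_abs _ _).trans (Finset.sum_le_sum fun k _ => ?_)
      rw [abs_mul]
      exact mul_le_mul (D.entry_le x i k) (hb j x i k) (abs_nonneg _) hT0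
    · refine (Finset.abs_sum_le_sum_abs _ _).trans (Finset.sum_le_sum fun i _ => ?_)
      rw [abs_mul]
      exact mul_le_mul (abs_coord_le x i) (gb j x i) (abs_nonneg _) (norm_nonneg _)
  set gG : E n → ℝ := fun x => ∑ _a : Fin n, ∑ _b : Fin n, T * (C * ‖x‖) * (C * ‖x‖) with hgG
  have gGc : Continuous gG := by rw [hgG]; fun_prop
  have gGp : PG gG := PG.sum _ fun _ _ => PG.sum _ fun _ _ => ((pg_const T).mul pgC).mul pgC
  have bG : ∀ j x, |B.Ga τ (hj j) x| ≤ gG x := by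
    intro j x
    unfold B.Ga
    refine (Finset.abs_sum_le_sum_abs _ _).trans (Finset.sum_le_sum fun a _ => ?_)
    refine (Finset.abs_sum_le_sum_abs _ _).trans (Finset.sum_le_sum fun b _ => ?_)
    rw [abs_mul, abs_mul]
    exact mul_le_mul (mul_le_mul (D.entry_le x a b) (gb j x a) (abs_nonneg _) hT0) (gb j x b)
      (abs_nonneg _) (by positivity)
  set gQ : E n → ℝ := fun _ => ∑ _a : Fin n, ∑ _c : Fin n,
    (∑ _d : Fin n, T * |Bd|) * (∑ _b : Fin n, T * |Bd|) with hgQ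
  have gQc : Continuous gQ := by rw [hgQ]; fun_prop
  have gQp : PG gQ := pg_const _
  have bQ : ∀ j x, |B.Qh τ (hj j) x| ≤ gQ x := by
    intro j x
    unfold B.Qh
    refine (Finset.abs_sum_le_sum_abs _ _).trans (Finset.sum_le_sum fun a _ => ?_)
    refine (Finset.abs_sum_le_sum_abs _ _).trans (Finset.sum_le_sum fun c _ => ?_)
    rw [abs_mul]
    refine mul_le_mul ?_ ?_ (abs_nonneg _) (by positivity)
    · refine (Finset.abs_sum_le_sum_abs _ _).trans (Finset.sum_le_sum fun d _ => ?_)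
      rw [abs_mul]
      exact mul_le_mul (D.entry_le x c d) (hb j x a d) (abs_nonneg _) hT0
    · refine (Finset.abs_sum_le_sum_abs _ _).trans (Finset.sum_le_sum fun b _ => ?_)
      rw [abs_mul]
      exact mul_le_mul (D.entry_le x a b) (hb j x b c) (abs_nonneg _) hT0
  have t1 := dct (F := fun j x => Lop τ (hj j) x ^ 2) (f := fun x => Lop τ h x ^ 2) hPc D.bP
    (fun j => (cont_Lop D.hτ (c2 j)).pow 2) (gLc.pow 2) (gLp.pow 2)
    (fun j x => by
      rw [abs_pow]
      exact pow_le_pow_left₀ (abs_nonneg _) (bL j x) 2)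
    (fun x => (tL x).pow 2)
  have t2 := dct (F := fun j x => B.Ga τ (hj j) x) (f := B.Ga τ h) hPc D.bP
    (fun j => cont_Ga D.hτ ((c2 j).of_le (by norm_num))) gGc gGp bG tG
  have t3 := dct (F := fun j x => B.Qh τ (hj j) x) (f := B.Qh τ h) hPc D.bP
    (fun j => cont_Qh D.hτ (c2 j)) gQc gQp bQ tQ
  refine tendsto_nhds_unique t1 ?_
  exact (t2.add t3).congr fun j => (key j).symm

end Crest.Agent.R238.Gap
end

-- ▼ part R238/GapMain
section

/-!
Row 238 (S0369), module H4 (GAP): the `L²` gap for even functions (helper469).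
-/

set_option autoImplicit false

open MeasureTheory Real Set Filter Topology

namespace Crest.Agent.R238.Gap

variable {n : ℕ}

lemma abs_coord_le (x : E n) (i : Fin n) : |x i| ≤ ‖x‖ := by
  have := PiLp.norm_apply_le x i
  simpa using this

lemma norm_fderiv_le_sum (f : E n → ℝ) (x : E n) : ‖fderiv ℝ f x‖ ≤ ∑ i, |pd i f x| := by
  refine ContinuousLinearMap.opNorm_le_bound _ (Finset.sum_nonneg fun i _ => abs_nonneg _) ?_
  intro v
  rw [B.fderiv_eq_sum, Real.norm_eq_abs, Finset.sum_mul]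
  refine (Finset.abs_sum_le_sum_abs _ _).trans (Finset.sum_le_sum fun i _ => ?_)
  rw [abs_mul, mul_comm]
  exact mul_le_mul_of_nonneg_left (abs_coord_le v i) (abs_nonneg _)


lemma pg_of_pd {f : E n → ℝ} (hf : ContDiff ℝ 1 f) (h1 : ∀ i, PG (pd i f)) : PG f := by
  have h2 : PG (fun x => ∑ i, |pd i f x|) := PG.sum _ fun i _ => (h1 i).abs
  obtain ⟨K, k, hK0, hK⟩ := pg_nonneg h2
  refine ⟨|f 0| + K, k + 1, fun x => ?_⟩
  have h3 : ‖f x - f 0‖ ≤ (K * (1 + ‖x‖) ^ k) * ‖x - 0‖ := by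
    refine Convex.norm_image_sub_le_of_norm_fderiv_le (𝕜 := ℝ) (s := Metric.closedBall 0 ‖x‖)
      (fun y _ => hf.differentiable (by norm_num) y) ?_ (convex_closedBall _ _) ?_ ?_
    · intro y hy
      have hy' : ‖y‖ ≤ ‖x‖ := by simpa using hy
      refine (norm_fderiv_le_sum f y).trans ?_
      have := hK y
      rw [abs_of_nonneg (Finset.sum_nonneg fun i _ => abs_nonneg _)] at this
      refine this.trans ?_
      gcongr
    · simp
    · simp
  have h4 : 0 ≤ ‖x‖ := norm_nonneg x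
  have h5 : (1 : ℝ) ≤ (1 + ‖x‖) ^ (k + 1) := one_le_pow₀ (by linarith)
  have h6 : (1 + ‖x‖) ^ k * ‖x‖ ≤ (1 + ‖x‖) ^ (k + 1) := by
    rw [pow_succ]
    exact mul_le_mul_of_nonneg_left (by linarith) (by positivity)
  rw [sub_zero, Real.norm_eq_abs] at h3
  calc |f x| = |f 0 + (f x - f 0)| := by ring_nf
    _ ≤ |f 0| + |f x - f 0| := abs_add_le _ _
    _ ≤ |f 0| * 1 + K * ((1 + ‖x‖) ^ k * ‖x‖) := by
        rw [mul_one]; linarith [h3]
    _ ≤ |f 0| * (1 + ‖x‖) ^ (k + 1) + K * (1 + ‖x‖) ^ (k + 1) := by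
        gcongr
    _ = _ := by ring

/-- growth of even `C²` functions with bounded Hessian. -/
structure GH (h : E n → ℝ) : Prop where
  cd : ContDiff ℝ 2 h
  g0 : PG h
  g1 : ∀ i, PG (pd i h)
  g2 : ∀ i j, PG (pd i (pd j h))

lemma gh_of_bdd {h : E n → ℝ} (hh : ContDiff ℝ 2 h) {Bd : ℝ} (hB : ∀ x i j, |H h x i j| ≤ Bd) :
    GH h := by
  have g2 : ∀ i j, PG (pd i (pd j h)) := fun i j =>
    PG.of_bdd (K := Bd) fun x => by rw [← B.H_eq hh]; exact hB x i j
  have g1 : ∀ j, PG (pd j h) := fun j => pg_of_pd (B.cd_pd1 hh j) fun i => g2 i j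
  exact ⟨hh, pg_of_pd (hh.of_le (by norm_num)) g1, g1, g2⟩


lemma pd_odd {h : E n → ℝ} (hd : Differentiable ℝ h) (hev : Ev h) (i : Fin n) (x : E n) :
    pd i h (-x) = - pd i h x := by
  have h1 : (fun y => h (-y)) = h := funext hev
  have h2 : HasFDerivAt (fun y => h (-y)) ((fderiv ℝ h (-x)).comp (-ContinuousLinearMap.id ℝ (E n))) x :=
    (hd (-x)).hasFDerivAt.comp x (hasFDerivAt_id x).neg
  rw [h1] at h2
  unfold pd
  rw [h2.fderiv]
  simp



section
open scoped MatrixOrder Matrix.Norms.L2Operator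
lemma psd_decomp {C : Matrix (Fin n) (Fin n) ℝ} (hC : C.PosSemidef) :
    ∃ Bm : Matrix (Fin n) (Fin n) ℝ, C = Bm.transpose * Bm := by
  obtain ⟨Bm, hB⟩ := CStarAlgebra.nonneg_iff_eq_star_mul_self.mp hC.nonneg
  refine ⟨Bm, ?_⟩
  rw [hB]
  congr 1
end

/-- `tr(A H A H) ≥ lo² |H|²`. -/
lemma tr_lower {lo : ℝ} (hlo : 0 ≤ lo) (A S : Matrix (Fin n) (Fin n) ℝ) (hA : ∀ i j, A i j = A j i)
    (hl : ∀ v : Fin n → ℝ, lo * ∑ i, v i ^ 2 ≤ ∑ i, ∑ j, A i j * v i * v j)
    (hS : ∀ i j, S i j = S j i) :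
    lo ^ 2 * ∑ i, ∑ j, S i j ^ 2 ≤
      ∑ a, ∑ c, (∑ d, A c d * S a d) * (∑ b, A a b * S b c) := by
  classical
  set C : Matrix (Fin n) (Fin n) ℝ := A - lo • (1 : Matrix (Fin n) (Fin n) ℝ) with hC
  have hSt : S.transpose = S := by ext i j; exact hS j i
  have hCps : C.PosSemidef := by
    refine Matrix.PosSemidef.of_dotProduct_mulVec_nonneg ?_ ?_
    · ext i j
      simp [hC, Matrix.conjTranspose_apply, Matrix.sub_apply, Matrix.smul_apply, Matrix.one_apply,
        hA i j, eq_comm]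
    · intro v
      have h1 := hl v
      have h2 : star v ⬝ᵥ C.mulVec v = (∑ i, ∑ j, A i j * v i * v j) - lo * ∑ i, v i ^ 2 := by
        rw [hC, Matrix.sub_mulVec, dotProduct_sub, Matrix.smul_mulVec, Matrix.one_mulVec]
        congr 1
        · simp only [dotProduct, Matrix.mulVec, star_trivial, Finset.mul_sum]
          exact Finset.sum_congr rfl fun i _ => Finset.sum_congr rfl fun j _ => by ring
        · simp only [dotProduct, star_trivial, Pi.smul_apply, smul_eq_mul, Finset.mul_sum]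
          exact Finset.sum_congr rfl fun i _ => by ring
      rw [h2]; linarith
  obtain ⟨Bm, hBm⟩ := psd_decomp hCps
  have hAC : A = C + lo • (1 : Matrix (Fin n) (Fin n) ℝ) := by rw [hC]; simp
  have key : ∑ a, ∑ c, (∑ d, A c d * S a d) * (∑ b, A a b * S b c) =
      Matrix.trace (A * S * A * S) := by
    have h1 : ∀ a c, (∑ d, A c d * S a d) = (S * A) a c := by
      intro a c
      rw [Matrix.mul_apply]
      exact Finset.sum_congr rfl fun d _ => by rw [hA c d]; ring
    have h2 : ∀ a c, (∑ b, A a b * S b c) = (A * S) a c := fun a c => by rw [Matrix.mul_apply]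
    simp only [h1, h2]
    rw [Matrix.mul_assoc (A * S), Matrix.trace]
    simp only [Matrix.diag_apply, Matrix.mul_apply (M := A * S)]
    refine Finset.sum_congr rfl fun a _ => Finset.sum_congr rfl fun c _ => ?_
    have h3 : (A * S) c a = (S * A) a c := by
      rw [Matrix.mul_apply, Matrix.mul_apply]
      exact Finset.sum_congr rfl fun d _ => by rw [hA c d, hS d a]; ring
    rw [h3]; ring
  have nn : ∀ M : Matrix (Fin n) (Fin n) ℝ, 0 ≤ Matrix.trace (M.transpose * M) := by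
    intro M
    rw [Matrix.trace]
    refine Finset.sum_nonneg fun i _ => ?_
    rw [Matrix.diag_apply, Matrix.mul_apply]
    exact Finset.sum_nonneg fun j _ => by rw [Matrix.transpose_apply]; exact mul_self_nonneg _
  have hS2 : ∑ i, ∑ j, S i j ^ 2 = Matrix.trace (S * S) := by
    rw [Matrix.trace]
    refine Finset.sum_congr rfl fun i _ => ?_
    rw [Matrix.diag_apply, Matrix.mul_apply]
    exact Finset.sum_congr rfl fun j _ => by rw [hS j i]; ring
  rw [key, hS2, hAC]
  have e1 : (C + lo • (1 : Matrix (Fin n) (Fin n) ℝ)) * S * (C + lo • (1 : Matrix (Fin n) (Fin n) ℝ)) * S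
      = C * S * C * S + lo • (C * S * S) + lo • (S * C * S) + lo ^ 2 • (S * S) := by
    simp only [add_mul, mul_add, smul_mul_assoc, mul_smul_comm, one_mul, mul_one, smul_smul,
      smul_add, sq]
    abel
  rw [e1, Matrix.trace_add, Matrix.trace_add, Matrix.trace_add, Matrix.trace_smul,
    Matrix.trace_smul, Matrix.trace_smul]
  have t1 : 0 ≤ Matrix.trace (C * S * C * S) := by
    have : Matrix.trace (C * S * C * S) =
        Matrix.trace ((Bm * S * Bm.transpose).transpose * (Bm * S * Bm.transpose)) := by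
      rw [Matrix.transpose_mul, Matrix.transpose_mul, Matrix.transpose_transpose, hSt, hBm]
      rw [Matrix.trace_mul_comm (Bm.transpose * Bm * S * (Bm.transpose * Bm)) S]
      rw [← Matrix.mul_assoc, ← Matrix.mul_assoc, ← Matrix.mul_assoc, ← Matrix.mul_assoc,
        ← Matrix.mul_assoc, ← Matrix.mul_assoc]
      rw [Matrix.trace_mul_comm _ Bm]
      simp only [Matrix.mul_assoc]
    rw [this]; exact nn _
  have t2 : 0 ≤ Matrix.trace (S * C * S) := by
    have : Matrix.trace (S * C * S) = Matrix.trace ((Bm * S).transpose * (Bm * S)) := by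
      rw [Matrix.transpose_mul, hSt, hBm]
      simp only [Matrix.mul_assoc]
    rw [this]; exact nn _
  have t3 : Matrix.trace (C * S * S) = Matrix.trace (S * C * S) := by
    rw [Matrix.trace_mul_comm (C * S) S, Matrix.mul_assoc]
  rw [t3]
  have := mul_nonneg hlo t2
  simp only [smul_eq_mul]
  linarith

/-- the Bochner inequality for `h` (integrated form). -/
def BochIneq (P : E n → ℝ) (τ : E n → Matrix (Fin n) (Fin n) ℝ) (h : E n → ℝ) : Prop :=
  (∫ x, B.Ga τ h x * wt P x) + ∫ x, B.Qh τ h x * wt P x ≤ ∫ x, Lop τ h x ^ 2 * wt P x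

/-- Poincaré constant. -/
noncomputable def Kp (_n : ℕ) (M0 : ℝ) : ℝ :=
  (π ^ 2 / 8) * Real.exp (2 * M0)

lemma Kp_pos (n : ℕ) (M0 : ℝ) : 0 < Kp n M0 := by
  unfold Kp
  positivity

lemma wt_pos' (P : E n → ℝ) (x : E n) : 0 < wt P x := Real.exp_pos _

/-- Poincaré inequality for odd functions. -/
lemma poinc_odd {P : E n → ℝ} {M0 : ℝ} (hPc : Continuous P) (hP : ∀ x, |P x| ≤ M0)
    {f : E n → ℝ} (hf : ContDiff ℝ 1 f) (hf0 : PG f) (hf1 : ∀ i, PG (pd i f))
    (hodd : ∀ x, f (-x) = - f x) :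
    ∫ x, f x ^ 2 * wt P x ≤ Kp n M0 * ∫ x, (∑ i, pd i f x ^ 2) * wt P x :=
  GapPc.odd_poincare hPc hP hf hodd hf0 hf1

/-- the gap parameter. -/
noncomputable def dl (n : ℕ) (lo hi M0 : ℝ) : ℝ := lo ^ 2 / (Kp n M0 * (|hi| + 1))

lemma dl_pos (n : ℕ) {lo hi M0 : ℝ} (hlo : 0 < lo) : 0 < dl n lo hi M0 := by
  have := Kp_pos n M0
  unfold dl
  positivity

/-- the gap constant. -/
noncomputable def Kg (n : ℕ) (lo hi M0 : ℝ) : ℝ :=
  2 + 2 / (dl n lo hi M0 / (1 + dl n lo hi M0)) ^ 2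

lemma Kg_pos (n : ℕ) {lo hi M0 : ℝ} (hlo : 0 < lo) : 0 < Kg n lo hi M0 := by
  have := dl_pos n (hi := hi) (M0 := M0) hlo
  unfold Kg
  positivity

/-- **GAP**, from the Bochner inequality for `h`. -/
theorem gap_of_boch {lo hi M0 : ℝ} (hlo : 0 < lo) {P : E n → ℝ}
    {τ : E n → Matrix (Fin n) (Fin n) ℝ} (D : Dat lo hi M0 P τ)
    {h : E n → ℝ} (hev : Ev h) (hh : GH h) (hb : BochIneq P τ h) :
    ∫ x, h x ^ 2 * wt P x ≤ Kg n lo hi M0 * ∫ x, (Lop τ h x + h x) ^ 2 * wt P x := by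
  have hPc := D.hP.continuous
  have hc0 : Continuous h := hh.cd.continuous
  have hcL : Continuous (Lop τ h) := cont_Lop D.hτ hh.cd
  have hgH : ∀ i j, PG (fun x => H h x i j) := fun i j => by
    have : (fun x => H h x i j) = pd i (pd j h) := funext fun x => B.H_eq hh.cd x i j
    rw [this]; exact hh.g2 i j
  have hgL : PG (Lop τ h) := pg_Lop D.pgτ hh.g1 hgH
  have hcd : ∀ i, Continuous (pd i h) := fun i => B.cont_pd (hh.cd.of_le (by norm_num)) i
  have hcdd : ∀ i j, Continuous (pd i (pd j h)) := fun i j => B.cont_pd (B.cd_pd1 hh.cd j) i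
  -- the integrals
  set G := ∫ x, B.Ga τ h x * wt P x with hG
  set Q := ∫ x, B.Qh τ h x * wt P x with hQ
  set Bq := ∫ x, Lop τ h x ^ 2 * wt P x with hBq
  set F := ∫ x, (Lop τ h x + h x) ^ 2 * wt P x with hF
  set S := ∫ x, (∑ i, pd i h x ^ 2) * wt P x with hS
  set R := ∫ x, (∑ i, ∑ j, pd i (pd j h) x ^ 2) * wt P x with hR
  have w0 : ∀ x, 0 ≤ wt P x := fun x => (wt_pos' P x).le
  have iG : Integrable (fun x => B.Ga τ h x * wt P x) :=
    integrable_pg hPc D.bP (cont_Ga D.hτ (hh.cd.of_le (by norm_num))) (pg_Ga D hh.g1)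
  have iQ : Integrable (fun x => B.Qh τ h x * wt P x) :=
    integrable_pg hPc D.bP (cont_Qh D.hτ hh.cd) (pg_Qh D hh.g2)
  have iB : Integrable (fun x => Lop τ h x ^ 2 * wt P x) :=
    integrable_pg hPc D.bP (hcL.pow 2) (hgL.pow 2)
  have iF : Integrable (fun x => (Lop τ h x + h x) ^ 2 * wt P x) :=
    integrable_pg hPc D.bP ((hcL.add hc0).pow 2) ((hgL.add hh.g0).pow 2)
  have iS : Integrable (fun x => (∑ i, pd i h x ^ 2) * wt P x) :=
    integrable_pg hPc D.bP (continuous_finsetSum _ fun i _ => (hcd i).pow 2)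
      (PG.sum _ fun i _ => (hh.g1 i).pow 2)
  have iR : Integrable (fun x => (∑ i, ∑ j, pd i (pd j h) x ^ 2) * wt P x) :=
    integrable_pg hPc D.bP (continuous_finsetSum _ fun i _ => continuous_finsetSum _ fun j _ =>
      (hcdd i j).pow 2) (PG.sum _ fun i _ => PG.sum _ fun j _ => (hh.g2 i j).pow 2)
  have ihL : Integrable (fun x => h x * Lop τ h x * wt P x) :=
    integrable_pg hPc D.bP (hc0.mul hcL) (hh.g0.mul hgL)
  have ih2 : Integrable (fun x => h x ^ 2 * wt P x) :=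
    integrable_pg hPc D.bP (hc0.pow 2) (hh.g0.pow 2)
  -- positivity
  have hS0 : 0 ≤ S := integral_nonneg fun x =>
    mul_nonneg (Finset.sum_nonneg fun i _ => sq_nonneg _) (w0 x)
  have hR0 : 0 ≤ R := integral_nonneg fun x =>
    mul_nonneg (Finset.sum_nonneg fun i _ => Finset.sum_nonneg fun j _ => sq_nonneg _) (w0 x)
  have hGS : G ≤ (|hi| + 1) * S := by
    rw [hG, hS, ← integral_const_mul]
    refine integral_mono iG (iS.const_mul _) fun x => ?_
    have h1 : B.Ga τ h x ≤ hi * ∑ i, pd i h x ^ 2 := D.upper x (fun i => pd i h x)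
    have h2 : 0 ≤ ∑ i, pd i h x ^ 2 := Finset.sum_nonneg fun i _ => sq_nonneg _
    have h3 : B.Ga τ h x ≤ (|hi| + 1) * ∑ i, pd i h x ^ 2 :=
      h1.trans (mul_le_mul_of_nonneg_right (by linarith [le_abs_self hi]) h2)
    have := mul_le_mul_of_nonneg_right h3 (w0 x)
    simp only
    linarith
  have hG0 : 0 ≤ G := by
    refine integral_nonneg fun x => mul_nonneg ?_ (w0 x)
    have h1 : lo * ∑ i, pd i h x ^ 2 ≤ B.Ga τ h x := D.lower x (fun i => pd i h x)
    have h2 : 0 ≤ ∑ i, pd i h x ^ 2 := Finset.sum_nonneg fun i _ => sq_nonneg _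
    exact (mul_nonneg hlo.le h2).trans h1
  have hQR : lo ^ 2 * R ≤ Q := by
    rw [hQ, hR, ← integral_const_mul]
    refine integral_mono (iR.const_mul _) iQ fun x => ?_
    have h1 := tr_lower hlo.le (τ x) (fun i j => pd i (pd j h) x) (D.symm x) (D.lower x)
      (fun i j => B.pd_comm hh.cd x i j)
    have := mul_le_mul_of_nonneg_right h1 (w0 x)
    simp only [B.Qh]
    linarith
  -- Poincaré
  have hSR : S ≤ Kp n M0 * R := by
    have e1 : S = ∑ i, ∫ x, pd i h x ^ 2 * wt P x := by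
      rw [hS, ← integral_finsetSum]
      · exact integral_congr_ae (Eventually.of_forall fun x => by simp only [Finset.sum_mul])
      · exact fun i _ => integrable_pg hPc D.bP ((hcd i).pow 2) ((hh.g1 i).pow 2)
    have e2 : R = ∑ i, ∫ x, (∑ j, pd j (pd i h) x ^ 2) * wt P x := by
      rw [hR, ← integral_finsetSum]
      · refine integral_congr_ae (Eventually.of_forall fun x => ?_)
        simp only [← Finset.sum_mul]
        rw [Finset.sum_comm]
      · exact fun i _ => integrable_pg hPc D.bP (continuous_finsetSum _ fun j _ =>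
          (hcdd j i).pow 2) (PG.sum _ fun j _ => (hh.g2 j i).pow 2)
    rw [e1, e2, Finset.mul_sum]
    exact Finset.sum_le_sum fun i _ => poinc_odd hPc D.bP (B.cd_pd1 hh.cd i) (hh.g1 i)
      (fun j => hh.g2 j i) (pd_odd (hh.cd.differentiable (by norm_num)) hev i)
  -- symmetry
  have hsym : ∫ x, h x * Lop τ h x * wt P x = - G :=
    D.sym (hh.cd.of_le (by norm_num)) hh.g0 hh.g1 hh.cd hh.g1 hgH
  set d := dl n lo hi M0 with hd
  have hd0 : 0 < d := dl_pos n hlo
  have hKp := Kp_pos n M0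
  have hdG : d * G ≤ Q := by
    have h1 : d * G ≤ lo ^ 2 * R := by
      have h2 : G ≤ (|hi| + 1) * (Kp n M0 * R) :=
        hGS.trans (mul_le_mul_of_nonneg_left hSR (by positivity))
      have h3 : d * ((|hi| + 1) * (Kp n M0 * R)) = lo ^ 2 * R := by
        rw [hd]; unfold dl; field_simp
      calc d * G ≤ d * ((|hi| + 1) * (Kp n M0 * R)) := mul_le_mul_of_nonneg_left h2 hd0.le
        _ = _ := h3
    exact h1.trans hQR
  have hB1 : (1 + d) * G ≤ Bq := by
    have : G + Q ≤ Bq := hb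
    linarith
  -- `Bq - G = ∫ L h (L h + h)`
  set t := d / (1 + d) with ht
  have ht0 : 0 < t := by positivity
  have hB0 : 0 ≤ Bq := integral_nonneg fun x => mul_nonneg (sq_nonneg _) (w0 x)
  have hBG : Bq - G ≤ t / 2 * Bq + 1 / (2 * t) * F := by
    have e1 : Bq - G = ∫ x, (Lop τ h x ^ 2 * wt P x + h x * Lop τ h x * wt P x) := by
      rw [integral_add iB ihL, hsym]; ring
    have e2 : t / 2 * Bq + 1 / (2 * t) * F =
        ∫ x, (t / 2 * (Lop τ h x ^ 2 * wt P x) + 1 / (2 * t) * ((Lop τ h x + h x) ^ 2 * wt P x)) := by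
      rw [integral_add (iB.const_mul _) (iF.const_mul _), integral_const_mul, integral_const_mul]
    rw [e1, e2]
    refine integral_mono (iB.add ihL) ((iB.const_mul _).add (iF.const_mul _)) fun x => ?_
    simp only
    have h1 : Lop τ h x * (Lop τ h x + h x) ≤
        t / 2 * Lop τ h x ^ 2 + 1 / (2 * t) * (Lop τ h x + h x) ^ 2 := by
      have h2 : 0 ≤ (t * Lop τ h x - (Lop τ h x + h x)) ^ 2 / (2 * t) := by positivity
      have h3 : (t * Lop τ h x - (Lop τ h x + h x)) ^ 2 / (2 * t) =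
          t / 2 * Lop τ h x ^ 2 + 1 / (2 * t) * (Lop τ h x + h x) ^ 2 -
          Lop τ h x * (Lop τ h x + h x) := by
        field_simp; ring
      linarith
    have := mul_le_mul_of_nonneg_right h1 (w0 x)
    nlinarith
  have htB : t * Bq ≤ Bq - G := by
    have h1 : G ≤ Bq / (1 + d) := by
      rw [le_div_iff₀ (by positivity)]; linarith
    have h2 : Bq - Bq / (1 + d) = t * Bq := by rw [ht]; field_simp; ring
    linarith
  have hBF : Bq ≤ F / t ^ 2 := by
    have h1 : t / 2 * Bq ≤ 1 / (2 * t) * F := by linarith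
    rw [le_div_iff₀ (by positivity)]
    have h2 := mul_le_mul_of_nonneg_left h1 (by positivity : 0 ≤ 2 * t)
    have h3 : 2 * t * (1 / (2 * t) * F) = F := by field_simp
    nlinarith
  have hfin : ∫ x, h x ^ 2 * wt P x ≤ 2 * F + 2 * Bq := by
    have e2 : 2 * F + 2 * Bq =
        ∫ x, (2 * ((Lop τ h x + h x) ^ 2 * wt P x) + 2 * (Lop τ h x ^ 2 * wt P x)) := by
      rw [integral_add (iF.const_mul _) (iB.const_mul _), integral_const_mul, integral_const_mul]
    rw [e2]
    refine integral_mono ih2 ((iF.const_mul _).add (iB.const_mul _)) fun x => ?_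
    simp only
    have h1 : h x ^ 2 ≤ 2 * (Lop τ h x + h x) ^ 2 + 2 * Lop τ h x ^ 2 := by
      nlinarith [sq_nonneg (2 * Lop τ h x + h x)]
    have := mul_le_mul_of_nonneg_right h1 (w0 x)
    linarith
  have : Kg n lo hi M0 * F = 2 * F + 2 * (F / t ^ 2) := by
    unfold Kg; rw [← hd, ← ht]; ring
  rw [this]
  linarith

end Crest.Agent.R238.Gap
end

-- ▼ part R238/GapInterp
section

set_option autoImplicit false
open MeasureTheory

namespace Crest.Agent.R238.Gap

variable {n : ℕ}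

/-- operator norm of the second derivative from the entries of the Hessian -/
lemma norm_fderiv2_le {h : E n → ℝ} {B : ℝ} (hB : ∀ x i j, |H h x i j| ≤ B) (hB0 : 0 ≤ B) (x : E n) :
    ‖fderiv ℝ (fderiv ℝ h) x‖ ≤ (n : ℝ) ^ 2 * B := by
  have hexp : ∀ v : E n, v = ∑ i, v i • (EuclideanSpace.single i (1:ℝ) : E n) := fun v => by
    have := (EuclideanSpace.basisFun (Fin n) ℝ).sum_repr v
    simpa using this.symm
  refine ContinuousLinearMap.opNorm_le_bound _ (by positivity) fun v => ?_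
  refine ContinuousLinearMap.opNorm_le_bound _ (by positivity) fun w => ?_
  have e1 : fderiv ℝ (fderiv ℝ h) x v w = ∑ i, ∑ j, v i * w j * H h x i j := by
    conv_lhs => rw [hexp v, hexp w]
    simp only [map_sum, map_smul, _root_.sum_apply, _root_.smul_apply,
      smul_eq_mul, H, e]
    rw [Finset.sum_comm]
    refine Finset.sum_congr rfl fun i _ => ?_
    rw [Finset.mul_sum]
    refine Finset.sum_congr rfl fun j _ => ?_
    ring
  rw [e1, Real.norm_eq_abs]
  calc |∑ i, ∑ j, v i * w j * H h x i j| ≤ ∑ i, ∑ j, |v i * w j * H h x i j| := by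
        refine (Finset.abs_sum_le_sum_abs _ _).trans (Finset.sum_le_sum fun i _ => ?_)
        exact Finset.abs_sum_le_sum_abs _ _
    _ ≤ ∑ _i : Fin n, ∑ _j : Fin n, ‖v‖ * ‖w‖ * B := by
        refine Finset.sum_le_sum fun i _ => Finset.sum_le_sum fun j _ => ?_
        rw [abs_mul, abs_mul]
        have h1 : |v i| ≤ ‖v‖ := PiLp.norm_apply_le v i
        have h2 : |w j| ≤ ‖w‖ := PiLp.norm_apply_le w j
        exact mul_le_mul (mul_le_mul h1 h2 (abs_nonneg _) (norm_nonneg _)) (hB x i j) (abs_nonneg _)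
          (by positivity)
    _ = (n : ℝ) ^ 2 * B * ‖v‖ * ‖w‖ := by
        simp; ring

lemma norm_fderiv_sub_le {h : E n → ℝ} {B : ℝ} (hh : ContDiff ℝ 2 h)
    (hB : ∀ x i j, |H h x i j| ≤ B) (hB0 : 0 ≤ B) (x y : E n) :
    ‖fderiv ℝ h y - fderiv ℝ h x‖ ≤ (n : ℝ) ^ 2 * B * ‖y - x‖ := by
  have hd : Differentiable ℝ (fderiv ℝ h) :=
    (hh.fderiv_right (m := 1) (by norm_num)).differentiable (by norm_num)
  exact convex_univ.norm_image_sub_le_of_norm_fderiv_le (fun z _ => hd z)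
    (fun z _ => norm_fderiv2_le hB hB0 z) (Set.mem_univ _) (Set.mem_univ _)

/-- first order Taylor estimate -/
lemma taylor_one {h : E n → ℝ} {B : ℝ} (hh : ContDiff ℝ 2 h)
    (hB : ∀ x i j, |H h x i j| ≤ B) (hB0 : 0 ≤ B) (x z : E n) :
    |h (x + z) - h x - fderiv ℝ h x z| ≤ (n : ℝ) ^ 2 * B * ‖z‖ ^ 2 := by
  have hd : Differentiable ℝ h := hh.differentiable (by norm_num)
  have key := (convex_closedBall x ‖z‖).norm_image_sub_le_of_norm_fderiv_le' (f := h)
    (φ := fderiv ℝ h x) (C := (n : ℝ) ^ 2 * B * ‖z‖) (x := x) (y := x + z)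
    (fun y _ => hd y) (fun y hy => ?_) (Metric.mem_closedBall_self (norm_nonneg _))
    (by simp)
  · rw [add_sub_cancel_left, Real.norm_eq_abs] at key
    calc _ ≤ _ := key
      _ = _ := by ring
  · refine (norm_fderiv_sub_le hh hB hB0 x y).trans ?_
    rw [Metric.mem_closedBall, dist_eq_norm] at hy
    exact mul_le_mul_of_nonneg_left hy (by positivity)

/-- symmetric second difference -/
lemma second_diff {h : E n → ℝ} {B : ℝ} (hh : ContDiff ℝ 2 h)
    (hB : ∀ x i j, |H h x i j| ≤ B) (hB0 : 0 ≤ B) (x z : E n) :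
    |h (x + z) + h (x - z) - 2 * h x| ≤ 2 * ((n : ℝ) ^ 2 * B * ‖z‖ ^ 2) := by
  have h1 := taylor_one hh hB hB0 x z
  have h2 := taylor_one hh hB hB0 x (-z)
  rw [norm_neg, map_neg, ← sub_eq_add_neg] at h2
  rw [abs_le] at h1 h2 ⊢
  constructor <;> linarith [h1.1, h1.2, h2.1, h2.2]

/-- **Interpolation** (C5). -/
theorem interp (n : ℕ) (M0 R ε : ℝ) (hε : 0 < ε) : ∃ K : ℝ, 0 ≤ K ∧ ∀ P : E n → ℝ, Continuous P →
    (∀ x, |P x| ≤ M0) → ∀ h : E n → ℝ, ContDiff ℝ 2 h → ∀ B : ℝ, 0 ≤ B →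
    (∀ x i j, |H h x i j| ≤ B) → ∀ N : ℝ, Integrable (fun x => h x ^ 2 * wt P x) →
    (∫ x, h x ^ 2 * wt P x) ≤ N ^ 2 → 0 ≤ N → ∀ x : E n, ‖x‖ ≤ R → |h x| ≤ ε * B + K * N := by
  -- the radius
  obtain ⟨r, hr0, hr⟩ : ∃ r : ℝ, 0 < r ∧ (n : ℝ) ^ 2 * r ^ 2 ≤ ε := by
    refine ⟨Real.sqrt (ε / ((n : ℝ) ^ 2 + 1)), Real.sqrt_pos.mpr (by positivity), ?_⟩
    rw [Real.sq_sqrt (by positivity)]
    have h1 : (0:ℝ) < (n : ℝ) ^ 2 + 1 := by positivity
    rw [mul_div_assoc', div_le_iff₀ h1]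
    nlinarith [sq_nonneg (n : ℝ)]
  set w0 : ℝ := Real.exp (-M0) * Real.exp (-((|R| + r) ^ 2 / 2)) with hw0
  have hw0pos : 0 < w0 := by positivity
  set V : ℝ := (volume : Measure (E n)).real (Metric.ball 0 r) with hV
  have hVpos : 0 < V := by
    rw [hV, Measure.real]
    exact ENNReal.toReal_pos (Metric.measure_ball_pos _ _ hr0).ne' measure_ball_lt_top.ne
  refine ⟨(Real.sqrt (w0 * V))⁻¹, by positivity, ?_⟩
  intro P hP hPM h hh B hB0 hB N hint hN hN0 x hx
  by_contra hcon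
  rw [not_le] at hcon
  set A : ℝ := |h x| - ε * B with hA
  have hApos : 0 < A := by
    have : 0 ≤ (Real.sqrt (w0 * V))⁻¹ * N := by positivity
    linarith
  -- pointwise inequality
  set F : E n → ℝ := fun y => w0⁻¹ * (h y ^ 2 * wt P y) with hF
  have hFint : Integrable F := hint.const_mul _
  have hF0 : ∀ y, 0 ≤ F y := fun y => by
    have := (wt_pos P y).le
    simp only [hF]; positivity
  have hFge : ∀ y : E n, ‖y‖ ≤ |R| + r → h y ^ 2 ≤ F y := by
    intro y hy
    have h1 : w0 ≤ wt P y := by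
      refine le_trans ?_ (le_wt hPM y)
      rw [hw0]
      refine mul_le_mul_of_nonneg_left (Real.exp_le_exp.mpr ?_) (Real.exp_pos _).le
      have : ‖y‖ ^ 2 ≤ (|R| + r) ^ 2 := pow_le_pow_left₀ (norm_nonneg _) hy 2
      linarith
    simp only [hF]
    rw [le_inv_mul_iff₀ hw0pos]
    rw [mul_comm]
    exact mul_le_mul_of_nonneg_left h1 (sq_nonneg _)
  have hpt : ∀ z : E n, (Metric.ball (0 : E n) r).indicator (fun _ => A ^ 2) z ≤
      (1 / 2) * (F (x + z) + F (x - z)) := by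
    intro z
    by_cases hz : z ∈ Metric.ball (0 : E n) r
    · rw [Set.indicator_of_mem hz]
      rw [Metric.mem_ball, dist_zero_right] at hz
      have hxR : ‖x‖ ≤ |R| := hx.trans (le_abs_self _)
      have h1 := hFge (x + z) ((norm_add_le _ _).trans (by linarith))
      have h2 := hFge (x - z) ((norm_sub_le _ _).trans (by linarith))
      have h3 := second_diff hh hB hB0 x z
      have h4 : (n : ℝ) ^ 2 * B * ‖z‖ ^ 2 ≤ ε * B := by
        have : ‖z‖ ^ 2 ≤ r ^ 2 := pow_le_pow_left₀ (norm_nonneg _) hz.le 2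
        calc (n : ℝ) ^ 2 * B * ‖z‖ ^ 2 ≤ (n : ℝ) ^ 2 * B * r ^ 2 := by gcongr
          _ = ((n : ℝ) ^ 2 * r ^ 2) * B := by ring
          _ ≤ ε * B := by gcongr
      have h5 : 2 * A ≤ |h (x + z) + h (x - z)| := by
        have h6 : 2 * |h x| ≤ |h (x + z) + h (x - z)| + 2 * (ε * B) := by
          have : |2 * h x| ≤ |h (x + z) + h (x - z)| + |h (x + z) + h (x - z) - 2 * h x| := by
            have e : 2 * h x = (h (x + z) + h (x - z)) - (h (x + z) + h (x - z) - 2 * h x) := by ring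
            calc |2 * h x| = |(h (x + z) + h (x - z)) - (h (x + z) + h (x - z) - 2 * h x)| := by
                  rw [← e]
              _ ≤ _ := abs_sub _ _
          rw [abs_mul, abs_two] at this
          linarith
        rw [hA]; linarith
      have h7 : (2 * A) ^ 2 ≤ (h (x + z) + h (x - z)) ^ 2 := by
        rw [← sq_abs (h (x + z) + h (x - z))]
        exact pow_le_pow_left₀ (by linarith) h5 2
      nlinarith [sq_nonneg (h (x + z) - h (x - z))]
    · rw [Set.indicator_of_notMem hz]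
      have := hF0 (x + z)
      have := hF0 (x - z)
      positivity
  have hi1 : Integrable (fun z => F (x + z)) := hFint.comp_add_left x
  have hi2 : Integrable (fun z => F (x - z)) := hFint.comp_sub_left x
  have hI := integral_mono (μ := (volume : Measure (E n))) (f := fun z =>
    (Metric.ball (0 : E n) r).indicator (fun _ => A ^ 2) z)
    (g := fun z => (1 / 2) * (F (x + z) + F (x - z))) ?_ ((hi1.add hi2).const_mul _) hpt
  · rw [integral_indicator measurableSet_ball, setIntegral_const, integral_const_mul,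
      integral_add hi1 hi2, integral_add_left_eq_self F x, integral_sub_left_eq_self F volume x] at hI
    have hF1 : ∫ y, F y ≤ w0⁻¹ * N ^ 2 := by
      simp only [hF]
      rw [integral_const_mul]
      exact mul_le_mul_of_nonneg_left hN (by positivity)
    have h8 : V * A ^ 2 ≤ w0⁻¹ * N ^ 2 := by
      have : V * A ^ 2 = volume.real (Metric.ball (0 : E n) r) • A ^ 2 := rfl
      rw [this]
      linarith
    have h9 : A ^ 2 ≤ ((Real.sqrt (w0 * V))⁻¹ * N) ^ 2 := by
      rw [mul_pow, inv_pow, Real.sq_sqrt (by positivity), mul_inv]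
      have : A ^ 2 ≤ V⁻¹ * (w0⁻¹ * N ^ 2) := by
        rw [le_inv_mul_iff₀ hVpos]; exact h8
      calc _ ≤ _ := this
        _ = _ := by ring
    have h10 : A ≤ (Real.sqrt (w0 * V))⁻¹ * N :=
      (pow_le_pow_iff_left₀ hApos.le (by positivity) two_ne_zero).mp h9
    linarith
  · exact (integrable_indicator_iff measurableSet_ball).mpr
      (integrableOn_const (hs := measure_ball_lt_top.ne))

end Crest.Agent.R238.Gap
end

-- ▼ part R238/GapFinal
section

/-!
Row 238 (S0369), module H4 (GAP), final exports (helper469):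

* `gap` : `∫ h² wt ≤ Kg n lo hi M0 * ∫ (L h + h)² wt` for even `C²` `h` with bounded Hessian;
* `sup_est` : `sup_{|x| ≤ R} |h| ≤ ε sup |D²h| + K sup |L h + h|`.
-/

set_option autoImplicit false

open MeasureTheory Real Set Filter Topology

namespace Crest.Agent.R238.Gap

variable {n : ℕ}

/-- **GAP** : the spectral gap on even functions. -/
theorem gap {lo hi M0 : ℝ} (hlo : 0 < lo) {P : E n → ℝ}
    {τ : E n → Matrix (Fin n) (Fin n) ℝ} (D : Dat lo hi M0 P τ)
    {h : E n → ℝ} (hev : Ev h) (h2 : ContDiff ℝ 2 h) {Bd : ℝ}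
    (hB : ∀ x i j, |H h x i j| ≤ Bd) :
    ∫ x, h x ^ 2 * wt P x ≤ Kg n lo hi M0 * ∫ x, (Lop τ h x + h x) ^ 2 * wt P x :=
  gap_of_boch hlo D hev (gh_of_bdd h2 hB) (boch2 D hev h2 hB).ge

/-- integrability of `h² wt`. -/
theorem int_sq {lo hi M0 : ℝ} {P : E n → ℝ}
    {τ : E n → Matrix (Fin n) (Fin n) ℝ} (D : Dat lo hi M0 P τ)
    {h : E n → ℝ} (h2 : ContDiff ℝ 2 h) {Bd : ℝ} (hB : ∀ x i j, |H h x i j| ≤ Bd) :
    Integrable (fun x => h x ^ 2 * wt P x) :=
  integrable_pg D.hP.continuous D.bP (h2.continuous.pow 2) ((gh_of_bdd h2 hB).g0.pow 2)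

/-- integrability of `(L h + h)² wt`. -/
theorem int_Lsq {lo hi M0 : ℝ} {P : E n → ℝ}
    {τ : E n → Matrix (Fin n) (Fin n) ℝ} (D : Dat lo hi M0 P τ)
    {h : E n → ℝ} (h2 : ContDiff ℝ 2 h) {Bd : ℝ} (hB : ∀ x i j, |H h x i j| ≤ Bd) :
    Integrable (fun x => (Lop τ h x + h x) ^ 2 * wt P x) := by
  have hh := gh_of_bdd h2 hB
  have hgH : ∀ i j, PG (fun x => H h x i j) := fun i j => PG.of_bdd (K := Bd) fun x => hB x i j
  exact integrable_pg D.hP.continuous D.bP (((cont_Lop D.hτ h2).add h2.continuous).pow 2)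
    (((pg_Lop D.pgτ hh.g1 hgH).add hh.g0).pow 2)

/-- the total mass bound. -/
lemma int_wt_le {P : E n → ℝ} {M0 : ℝ} (hPc : Continuous P) (hP : ∀ x, |P x| ≤ M0) :
    ∫ x, wt P x ≤ Real.exp M0 * ∫ x : E n, Real.exp (-(1 / 2 * ‖x‖ ^ 2)) := by
  rw [← integral_const_mul]
  refine integral_mono (integrable_wt hPc hP)
    ((integrable_exp_neg_mul_norm_sq (by norm_num)).const_mul _) fun x => ?_
  refine (wt_le hP x).trans (le_of_eq ?_)
  have e1 : -(‖x‖ ^ 2 / 2) = -(1 / 2 * ‖x‖ ^ 2) := by ring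
  rw [e1]

/-- **sup estimate** : `sup_{|x| ≤ R} |h| ≤ ε sup |D²h| + K sup |L h + h|` for even `h`. -/
theorem sup_est (n : ℕ) (lo hi M0 R ε : ℝ) (hlo : 0 < lo) (_hlh : lo ≤ hi) (hε : 0 < ε) :
    ∃ K : ℝ, 0 ≤ K ∧ ∀ (P : E n → ℝ) (τ : E n → Matrix (Fin n) (Fin n) ℝ),
      Dat lo hi M0 P τ → ∀ h : E n → ℝ, Ev h → ContDiff ℝ 2 h → ∀ B N : ℝ, 0 ≤ B →
        (∀ x i j, |H h x i j| ≤ B) → (∀ x, |Lop τ h x + h x| ≤ N) →
        ∀ x, ‖x‖ ≤ R → |h x| ≤ ε * B + K * N := by
  obtain ⟨K, hK, HI⟩ := interp n M0 R ε hε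
  set W : ℝ := Real.exp M0 * ∫ x : E n, Real.exp (-(1 / 2 * ‖x‖ ^ 2)) with hW
  have hW0 : 0 ≤ W := mul_nonneg (Real.exp_pos _).le (integral_nonneg fun x => (Real.exp_pos _).le)
  have hKg : 0 ≤ Kg n lo hi M0 := (Kg_pos n hlo).le
  refine ⟨K * √(Kg n lo hi M0 * W), by positivity, ?_⟩
  intro P τ D h hev h2 B N hB0 hB hN x hx
  have hN0 : 0 ≤ N := (abs_nonneg _).trans (hN 0)
  have hPc := D.hP.continuous
  have h3 : ∫ x, (Lop τ h x + h x) ^ 2 * wt P x ≤ N ^ 2 * W := by
    calc ∫ x, (Lop τ h x + h x) ^ 2 * wt P x ≤ ∫ x, N ^ 2 * wt P x := by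
          refine integral_mono (int_Lsq D h2 hB) ((integrable_wt hPc D.bP).const_mul _) fun y => ?_
          refine mul_le_mul_of_nonneg_right ?_ (wt_pos P y).le
          rw [← sq_abs]
          exact pow_le_pow_left₀ (abs_nonneg _) (hN y) 2
      _ = N ^ 2 * ∫ x, wt P x := integral_const_mul _ _
      _ ≤ N ^ 2 * W := mul_le_mul_of_nonneg_left (int_wt_le hPc D.bP) (sq_nonneg _)
  have h4 : ∫ x, h x ^ 2 * wt P x ≤ (√(Kg n lo hi M0 * W) * N) ^ 2 := by
    rw [mul_pow, Real.sq_sqrt (mul_nonneg hKg hW0)]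
    refine (gap hlo D hev h2 hB).trans ?_
    calc Kg n lo hi M0 * ∫ x, (Lop τ h x + h x) ^ 2 * wt P x
        ≤ Kg n lo hi M0 * (N ^ 2 * W) := mul_le_mul_of_nonneg_left h3 hKg
      _ = _ := by ring
  have h5 := HI P hPc D.bP h h2 B hB0 hB (√(Kg n lo hi M0 * W) * N) (int_sq D h2 hB) h4
    (by positivity) x hx
  calc |h x| ≤ ε * B + K * (√(Kg n lo hi M0 * W) * N) := h5
    _ = _ := by ring

end Crest.Agent.R238.Gap
end

-- ▼ part R238/Dens
section

/-! Row 238, H10: `theorem dens n : Dens n`. (helper892; poi_sol helper280, dense_even helper34,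
gap helper469, dat_of_sol helper146) -/

set_option autoImplicit false
open scoped ContDiff Topology
open Set Filter MeasureTheory

namespace Crest.Agent.R238

variable {n : ℕ}

theorem Den.gap_sol {P v : E n → ℝ} (hP : PDat P) (hv : Sol P v) : ∃ K : ℝ, ∀ h : E n → ℝ,
    Nice h → (∀ x, h (-x) = h x) →
      ∫ x, h x ^ 2 * wt P x ≤ K * ∫ x, (Lop v h x + h x) ^ 2 * wt P x := by
  obtain ⟨lo, hi, M0, hlo, D⟩ := GapD.dat_of_sol hP hv
  refine ⟨Gap.Kg n lo hi M0, fun h hh he => ?_⟩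
  obtain ⟨C, hC⟩ := hh.bdd 2 le_rfl
  have hB : ∀ x i j, |Gap.H h x i j| ≤ C := by
    intro x i j
    have h1 := hC x
    rw [show (2 : ℕ) = 0 + 1 + 1 from rfl, ← norm_iteratedFDeriv_fderiv,
      ← norm_iteratedFDeriv_fderiv, norm_iteratedFDeriv_zero] at h1
    have h2 : ‖(fderiv ℝ (fderiv ℝ h) x) (Gap.e i) (Gap.e j)‖ ≤
        ‖fderiv ℝ (fderiv ℝ h) x‖ * ‖(Gap.e i : E n)‖ * ‖(Gap.e j : E n)‖ :=
      ContinuousLinearMap.le_opNorm₂ _ _ _
    have e1 : ∀ i : Fin n, ‖(Gap.e i : E n)‖ = 1 := fun i => by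
      simp [Gap.e]
    rw [e1, e1, mul_one, mul_one] at h2
    exact h2.trans h1
  exact Gap.gap hlo D he (by exact_mod_cast contDiff_infty.1 hh.smooth 2) hB

/-- **H10 (DENS)** -/
theorem dens (n : ℕ) : Dens n :=
  Den.dens_of n (fun _ _ hP hv => Den.gap_sol hP hv) (fun _ _ hP hv => Den.poi_sol hP hv)
    (fun _ hP _ hf he ⟨_, hC⟩ _ hε => Den.dense_even hP hf he hC hε)

end Crest.Agent.R238
end

-- ▼ part R238/Top
section

/-!
Row 238 (S0369): assembly `Exi n → Ident n → Dens n → Soft.LocalIneq n` (helper394).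
-/

set_option autoImplicit false

open MeasureTheory Set Filter
open scoped ContDiff Topology

namespace Crest.Agent.R238

variable {n m : ℕ}

/-! ### the wall functions -/

theorem contDiff_Hw {ν : Fin m → E n} {φ : Fin m → ℝ → ℝ} (hw : ∀ k, Soft.Wall (φ k)) :
    ContDiff ℝ ∞ (Soft.Hw ν φ) := by
  unfold Soft.Hw
  exact ContDiff.sum fun k _ => (hw k).smooth.comp (contDiff_const.inner ℝ contDiff_id)

theorem Hw_neg {ν : Fin m → E n} {φ : Fin m → ℝ → ℝ} (hw : ∀ k, Soft.Wall (φ k)) (x : E n) :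
    Soft.Hw ν φ (-x) = Soft.Hw ν φ x := by
  unfold Soft.Hw
  exact Finset.sum_congr rfl fun k _ => by rw [inner_neg_right, (hw k).even]

theorem fr_neg {ν : Fin m → E n} {φ : Fin m → ℝ → ℝ} (hw : ∀ k, Soft.Wall (φ k))
    (r : Fin m → ℝ) (x : E n) : Soft.fr ν φ r (-x) = Soft.fr ν φ r x := by
  unfold Soft.fr
  exact Finset.sum_congr rfl fun k _ => by rw [inner_neg_right, (hw k).odd]; ring

theorem continuous_inner' (v : E n) : Continuous fun x : E n => (inner ℝ v x : ℝ) :=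
  continuous_const.inner continuous_id

theorem continuous_fr {ν : Fin m → E n} {φ : Fin m → ℝ → ℝ} (hw : ∀ k, Soft.Wall (φ k))
    (r : Fin m → ℝ) : Continuous (Soft.fr ν φ r) := by
  unfold Soft.fr
  exact continuous_finset_sum _ fun k _ => continuous_const.mul
    ((continuous_inner' _).mul ((hw k).cont1.comp (continuous_inner' _)))


theorem fr_bound {ν : Fin m → E n} {φ : Fin m → ℝ → ℝ} (hw : ∀ k, Soft.Wall (φ k))
    (r : Fin m → ℝ) : ∃ C : ℝ, ∀ x, |Soft.fr ν φ r x| ≤ C * (1 + ‖x‖ ^ 2) := by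
  choose C hC0 hC using fun k => (hw k).bdd'
  refine ⟨∑ k, |r k| * (C k * ‖ν k‖ ^ 2), fun x => ?_⟩
  unfold Soft.fr
  refine (Finset.abs_sum_le_sum_abs _ _).trans ?_
  rw [Finset.sum_mul]
  refine Finset.sum_le_sum fun k _ => ?_
  have h1 := (hw k).deriv_le (hC k) (inner ℝ (ν k) x)
  have h2 : |(inner ℝ (ν k) x : ℝ)| ≤ ‖ν k‖ * ‖x‖ := abs_real_inner_le_norm _ _
  have h3 : 0 ≤ |(inner ℝ (ν k) x : ℝ)| := abs_nonneg _
  rw [abs_mul, abs_mul]
  have h4 : |(inner ℝ (ν k) x : ℝ)| * |deriv (φ k) (inner ℝ (ν k) x)|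
      ≤ C k * ‖ν k‖ ^ 2 * (1 + ‖x‖ ^ 2) := by
    calc |(inner ℝ (ν k) x : ℝ)| * |deriv (φ k) (inner ℝ (ν k) x)|
        ≤ |(inner ℝ (ν k) x : ℝ)| * (C k * |(inner ℝ (ν k) x : ℝ)|) :=
          mul_le_mul_of_nonneg_left h1 h3
      _ = C k * |(inner ℝ (ν k) x : ℝ)| ^ 2 := by ring
      _ ≤ C k * (‖ν k‖ * ‖x‖) ^ 2 :=
          mul_le_mul_of_nonneg_left (pow_le_pow_left₀ h3 h2 2) (hC0 k)
      _ ≤ C k * ‖ν k‖ ^ 2 * (1 + ‖x‖ ^ 2) := by
          have : 0 ≤ C k * ‖ν k‖ ^ 2 := mul_nonneg (hC0 k) (sq_nonneg _)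
          nlinarith
  calc |r k| * (|(inner ℝ (ν k) x : ℝ)| * |deriv (φ k) (inner ℝ (ν k) x)|)
      ≤ |r k| * (C k * ‖ν k‖ ^ 2 * (1 + ‖x‖ ^ 2)) :=
        mul_le_mul_of_nonneg_left h4 (abs_nonneg _)
    _ = _ := by ring

theorem pg_sq : Gap.PG (fun x : E n => 1 + ‖x‖ ^ 2) :=
  (Gap.pg_const 1).add (Gap.pg_norm.pow 2)



/-! ### the variance inequality with the weight `wt P` -/

/-- abstract variance step -/
theorem var_le {P v : E n → ℝ} (hP : PDat P) (hS : Sol P v) (hI : Iso v) (hD : Dens n)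
    (hz : ∀ h : E n → ℝ, Tst h → ∫ x, Lop v h x * wt P x = 0)
    {f : E n → ℝ} (hf : Continuous f) (he : ∀ x, f (-x) = f x)
    (hb : ∃ C : ℝ, ∀ x, |f x| ≤ C * (1 + ‖x‖ ^ 2)) {R : ℝ}
    (hR : ∀ ϕ : E n → ℝ, Tst ϕ →
      2 * (∫ x, f x * LL v ϕ x * wt P x) - ∫ x, LL v ϕ x ^ 2 * wt P x ≤ R) :
    (∫ x, f x ^ 2 * wt P x) * (∫ x, wt P x) - (∫ x, f x * wt P x) ^ 2
      ≤ (∫ x, wt P x) * R := by
  have hpf : Gap.PG f := by
    obtain ⟨C, hC⟩ := hb
    refine ((Gap.pg_const (n := n) C).mul pg_sq).mono fun x => (hC x).trans (le_abs_self _)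
  set Z := ∫ x, wt P x with hZ
  have hZ0 : 0 < Z := hP.wt_pos
  set c := (∫ x, f x * wt P x) / Z with hc
  have iw : Integrable (wt P) := hP.integrable_wt
  have i1 : Integrable (fun x => f x * wt P x) := hP.integrable hf hpf
  have i2 : Integrable (fun x => f x ^ 2 * wt P x) := hP.integrable (hf.pow 2) (hpf.pow 2)
  -- centered function
  let F : E n → ℝ := fun x => f x - c
  have hF : Continuous F := hf.sub continuous_const
  have hFe : ∀ x, F (-x) = F x := fun x => by simp only [F, he]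
  have hFb : ∃ C : ℝ, ∀ x, |F x| ≤ C * (1 + ‖x‖ ^ 2) := by
    obtain ⟨C, hC⟩ := hb
    refine ⟨C + |c|, fun x => (abs_sub _ _).trans ?_⟩
    have := hC x
    have h1 : |c| ≤ |c| * (1 + ‖x‖ ^ 2) := by nlinarith [abs_nonneg c, sq_nonneg ‖x‖]
    linarith [add_mul C |c| (1 + ‖x‖ ^ 2)]
  have hpF : Gap.PG F := hpf.sub (Gap.pg_const c)
  have hF0 : ∫ x, F x * wt P x = 0 := by
    have : (fun x => F x * wt P x) = fun x => f x * wt P x - c * wt P x := by
      ext x; simp only [F]; ring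
    rw [this, integral_sub i1 (iw.const_mul c), integral_const_mul, ← hZ, hc]
    field_simp
    ring
  have iF2 : Integrable (fun x => F x ^ 2 * wt P x) := hP.integrable (hF.pow 2) (hpF.pow 2)
  -- variance bound
  have key : ∫ x, F x ^ 2 * wt P x ≤ R := by
    refine le_of_forall_pos_le_add fun ε hε => ?_
    obtain ⟨ϕ, hϕ, hle⟩ := hD P v hP hS hI F hF hFe hFb hF0 ε hε
    have hT := hS.tst_LL hϕ
    have hw : Continuous (LL v ϕ) := hT.smooth.continuous
    have hpw : Gap.PG (LL v ϕ) := hT.pg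
    have j1 : Integrable (fun x => f x * LL v ϕ x * wt P x) :=
      hP.integrable (hf.mul hw) (hpf.mul hpw)
    have j2 : Integrable (fun x => LL v ϕ x ^ 2 * wt P x) :=
      hP.integrable (hw.pow 2) (hpw.pow 2)
    have j3 : Integrable (fun x => LL v ϕ x * wt P x) := hP.integrable hw hpw
    have h0 : ∫ x, LL v ϕ x * wt P x = 0 := hz _ (hS.tst_Lop_add hϕ)
    have h1 : ∫ x, (F x - LL v ϕ x) ^ 2 * wt P x
        = (∫ x, F x ^ 2 * wt P x)
          - (2 * (∫ x, f x * LL v ϕ x * wt P x) - ∫ x, LL v ϕ x ^ 2 * wt P x) := by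
      have e1 : (fun x => (F x - LL v ϕ x) ^ 2 * wt P x)
          = fun x => (F x ^ 2 * wt P x - (2 * (f x * LL v ϕ x * wt P x)
            - 2 * c * (LL v ϕ x * wt P x))) + LL v ϕ x ^ 2 * wt P x := by
        ext x; simp only [F]; ring
      have k1 : Integrable (fun x => 2 * (f x * LL v ϕ x * wt P x)
          - 2 * c * (LL v ϕ x * wt P x)) := (j1.const_mul 2).sub (j3.const_mul (2 * c))
      have k2 : Integrable (fun x => F x ^ 2 * wt P x - (2 * (f x * LL v ϕ x * wt P x)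
          - 2 * c * (LL v ϕ x * wt P x))) := iF2.sub k1
      rw [e1, integral_add k2 j2, integral_sub iF2 k1,
        integral_sub (j1.const_mul 2) (j3.const_mul (2 * c)), integral_const_mul,
        integral_const_mul, h0]
      ring
    have h2 := hR ϕ hϕ
    linarith
  -- conclusion
  have h3 : ∫ x, F x ^ 2 * wt P x
      = (∫ x, f x ^ 2 * wt P x) - (∫ x, f x * wt P x) ^ 2 / Z := by
    have e1 : (fun x => F x ^ 2 * wt P x)
        = fun x => (f x ^ 2 * wt P x - 2 * c * (f x * wt P x)) + c ^ 2 * wt P x := by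
      ext x; simp only [F]; ring
    have k1 : Integrable (fun x => f x ^ 2 * wt P x - 2 * c * (f x * wt P x)) :=
      i2.sub (i1.const_mul (2 * c))
    rw [e1, integral_add k1 (iw.const_mul (c ^ 2)),
      integral_sub i2 (i1.const_mul (2 * c)), integral_const_mul, integral_const_mul, ← hZ, hc]
    field_simp
    ring
  rw [h3] at key
  have h4 : (∫ x, f x ^ 2 * wt P x) * Z - (∫ x, f x * wt P x) ^ 2
      = Z * ((∫ x, f x ^ 2 * wt P x) - (∫ x, f x * wt P x) ^ 2 / Z) := by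
    field_simp
  rw [h4]
  exact mul_le_mul_of_nonneg_left key hZ0.le

/-- ASSEMBLY -/
theorem localIneq_of (hE : Exi n) (hId : Ident n) (hD : Dens n) : Soft.LocalIneq n := by
  intro m ν φ r V hw hV hVe hVc ⟨ε, hε, hconv⟩ ⟨b, R, hR⟩
  set P : E n → ℝ := fun x => V x + Soft.Hw ν φ x - ‖x‖ ^ 2 / 2 - b with hPdef
  have hnorm : ContDiff ℝ ∞ (fun x : E n => ‖x‖ ^ 2 / 2) :=
    (contDiff_norm_sq ℝ).div_const 2
  have hPs : ContDiff ℝ ∞ P := ((hV.add (contDiff_Hw hw)).sub hnorm).sub contDiff_const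
  have hP : PDat P := by
    refine ⟨⟨hPs, ?_⟩, ?_, ⟨ε, hε, ?_⟩⟩
    · refine HasCompactSupport.intro (isCompact_closedBall (0 : E n) R) fun x hx => ?_
      have : R ≤ ‖x‖ := by
        by_contra h
        exact hx (by simpa using (not_le.1 h).le)
      simp only [P, hR x this]
      ring
    · intro x
      simp only [P, hVe, Hw_neg hw, norm_neg]
    · have h1 : (fun x : E n => ‖x‖ ^ 2 / 2 + P x - ε * ‖x‖ ^ 2)
          = fun x => (V x + Soft.Hw ν φ x - ε * ‖x‖ ^ 2) + (-b) := by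
        ext x; simp only [P]; ring
      rw [h1]
      exact hconv.add_const (-b)
  obtain ⟨v, hS, hI⟩ := hE P hP
  obtain ⟨hz, hid⟩ := hId P v hP hS
  have hsum : ∀ x, V x + Soft.Hw ν φ x = ‖x‖ ^ 2 / 2 + P x + b := fun x => by
    simp only [P]; ring
  have hin := hid m ν φ r V b hw hV hVe hVc hsum
  have hvar := var_le hP hS hI hD hz (continuous_fr (ν := ν) hw r) (fr_neg hw r)
    (fr_bound hw r) hin
  -- pass from `wt P` to `exp (-(V + Hw))`
  have hexp : ∀ x, Real.exp (-(V x + Soft.Hw ν φ x)) = Real.exp (-b) * wt P x := fun x => by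
    rw [hsum x, wt, ← Real.exp_add]
    congr 1
    ring
  unfold Soft.Static
  simp only [hexp]
  have hpull : ∀ g : E n → ℝ, ∫ x, g x * (Real.exp (-b) * wt P x)
      = Real.exp (-b) * ∫ x, g x * wt P x := fun g => by
    rw [← integral_const_mul]
    exact integral_congr_ae (Eventually.of_forall fun x => by ring)
  rw [hpull (fun x => Soft.fr ν φ r x ^ 2), hpull (fun x => Soft.fr ν φ r x),
    hpull (fun x => Soft.Nr ν φ r x), integral_const_mul]
  have hb0 : 0 < Real.exp (-b) := Real.exp_pos _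
  have h5 := mul_le_mul_of_nonneg_left hvar (mul_pos hb0 hb0).le
  nlinarith [h5]

end Crest.Agent.R238
end

-- ▼ part R238/SoftTrunc
section

/-! Row 238, (R3): `LocalIneq n → LocEps n` (truncation of the potential to `|x|²/2 + b`
outside a ball, then dominated convergence). (helper492) -/

set_option autoImplicit false
open scoped ContDiff Topology
open Set Filter MeasureTheory

noncomputable section

namespace Crest.Agent.R238.Soft

/-! ### the smooth convex ramp -/

/-- primitive of the smooth step -/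
def ramp (t : ℝ) : ℝ := ∫ s in (0:ℝ)..t, Real.smoothTransition s

theorem hasDerivAt_ramp (t : ℝ) : HasDerivAt ramp (Real.smoothTransition t) t :=
  intervalIntegral.integral_hasDerivAt_right
    (Real.smoothTransition.continuous.intervalIntegrable _ _)
    (Real.smoothTransition.continuous.stronglyMeasurableAtFilter _ _)
    Real.smoothTransition.continuous.continuousAt

theorem deriv_ramp : deriv ramp = Real.smoothTransition :=
  funext fun t => (hasDerivAt_ramp t).deriv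

theorem ramp_contDiff : ContDiff ℝ ∞ ramp := by
  rw [contDiff_infty_iff_deriv]
  exact ⟨fun t => (hasDerivAt_ramp t).differentiableAt, by
    rw [deriv_ramp]; exact Real.smoothTransition.contDiff⟩

theorem ramp_mono : Monotone ramp :=
  monotone_of_deriv_nonneg (fun t => (hasDerivAt_ramp t).differentiableAt) (fun t => by
    rw [deriv_ramp]; exact Real.smoothTransition.nonneg t)

theorem ramp_convex : ConvexOn ℝ univ ramp :=
  Monotone.convexOn_univ_of_deriv (fun t => (hasDerivAt_ramp t).differentiableAt)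
    (by rw [deriv_ramp]; exact Real.smoothTransition.monotone)

theorem ramp_zero : ramp 0 = 0 := by simp [ramp]

theorem ramp_of_nonpos {t : ℝ} (ht : t ≤ 0) : ramp t = 0 := by
  unfold ramp
  rw [intervalIntegral.integral_symm, neg_eq_zero]
  rw [show (∫ s in t..0, Real.smoothTransition s) = ∫ s in t..0, (0:ℝ) from ?_]
  · simp
  · apply intervalIntegral.integral_congr
    intro s hs
    rw [uIcc_of_le ht] at hs
    exact Real.smoothTransition.zero_of_nonpos hs.2

theorem ramp_nonneg (t : ℝ) : 0 ≤ ramp t := by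
  rcases le_total t 0 with h | h
  · rw [ramp_of_nonpos h]
  · rw [← ramp_zero]; exact ramp_mono h

theorem ramp_of_one_le {t : ℝ} (ht : 1 ≤ t) : ramp t = t + (ramp 1 - 1) := by
  have h1 : ramp t = ramp 1 + ∫ s in (1:ℝ)..t, Real.smoothTransition s := by
    unfold ramp
    rw [intervalIntegral.integral_add_adjacent_intervals] <;>
      exact Real.smoothTransition.continuous.intervalIntegrable _ _
  have h2 : (∫ s in (1:ℝ)..t, Real.smoothTransition s) = ∫ s in (1:ℝ)..t, (1:ℝ) := by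
    apply intervalIntegral.integral_congr
    intro s hs
    rw [uIcc_of_le ht] at hs
    exact Real.smoothTransition.one_of_one_le hs.1
  rw [h1, h2]
  simp only [intervalIntegral.integral_const, smul_eq_mul, mul_one]
  ring

/-! ### even convex functions -/

theorem even_convex_min {F : Type*} [AddCommGroup F] [Module ℝ F] {f : F → ℝ}
    (hf : ConvexOn ℝ univ f) (he : ∀ x, f (-x) = f x) (x : F) : f 0 ≤ f x := by
  have := hf.2 (mem_univ x) (mem_univ (-x)) (by norm_num : (0:ℝ) ≤ 1/2)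
    (by norm_num : (0:ℝ) ≤ 1/2) (by norm_num)
  rw [he, smul_neg, add_neg_cancel] at this
  simp only [smul_eq_mul] at this
  linarith

/-! ### walls -/

namespace Wall
variable {φ : ℝ → ℝ}

theorem dif0 (h : Wall φ) : Differentiable ℝ φ := (contDiff_infty_iff_deriv.1 h.smooth).1

theorem smooth' (h : Wall φ) : ContDiff ℝ ∞ (deriv φ) := (contDiff_infty_iff_deriv.1 h.smooth).2

theorem dif1 (h : Wall φ) : Differentiable ℝ (deriv φ) :=
  (contDiff_infty_iff_deriv.1 h.smooth').1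

theorem smooth'' (h : Wall φ) : ContDiff ℝ ∞ (deriv (deriv φ)) :=
  (contDiff_infty_iff_deriv.1 h.smooth').2

theorem deriv_mono (h : Wall φ) : Monotone (deriv φ) :=
  monotone_of_deriv_nonneg h.dif1 h.conv

theorem deriv_odd (h : Wall φ) (t : ℝ) : deriv φ (-t) = - deriv φ t := by
  have h1 : deriv (fun t => φ (-t)) t = - deriv φ (-t) := by
    rw [deriv_comp_neg]
  have h2 : (fun t => φ (-t)) = φ := funext h.even
  rw [h2] at h1
  linarith

theorem deriv_at_zero (h : Wall φ) : deriv φ 0 = 0 := by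
  have := h.deriv_odd 0
  rw [neg_zero] at this
  linarith

theorem bddT (h : Wall φ) : ∃ C, 0 ≤ C ∧ ∀ t, deriv (deriv φ) t ≤ C := by
  obtain ⟨C, hC⟩ := h.bdd
  exact ⟨C, (h.conv 0).trans (hC 0), hC⟩

theorem abs_deriv_le (h : Wall φ) {C : ℝ} (hC : ∀ t, deriv (deriv φ) t ≤ C) (t : ℝ) :
    |deriv φ t| ≤ C * |t| := by
  have key : ∀ t : ℝ, 0 ≤ t → |deriv φ t| ≤ C * |t| := by
    intro t ht
    have h0 : 0 ≤ deriv φ t := by rw [← h.deriv_at_zero]; exact h.deriv_mono ht
    have hm : Monotone (fun s => C * s - deriv φ s) := by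
      apply monotone_of_deriv_nonneg
      · exact (differentiable_id.const_mul C).sub h.dif1
      · intro s
        have hd : HasDerivAt (fun s => C * s - deriv φ s) (C * 1 - deriv (deriv φ) s) s :=
          ((hasDerivAt_id s).const_mul C).sub (h.dif1 s).hasDerivAt
        rw [hd.deriv]
        linarith [hC s]
    have h1 := hm ht
    simp only [mul_zero, h.deriv_at_zero, sub_zero] at h1
    rw [abs_of_nonneg h0, abs_of_nonneg ht]
    linarith
  rcases le_total 0 t with ht | ht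
  · exact key t ht
  · have := key (-t) (by linarith)
    rwa [h.deriv_odd, abs_neg, abs_neg] at this

theorem convexOn (h : Wall φ) : ConvexOn ℝ univ φ :=
  Monotone.convexOn_univ_of_deriv h.dif0 h.deriv_mono

theorem convexOn_quad (h : Wall φ) {C : ℝ} (hC : ∀ t, deriv (deriv φ) t ≤ C) :
    ConvexOn ℝ univ (fun t => C * t ^ 2 / 2 - φ t) := by
  have hd : ∀ s, HasDerivAt (fun t => C * t ^ 2 / 2 - φ t) (C * s - deriv φ s) s := by
    intro s
    have h1 : HasDerivAt (fun t : ℝ => C * t ^ 2 / 2) (C * (2 * s ^ 1) / 2) s := by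
      simpa using (((hasDerivAt_id s).pow 2).const_mul C).div_const 2
    have h2 := h1.sub (h.dif0 s).hasDerivAt
    rwa [show C * (2 * s ^ 1) / 2 = C * s by ring] at h2
  apply Monotone.convexOn_univ_of_deriv
  · exact fun s => (hd s).differentiableAt
  · rw [show deriv (fun t => C * t ^ 2 / 2 - φ t) = fun s => C * s - deriv φ s from
      funext fun s => (hd s).deriv]
    apply monotone_of_deriv_nonneg
    · exact (differentiable_id.const_mul C).sub h.dif1
    · intro s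
      have hd : HasDerivAt (fun s => C * s - deriv φ s) (C * 1 - deriv (deriv φ) s) s :=
        ((hasDerivAt_id s).const_mul C).sub (h.dif1 s).hasDerivAt
      rw [hd.deriv]
      linarith [hC s]

theorem zero_le (h : Wall φ) (t : ℝ) : φ 0 ≤ φ t := even_convex_min h.convexOn h.even t


end Wall

/-! ### the potential `H` -/

section Hw
variable {n m : ℕ} {ν : Fin m → E n} {φ : Fin m → ℝ → ℝ}

theorem convexOn_fsum {F ι : Type*} [AddCommGroup F] [Module ℝ F] (s : Finset ι)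
    (f : ι → F → ℝ) (hf : ∀ i ∈ s, ConvexOn ℝ univ (f i)) :
    ConvexOn ℝ univ (fun x => ∑ i ∈ s, f i x) := by
  classical
  induction s using Finset.induction_on with
  | empty => simpa using convexOn_const (0:ℝ) (convex_univ)
  | insert a s ha ih =>
    have h1 := hf a (Finset.mem_insert_self a s)
    have h2 := ih (fun i hi => hf i (Finset.mem_insert_of_mem hi))
    have := h1.add h2
    refine this.congr ?_
    intro x _
    simp [Finset.sum_insert ha]

theorem convexOn_inner {g : ℝ → ℝ} (hg : ConvexOn ℝ univ g) (v : E n) :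
    ConvexOn ℝ univ (fun x : E n => g (inner ℝ v x)) := by
  have := hg.comp_linearMap (innerₛₗ ℝ v)
  simpa [Function.comp_def] using this

theorem Hw_contDiff (hφ : ∀ k, Wall (φ k)) : ContDiff ℝ ∞ (Hw ν φ) := by
  unfold Hw
  apply ContDiff.sum
  intro k _
  exact (hφ k).smooth.comp (contDiff_const.inner ℝ contDiff_id)

theorem Hw_even (hφ : ∀ k, Wall (φ k)) (x : E n) : Hw ν φ (-x) = Hw ν φ x := by
  unfold Hw
  refine Finset.sum_congr rfl fun k _ => ?_
  rw [inner_neg_right, (hφ k).even]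

theorem Hw_convex (hφ : ∀ k, Wall (φ k)) : ConvexOn ℝ univ (Hw ν φ) :=
  convexOn_fsum _ _ fun k _ => convexOn_inner (hφ k).convexOn (ν k)

theorem convexOn_normsq {c : ℝ} (hc : 0 ≤ c) : ConvexOn ℝ univ (fun x : E n => c * ‖x‖ ^ 2) := by
  have h : ConvexOn ℝ univ (fun x : E n => ‖x‖) := convexOn_univ_norm
  have := (h.pow (fun x _ => norm_nonneg x) 2).smul hc
  simpa using this

/-- `‖ν‖²‖x‖² - <ν,x>²` is convex -/
theorem convexOn_cs (v : E n) :
    ConvexOn ℝ univ (fun x : E n => ‖v‖ ^ 2 * ‖x‖ ^ 2 - (inner ℝ v x) ^ 2) := by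
  refine ⟨convex_univ, ?_⟩
  intro x _ y _ a b ha hb hab
  have h1 : (inner ℝ v (x - y)) ^ 2 ≤ ‖v‖ ^ 2 * ‖x - y‖ ^ 2 := by
    have := abs_real_inner_le_norm v (x - y)
    calc (inner ℝ v (x - y)) ^ 2 = |inner ℝ v (x - y)| ^ 2 := (sq_abs _).symm
      _ ≤ (‖v‖ * ‖x - y‖) ^ 2 := by gcongr
      _ = _ := by ring
  have e1 : ‖a • x + b • y‖ ^ 2 = a ^ 2 * ‖x‖ ^ 2 + 2 * (a * b) * inner ℝ x y + b ^ 2 * ‖y‖ ^ 2 := by
    rw [norm_add_sq_real, norm_smul, norm_smul, real_inner_smul_left, real_inner_smul_right,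
      Real.norm_of_nonneg ha, Real.norm_of_nonneg hb]
    ring
  have e2 : ‖x - y‖ ^ 2 = ‖x‖ ^ 2 - 2 * inner ℝ x y + ‖y‖ ^ 2 := norm_sub_sq_real x y
  have e3 : inner ℝ v (a • x + b • y) = a * inner ℝ v x + b * inner ℝ v y := by
    rw [inner_add_right, real_inner_smul_right, real_inner_smul_right]
  have e4 : inner ℝ v (x - y) = inner ℝ v x - inner ℝ v y := inner_sub_right _ _ _
  rw [e2, e4] at h1
  simp only [smul_eq_mul]
  rw [e1, e3]
  have hb' : b = 1 - a := by linarith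
  have hab' : 0 ≤ a * b := mul_nonneg ha hb
  have h2 := mul_nonneg hab' (sub_nonneg.2 h1)
  subst hb'
  nlinarith [h2]

/-- bounding constant of the Hessian of `H` -/
def Cw (ν : Fin m → E n) (C : Fin m → ℝ) : ℝ := ∑ k, C k * ‖ν k‖ ^ 2

theorem Cw_nonneg {C : Fin m → ℝ} (hC : ∀ k, 0 ≤ C k) : 0 ≤ Cw ν C :=
  Finset.sum_nonneg fun k _ => mul_nonneg (hC k) (by positivity)

theorem sub_Hw_convex (hφ : ∀ k, Wall (φ k)) {C : Fin m → ℝ} (hC0 : ∀ k, 0 ≤ C k)
    (hC : ∀ k t, deriv (deriv (φ k)) t ≤ C k) {c : ℝ} (hc : Cw ν C ≤ c) :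
    ConvexOn ℝ univ (fun x : E n => c * ‖x‖ ^ 2 / 2 - Hw ν φ x) := by
  have h1 : ConvexOn ℝ univ (fun x : E n => ∑ k, (C k * (inner ℝ (ν k) x) ^ 2 / 2
      - φ k (inner ℝ (ν k) x))) :=
    convexOn_fsum _ _ fun k _ => convexOn_inner ((hφ k).convexOn_quad (hC k)) (ν k)
  have h2 : ConvexOn ℝ univ (fun x : E n => ∑ k, (C k / 2) • (‖ν k‖ ^ 2 * ‖x‖ ^ 2
      - (inner ℝ (ν k) x) ^ 2)) :=
    convexOn_fsum _ _ fun k _ => (convexOn_cs (ν k)).smul (by have := hC0 k; positivity)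
  have h3 : ConvexOn ℝ univ (fun x : E n => ((c - Cw ν C) / 2) * ‖x‖ ^ 2) :=
    convexOn_normsq (by linarith)
  refine ((h1.add h2).add h3).congr ?_
  intro x _
  simp only [Pi.add_apply, Hw, Cw, smul_eq_mul]
  rw [← Finset.sum_add_distrib]
  rw [show c * ‖x‖ ^ 2 / 2 - ∑ k, φ k (inner ℝ (ν k) x)
    = ((∑ k, C k * ‖ν k‖ ^ 2) * ‖x‖ ^ 2 / 2 - ∑ k, φ k (inner ℝ (ν k) x))
      + (c - ∑ k, C k * ‖ν k‖ ^ 2) / 2 * ‖x‖ ^ 2 by ring]
  congr 1
  rw [Finset.sum_mul, Finset.sum_div, ← Finset.sum_sub_distrib]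
  refine Finset.sum_congr rfl fun k _ => ?_
  ring

theorem Hw_le (hφ : ∀ k, Wall (φ k)) {C : Fin m → ℝ} (hC0 : ∀ k, 0 ≤ C k)
    (hC : ∀ k t, deriv (deriv (φ k)) t ≤ C k) (x : E n) :
    Hw ν φ x ≤ Hw ν φ 0 + Cw ν C * ‖x‖ ^ 2 / 2 := by
  have h := even_convex_min (sub_Hw_convex hφ hC0 hC (le_refl (Cw ν C)))
    (fun x => by rw [norm_neg, Hw_even hφ]) x
  simp only [norm_zero, ne_eq, OfNat.ofNat_ne_zero, not_false_eq_true, zero_pow, mul_zero,
    zero_div, zero_sub] at h
  linarith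

theorem Hw_ge (hφ : ∀ k, Wall (φ k)) (x : E n) : Hw ν φ 0 ≤ Hw ν φ x :=
  even_convex_min (Hw_convex hφ) (Hw_even hφ) x

/-! ### continuity and growth of `f`, `N` -/

theorem fr_cont (hφ : ∀ k, Wall (φ k)) (r : Fin m → ℝ) : Continuous (fr ν φ r) := by
  unfold fr
  refine continuous_finsetSum _ fun k _ => ?_
  have hi : Continuous fun x : E n => inner ℝ (ν k) x := continuous_const.inner continuous_id
  exact continuous_const.mul (hi.mul ((hφ k).dif1.continuous.comp hi))

theorem Nr_cont (hφ : ∀ k, Wall (φ k)) (r : Fin m → ℝ) : Continuous (Nr ν φ r) := by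
  unfold Nr
  refine continuous_finsetSum _ fun k _ => ?_
  have hi : Continuous fun x : E n => inner ℝ (ν k) x := continuous_const.inner continuous_id
  exact continuous_const.mul ((hi.mul ((hφ k).dif1.continuous.comp hi)).add
    ((hi.pow 2).mul ((hφ k).smooth''.continuous.comp hi)))

theorem fr_bound (hφ : ∀ k, Wall (φ k)) (r : Fin m → ℝ) :
    ∃ c, 0 ≤ c ∧ ∀ x : E n, |fr ν φ r x| ≤ c * ‖x‖ ^ 2 := by
  choose C hC0 hC using fun k => (hφ k).bddT
  refine ⟨∑ k, |r k| * (C k * ‖ν k‖ ^ 2), Finset.sum_nonneg fun k _ => by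
    have := hC0 k; positivity, fun x => ?_⟩
  unfold fr
  refine (Finset.abs_sum_le_sum_abs _ _).trans ?_
  rw [Finset.sum_mul]
  refine Finset.sum_le_sum fun k _ => ?_
  have h1 := (hφ k).abs_deriv_le (hC k) (inner ℝ (ν k) x)
  have h2 : |inner ℝ (ν k) x| ≤ ‖ν k‖ * ‖x‖ := abs_real_inner_le_norm _ _
  have h0 := hC0 k
  rw [abs_mul, abs_mul]
  calc |r k| * (|inner ℝ (ν k) x| * |deriv (φ k) (inner ℝ (ν k) x)|)
      ≤ |r k| * (|inner ℝ (ν k) x| * (C k * |inner ℝ (ν k) x|)) := by gcongr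
    _ = |r k| * (C k * (|inner ℝ (ν k) x| * |inner ℝ (ν k) x|)) := by ring
    _ ≤ |r k| * (C k * ((‖ν k‖ * ‖x‖) * (‖ν k‖ * ‖x‖))) := by gcongr
    _ = _ := by ring

theorem Nr_bound (hφ : ∀ k, Wall (φ k)) (r : Fin m → ℝ) :
    ∃ c, 0 ≤ c ∧ ∀ x : E n, |Nr ν φ r x| ≤ c * ‖x‖ ^ 2 := by
  choose C hC0 hC using fun k => (hφ k).bddT
  refine ⟨∑ k, r k ^ 2 * (2 * (C k * ‖ν k‖ ^ 2)), Finset.sum_nonneg fun k _ => by
    have := hC0 k; positivity, fun x => ?_⟩
  unfold Nr
  refine (Finset.abs_sum_le_sum_abs _ _).trans ?_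
  rw [Finset.sum_mul]
  refine Finset.sum_le_sum fun k _ => ?_
  have h1 := (hφ k).abs_deriv_le (hC k) (inner ℝ (ν k) x)
  have h2 : |inner ℝ (ν k) x| ≤ ‖ν k‖ * ‖x‖ := abs_real_inner_le_norm _ _
  have h3 : |deriv (deriv (φ k)) (inner ℝ (ν k) x)| ≤ C k := by
    rw [abs_of_nonneg ((hφ k).conv _)]; exact hC k _
  have h0 := hC0 k
  rw [abs_mul, abs_of_nonneg (sq_nonneg (r k)), mul_assoc]
  refine mul_le_mul_of_nonneg_left ?_ (sq_nonneg _)
  refine (abs_add_le _ _).trans ?_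
  rw [abs_mul, abs_mul, abs_of_nonneg (sq_nonneg (inner ℝ (ν k) x))]
  have h4 : (inner ℝ (ν k) x) ^ 2 ≤ ‖ν k‖ ^ 2 * ‖x‖ ^ 2 := by
    rw [← sq_abs, ← mul_pow]; gcongr
  have h5 : |inner ℝ (ν k) x| * |deriv (φ k) (inner ℝ (ν k) x)| ≤ C k * (‖ν k‖ ^ 2 * ‖x‖ ^ 2) := by
    calc |inner ℝ (ν k) x| * |deriv (φ k) (inner ℝ (ν k) x)|
        ≤ |inner ℝ (ν k) x| * (C k * |inner ℝ (ν k) x|) := by gcongr
      _ = C k * (|inner ℝ (ν k) x| * |inner ℝ (ν k) x|) := by ring
      _ ≤ C k * ((‖ν k‖ * ‖x‖) * (‖ν k‖ * ‖x‖)) := by gcongr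
      _ = _ := by ring
  have h6 : (inner ℝ (ν k) x) ^ 2 * |deriv (deriv (φ k)) (inner ℝ (ν k) x)|
      ≤ (‖ν k‖ ^ 2 * ‖x‖ ^ 2) * C k := by
    refine mul_le_mul h4 h3 (abs_nonneg _) (by positivity)
  calc _ ≤ C k * (‖ν k‖ ^ 2 * ‖x‖ ^ 2) + (‖ν k‖ ^ 2 * ‖x‖ ^ 2) * C k := add_le_add h5 h6
    _ = _ := by ring

end Hw

/-! ### integrability -/

section Integ
variable {n : ℕ}

theorem integrable_gaussT {b : ℝ} (hb : 0 < b) :
    Integrable (fun x : E n => Real.exp (-b * ‖x‖ ^ 2)) := by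
  have h := (GaussianFourier.integrable_cexp_neg_mul_sq_norm_add (V := E n) (b := (b:ℂ))
    (by simpa using hb) 0 0).norm
  refine h.congr (Eventually.of_forall fun x => ?_)
  simp only [Complex.norm_exp]
  congr 1
  simp [← Complex.ofReal_pow]

/-- polynomial growth against a Gaussian weight -/
theorem integrable_growth {F U : E n → ℝ} {ε c a : ℝ} (hε : 0 < ε) (hF : Continuous F)
    (hU : Continuous U) (hUl : ∀ x, ε * ‖x‖ ^ 2 / 2 - a ≤ U x)
    (hFb : ∀ x, |F x| ≤ c * (1 + ‖x‖ ^ 4)) :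
    Integrable (fun x => F x * Real.exp (-U x)) := by
  have hc : 0 ≤ c := by
    have := (abs_nonneg _).trans (hFb 0)
    simpa using this
  have hg : Integrable (fun x : E n => (c * (1 + 2 * (4 / ε) ^ 2) * Real.exp a)
      * Real.exp (-(ε / 4) * ‖x‖ ^ 2)) := (integrable_gaussT (by positivity)).const_mul _
  refine hg.mono' (hF.mul (Real.continuous_exp.comp hU.neg)).aestronglyMeasurable
    (Eventually.of_forall fun x => ?_)
  rw [Real.norm_eq_abs, abs_mul, abs_of_nonneg (Real.exp_nonneg _)]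
  set s : ℝ := ε / 4 * ‖x‖ ^ 2 with hs
  have hs0 : 0 ≤ s := by positivity
  have hq := Real.quadratic_le_exp_of_nonneg hs0
  have h4 : ‖x‖ ^ 4 = (4 / ε) ^ 2 * s ^ 2 := by
    rw [hs]; field_simp
  have h1 : 1 + ‖x‖ ^ 4 ≤ (1 + 2 * (4 / ε) ^ 2) * Real.exp s := by
    rw [h4]
    have hp : 0 ≤ (4 / ε) ^ 2 := by positivity
    have e1 : 1 ≤ Real.exp s := by nlinarith [sq_nonneg s]
    have e2 : s ^ 2 ≤ 2 * Real.exp s := by nlinarith
    nlinarith [mul_le_mul_of_nonneg_left e2 hp]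
  have h2 : Real.exp (-U x) ≤ Real.exp a * Real.exp (-(2 * s)) := by
    rw [← Real.exp_add]
    apply Real.exp_le_exp.2
    have := hUl x
    rw [hs]; linarith
  calc |F x| * Real.exp (-U x)
      ≤ (c * ((1 + 2 * (4 / ε) ^ 2) * Real.exp s)) * (Real.exp a * Real.exp (-(2 * s))) := by
        refine mul_le_mul ((hFb x).trans (mul_le_mul_of_nonneg_left h1 hc)) h2
          (Real.exp_nonneg _) (by positivity)
    _ = (c * (1 + 2 * (4 / ε) ^ 2) * Real.exp a) * (Real.exp s * Real.exp (-(2 * s))) := by ring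
    _ = _ := by
        rw [← Real.exp_add]
        congr 2
        rw [hs]; ring

end Integ

/-! ### scaling -/

section Scale
variable {n m : ℕ}

theorem int_scale (g : E n → ℝ) (l : ℝ) :
    ∫ x, g (l • x) = |(l ^ Module.finrank ℝ (E n))⁻¹| * ∫ x, g x := by
  simpa using MeasureTheory.Measure.integral_comp_smul (volume : Measure (E n)) g l

theorem fr_smul (ν : Fin m → E n) (φ : Fin m → ℝ → ℝ) (r : Fin m → ℝ) (l : ℝ) (x : E n) :
    fr (fun k => l • ν k) φ r x = fr ν φ r (l • x) := by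
  simp only [fr, real_inner_smul_left, real_inner_smul_right]

theorem Nr_smul (ν : Fin m → E n) (φ : Fin m → ℝ → ℝ) (r : Fin m → ℝ) (l : ℝ) (x : E n) :
    Nr (fun k => l • ν k) φ r x = Nr ν φ r (l • x) := by
  simp only [Nr, real_inner_smul_left, real_inner_smul_right]

theorem Hw_smul (ν : Fin m → E n) (φ : Fin m → ℝ → ℝ) (l : ℝ) (x : E n) :
    Hw (fun k => l • ν k) φ x = Hw ν φ (l • x) := by
  simp only [Hw, real_inner_smul_left, real_inner_smul_right]

theorem Static_scale {ν : Fin m → E n} {φ : Fin m → ℝ → ℝ} {r : Fin m → ℝ} {U : E n → ℝ}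
    {l : ℝ} (hl : l ≠ 0) (h : Static (fun k => l • ν k) φ r (fun x => U (l • x))) :
    Static ν φ r U := by
  unfold Static at h ⊢
  simp only [fr_smul, Nr_smul] at h
  rw [int_scale (fun x => fr ν φ r x ^ 2 * Real.exp (-U x)) l,
    int_scale (fun x => Real.exp (-U x)) l,
    int_scale (fun x => fr ν φ r x * Real.exp (-U x)) l,
    int_scale (fun x => Nr ν φ r x * Real.exp (-U x)) l] at h
  set κ : ℝ := |(l ^ Module.finrank ℝ (E n))⁻¹| with hκ
  have hκ0 : 0 < κ := by
    rw [hκ]; exact abs_pos.2 (inv_ne_zero (pow_ne_zero _ hl))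
  have hκ2 : 0 < κ ^ 2 := by positivity
  refine le_of_mul_le_mul_left ?_ hκ2
  nlinarith [h]

end Scale

/-! ### truncation -/

section Trunc
variable {n m : ℕ}

/-- the convex gap `G = (1-ε)|x|²/2 - H` -/
def Gp (ν : Fin m → E n) (φ : Fin m → ℝ → ℝ) (ε : ℝ) (x : E n) : ℝ :=
  (1 - ε) * ‖x‖ ^ 2 / 2 - Hw ν φ x

/-- the truncated remaining part -/
def Vt (ν : Fin m → E n) (φ : Fin m → ℝ → ℝ) (ε N : ℝ) (x : E n) : ℝ :=
  ε * ‖x‖ ^ 2 / 2 + ramp (Gp ν φ ε x - N)

variable {ν : Fin m → E n} {φ : Fin m → ℝ → ℝ} {ε : ℝ}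

theorem Gp_contDiff (hφ : ∀ k, Wall (φ k)) : ContDiff ℝ ∞ (Gp ν φ ε) := by
  unfold Gp
  exact ((contDiff_const.mul (contDiff_norm_sq ℝ)).div_const 2).sub (Hw_contDiff hφ)

theorem Gp_even (hφ : ∀ k, Wall (φ k)) (x : E n) : Gp ν φ ε (-x) = Gp ν φ ε x := by
  unfold Gp; rw [norm_neg, Hw_even hφ]

theorem Vt_contDiff (hφ : ∀ k, Wall (φ k)) (N : ℝ) : ContDiff ℝ ∞ (Vt ν φ ε N) := by
  unfold Vt
  exact ((contDiff_const.mul (contDiff_norm_sq ℝ)).div_const 2).add
    (ramp_contDiff.comp ((Gp_contDiff hφ).sub contDiff_const))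

theorem Vt_even (hφ : ∀ k, Wall (φ k)) (N : ℝ) (x : E n) : Vt ν φ ε N (-x) = Vt ν φ ε N x := by
  unfold Vt; rw [norm_neg, Gp_even hφ]

theorem ramp_Gp_convex (hφ : ∀ k, Wall (φ k)) {C : Fin m → ℝ} (hC0 : ∀ k, 0 ≤ C k)
    (hC : ∀ k t, deriv (deriv (φ k)) t ≤ C k) (hs : Cw ν C + ε ≤ 1) (N : ℝ) :
    ConvexOn ℝ univ (fun x => ramp (Gp ν φ ε x - N)) := by
  have h1 : ConvexOn ℝ univ (Gp ν φ ε) := sub_Hw_convex hφ hC0 hC (by linarith)
  have h2 : ConvexOn ℝ univ (fun x => Gp ν φ ε x - N) := by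
    refine (h1.add_const (-N)).congr fun x _ => ?_
    simp only [Pi.add_apply]
    ring
  exact (ramp_convex.subset (subset_univ _) (by
    have : Convex ℝ ((fun x => Gp ν φ ε x - N) '' univ) := by
      rw [image_univ]
      have hc : Continuous (fun x => Gp ν φ ε x - N) :=
        (Gp_contDiff hφ).continuous.sub continuous_const
      exact (isPreconnected_range hc).convex
    exact this)).comp h2 (ramp_mono.monotoneOn _)

theorem static_small (hloc : LocalIneq n) (hε : 0 < ε) (hφ : ∀ k, Wall (φ k)) {C : Fin m → ℝ}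
    (hC0 : ∀ k, 0 ≤ C k) (hC : ∀ k t, deriv (deriv (φ k)) t ≤ C k)
    (hs : Cw ν C + ε ≤ 1 / 2) (r : Fin m → ℝ) :
    Static ν φ r (fun x => ε * ‖x‖ ^ 2 / 2 + Hw ν φ x) := by
  -- the local inequality for every truncation
  have hN : ∀ N : ℕ, Static ν φ r (fun x => Vt ν φ ε N x + Hw ν φ x) := by
    intro N
    have hconv := ramp_Gp_convex (ν := ν) (φ := φ) (ε := ε) hφ hC0 hC (by linarith) (N : ℝ)
    refine hloc m ν φ r (Vt ν φ ε N) hφ (Vt_contDiff hφ N) (Vt_even hφ N) ?_ ?_ ?_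
    · have h1 : ConvexOn ℝ univ (fun x : E n => ε / 2 * ‖x‖ ^ 2) := convexOn_normsq (by positivity)
      refine (h1.add hconv).congr fun x _ => ?_
      simp only [Pi.add_apply, Vt]
      ring
    · refine ⟨ε / 2, by positivity, ?_⟩
      refine (hconv.add (Hw_convex (ν := ν) hφ)).congr fun x _ => ?_
      simp only [Pi.add_apply, Vt]
      ring
    · refine ⟨-N + (ramp 1 - 1), 4 * (1 + N + |Hw ν φ 0|), fun x hx => ?_⟩
      have hle := Hw_le (ν := ν) hφ hC0 hC x
      have hab := le_abs_self (Hw ν φ 0)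
      have hab0 := abs_nonneg (Hw ν φ 0)
      have hN0 : (0:ℝ) ≤ N := Nat.cast_nonneg N
      have hx1 : 4 * (1 + N + |Hw ν φ 0|) ≤ ‖x‖ ^ 2 := by nlinarith
      have hG : ‖x‖ ^ 2 / 4 - Hw ν φ 0 ≤ Gp ν φ ε x := by
        unfold Gp
        nlinarith [sq_nonneg ‖x‖]
      have h1 : 1 ≤ Gp ν φ ε x - N := by linarith
      simp only [Vt]
      rw [ramp_of_one_le h1]
      unfold Gp
      ring
  -- passage to the limit
  have hlim : ∀ (F : E n → ℝ) (c : ℝ), Continuous F → (∀ x, |F x| ≤ c * (1 + ‖x‖ ^ 4)) →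
      Tendsto (fun N : ℕ => ∫ x, F x * Real.exp (-(Vt ν φ ε N x + Hw ν φ x))) atTop
        (𝓝 (∫ x, F x * Real.exp (-(ε * ‖x‖ ^ 2 / 2 + Hw ν φ x)))) := by
    intro F c hF hFb
    have hUc : Continuous (fun x : E n => ε * ‖x‖ ^ 2 / 2 + Hw ν φ x) :=
      ((continuous_const.mul (continuous_norm.pow 2)).div_const 2).add
        (Hw_contDiff hφ).continuous
    have hint := integrable_growth (a := -Hw ν φ 0) hε hF hUc
      (fun x => by have := Hw_ge (ν := ν) hφ x; linarith) hFb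
    refine tendsto_integral_of_dominated_convergence
      (fun x => ‖F x * Real.exp (-(ε * ‖x‖ ^ 2 / 2 + Hw ν φ x))‖) ?_ hint.norm ?_ ?_
    · intro N
      exact (hF.mul (Real.continuous_exp.comp (((Vt_contDiff hφ (N:ℝ)).continuous.add
        (Hw_contDiff hφ).continuous).neg))).aestronglyMeasurable
    · intro N
      refine Eventually.of_forall fun x => ?_
      rw [norm_mul, norm_mul]
      refine mul_le_mul_of_nonneg_left ?_ (norm_nonneg _)
      rw [Real.norm_of_nonneg (Real.exp_nonneg _), Real.norm_of_nonneg (Real.exp_nonneg _)]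
      apply Real.exp_le_exp.2
      have := ramp_nonneg (Gp ν φ ε x - N)
      simp only [Vt]
      linarith
    · refine Eventually.of_forall fun x => ?_
      refine tendsto_const_nhds.congr' ?_
      obtain ⟨N0, hN0⟩ := exists_nat_ge (Gp ν φ ε x)
      filter_upwards [eventually_ge_atTop N0] with N hNN
      have : Gp ν φ ε x - N ≤ 0 := by
        have : (N0:ℝ) ≤ N := by exact_mod_cast hNN
        linarith
      simp only [Vt]
      rw [ramp_of_nonpos this, add_zero]
  have hsq : ∀ x : E n, ‖x‖ ^ 2 ≤ 1 + ‖x‖ ^ 4 := fun x => by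
    nlinarith [sq_nonneg (‖x‖ ^ 2 - 1), sq_nonneg (‖x‖ ^ 2)]
  obtain ⟨c1, hc10, hc1⟩ := fr_bound (ν := ν) hφ r
  obtain ⟨c2, hc20, hc2⟩ := Nr_bound (ν := ν) hφ r
  have L1 := hlim (fun x => fr ν φ r x ^ 2) (c1 ^ 2) ((fr_cont hφ r).pow 2) (fun x => by
    rw [abs_pow]
    calc |fr ν φ r x| ^ 2 ≤ (c1 * ‖x‖ ^ 2) ^ 2 := by gcongr; exact hc1 x
      _ = c1 ^ 2 * ‖x‖ ^ 4 := by ring
      _ ≤ c1 ^ 2 * (1 + ‖x‖ ^ 4) := by nlinarith [sq_nonneg c1])
  have L0 := hlim (fun _ => 1) 1 continuous_const (fun x => by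
    rw [abs_one]; nlinarith [sq_nonneg (‖x‖ ^ 2)])
  have L2 := hlim (fun x => fr ν φ r x) c1 (fr_cont hφ r) (fun x =>
    (hc1 x).trans (mul_le_mul_of_nonneg_left (hsq x) hc10))
  have L3 := hlim (fun x => Nr ν φ r x) c2 (Nr_cont hφ r) (fun x =>
    (hc2 x).trans (mul_le_mul_of_nonneg_left (hsq x) hc20))
  simp only [one_mul] at L0
  unfold Static
  exact le_of_tendsto_of_tendsto' ((L1.mul L0).sub (L2.pow 2)) (L0.mul L3) (fun N => hN N)

/-- (R3) -/
theorem locEps_of_localIneq (n : ℕ) (hloc : LocalIneq n) : LocEps n := by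
  intro m ν φ r ε hε hφ
  choose C hC0 hC using fun k => (hφ k).bddT
  have hCw := Cw_nonneg (ν := ν) hC0
  set K : ℝ := 1 / (2 * (Cw ν C + ε)) with hK
  have hK0 : 0 < K := by rw [hK]; positivity
  set l : ℝ := Real.sqrt K with hl
  have hl0 : 0 < l := Real.sqrt_pos.2 hK0
  have hl2 : l ^ 2 = K := Real.sq_sqrt hK0.le
  refine Static_scale (l := l) hl0.ne' ?_
  have hε' : 0 < K * ε := by positivity
  have hCl : Cw (fun k => l • ν k) C = K * Cw ν C := by
    simp only [Cw, norm_smul, mul_pow, Real.norm_eq_abs, sq_abs, hl2]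
    rw [Finset.mul_sum]
    refine Finset.sum_congr rfl fun k _ => by ring
  have h := static_small (ν := fun k => l • ν k) hloc hε' hφ hC0 hC (by
    rw [hCl, ← mul_add, hK]
    have : 0 < Cw ν C + ε := by positivity
    field_simp
    norm_num) r
  convert h using 2 with x
  rw [Hw_smul, norm_smul, mul_pow, Real.norm_eq_abs, sq_abs, hl2]
  ring

end Trunc

end Crest.Agent.R238.Soft
end
end

-- ▼ part R238/SoftSlab
section

/-! Row 238, R1: Conc => Slab (hard wall limit). (helper14) -/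

set_option autoImplicit false
open scoped ContDiff Topology ENNReal
open Set Filter MeasureTheory

noncomputable section

namespace Crest.Agent.R238.Soft

/-! ### a wall vanishing exactly on `[-1,1]` -/

/-- second derivative of the wall -/
def g2 (u : ℝ) : ℝ := Real.smoothTransition (u ^ 2 - 1)
def g1 (s : ℝ) : ℝ := ∫ u in (0 : ℝ)..s, g2 u
def g0 (t : ℝ) : ℝ := ∫ s in (0 : ℝ)..t, g1 s

theorem g2_smooth : ContDiff ℝ ∞ g2 :=
  Real.smoothTransition.contDiff.comp ((contDiff_id.pow 2).sub contDiff_const)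

theorem g2_nonneg (u : ℝ) : 0 ≤ g2 u := Real.smoothTransition.nonneg _
theorem g2_le (u : ℝ) : g2 u ≤ 1 := Real.smoothTransition.le_one _
theorem g2_even (u : ℝ) : g2 (-u) = g2 u := by unfold g2; congr 1; ring
theorem g2_zero {u : ℝ} (h : |u| ≤ 1) : g2 u = 0 := by
  apply Real.smoothTransition.zero_of_nonpos
  have := sq_le_one_iff_abs_le_one u |>.2 h
  linarith
theorem g2_pos {u : ℝ} (h : 1 < |u|) : 0 < g2 u := by
  apply Real.smoothTransition.pos_of_pos
  have := one_lt_sq_iff_one_lt_abs u |>.2 h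
  linarith

theorem hasDerivAt_g1 (s : ℝ) : HasDerivAt g1 (g2 s) s :=
  intervalIntegral.integral_hasDerivAt_right (g2_smooth.continuous.intervalIntegrable _ _)
    (g2_smooth.continuous.stronglyMeasurableAtFilter _ _) g2_smooth.continuous.continuousAt

theorem deriv_g1 : deriv g1 = g2 := funext fun s => (hasDerivAt_g1 s).deriv

theorem g1_smooth : ContDiff ℝ ∞ g1 :=
  contDiff_infty_iff_deriv.2 ⟨fun s => (hasDerivAt_g1 s).differentiableAt, by
    rw [deriv_g1]; exact g2_smooth⟩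

theorem hasDerivAt_g0 (t : ℝ) : HasDerivAt g0 (g1 t) t :=
  intervalIntegral.integral_hasDerivAt_right (g1_smooth.continuous.intervalIntegrable _ _)
    (g1_smooth.continuous.stronglyMeasurableAtFilter _ _) g1_smooth.continuous.continuousAt

theorem deriv_g0 : deriv g0 = g1 := funext fun s => (hasDerivAt_g0 s).deriv

theorem g0_smooth : ContDiff ℝ ∞ g0 :=
  contDiff_infty_iff_deriv.2 ⟨fun s => (hasDerivAt_g0 s).differentiableAt, by
    rw [deriv_g0]; exact g1_smooth⟩

theorem g0_zero : g0 0 = 0 := by simp [g0]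

theorem g1_odd (s : ℝ) : g1 (-s) = -g1 s := by
  unfold g1
  have h := intervalIntegral.integral_comp_neg (a := 0) (b := s) (f := g2)
  simp only [g2_even, neg_zero] at h
  rw [h, intervalIntegral.integral_symm]

theorem g0_even (t : ℝ) : g0 (-t) = g0 t := by
  unfold g0
  have h := intervalIntegral.integral_comp_neg (a := 0) (b := t) (f := g1)
  simp only [g1_odd, neg_zero, intervalIntegral.integral_neg] at h
  have h2 : ∫ x in (-t)..0, g1 x = -∫ x in (0 : ℝ)..(-t), g1 x :=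
    intervalIntegral.integral_symm _ _
  linarith

theorem wall_g0 : Wall g0 where
  smooth := g0_smooth
  even := g0_even
  conv t := by rw [deriv_g0, deriv_g1]; exact g2_nonneg t
  bdd := ⟨1, fun t => by rw [deriv_g0, deriv_g1]; exact g2_le t⟩

theorem g1_eq_zero {s : ℝ} (h : |s| ≤ 1) : g1 s = 0 := by
  unfold g1
  have key : ∫ u in (0 : ℝ)..s, g2 u = ∫ u in (0 : ℝ)..s, (0 : ℝ) := ?_
  · rw [key]; simp
  apply intervalIntegral.integral_congr
  intro u hu
  refine g2_zero ?_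
  rw [mem_uIcc] at hu
  rw [abs_le] at h ⊢
  rcases hu with hu | hu <;> constructor <;> linarith [hu.1, hu.2, h.1, h.2]

theorem g0_eq_zero {t : ℝ} (h : |t| ≤ 1) : g0 t = 0 := by
  unfold g0
  have key : ∫ u in (0 : ℝ)..t, g1 u = ∫ u in (0 : ℝ)..t, (0 : ℝ) := ?_
  · rw [key]; simp
  apply intervalIntegral.integral_congr
  intro u hu
  refine g1_eq_zero ?_
  rw [mem_uIcc] at hu
  rw [abs_le] at h ⊢
  rcases hu with hu | hu <;> constructor <;> linarith [hu.1, hu.2, h.1, h.2]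

theorem g0_nonneg (t : ℝ) : 0 ≤ g0 t := by
  have := wall_g0.ge_zero t
  rwa [g0_zero] at this

theorem g1_pos {s : ℝ} (h : 1 < s) : 0 < g1 s := by
  have hm : StrictMonoOn g1 (Ici 1) := by
    apply strictMonoOn_of_deriv_pos (convex_Ici 1) g1_smooth.continuous.continuousOn
    intro x hx
    rw [interior_Ici, mem_Ioi] at hx
    rw [deriv_g1]
    exact g2_pos (lt_of_lt_of_le hx (le_abs_self x))
  have := hm (mem_Ici.2 le_rfl) (mem_Ici.2 h.le) h
  rwa [g1_eq_zero (by simp)] at this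

theorem g0_pos_of {t : ℝ} (h : 1 < t) : 0 < g0 t := by
  have hm : StrictMonoOn g0 (Ici 1) := by
    apply strictMonoOn_of_deriv_pos (convex_Ici 1) g0_smooth.continuous.continuousOn
    intro x hx
    rw [interior_Ici, mem_Ioi] at hx
    rw [deriv_g0]
    exact g1_pos hx
  have := hm (mem_Ici.2 le_rfl) (mem_Ici.2 h.le) h
  rwa [g0_eq_zero (by simp)] at this

theorem g0_pos {t : ℝ} (h : 1 < |t|) : 0 < g0 t := by
  rcases le_total 0 t with ht | ht
  · rw [abs_of_nonneg ht] at h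
    exact g0_pos_of h
  · rw [abs_of_nonpos ht] at h
    rw [← g0_even]
    exact g0_pos_of h

theorem Wall.const_mul {φ : ℝ → ℝ} (h : Wall φ) {N : ℝ} (hN : 0 ≤ N) : Wall (fun t => N * φ t) where
  smooth := contDiff_const.mul h.smooth
  even t := by rw [h.even]
  conv t := by
    have e1 : deriv (fun t => N * φ t) = fun t => N * deriv φ t := funext fun t =>
      deriv_const_mul_field N
    rw [e1, deriv_const_mul_field]
    exact mul_nonneg hN (h.conv t)
  bdd := by
    obtain ⟨C, hC⟩ := h.bdd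
    refine ⟨N * C, fun t => ?_⟩
    have e1 : deriv (fun t => N * φ t) = fun t => N * deriv φ t := funext fun t =>
      deriv_const_mul_field N
    rw [e1, deriv_const_mul_field]
    exact mul_le_mul_of_nonneg_left (hC t) hN

variable {n m : ℕ}

/-- the slab body -/
def KK (ν : Fin m → E n) (a : Fin m → ℝ) : Set (E n) := {x | ∀ k, |inner ℝ (ν k) x| ≤ a k}

theorem isClosed_KK (ν : Fin m → E n) (a : Fin m → ℝ) : IsClosed (KK ν a) := by
  have : KK ν a = ⋂ k, {x : E n | |inner ℝ (ν k) x| ≤ a k} := by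
    ext x; simp [KK]
  rw [this]
  exact isClosed_iInter fun k => isClosed_le (by fun_prop) continuous_const

theorem volume_KK_pos (ν : Fin m → E n) {a : Fin m → ℝ} (ha : ∀ k, 0 < a k) :
    0 < volume (KK ν a) := by
  have hopen : IsOpen {x : E n | ∀ k, |inner ℝ (ν k) x| < a k} := by
    have : {x : E n | ∀ k, |inner ℝ (ν k) x| < a k} = ⋂ k, {x : E n | |inner ℝ (ν k) x| < a k} := by
      ext x; simp
    rw [this]
    exact isOpen_iInter_of_finite fun k => isOpen_lt (by fun_prop) continuous_const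
  have hne : ({x : E n | ∀ k, |inner ℝ (ν k) x| < a k}).Nonempty := ⟨0, fun k => by simpa using ha k⟩
  refine (hopen.measure_pos volume hne).trans_le (measure_mono fun x hx k => (hx k).le)

/-- hard wall limit at fixed `ε` -/
theorem tendsto_hard (ν : Fin m → E n) {a : Fin m → ℝ} (ha : ∀ k, 0 < a k) {ε : ℝ} (hε : 0 < ε) :
    Tendsto (fun N : ℕ => ∫ x : E n, Real.exp (-(ε * ‖x‖ ^ 2 / 2
      + ∑ k, (N : ℝ) * g0 (inner ℝ (ν k) x / a k)))) atTop
      (𝓝 (∫ x in KK ν a, Real.exp (-(ε * ‖x‖ ^ 2 / 2)))) := by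
  rw [← integral_indicator (isClosed_KK ν a).measurableSet]
  have hc : Continuous g0 := wall_g0.cont
  refine tendsto_integral_of_dominated_convergence (fun x => Real.exp (-(ε / 2) * ‖x‖ ^ 2))
    (fun N => ?_) (integrable_gauss (by positivity)) (fun N => Eventually.of_forall fun x => ?_)
    (Eventually.of_forall fun x => ?_)
  · refine Continuous.aestronglyMeasurable ?_
    have : ∀ k, Continuous fun x : E n => g0 (inner ℝ (ν k) x / a k) := fun k =>
      hc.comp (by fun_prop)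
    fun_prop
  · rw [Real.norm_eq_abs, Real.abs_exp]
    apply Real.exp_le_exp.2
    have : 0 ≤ ∑ k, (N : ℝ) * g0 (inner ℝ (ν k) x / a k) :=
      Finset.sum_nonneg fun k _ => mul_nonneg (Nat.cast_nonneg _) (g0_nonneg _)
    linarith
  · by_cases hx : x ∈ KK ν a
    · rw [indicator_of_mem hx]
      have : ∀ N : ℕ, Real.exp (-(ε * ‖x‖ ^ 2 / 2 + ∑ k, (N : ℝ) * g0 (inner ℝ (ν k) x / a k)))
          = Real.exp (-(ε * ‖x‖ ^ 2 / 2)) := by
        intro N
        congr 2
        have : ∑ k, (N : ℝ) * g0 (inner ℝ (ν k) x / a k) = 0 := by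
          refine Finset.sum_eq_zero fun k _ => ?_
          rw [g0_eq_zero, mul_zero]
          rw [abs_div, abs_of_pos (ha k), div_le_one (ha k)]
          exact hx k
        rw [this, add_zero]
      simp only [this]
      exact tendsto_const_nhds
    · rw [indicator_of_notMem hx]
      have : ∃ k, a k < |inner ℝ (ν k) x| := by
        by_contra h
        push Not at h
        exact hx h
      obtain ⟨k, hk⟩ := this
      have hp : 0 < g0 (inner ℝ (ν k) x / a k) := by
        apply g0_pos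
        rw [abs_div, abs_of_pos (ha k), one_lt_div (ha k)]
        exact hk
      refine squeeze_zero (fun N => (Real.exp_pos _).le) (g := fun N : ℕ =>
        Real.exp (-((N : ℝ) * g0 (inner ℝ (ν k) x / a k)))) (fun N => ?_) ?_
      · apply Real.exp_le_exp.2
        have h1 : (N : ℝ) * g0 (inner ℝ (ν k) x / a k)
            ≤ ∑ k, (N : ℝ) * g0 (inner ℝ (ν k) x / a k) :=
          Finset.single_le_sum (f := fun k => (N : ℝ) * g0 (inner ℝ (ν k) x / a k))
            (fun k _ => mul_nonneg (Nat.cast_nonneg _) (g0_nonneg _)) (Finset.mem_univ k)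
        have h2 : 0 ≤ ε * ‖x‖ ^ 2 / 2 := by positivity
        linarith
      · have h3 : Tendsto (fun N : ℕ => (N : ℝ) * g0 (inner ℝ (ν k) x / a k)) atTop atTop :=
          tendsto_natCast_atTop_atTop.atTop_mul_const hp
        exact Real.tendsto_exp_atBot.comp (tendsto_neg_atTop_atBot.comp h3)

/-- Gaussian measure of a slab body -/
def gm (ν : Fin m → E n) (a : Fin m → ℝ) (ε : ℝ) : ℝ := ∫ x in KK ν a, Real.exp (-(ε * ‖x‖ ^ 2 / 2))

theorem integrable_gm {ε : ℝ} (hε : 0 < ε) :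
    Integrable (fun x : E n => Real.exp (-(ε * ‖x‖ ^ 2 / 2))) := by
  refine (integrable_gauss (n := n) (b := ε / 2) (by positivity)).congr
    (Eventually.of_forall fun x => ?_)
  dsimp only
  congr 1; ring

theorem gm_pos (ν : Fin m → E n) {a : Fin m → ℝ} (ha : ∀ k, 0 < a k) {ε : ℝ} (hε : 0 < ε) :
    0 < gm ν a ε := by
  unfold gm
  rw [setIntegral_pos_iff_support_of_nonneg_ae]
  · have : Function.support (fun x : E n => Real.exp (-(ε * ‖x‖ ^ 2 / 2))) = univ := by
      ext x; simp [Real.exp_ne_zero]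
    rw [this, univ_inter]
    exact volume_KK_pos ν ha
  · exact Eventually.of_forall fun x => (Real.exp_pos _).le
  · exact (integrable_gm hε).integrableOn

/-- interpolated half width -/
def mid (a b : Fin m → ℝ) (s : ℝ) (k : Fin m) : ℝ := a k ^ (1 - s) * b k ^ s

theorem mid_pos {a b : Fin m → ℝ} (ha : ∀ k, 0 < a k) (hb : ∀ k, 0 < b k) (s : ℝ) (k : Fin m) :
    0 < mid a b s k := mul_pos (Real.rpow_pos_of_pos (ha k) _) (Real.rpow_pos_of_pos (hb k) _)

theorem mid_inv {a b : Fin m → ℝ} (ha : ∀ k, 0 < a k) (hb : ∀ k, 0 < b k) (s : ℝ) (k : Fin m) :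
    (mid a b s k)⁻¹ = Real.exp (-(s * Real.log (b k / a k))) / a k := by
  have e1 : mid a b s k = a k * Real.exp (s * Real.log (b k / a k)) := by
    unfold mid
    rw [Real.rpow_def_of_pos (ha k), Real.rpow_def_of_pos (hb k), Real.log_div (hb k).ne' (ha k).ne']
    conv_rhs => rw [← Real.exp_log (ha k), ← Real.exp_add]
    rw [← Real.exp_add, Real.log_exp]
    congr 1; ring
  rw [e1, mul_inv, Real.exp_neg]
  field_simp

theorem gm_ineq (h : Conc n) (ν : Fin m → E n) {a b : Fin m → ℝ} (ha : ∀ k, 0 < a k)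
    (hb : ∀ k, 0 < b k) {ε : ℝ} (hε : 0 < ε) {t : ℝ} (ht0 : 0 ≤ t) (ht1 : t ≤ 1) :
    gm ν a ε ^ (1 - t) * gm ν b ε ^ t ≤ gm ν (mid a b t) ε := by
  set Z : ℕ → ℝ → ℝ := fun N s => ∫ x : E n, Real.exp (-(ε * ‖x‖ ^ 2 / 2
      + ∑ k, (N : ℝ) * g0 (inner ℝ (ν k) x / mid a b s k))) with hZ
  have hlim : ∀ s, Tendsto (fun N => Z N s) atTop (𝓝 (gm ν (mid a b s) ε)) := fun s =>
    tendsto_hard ν (mid_pos ha hb s) hε
  have m0 : mid a b 0 = a := by funext k; simp [mid]
  have m1 : mid a b 1 = b := by funext k; simp [mid]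
  have l0 := hlim 0
  have l1 := hlim 1
  rw [m0] at l0
  rw [m1] at l1
  have lt := hlim t
  have hN : ∀ N : ℕ, Z N 0 ^ (1 - t) * Z N 1 ^ t ≤ Z N t := by
    intro N
    have hw : ∀ k, Wall (fun u => (N : ℝ) * g0 ((a k)⁻¹ * u)) := fun k =>
      (wall_g0.dil _).const_mul (Nat.cast_nonneg N)
    have hc := h m ν (fun k u => (N : ℝ) * g0 ((a k)⁻¹ * u)) (fun k => Real.log (b k / a k)) ε hε hw
    have hZe : ∀ s, (∫ x : E n, Real.exp (-(ε * ‖x‖ ^ 2 / 2 + Hw ν (fun k t =>
        (fun k u => (N : ℝ) * g0 ((a k)⁻¹ * u)) k (Real.exp (-(s * Real.log (b k / a k))) * t)) x)))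
        = Z N s := by
      intro s
      simp only [hZ, Hw]
      congr 1
      funext x
      congr 2
      congr 1
      refine Finset.sum_congr rfl fun k _ => ?_
      congr 2
      rw [div_eq_mul_inv _ (mid a b s k), mid_inv ha hb]
      ring
    simp only [hZe] at hc
    have hpos : ∀ s, 0 < Z N s := by
      intro s
      have : Integrable (fun x : E n => Real.exp (-(ε * ‖x‖ ^ 2 / 2
          + ∑ k, (N : ℝ) * g0 (inner ℝ (ν k) x / mid a b s k)))) := by
        refine (integrable_gm (n := n) hε).mono' ?_ (Eventually.of_forall fun x => ?_)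
        · refine Continuous.aestronglyMeasurable ?_
          have : ∀ k, Continuous fun x : E n => g0 (inner ℝ (ν k) x / mid a b s k) := fun k =>
            wall_g0.cont.comp (by fun_prop)
          fun_prop
        · rw [Real.norm_eq_abs, Real.abs_exp]
          apply Real.exp_le_exp.2
          have : 0 ≤ ∑ k, (N : ℝ) * g0 (inner ℝ (ν k) x / mid a b s k) :=
            Finset.sum_nonneg fun k _ => mul_nonneg (Nat.cast_nonneg _) (g0_nonneg _)
          linarith
      exact integral_exp_pos this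
    have h2 := hc.2 (mem_univ (0 : ℝ)) (mem_univ (1 : ℝ)) (sub_nonneg.2 ht1) ht0 (by ring)
    simp only [smul_eq_mul, mul_zero, mul_one, zero_add] at h2
    rw [Real.rpow_def_of_pos (hpos 0), Real.rpow_def_of_pos (hpos 1), ← Real.exp_add,
      ← Real.exp_log (hpos t)]
    apply Real.exp_le_exp.2
    linarith
  refine le_of_tendsto_of_tendsto ?_ lt (Eventually.of_forall hN)
  refine Tendsto.mul ?_ ?_
  · exact l0.rpow_const (Or.inl (gm_pos ν ha hε).ne')
  · exact l1.rpow_const (Or.inl (gm_pos ν hb hε).ne')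

/-- `ε → 0` -/
theorem tendsto_gm (ν : Fin m → E n) (a : Fin m → ℝ) :
    Tendsto (fun j : ℕ => ENNReal.ofReal (gm ν a (1 / ((j : ℝ) + 1)))) atTop (𝓝 (volume (KK ν a))) := by
  have e1 : ∀ j : ℕ, ENNReal.ofReal (gm ν a (1 / ((j : ℝ) + 1)))
      = ∫⁻ x in KK ν a, ENNReal.ofReal (Real.exp (-(1 / ((j : ℝ) + 1) * ‖x‖ ^ 2 / 2))) := by
    intro j
    unfold gm
    rw [ofReal_integral_eq_lintegral_ofReal]
    · exact (integrable_gm (by positivity)).integrableOn
    · exact Eventually.of_forall fun x => (Real.exp_pos _).le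
  simp only [e1]
  have e2 : volume (KK ν a) = ∫⁻ x in KK ν a, 1 := by simp
  rw [e2]
  refine lintegral_tendsto_of_tendsto_of_monotone (fun j => ?_) (Eventually.of_forall fun x => ?_)
    (Eventually.of_forall fun x => ?_)
  · exact (ENNReal.measurable_ofReal.comp (Continuous.measurable (by fun_prop))).aemeasurable
  · intro i j hij
    apply ENNReal.ofReal_le_ofReal
    apply Real.exp_le_exp.2
    have h1 : (1 : ℝ) / ((j : ℝ) + 1) ≤ 1 / ((i : ℝ) + 1) := by
      apply one_div_le_one_div_of_le (by positivity)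
      have : (i : ℝ) ≤ j := by exact_mod_cast hij
      linarith
    have h2 : 0 ≤ ‖x‖ ^ 2 / 2 := by positivity
    nlinarith [mul_le_mul_of_nonneg_right h1 h2]
  · have h1 : Tendsto (fun j : ℕ => (1 : ℝ) / ((j : ℝ) + 1)) atTop (𝓝 0) :=
      tendsto_one_div_add_atTop_nhds_zero_nat
    have h2 : Tendsto (fun j : ℕ => Real.exp (-(1 / ((j : ℝ) + 1) * ‖x‖ ^ 2 / 2))) atTop (𝓝 1) := by
      have := Real.continuous_exp.tendsto _ |>.comp ((((h1.mul_const (‖x‖ ^ 2)).div_const 2).neg))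
      simpa using! this
    have := ENNReal.tendsto_ofReal h2
    simpa using this

theorem slab_of_conc (h : Conc n) : Slab n := by
  intro m ν a b ha hb t ht0 ht1
  show volume (KK ν a) ^ (1 - t) * volume (KK ν b) ^ t ≤ volume (KK ν (mid a b t))
  refine le_of_tendsto_of_tendsto ?_ (tendsto_gm ν (mid a b t)) (Eventually.of_forall fun j => ?_)
    (f := fun j : ℕ => ENNReal.ofReal (gm ν a (1 / ((j : ℝ) + 1))) ^ (1 - t)
      * ENNReal.ofReal (gm ν b (1 / ((j : ℝ) + 1))) ^ t)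
  · refine ENNReal.Tendsto.mul ?_ ?_ ?_ ?_
    · exact (ENNReal.continuous_rpow_const.tendsto _).comp (tendsto_gm ν a)
    · left
      exact (ENNReal.rpow_pos_of_nonneg (volume_KK_pos ν ha) (sub_nonneg.2 ht1)).ne'
    · exact (ENNReal.continuous_rpow_const.tendsto _).comp (tendsto_gm ν b)
    · left
      exact (ENNReal.rpow_pos_of_nonneg (volume_KK_pos ν hb) ht0).ne'
  · have hε : (0 : ℝ) < 1 / ((j : ℝ) + 1) := by positivity
    have := gm_ineq h ν ha hb hε ht0 ht1
    show ENNReal.ofReal (gm ν a (1 / ((j : ℝ) + 1))) ^ (1 - t)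
      * ENNReal.ofReal (gm ν b (1 / ((j : ℝ) + 1))) ^ t
        ≤ ENNReal.ofReal (gm ν (mid a b t) (1 / ((j : ℝ) + 1)))
    rw [ENNReal.ofReal_rpow_of_nonneg (gm_pos ν ha hε).le (sub_nonneg.2 ht1),
      ENNReal.ofReal_rpow_of_nonneg (gm_pos ν hb hε).le ht0, ← ENNReal.ofReal_mul
        (Real.rpow_nonneg (gm_pos ν ha hε).le _)]
    exact ENNReal.ofReal_le_ofReal this

end Crest.Agent.R238.Soft
end
end

-- ▼ part R238/SoftAll
section

/-! Row 238: the composed reduction `LocalIneq n → Slab n`. (helper14, helper492) -/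

namespace Crest.Agent.R238.Soft

/-- LOCAL ⟹ SLAB -/
theorem slab_of_localIneq (n : ℕ) (h : LocalIneq n) : Slab n :=
  slab_of_conc (conc_of_locEps (locEps_of_localIneq n h))

end Crest.Agent.R238.Soft
end

-- ▼ part R238/Endgame
section

/-! Row 238, node R0 (helper618): `Slab n` ⟹ the statement S0369 in dimension `n ≥ 1`. -/

set_option autoImplicit false
open MeasureTheory Set Filter Topology

namespace Crest.Agent.R238

section support

variable {n : ℕ}

/-- support function -/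
noncomputable def hs (K : Set (EuclideanSpace ℝ (Fin n))) (u : EuclideanSpace ℝ (Fin n)) : ℝ :=
  sSup ((fun y => inner ℝ y u) '' K)

lemma hs_bdd {K : Set (EuclideanSpace ℝ (Fin n))} (hK : IsCompact K) (u : EuclideanSpace ℝ (Fin n)) :
    BddAbove ((fun y => inner ℝ y u) '' K) :=
  (hK.image (by fun_prop)).bddAbove

lemma le_hs {K : Set (EuclideanSpace ℝ (Fin n))} (hK : IsCompact K) {x : EuclideanSpace ℝ (Fin n)}
    (hx : x ∈ K) (u : EuclideanSpace ℝ (Fin n)) : inner ℝ x u ≤ hs K u :=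
  le_csSup (hs_bdd hK u) ⟨x, hx, rfl⟩

lemma abs_le_hs {K : Set (EuclideanSpace ℝ (Fin n))} (hK : IsCompact K) (hKs : ∀ x ∈ K, -x ∈ K)
    {x : EuclideanSpace ℝ (Fin n)} (hx : x ∈ K) (u : EuclideanSpace ℝ (Fin n)) :
    |inner ℝ x u| ≤ hs K u := by
  rw [abs_le]
  constructor
  · have := le_hs hK (hKs x hx) u
    rw [inner_neg_left] at this
    linarith
  · exact le_hs hK hx u

lemma hs_sub_le {K : Set (EuclideanSpace ℝ (Fin n))} (hK : IsCompact K) (hne : K.Nonempty) {R : ℝ}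
    (hR : ∀ x ∈ K, ‖x‖ ≤ R) (u v : EuclideanSpace ℝ (Fin n)) :
    hs K u ≤ hs K v + R * ‖u - v‖ := by
  apply csSup_le (hne.image _)
  rintro _ ⟨x, hx, rfl⟩
  have h1 : inner ℝ x u = inner ℝ x v + inner ℝ x (u - v) := by
    rw [inner_sub_right]; ring
  have h2 : inner ℝ x (u - v) ≤ R * ‖u - v‖ :=
    (real_inner_le_norm x (u - v)).trans (mul_le_mul_of_nonneg_right (hR x hx) (norm_nonneg _))
  have h3 := le_hs hK hx v
  show inner ℝ x u ≤ _
  rw [h1]; linarith

lemma continuous_hs {K : Set (EuclideanSpace ℝ (Fin n))} (hK : IsCompact K) (hne : K.Nonempty) :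
    Continuous (hs K) := by
  obtain ⟨R, hR⟩ := hK.isBounded.exists_norm_le
  have hR0 : 0 ≤ R := by
    obtain ⟨x, hx⟩ := hne
    exact (norm_nonneg x).trans (hR x hx)
  have : LipschitzWith ⟨R, hR0⟩ (hs K) := by
    apply LipschitzWith.of_dist_le_mul
    intro u v
    rw [Real.dist_eq, dist_eq_norm, abs_le]
    have h1 := hs_sub_le hK hne hR u v
    have h2 := hs_sub_le hK hne hR v u
    rw [norm_sub_rev v u] at h2
    constructor
    · show -(R * ‖u - v‖) ≤ _
      linarith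
    · show _ ≤ R * ‖u - v‖
      linarith
  exact this.continuous

lemma zero_mem_interior {K : Set (EuclideanSpace ℝ (Fin n))} (hKv : Convex ℝ K)
    (hKi : (interior K).Nonempty) (hKs : ∀ x ∈ K, -x ∈ K) :
    (0 : EuclideanSpace ℝ (Fin n)) ∈ interior K := by
  obtain ⟨x, hx⟩ := hKi
  have hx' : -x ∈ K := hKs x (interior_subset hx)
  have := hKv.combo_interior_self_mem_interior hx hx' (a := 1/2) (b := 1/2) (by norm_num) (by norm_num)
    (by norm_num)
  simpa using this

lemma exists_ball_subset {K : Set (EuclideanSpace ℝ (Fin n))} (hKv : Convex ℝ K)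
    (hKi : (interior K).Nonempty) (hKs : ∀ x ∈ K, -x ∈ K) :
    ∃ r : ℝ, 0 < r ∧ Metric.closedBall (0 : EuclideanSpace ℝ (Fin n)) r ⊆ K := by
  have h0 := zero_mem_interior hKv hKi hKs
  rw [mem_interior_iff_mem_nhds, Metric.nhds_basis_closedBall.mem_iff] at h0
  exact h0

lemma hs_pos {K : Set (EuclideanSpace ℝ (Fin n))} (hK : IsCompact K) (hKv : Convex ℝ K)
    (hKi : (interior K).Nonempty) (hKs : ∀ x ∈ K, -x ∈ K) {u : EuclideanSpace ℝ (Fin n)}
    (hu : ‖u‖ = 1) : 0 < hs K u := by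
  obtain ⟨r, hr, hb⟩ := exists_ball_subset hKv hKi hKs
  have hx : r • u ∈ K := hb (by
    rw [mem_closedBall_zero_iff, norm_smul, hu, mul_one, Real.norm_of_nonneg hr.le])
  have := le_hs hK hx u
  rw [inner_smul_left, real_inner_self_eq_norm_sq, hu] at this
  simp at this
  linarith

end support

/-- Countable family of unit vectors whose first `n` elements are the standard basis, with dense range
in the sphere. -/
lemma exists_dense_seq (n : ℕ) (hn : 1 ≤ n) :
    ∃ v : ℕ → EuclideanSpace ℝ (Fin n), (∀ j, ‖v j‖ = 1) ∧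
      (∀ i : Fin n, v i = EuclideanSpace.single i (1 : ℝ)) ∧
      (∀ φ : EuclideanSpace ℝ (Fin n) → ℝ, Continuous φ → (∀ j, 0 ≤ φ (v j)) →
        ∀ u, ‖u‖ = 1 → 0 ≤ φ u) := by
  have : Nonempty (Fin n) := ⟨⟨0, hn⟩⟩
  let S := Metric.sphere (0 : EuclideanSpace ℝ (Fin n)) 1
  have : Nonempty S := ⟨⟨EuclideanSpace.single ⟨0, hn⟩ (1 : ℝ), by simp [S]⟩⟩
  let d := TopologicalSpace.denseSeq S
  have hd : DenseRange d := TopologicalSpace.denseRange_denseSeq S
  refine ⟨fun j => if h : j < n then EuclideanSpace.single ⟨j, h⟩ (1 : ℝ) else (d (j - n) : _), ?_, ?_, ?_⟩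
  · intro j
    by_cases h : j < n
    · simp [h]
    · simp only [h, dif_neg, not_false_iff]
      have := (d (j - n)).2
      simpa [S] using this
  · intro i
    simp
  · intro φ hφ hj u hu
    have hcl : IsClosed {x : S | 0 ≤ φ x} := isClosed_le continuous_const (hφ.comp continuous_subtype_val)
    have hsub : Set.range d ⊆ {x : S | 0 ≤ φ x} := by
      rintro _ ⟨j, rfl⟩
      have := hj (j + n)
      simpa using this
    have huniv : {x : S | 0 ≤ φ x} = univ := by
      have := hd.closure_eq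
      have h2 := closure_minimal hsub hcl
      rw [this] at h2
      exact univ_subset_iff.mp h2
    have : (⟨u, by simpa [S] using hu⟩ : S) ∈ {x : S | 0 ≤ φ x} := by rw [huniv]; trivial
    exact this

theorem s0369_of_slab (n : ℕ) (hn : 1 ≤ n) (H : Soft.Slab n)
    (K L : Set (EuclideanSpace ℝ (Fin n)))
    (hKc : IsCompact K) (hKv : Convex ℝ K) (hKi : (interior K).Nonempty) (hKs : ∀ x ∈ K, -x ∈ K)
    (hLc : IsCompact L) (hLv : Convex ℝ L) (hLi : (interior L).Nonempty) (hLs : ∀ x ∈ L, -x ∈ L)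
    (t : ℝ) (ht0 : 0 ≤ t) (ht1 : t ≤ 1) :
    volume K ^ (1 - t) * volume L ^ t ≤
      volume (⋂ u ∈ Metric.sphere (0 : EuclideanSpace ℝ (Fin n)) 1,
        {x : EuclideanSpace ℝ (Fin n) | inner ℝ x u ≤
          sSup ((fun y => inner ℝ y u) '' K) ^ (1 - t) * sSup ((fun y => inner ℝ y u) '' L) ^ t}) := by
  have hKne : K.Nonempty := hKi.mono interior_subset
  have hLne : L.Nonempty := hLi.mono interior_subset
  obtain ⟨v, hv1, hvb, hvd⟩ := exists_dense_seq n hn
  have hKp : ∀ j, 0 < hs K (v j) := fun j => hs_pos hKc hKv hKi hKs (hv1 j)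
  have hLp : ∀ j, 0 < hs L (v j) := fun j => hs_pos hLc hLv hLi hLs (hv1 j)
  -- the decreasing family
  let W : ℕ → Set (EuclideanSpace ℝ (Fin n)) := fun m =>
    {x | ∀ l : Fin (n + m), |inner ℝ (v l) x| ≤ hs K (v l) ^ (1 - t) * hs L (v l) ^ t}
  have hWclosed : ∀ m, IsClosed (W m) := by
    intro m
    simp only [W, Set.ofPred_forall]
    apply isClosed_iInter
    intro l
    exact isClosed_le (by fun_prop) continuous_const
  have hWanti : Antitone W := by
    intro m m' hmm x hx l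
    exact hx ⟨l, by omega⟩
  have hstep : ∀ m, volume K ^ (1 - t) * volume L ^ t ≤ volume (W m) := by
    intro m
    have := H (n + m) (fun l => v l) (fun l => hs K (v l)) (fun l => hs L (v l))
      (fun l => hKp l) (fun l => hLp l) t ht0 ht1
    have hKsub : K ⊆ {x : EuclideanSpace ℝ (Fin n) | ∀ l : Fin (n + m), |inner ℝ (v l) x| ≤ hs K (v l)} := by
      intro x hx l
      rw [real_inner_comm]
      exact abs_le_hs hKc hKs hx (v l)
    have hLsub : L ⊆ {x : EuclideanSpace ℝ (Fin n) | ∀ l : Fin (n + m), |inner ℝ (v l) x| ≤ hs L (v l)} := by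
      intro x hx l
      rw [real_inner_comm]
      exact abs_le_hs hLc hLs hx (v l)
    exact le_trans (mul_le_mul' (ENNReal.rpow_le_rpow (measure_mono hKsub) (by linarith))
      (ENNReal.rpow_le_rpow (measure_mono hLsub) ht0)) this
  have hfin : volume (W 0) ≠ ⊤ := by
    have hbdd : Bornology.IsBounded (W 0) := by
      set C : ℝ := ∑ i : Fin n, hs K (v i) ^ (1 - t) * hs L (v i) ^ t with hC
      rw [Metric.isBounded_iff_subset_closedBall (0 : EuclideanSpace ℝ (Fin n))]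
      refine ⟨C, fun x hx => ?_⟩
      rw [mem_closedBall_zero_iff]
      have hx' : ∀ i : Fin n, |x i| ≤ hs K (v i) ^ (1 - t) * hs L (v i) ^ t := by
        intro i
        have h := hx ⟨i, by omega⟩
        simp only at h
        rw [hvb i] at h ⊢
        simpa [EuclideanSpace.inner_single_left] using h
      calc ‖x‖ = ‖∑ i : Fin n, (x i) • (EuclideanSpace.single i (1 : ℝ))‖ := by
            congr 1
            ext j
            simp [Finset.sum_apply, Pi.single_apply]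
        _ ≤ ∑ i : Fin n, ‖(x i) • (EuclideanSpace.single i (1 : ℝ) : EuclideanSpace ℝ (Fin n))‖ := norm_sum_le _ _
        _ ≤ C := by
            rw [hC]
            apply Finset.sum_le_sum
            intro i _
            rw [norm_smul]
            simpa using hx' i
    exact hbdd.measure_lt_top.ne
  have hinter : volume (⋂ m, W m) = ⨅ m, volume (W m) :=
    hWanti.measure_iInter (fun m => (hWclosed m).measurableSet.nullMeasurableSet) ⟨0, hfin⟩
  have hsub : (⋂ m, W m) ⊆ (⋂ u ∈ Metric.sphere (0 : EuclideanSpace ℝ (Fin n)) 1,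
        {x : EuclideanSpace ℝ (Fin n) | inner ℝ x u ≤
          sSup ((fun y => inner ℝ y u) '' K) ^ (1 - t) * sSup ((fun y => inner ℝ y u) '' L) ^ t}) := by
    intro x hx
    rw [mem_iInter] at hx
    simp only [mem_iInter, Set.mem_ofPred_eq]
    intro u hu
    have hu1 : ‖u‖ = 1 := by simpa using hu
    have hφ : Continuous (fun u => hs K u ^ (1 - t) * hs L u ^ t - inner ℝ x u) := by
      apply Continuous.sub
      · apply Continuous.mul
        · exact (continuous_hs hKc hKne).rpow_const (fun _ => Or.inr (by linarith))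
        · exact (continuous_hs hLc hLne).rpow_const (fun _ => Or.inr ht0)
      · fun_prop
    have := hvd _ hφ (fun j => by
      have := hx j ⟨j, by omega⟩
      have h2 := (abs_le.mp this).2
      rw [real_inner_comm] at h2
      simp only at h2
      linarith) u hu1
    show inner ℝ x u ≤ hs K u ^ (1 - t) * hs L u ^ t
    linarith
  calc volume K ^ (1 - t) * volume L ^ t ≤ ⨅ m, volume (W m) := le_iInf hstep
    _ = volume (⋂ m, W m) := hinter.symm
    _ ≤ _ := measure_mono hsub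

end Crest.Agent.R238
end

-- ▼ part R238/Fin744
section

/-! Row 238: S0369 from the last open node `AprStmt` (integrator, helper744). -/

set_option autoImplicit false
open MeasureTheory

namespace Crest.Agent.R238

theorem exi_of_apr744 (hapr : AprStmt) (n : ℕ) : Exi n :=
  exi_asm solStmt (Step.step_stmt solStmt AEst.repStmt) hapr reg (Boot.iso_stmt Apr.schStmt_all) n

theorem s0369_of_apr744 (hapr : AprStmt)
    (n : ℕ) (hn : 1 ≤ n)
    (K L : Set (EuclideanSpace ℝ (Fin n)))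
    (hKc : IsCompact K) (hKv : Convex ℝ K) (hKi : (interior K).Nonempty) (hKs : ∀ x ∈ K, -x ∈ K)
    (hLc : IsCompact L) (hLv : Convex ℝ L) (hLi : (interior L).Nonempty) (hLs : ∀ x ∈ L, -x ∈ L)
    (t : ℝ) (ht0 : 0 ≤ t) (ht1 : t ≤ 1) :
    volume K ^ (1 - t) * volume L ^ t ≤
      volume (⋂ u ∈ Metric.sphere (0 : EuclideanSpace ℝ (Fin n)) 1,
        {x : EuclideanSpace ℝ (Fin n) | inner ℝ x u ≤
          sSup ((fun y => inner ℝ y u) '' K) ^ (1 - t) * sSup ((fun y => inner ℝ y u) '' L) ^ t}) :=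
  s0369_of_slab n hn
    (Soft.slab_of_localIneq n (localIneq_of (exi_of_apr744 hapr n) (IdM.ident n) (dens n)))
    K L hKc hKv hKi hKs hLc hLv hLi hLs t ht0 ht1

end Crest.Agent.R238
end

-- ▼ part R238/AprFin
section

/-!
Row 238, node APR (helper143): final: `D3Stmt → AprStmt` (D3Stmt = `ECalD3.lean` of helper254).
-/

set_option autoImplicit false

namespace Crest.Agent.R238.Apr

open Crest.Agent.R238

theorem supStmt : SupStmt := fun n lo hi M0 R ε hlo hlh hε =>
  Gap.sup_est n lo hi M0 R ε hlo hlh hε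

theorem pwStmt : PwStmt := fun _n _P _v _s _lo _hi hP hv hlo hell hma =>
  ⟨fun z x => ECal.calabi_H1 hv hP hlo hell hma z x, fun x => ECal.calabi_H2 hv hP hlo hell hma x⟩

theorem apr_of_d3 (hD3 : D3Stmt) : AprStmt :=
  apr_of pwStmt hD3 schStmt_all supStmt

end Crest.Agent.R238.Apr
end

-- ▼ part R238/Apr0

/-!
Row 238, node APR (helper143): **uniform a priori bounds, unconditional**.
-/

set_option autoImplicit false

namespace Crest.Agent.R238

theorem apr : AprStmt := Apr.apr_of_d3 ECal.d3Stmt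

end Crest.Agent.R238
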