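import Crest.Agent.R238.ECal1

-- ▼ part R238/ECal2
section

/-!
Row 238, module H8 (Calabi algebra), evaluation at a point where `g = 1`: helper254.
-/

set_option autoImplicit false

namespace Crest.Agent.R238.ECal

open Finset

namespace Sys

variable {n : ℕ} {A : Type*} [CommRing A] [Algebra ℝ A] (s : Sys n A) (ev : A →+* ℝ)

def T (a b c : Fin n) : ℝ := ev (s.D c (s.g a b))
def F (a b c d : Fin n) : ℝ := ev (s.D d (s.D c (s.g a b)))
def P2 (a b : Fin n) : ℝ := ev (s.D b (s.p a))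
def P3 (a b c : Fin n) : ℝ := ev (s.D c (s.D b (s.p a)))
def M (a b : Fin n) : ℝ := ∑ i, ∑ j, s.T ev a i j * s.T ev b i j

lemma T_12 (a b c : Fin n) : s.T ev a b c = s.T ev b a c := by
  unfold T; rw [s.T_symm1]
lemma T_23 (a b c : Fin n) : s.T ev a b c = s.T ev a c b := by
  unfold T; rw [s.T_symm2]
lemma T_13 (a b c : Fin n) : s.T ev a b c = s.T ev c b a := by
  unfold T; rw [s.gcod]

lemma F_12 (a b c d : Fin n) : s.F ev a b c d = s.F ev b a c d := by
  unfold F; rw [s.T_symm1 a b c]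
lemma F_23 (a b c d : Fin n) : s.F ev a b c d = s.F ev a c b d := by
  unfold F; rw [s.T_symm2 a b c]
lemma F_34 (a b c d : Fin n) : s.F ev a b c d = s.F ev a b d c := by
  unfold F; rw [s.comm d c]


variable {ev}
variable (hev : ∀ a b, ev (s.g a b) = if a = b then 1 else 0)
include hev

lemma ev_t (a b : Fin n) : ev (s.t a b) = if a = b then 1 else 0 := by
  have h := congrArg ev (s.tg a b)
  rw [map_sum] at h
  simp only [map_mul, hev] at h
  simpa [apply_ite ev] using h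

lemma ev_Dt (a b c : Fin n) : ev (s.D c (s.t a b)) = - s.T ev a b c := by
  rw [s.D_t]
  simp only [map_neg, map_sum, map_mul, s.ev_t hev, T]
  simp

lemma ev_DDt (a b c d : Fin n) : ev (s.D d (s.D c (s.t a b))) =
    ∑ i, (s.T ev a i d * s.T ev i b c + s.T ev a i c * s.T ev i b d) - s.F ev a b c d := by
  rw [s.D_t, map_neg, s.D_sum, map_neg, map_sum]
  have h : ∀ i, ev (s.D d (∑ j, s.t a i * s.D c (s.g i j) * s.t j b)) =
      - (s.T ev a i d * s.T ev i b c) - (∑ j, (if a = i then 1 else 0) * (s.T ev i j c * s.T ev j b d))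
        + (if a = i then 1 else 0) * s.F ev i b c d := by
    intro i
    rw [s.D_sum, map_sum]
    have h2 : ∀ j, ev (s.D d (s.t a i * s.D c (s.g i j) * s.t j b)) =
        - (s.T ev a i d * s.T ev i j c * (if j = b then 1 else 0))
        - (if a = i then 1 else 0) * (s.T ev i j c * s.T ev j b d)
        + (if a = i then 1 else 0) * (s.F ev i j c d * (if j = b then 1 else 0)) := by
      intro j
      rw [s.D_mul, s.D_mul]
      simp only [map_add, map_mul, s.ev_Dt hev, s.ev_t hev]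
      unfold F
      rw [show ev (s.D c (s.g i j)) = s.T ev i j c from rfl]
      ring
    simp only [h2, Finset.sum_add_distrib, Finset.sum_sub_distrib]
    simp
  simp only [h, Finset.sum_add_distrib, Finset.sum_sub_distrib]
  simp only [Finset.sum_neg_distrib]
  rw [Finset.sum_comm (s := univ) (t := univ)]
  simp only [ite_mul, one_mul, zero_mul, Finset.sum_ite_eq, Finset.mem_univ, if_true]
  have h5 : ∑ i, s.T ev a i c * s.T ev i b d = ∑ x, s.T ev a x c * s.T ev x b d := rfl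
  linarith

lemma ev_L (f : A) : ev (s.L f) = ∑ a, ev (s.D a (s.D a f)) - ∑ a, ev (s.x a) * ev (s.D a f) := by
  unfold L
  simp only [map_sub, map_sum, map_mul, s.ev_t hev]
  simp

lemma ev_Gam (f h : A) : ev (s.Gam f h) = ∑ a, ev (s.D a f) * ev (s.D a h) := by
  unfold Gam
  simp only [map_sum, map_mul, s.ev_t hev]
  simp

lemma ev_Lg (e f : Fin n) : ev (s.L (s.g e f)) =
    s.M ev e f + (if e = f then 1 else 0) - s.P2 ev e f := by
  rw [s.E1]
  simp only [map_add, map_sub, map_sum, map_mul, s.ev_t hev, hev]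
  unfold P2
  congr 2
  have : ∀ a b, ∑ i, ∑ j, ((if a = i then (1:ℝ) else 0) * (if b = j then 1 else 0)) *
      (ev (s.D f (s.g i j)) * ev (s.D e (s.g a b))) = s.T ev a b f * s.T ev a b e := by
    intro a b; unfold T; simp
  simp only [this]
  unfold M
  refine Finset.sum_congr rfl fun i _ => Finset.sum_congr rfl fun j _ => ?_
  rw [s.T_13 ev e i j, s.T_13 ev f i j, s.T_12 ev j i e, s.T_12 ev j i f]; ring

lemma ev_Lt (a b : Fin n) : ev (s.L (s.t a b)) =
    s.M ev a b - (if a = b then 1 else 0) + s.P2 ev a b := by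
  have h1 := s.ev_Lg hev a b
  rw [s.ev_L hev] at h1 ⊢
  simp only [s.ev_DDt hev, s.ev_Dt hev]
  simp only [Finset.sum_sub_distrib, Finset.sum_add_distrib]
  have h2 : ∑ a_1, ev (s.D a_1 (s.D a_1 (s.g a b))) = ∑ c, s.F ev a b c c := rfl
  have h3 : ∀ c, ev (s.D c (s.g a b)) = s.T ev a b c := fun c => rfl
  have h4 : ∑ x, ∑ x_1, s.T ev a x_1 x * s.T ev x_1 b x = s.M ev a b := by
    unfold M; rw [Finset.sum_comm]
    refine Finset.sum_congr rfl fun i _ => Finset.sum_congr rfl fun j _ => ?_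
    rw [s.T_12 ev i b j]
  simp only [h3] at h1
  rw [h2] at h1
  rw [h4]
  simp only [mul_neg, Finset.sum_neg_distrib]
  linarith

/-- the quartic/cubic contractions -/
lemma ev_LT (e f h : Fin n) : ev (s.L (s.D h (s.g e f))) =
    2 * s.T ev e f h
      + ∑ p, ∑ q, (s.T ev h p q * s.F ev p q e f + s.T ev f p q * s.F ev p q e h
          + s.T ev e p q * s.F ev p q f h)
      - 2 * ∑ p, ∑ q, ∑ r, s.T ev e p q * s.T ev f q r * s.T ev h r p
      - s.P3 ev e f h := by
  -- D_h of (E1)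
  have key : s.D h (s.L (s.g e f)) = s.L (s.D h (s.g e f))
      + ∑ a, ∑ b, s.D h (s.t a b) * s.D a (s.D b (s.g e f)) - s.D h (s.g e f) := by
    unfold L
    rw [map_sub, s.D_sum, s.D_sum]
    have h1 : ∀ a, s.D h (∑ b, s.t a b * s.D a (s.D b (s.g e f))) =
        ∑ b, s.t a b * s.D a (s.D b (s.D h (s.g e f))) +
          ∑ b, s.D h (s.t a b) * s.D a (s.D b (s.g e f)) := by
      intro a
      rw [s.D_sum, ← Finset.sum_add_distrib]
      refine Finset.sum_congr rfl fun b _ => ?_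
      rw [s.D_mul, s.comm h a, s.comm h b]; ring
    have h2 : ∀ a, s.D h (s.x a * s.D a (s.g e f)) =
        s.x a * s.D a (s.D h (s.g e f)) + (if h = a then 1 else 0) * s.D a (s.g e f) := by
      intro a
      rw [s.D_mul, s.Dx, s.comm h a]; ring
    simp only [h1, h2, Finset.sum_add_distrib]
    have h3 : ∑ a, (if h = a then (1:A) else 0) * s.D a (s.g e f) = s.D h (s.g e f) := by simp
    rw [h3]; ring
  have k2 := congrArg (s.D h) (s.E1 e f)
  rw [key] at k2
  have k3 := congrArg ev k2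
  simp only [map_add, map_sub] at k3
  have e1 : ev (∑ a, ∑ b, s.D h (s.t a b) * s.D a (s.D b (s.g e f))) =
      - ∑ p, ∑ q, s.T ev h p q * s.F ev p q e f := by
    simp only [map_sum, map_mul, s.ev_Dt hev, ← Finset.sum_neg_distrib]
    refine Finset.sum_congr rfl fun p _ => Finset.sum_congr rfl fun q _ => ?_
    rw [← s.F_symm]
    rw [s.T_23 ev p q h, s.T_12 ev p h q]
    unfold F
    rw [s.comm f e]; ring
  have e2 : ev (s.D h (∑ a, ∑ b, ∑ i, ∑ j, s.t a i * s.t b j *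
      (s.D f (s.g i j) * s.D e (s.g a b)))) =
      ∑ p, ∑ q, (s.T ev f p q * s.F ev p q e h + s.T ev e p q * s.F ev p q f h)
        - 2 * ∑ p, ∑ q, ∑ r, s.T ev e p q * s.T ev f q r * s.T ev h r p := by
    have t0 : ∀ a b i j, ev (s.D h (s.t a i * s.t b j * (s.D f (s.g i j) * s.D e (s.g a b)))) =
        - (s.T ev a i h * (if b = j then 1 else 0)) * (s.T ev i j f * s.T ev a b e)
        - ((if a = i then 1 else 0) * s.T ev b j h) * (s.T ev i j f * s.T ev a b e)
        + ((if a = i then 1 else 0) * (if b = j then 1 else 0)) *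
          (s.F ev i j f h * s.T ev a b e + s.T ev i j f * s.F ev a b e h) := by
      intro a b i j
      rw [s.D_mul, s.D_mul, s.D_mul]
      simp only [map_add, map_mul, s.ev_Dt hev, s.ev_t hev]
      unfold F T
      ring
    simp only [s.D_sum, map_sum, t0, Finset.sum_add_distrib, Finset.sum_sub_distrib]
    have s1 : ∑ a, ∑ b, ∑ i, ∑ j, - (s.T ev a i h * (if b = j then 1 else 0)) *
        (s.T ev i j f * s.T ev a b e) =
        - ∑ p, ∑ q, ∑ r, s.T ev e p q * s.T ev f q r * s.T ev h r p := by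
      simp only [← Finset.sum_neg_distrib]
      have : ∀ a b i, ∑ j, - (s.T ev a i h * (if b = j then 1 else 0)) *
          (s.T ev i j f * s.T ev a b e) = - (s.T ev e a b * s.T ev f b i * s.T ev h i a) := by
        intro a b i
        have : ∀ j, - (s.T ev a i h * (if b = j then (1:ℝ) else 0)) *
          (s.T ev i j f * s.T ev a b e) = if b = j then - (s.T ev a i h *
          (s.T ev i j f * s.T ev a b e)) else 0 := by
          intro j; split_ifs <;> ring
        simp only [this, Finset.sum_ite_eq, Finset.mem_univ, if_true]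
        rw [s.T_13 ev a i h, s.T_13 ev i b f, s.T_13 ev a b e, s.T_12 ev e b a, s.T_23 ev b e a,
          s.T_12 ev b a e, s.T_13 ev a b e, s.T_23 ev e b a]
        ring
      simp only [this]
    have s2 : ∑ a, ∑ b, ∑ i, ∑ j, ((if a = i then (1:ℝ) else 0) * s.T ev b j h) *
        (s.T ev i j f * s.T ev a b e) =
        ∑ p, ∑ q, ∑ r, s.T ev e p q * s.T ev f q r * s.T ev h r p := by
      have : ∀ a b, ∑ i, ∑ j, ((if a = i then (1:ℝ) else 0) * s.T ev b j h) *
          (s.T ev i j f * s.T ev a b e) = ∑ j, s.T ev e b a * s.T ev f a j * s.T ev h j b := by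
        intro a b
        rw [Finset.sum_comm]
        refine Finset.sum_congr rfl fun j _ => ?_
        have : ∀ i, ((if a = i then (1:ℝ) else 0) * s.T ev b j h) *
          (s.T ev i j f * s.T ev a b e) = if a = i then s.T ev b j h *
          (s.T ev i j f * s.T ev a b e) else 0 := by
          intro i; split_ifs <;> ring
        simp only [this, Finset.sum_ite_eq, Finset.mem_univ, if_true]
        rw [s.T_13 ev b j h, s.T_13 ev a j f, s.T_13 ev a b e, s.T_23 ev f j a]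
        ring
      simp only [this]
      rw [Finset.sum_comm]
    have s3 : ∑ a, ∑ b, ∑ i, ∑ j, ((if a = i then (1:ℝ) else 0) * (if b = j then 1 else 0)) *
          (s.F ev i j f h * s.T ev a b e + s.T ev i j f * s.F ev a b e h) =
        ∑ p, ∑ q, (s.T ev f p q * s.F ev p q e h + s.T ev e p q * s.F ev p q f h) := by
      refine Finset.sum_congr rfl fun a _ => Finset.sum_congr rfl fun b _ => ?_
      have : ∀ i j, ((if a = i then (1:ℝ) else 0) * (if b = j then 1 else 0)) *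
          (s.F ev i j f h * s.T ev a b e + s.T ev i j f * s.F ev a b e h) =
          if a = i then (if b = j then (s.F ev i j f h * s.T ev a b e + s.T ev i j f * s.F ev a b e h)
            else 0) else 0 := by
        intro i j; split_ifs <;> ring
      simp only [this]
      simp only [Finset.sum_ite_eq, Finset.mem_univ, if_true, Finset.sum_const_zero,
        Finset.sum_ite_irrel]
      rw [s.T_13 ev a b e, s.T_13 ev a b f, s.T_23 ev e b a, s.T_23 ev f b a]
      ring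
    have s3' := s3
    simp only [mul_add, Finset.sum_add_distrib] at s3'
    simp only [mul_add, Finset.sum_add_distrib]
    rw [s1, s2]
    linarith
  have e3 : ev (s.D h (s.D f (s.p e))) = s.P3 ev e f h := rfl
  have e4 : ev (s.D h (s.g e f)) = s.T ev e f h := rfl
  rw [e1, e2, e3, e4] at k3
  simp only [Finset.sum_add_distrib] at k3 ⊢
  linarith

end Sys

end Crest.Agent.R238.ECal
end

-- ▼ part R238/ECal3

/-!
Row 238, module H8 (Calabi algebra), pure tensor algebra: helper254.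
-/

set_option autoImplicit false

namespace Crest.Agent.R238.ECal

open Finset

section tensor

variable {n : ℕ}

lemma sum6 (f : Fin n → Fin n → Fin n → Fin n → Fin n → Fin n → ℝ) :
    ∑ a, ∑ b, ∑ c, ∑ d, ∑ p, ∑ q, f a b c d p q =
      ∑ x : Fin n × Fin n × Fin n × Fin n × Fin n × Fin n,
        f x.1 x.2.1 x.2.2.1 x.2.2.2.1 x.2.2.2.2.1 x.2.2.2.2.2 := by
  simp only [Fintype.sum_prod_type]

lemma sum5 (f : Fin n → Fin n → Fin n → Fin n → Fin n → ℝ) :
    ∑ a, ∑ b, ∑ c, ∑ d, ∑ p, f a b c d p =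
      ∑ x : Fin n × Fin n × Fin n × Fin n × Fin n,
        f x.1 x.2.1 x.2.2.1 x.2.2.2.1 x.2.2.2.2 := by
  simp only [Fintype.sum_prod_type]

/-- the K4 contraction -/
def c4 (T : Fin n → Fin n → Fin n → ℝ) : ℝ :=
  ∑ a, ∑ b, ∑ c, ∑ p, ∑ q, ∑ r, T a b c * (T a p q * T b q r * T c r p)

def X1 (T : Fin n → Fin n → Fin n → ℝ) (F : Fin n → Fin n → Fin n → Fin n → ℝ) : ℝ :=
  ∑ a, ∑ b, ∑ c, ∑ d, ∑ e, T a b c * (T a d e * F b c d e)

def Mt (T : Fin n → Fin n → Fin n → ℝ) (a b : Fin n) : ℝ := ∑ i, ∑ j, T a i j * T b i j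

def St (T : Fin n → Fin n → Fin n → ℝ) : ℝ := ∑ a, ∑ b, ∑ c, T a b c ^ 2

def dt (T : Fin n → Fin n → Fin n → ℝ) : ℝ := ∑ a, ∑ b, Mt T a b ^ 2

/-- symmetric three-tensors -/
structure Sym3 (T : Fin n → Fin n → Fin n → ℝ) : Prop where
  h12 : ∀ a b c, T a b c = T b a c
  h23 : ∀ a b c, T a b c = T a c b

structure Sym4 (F : Fin n → Fin n → Fin n → Fin n → ℝ) : Prop where
  h12 : ∀ a b c d, F a b c d = F b a c d
  h23 : ∀ a b c d, F a b c d = F a c b d
  h34 : ∀ a b c d, F a b c d = F a b d c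

variable {T : Fin n → Fin n → Fin n → ℝ} {F : Fin n → Fin n → Fin n → Fin n → ℝ}

lemma Sym3.h13 (hT : Sym3 T) (a b c : Fin n) : T a b c = T c b a := by
  rw [hT.h12, hT.h23, hT.h12]

lemma St_eq_trM (T : Fin n → Fin n → Fin n → ℝ) : St T = ∑ a, Mt T a a := by
  unfold St Mt
  refine Finset.sum_congr rfl fun a _ => Finset.sum_congr rfl fun b _ =>
    Finset.sum_congr rfl fun c _ => by ring

/-- `St^2 ≤ n dt` -/
lemma St_sq_le (T : Fin n → Fin n → Fin n → ℝ) : St T ^ 2 ≤ n * dt T := by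
  rw [St_eq_trM]
  have h1 : (∑ a, Mt T a a) ^ 2 ≤ (Finset.univ : Finset (Fin n)).card * ∑ a, Mt T a a ^ 2 :=
    sq_sum_le_card_mul_sum_sq
  have h2 : ∑ a, Mt T a a ^ 2 ≤ dt T := by
    unfold dt
    refine Finset.sum_le_sum fun a _ => ?_
    exact Finset.single_le_sum (f := fun b => Mt T a b ^ 2) (fun b _ => sq_nonneg _)
      (Finset.mem_univ a)
  have h3 : ((Finset.univ : Finset (Fin n)).card : ℝ) = n := by simp
  rw [h3] at h1
  exact h1.trans (mul_le_mul_of_nonneg_left h2 (Nat.cast_nonneg n))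

def A1 (T : Fin n → Fin n → Fin n → ℝ) (a b c d : Fin n) : ℝ := ∑ p, T a p d * T p b c
def A2 (T : Fin n → Fin n → Fin n → ℝ) (a b c d : Fin n) : ℝ := ∑ p, T b p d * T a p c
def A3 (T : Fin n → Fin n → Fin n → ℝ) (a b c d : Fin n) : ℝ := ∑ p, T c p d * T a b p

lemma A1A2 (hT : Sym3 T) : ∑ a, ∑ b, ∑ c, ∑ d, A1 T a b c d * A2 T a b c d = c4 T := by
  unfold A1 A2 c4
  simp only [Finset.sum_mul_sum]
  rw [sum6 (fun a b c d p q => T a p d * T p b c * (T b q d * T a q c)),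
    sum6 (fun a b c p q r => T a b c * (T a p q * T b q r * T c r p))]
  refine Fintype.sum_equiv ⟨fun x => (x.1, x.2.2.2.2.1, x.2.2.2.1, x.2.2.2.2.2, x.2.2.1, x.2.1),
    fun y => (y.1, y.2.2.2.2.2, y.2.2.2.2.1, y.2.2.1, y.2.1, y.2.2.2.1),
    fun x => rfl, fun y => rfl⟩ _ _ ?_
  rintro ⟨a, b, c, d, p, q⟩
  simp only [Equiv.coe_fn_mk]
  rw [hT.h23 p b c, hT.h13 b q d, hT.h23 d q b]
  ring

lemma A2_A3 (hT : Sym3 T) (a b c d : Fin n) : A3 T a b c d = A2 T a c b d := by
  unfold A2 A3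
  refine Finset.sum_congr rfl fun p _ => ?_
  rw [hT.h23 a b p]

lemma A1_swap (hT : Sym3 T) (a b c d : Fin n) : A1 T a b c d = A1 T a c b d := by
  unfold A1
  refine Finset.sum_congr rfl fun p _ => ?_
  rw [hT.h23 p b c]

lemma A2_A1 (hT : Sym3 T) (a b c d : Fin n) : A2 T a b c d = A1 T b a c d := by
  unfold A2 A1
  refine Finset.sum_congr rfl fun p _ => ?_
  rw [hT.h12 a p c]

lemma A3_swap (hT : Sym3 T) (a b c d : Fin n) : A3 T a b c d = A3 T b a c d := by
  unfold A3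
  refine Finset.sum_congr rfl fun p _ => ?_
  rw [hT.h12 a b p]

lemma A1A3 (hT : Sym3 T) : ∑ a, ∑ b, ∑ c, ∑ d, A1 T a b c d * A3 T a b c d = c4 T := by
  rw [← A1A2 hT]
  refine Finset.sum_congr rfl fun a _ => ?_
  rw [Finset.sum_comm]
  refine Finset.sum_congr rfl fun b _ => Finset.sum_congr rfl fun c _ =>
    Finset.sum_congr rfl fun d _ => ?_
  rw [A2_A3 hT, A1_swap hT]

lemma A2A3 (hT : Sym3 T) : ∑ a, ∑ b, ∑ c, ∑ d, A2 T a b c d * A3 T a b c d = c4 T := by
  rw [← A1A3 hT, Finset.sum_comm]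
  refine Finset.sum_congr rfl fun a _ => Finset.sum_congr rfl fun b _ =>
    Finset.sum_congr rfl fun c _ => Finset.sum_congr rfl fun d _ => ?_
  rw [A2_A1 hT, A3_swap hT]

lemma A1A1 (hT : Sym3 T) : ∑ a, ∑ b, ∑ c, ∑ d, A1 T a b c d * A1 T a b c d = dt T := by
  unfold A1 dt Mt
  simp only [pow_two, Finset.sum_mul_sum]
  rw [sum6 (fun a b c d p q => T a p d * T p b c * (T a q d * T q b c))]
  have : ∀ a b : Fin n, ∑ i, ∑ j, ∑ k, ∑ l, T a i k * T b i k * (T a j l * T b j l) =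
      ∑ i, ∑ j, ∑ k, ∑ l, T a i k * T b i k * (T a j l * T b j l) := fun _ _ => rfl
  rw [sum6 (fun a b i j k l => T a i k * T b i k * (T a j l * T b j l))]
  refine Fintype.sum_equiv ⟨fun x => (x.2.2.2.2.1, x.2.2.2.2.2, x.1, x.2.1, x.2.2.2.1, x.2.2.1),
    fun y => (y.2.2.1, y.2.2.2.1, y.2.2.2.2.2, y.2.2.2.2.1, y.1, y.2.1),
    fun x => rfl, fun y => rfl⟩ _ _ ?_
  rintro ⟨a, b, c, d, p, q⟩
  simp only [Equiv.coe_fn_mk]
  rw [hT.h12 a p d, hT.h12 a q d]
  ring

lemma A2A2 (hT : Sym3 T) : ∑ a, ∑ b, ∑ c, ∑ d, A2 T a b c d * A2 T a b c d = dt T := by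
  rw [← A1A1 hT, Finset.sum_comm]
  refine Finset.sum_congr rfl fun a _ => Finset.sum_congr rfl fun b _ =>
    Finset.sum_congr rfl fun c _ => Finset.sum_congr rfl fun d _ => ?_
  rw [A2_A1 hT]

lemma A3A3 (hT : Sym3 T) : ∑ a, ∑ b, ∑ c, ∑ d, A3 T a b c d * A3 T a b c d = dt T := by
  rw [← A2A2 hT]
  refine Finset.sum_congr rfl fun a _ => ?_
  rw [Finset.sum_comm]
  refine Finset.sum_congr rfl fun b _ => Finset.sum_congr rfl fun c _ =>
    Finset.sum_congr rfl fun d _ => ?_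
  rw [A2_A3 hT]

lemma FA1 (hT : Sym3 T) (hF : Sym4 F) : ∑ a, ∑ b, ∑ c, ∑ d, F a b c d * A1 T a b c d = X1 T F := by
  unfold A1 X1
  simp only [Finset.mul_sum]
  rw [sum5 (fun a b c d p => F a b c d * (T a p d * T p b c)),
    sum5 (fun a b c d e => T a b c * (T a d e * F b c d e))]
  refine Fintype.sum_equiv ⟨fun x => (x.2.2.2.2, x.2.1, x.2.2.1, x.1, x.2.2.2.1),
    fun y => (y.2.2.2.1, y.2.1, y.2.2.1, y.2.2.2.2, y.1),
    fun x => rfl, fun y => rfl⟩ _ _ ?_
  rintro ⟨a, b, c, d, p⟩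
  simp only [Equiv.coe_fn_mk]
  rw [hT.h12 a p d, hF.h12 a b c d, hF.h23 b a c d]
  ring

lemma FA2 (hT : Sym3 T) (hF : Sym4 F) : ∑ a, ∑ b, ∑ c, ∑ d, F a b c d * A2 T a b c d = X1 T F := by
  rw [← FA1 hT hF, Finset.sum_comm]
  refine Finset.sum_congr rfl fun a _ => Finset.sum_congr rfl fun b _ =>
    Finset.sum_congr rfl fun c _ => Finset.sum_congr rfl fun d _ => ?_
  rw [A2_A1 hT, hF.h12]

lemma FA3 (hT : Sym3 T) (hF : Sym4 F) : ∑ a, ∑ b, ∑ c, ∑ d, F a b c d * A3 T a b c d = X1 T F := by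
  rw [← FA2 hT hF]
  refine Finset.sum_congr rfl fun a _ => ?_
  rw [Finset.sum_comm]
  refine Finset.sum_congr rfl fun b _ => Finset.sum_congr rfl fun c _ =>
    Finset.sum_congr rfl fun d _ => ?_
  rw [A2_A3 hT, hF.h23]

lemma c4_le_dt (hT : Sym3 T) : c4 T ≤ dt T := by
  have h : 0 ≤ ∑ a, ∑ b, ∑ c, ∑ d, (A1 T a b c d - A2 T a b c d) ^ 2 := by positivity
  have h2 : ∑ a, ∑ b, ∑ c, ∑ d, (A1 T a b c d - A2 T a b c d) ^ 2 =
      dt T + dt T - 2 * c4 T := by
    have e : ∀ a b c d, (A1 T a b c d - A2 T a b c d) ^ 2 =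
        A1 T a b c d * A1 T a b c d + A2 T a b c d * A2 T a b c d
          - 2 * (A1 T a b c d * A2 T a b c d) := fun a b c d => by ring
    simp only [e, Finset.sum_sub_distrib, Finset.sum_add_distrib, ← Finset.mul_sum]
    rw [A1A1 hT, A2A2 hT, A1A2 hT]
  rw [h2] at h
  linarith

def Q (T : Fin n → Fin n → Fin n → ℝ) (a b c d : Fin n) : ℝ :=
  A1 T a b c d + A2 T a b c d + A3 T a b c d

lemma F_sq_ge (hT : Sym3 T) (hF : Sym4 F) :
    - (3 / 2 * dt T + 3 * c4 T) ≤ ∑ a, ∑ b, ∑ c, ∑ d, 2 * (F a b c d * F a b c d) - 6 * X1 T F := by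
  have h : 0 ≤ ∑ a, ∑ b, ∑ c, ∑ d, 2 * (F a b c d - Q T a b c d / 2) ^ 2 := by positivity
  have h2 : ∑ a, ∑ b, ∑ c, ∑ d, 2 * (F a b c d - Q T a b c d / 2) ^ 2 =
      ∑ a, ∑ b, ∑ c, ∑ d, 2 * (F a b c d * F a b c d) - 6 * X1 T F
        + (3 / 2 * dt T + 3 * c4 T) := by
    have e : ∀ a b c d, 2 * (F a b c d - Q T a b c d / 2) ^ 2 =
        2 * (F a b c d * F a b c d) - 2 * (F a b c d * A1 T a b c d)
         - 2 * (F a b c d * A2 T a b c d) - 2 * (F a b c d * A3 T a b c d)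
         + 1 / 2 * (A1 T a b c d * A1 T a b c d) + 1 / 2 * (A2 T a b c d * A2 T a b c d)
         + 1 / 2 * (A3 T a b c d * A3 T a b c d) + (A1 T a b c d * A2 T a b c d)
         + (A1 T a b c d * A3 T a b c d) + (A2 T a b c d * A3 T a b c d) := fun a b c d => by
      unfold Q; ring
    simp only [e, Finset.sum_sub_distrib, Finset.sum_add_distrib, ← Finset.mul_sum]
    rw [A1A1 hT, A2A2 hT, A3A3 hT, A1A2 hT, A1A3 hT, A2A3 hT, FA1 hT hF, FA2 hT hF, FA3 hT hF]
    ring
  rw [h2] at h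
  linarith

end tensor

end Crest.Agent.R238.ECal
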