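import Crest.Agent.R238.ECal3

-- ▼ part R238/ECal4
section

/-!
Row 238, module H8 (Calabi algebra), `L S` at a point where `g = 1`: helper254.
-/

set_option autoImplicit false

namespace Crest.Agent.R238.ECal

open Finset

namespace Sys

variable {n : ℕ} {A : Type*} [CommRing A] [Algebra ℝ A] (s : Sys n A)

def T1 (a b c : Fin n) : A := ∑ i, s.t a i * s.D c (s.g i b)
def T2 (a b c : Fin n) : A := ∑ i, s.t b i * s.T1 a i c
def T3 (a b c : Fin n) : A := ∑ i, s.t c i * s.T2 a b i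
/-- the Calabi scalar `S = |D³u|²_g` -/
def S : A := ∑ a, ∑ b, ∑ c, s.T3 a b c * s.D c (s.g a b)

variable {s} {ev : A →+* ℝ}

lemma sym3 : Sym3 (s.T ev) := ⟨s.T_12 ev, s.T_23 ev⟩
lemma sym4 : Sym4 (s.F ev) := ⟨s.F_12 ev, s.F_23 ev, s.F_34 ev⟩

variable (hev : ∀ a b, ev (s.g a b) = if a = b then 1 else 0)
include hev

lemma ev_tV (a : Fin n) (V : Fin n → A) : ev (∑ i, s.t a i * V i) = ev (V a) := by
  simp only [map_sum, map_mul, s.ev_t hev]
  simp

lemma ev_DtV (a d : Fin n) (V : Fin n → A) : ev (s.D d (∑ i, s.t a i * V i)) =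
    ev (s.D d (V a)) - ∑ i, s.T ev a i d * ev (V i) := by
  simp only [s.D_sum, s.D_mul, map_sum, map_add, map_mul, s.ev_t hev, s.ev_Dt hev,
    Finset.sum_add_distrib]
  have : ∑ i, ev (V i) * -s.T ev a i d = - ∑ i, s.T ev a i d * ev (V i) := by
    rw [← Finset.sum_neg_distrib]; exact Finset.sum_congr rfl fun i _ => by ring
  rw [this]
  simp only [ite_mul, one_mul, zero_mul, Finset.sum_ite_eq, Finset.mem_univ, if_true]
  ring

lemma ev_LtV (a : Fin n) (V : Fin n → A) : ev (s.L (∑ i, s.t a i * V i)) =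
    ev (s.L (V a)) + ∑ i, (s.M ev a i - (if a = i then 1 else 0) + s.P2 ev a i) * ev (V i)
      - 2 * ∑ i, ∑ d, s.T ev a i d * ev (s.D d (V i)) := by
  simp only [s.L_sum, s.L_mul, map_sum, map_add, map_mul, s.ev_t hev, s.ev_Lt hev,
    s.ev_Gam hev, s.ev_Dt hev, Finset.sum_add_distrib]
  have e1 : ∑ i, (if a = i then (1:ℝ) else 0) * ev (s.L (V i)) = ev (s.L (V a)) := by simp
  have e2 : ∑ i, ev (V i) * (s.M ev a i - (if a = i then 1 else 0) + s.P2 ev a i) =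
      ∑ i, (s.M ev a i - (if a = i then 1 else 0) + s.P2 ev a i) * ev (V i) :=
    Finset.sum_congr rfl fun i _ => by ring
  have e3 : ∑ i, ev (2:A) * ∑ d, -s.T ev a i d * ev (s.D d (V i)) =
      - (2 * ∑ i, ∑ d, s.T ev a i d * ev (s.D d (V i))) := by
    rw [← Finset.mul_sum, map_ofNat]
    simp only [neg_mul, Finset.sum_neg_distrib]
    ring
  rw [e1, e2, e3]
  ring

lemma ev_T1 (a b c : Fin n) : ev (s.T1 a b c) = s.T ev a b c := by
  unfold T1; rw [ev_tV hev]; rfl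

lemma ev_T2 (a b c : Fin n) : ev (s.T2 a b c) = s.T ev a b c := by
  unfold T2; rw [ev_tV hev, ev_T1 hev]

lemma ev_T3 (a b c : Fin n) : ev (s.T3 a b c) = s.T ev a b c := by
  unfold T3; rw [ev_tV hev, ev_T2 hev]

lemma ev_S : ev s.S = St (s.T ev) := by
  unfold S St
  simp only [map_sum, map_mul, ev_T3 hev]
  refine Finset.sum_congr rfl fun a _ => Finset.sum_congr rfl fun b _ =>
    Finset.sum_congr rfl fun c _ => ?_
  rw [pow_two]; rfl

lemma ev_DT1 (a b c d : Fin n) : ev (s.D d (s.T1 a b c)) =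
    s.F ev a b c d - A1 (s.T ev) a b c d := by
  unfold T1 A1; rw [ev_DtV hev]; rfl

lemma ev_DT2 (a b c d : Fin n) : ev (s.D d (s.T2 a b c)) =
    s.F ev a b c d - A1 (s.T ev) a b c d - A2 (s.T ev) a b c d := by
  unfold T2; rw [ev_DtV hev, ev_DT1 hev]; unfold A2
  simp only [ev_T1 hev]

lemma ev_DT3 (a b c d : Fin n) : ev (s.D d (s.T3 a b c)) =
    s.F ev a b c d - Q (s.T ev) a b c d := by
  unfold T3; rw [ev_DtV hev, ev_DT2 hev]; unfold Q A3
  simp only [ev_T2 hev]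
  ring

lemma ev_LT1 (a b c : Fin n) : ev (s.L (s.T1 a b c)) =
    ev (s.L (s.D c (s.g a b)))
      + ∑ i, (s.M ev a i - (if a = i then 1 else 0) + s.P2 ev a i) * s.T ev i b c
      - 2 * ∑ i, ∑ d, s.T ev a i d * s.F ev i b c d := by
  unfold T1; rw [ev_LtV hev]; rfl

lemma ev_LT2 (a b c : Fin n) : ev (s.L (s.T2 a b c)) =
    ev (s.L (s.T1 a b c))
      + ∑ i, (s.M ev b i - (if b = i then 1 else 0) + s.P2 ev b i) * s.T ev a i c
      - 2 * ∑ i, ∑ d, s.T ev b i d * (s.F ev a i c d - A1 (s.T ev) a i c d) := by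
  unfold T2; rw [ev_LtV hev]
  simp only [ev_T1 hev, ev_DT1 hev]

lemma ev_LT3 (a b c : Fin n) : ev (s.L (s.T3 a b c)) =
    ev (s.L (s.T2 a b c))
      + ∑ i, (s.M ev c i - (if c = i then 1 else 0) + s.P2 ev c i) * s.T ev a b i
      - 2 * ∑ i, ∑ d, s.T ev c i d *
        (s.F ev a b i d - A1 (s.T ev) a b i d - A2 (s.T ev) a b i d) := by
  unfold T3; rw [ev_LtV hev]
  simp only [ev_T2 hev, ev_DT2 hev]

lemma ev_LS : ev (s.L s.S) =
    ∑ a, ∑ b, ∑ c, (s.T ev a b c * ev (s.L (s.D c (s.g a b)))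
      + s.T ev a b c * ev (s.L (s.T3 a b c))
      + 2 * ∑ d, (s.F ev a b c d - Q (s.T ev) a b c d) * s.F ev a b c d) := by
  unfold S
  simp only [s.L_sum, s.L_mul, map_sum, map_add, map_mul, ev_T3 hev, s.ev_Gam hev, ev_DT3 hev,
    map_ofNat]
  rfl

end Sys

end Crest.Agent.R238.ECal
end

-- ▼ part R238/ECal5
section

/-!
Row 238, module H8 (Calabi algebra), the inequality (E4) at a point where `g = 1`: helper254.
-/

set_option autoImplicit false

namespace Crest.Agent.R238.ECal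

open Finset

section tensor

variable {n : ℕ} {T : Fin n → Fin n → Fin n → ℝ} {F : Fin n → Fin n → Fin n → Fin n → ℝ}

lemma sum4 (f : Fin n → Fin n → Fin n → Fin n → ℝ) :
    ∑ a, ∑ b, ∑ c, ∑ d, f a b c d =
      ∑ x : Fin n × Fin n × Fin n × Fin n, f x.1 x.2.1 x.2.2.1 x.2.2.2 := by
  simp only [Fintype.sum_prod_type]

lemma TW1 (T : Fin n → Fin n → Fin n → ℝ) (W : Fin n → Fin n → ℝ) :
    ∑ a, ∑ b, ∑ c, T a b c * ∑ i, W a i * T i b c = ∑ a, ∑ b, W a b * Mt T a b := by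
  unfold Mt
  simp only [Finset.mul_sum]
  rw [sum4 (fun a b c i => T a b c * (W a i * T i b c)),
    sum4 (fun a b i j => W a b * (T a i j * T b i j))]
  refine Fintype.sum_equiv ⟨fun x => (x.1, x.2.2.2, x.2.1, x.2.2.1),
    fun y => (y.1, y.2.2.1, y.2.2.2, y.2.1),
    fun x => rfl, fun y => rfl⟩ _ _ ?_
  rintro ⟨a, b, c, i⟩
  simp only [Equiv.coe_fn_mk]
  ring

lemma TW2 (hT : Sym3 T) (W : Fin n → Fin n → ℝ) :
    ∑ a, ∑ b, ∑ c, T a b c * ∑ i, W b i * T a i c = ∑ a, ∑ b, W a b * Mt T a b := by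
  rw [← TW1, Finset.sum_comm]
  refine Finset.sum_congr rfl fun a _ => Finset.sum_congr rfl fun b _ =>
    Finset.sum_congr rfl fun c _ => ?_
  rw [hT.h12 b a c]
  congr 1
  refine Finset.sum_congr rfl fun i _ => ?_
  rw [hT.h12 b i c]

lemma TW3 (hT : Sym3 T) (W : Fin n → Fin n → ℝ) :
    ∑ a, ∑ b, ∑ c, T a b c * ∑ i, W c i * T a b i = ∑ a, ∑ b, W a b * Mt T a b := by
  rw [← TW2 hT]
  refine Finset.sum_congr rfl fun a _ => ?_
  rw [Finset.sum_comm]
  refine Finset.sum_congr rfl fun b _ =>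
    Finset.sum_congr rfl fun c _ => ?_
  rw [hT.h23 a c b]
  congr 1
  refine Finset.sum_congr rfl fun i _ => ?_
  rw [hT.h23 a c i]

lemma TX1 (hF : Sym4 F) : ∑ a, ∑ b, ∑ c, T a b c * ∑ i, ∑ d, T a i d * F i b c d = X1 T F := by
  unfold X1
  simp only [Finset.mul_sum]
  refine Finset.sum_congr rfl fun a _ => Finset.sum_congr rfl fun b _ =>
    Finset.sum_congr rfl fun c _ => Finset.sum_congr rfl fun d _ =>
    Finset.sum_congr rfl fun e _ => ?_
  rw [hF.h12 d b c e, hF.h23 b d c e]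

lemma TX2 (hT : Sym3 T) (hF : Sym4 F) :
    ∑ a, ∑ b, ∑ c, T a b c * ∑ i, ∑ d, T b i d * F a i c d = X1 T F := by
  rw [← TX1 hF, Finset.sum_comm]
  refine Finset.sum_congr rfl fun a _ => Finset.sum_congr rfl fun b _ =>
    Finset.sum_congr rfl fun c _ => ?_
  rw [hT.h12 b a c]
  congr 1
  refine Finset.sum_congr rfl fun i _ => Finset.sum_congr rfl fun d _ => ?_
  rw [hF.h12 b i c d]

lemma TX3 (hT : Sym3 T) (hF : Sym4 F) :
    ∑ a, ∑ b, ∑ c, T a b c * ∑ i, ∑ d, T c i d * F a b i d = X1 T F := by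
  rw [← TX2 hT hF]
  refine Finset.sum_congr rfl fun a _ => ?_
  rw [Finset.sum_comm]
  refine Finset.sum_congr rfl fun b _ =>
    Finset.sum_congr rfl fun c _ => ?_
  rw [hT.h23 a c b]
  congr 1
  refine Finset.sum_congr rfl fun i _ => Finset.sum_congr rfl fun d _ => ?_
  rw [hF.h23 a c i d]

lemma TA2 (hT : Sym3 T) :
    ∑ a, ∑ b, ∑ c, T a b c * ∑ i, ∑ d, T b i d * A1 T a i c d = c4 T := by
  unfold A1 c4
  simp only [Finset.mul_sum]
  rw [sum6 (fun a b c i d p => T a b c * (T b i d * (T a p d * T p i c))),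
    sum6 (fun a b c p q r => T a b c * (T a p q * T b q r * T c r p))]
  refine Fintype.sum_equiv ⟨fun x => (x.1, x.2.1, x.2.2.1, x.2.2.2.2.2, x.2.2.2.2.1, x.2.2.2.1),
    fun y => (y.1, y.2.1, y.2.2.1, y.2.2.2.2.2, y.2.2.2.2.1, y.2.2.2.1),
    fun x => rfl, fun y => rfl⟩ _ _ ?_
  rintro ⟨a, b, c, i, d, p⟩
  simp only [Equiv.coe_fn_mk]
  rw [hT.h23 b i d, hT.h13 p i c]
  ring

lemma TA3 (hT : Sym3 T) :
    ∑ a, ∑ b, ∑ c, T a b c * ∑ i, ∑ d, T c i d * A1 T a b i d = c4 T := by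
  unfold A1 c4
  simp only [Finset.mul_sum]
  rw [sum6 (fun a b c i d p => T a b c * (T c i d * (T a p d * T p b i))),
    sum6 (fun a b c p q r => T a b c * (T a p q * T b q r * T c r p))]
  refine Fintype.sum_equiv ⟨fun x => (x.1, x.2.1, x.2.2.1, x.2.2.2.2.1, x.2.2.2.2.2, x.2.2.2.1),
    fun y => (y.1, y.2.1, y.2.2.1, y.2.2.2.2.2, y.2.2.2.1, y.2.2.2.2.1),
    fun x => rfl, fun y => rfl⟩ _ _ ?_
  rintro ⟨a, b, c, i, d, p⟩
  simp only [Equiv.coe_fn_mk]
  rw [hT.h23 a p d, hT.h12 p b i]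
  ring

lemma TA3' (hT : Sym3 T) :
    ∑ a, ∑ b, ∑ c, T a b c * ∑ i, ∑ d, T c i d * A2 T a b i d = c4 T := by
  unfold A2 c4
  simp only [Finset.mul_sum]
  rw [sum6 (fun a b c i d p => T a b c * (T c i d * (T b p d * T a p i))),
    sum6 (fun a b c p q r => T a b c * (T a p q * T b q r * T c r p))]
  refine Fintype.sum_equiv ⟨fun x => (x.1, x.2.1, x.2.2.1, x.2.2.2.1, x.2.2.2.2.2, x.2.2.2.2.1),
    fun y => (y.1, y.2.1, y.2.2.1, y.2.2.2.1, y.2.2.2.2.2, y.2.2.2.2.1),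
    fun x => rfl, fun y => rfl⟩ _ _ ?_
  rintro ⟨a, b, c, i, d, p⟩
  simp only [Equiv.coe_fn_mk]
  rw [hT.h23 a p i, hT.h23 c i d]
  ring

end tensor

namespace Sys

variable {n : ℕ} {A : Type*} [CommRing A] [Algebra ℝ A] {s : Sys n A} {ev : A →+* ℝ}
variable (hev : ∀ a b, ev (s.g a b) = if a = b then 1 else 0)
include hev

lemma TLT : ∑ a, ∑ b, ∑ c, s.T ev a b c * ev (s.L (s.D c (s.g a b))) =
    2 * St (s.T ev) + 3 * X1 (s.T ev) (s.F ev) - 2 * c4 (s.T ev)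
      - ∑ a, ∑ b, ∑ c, s.T ev a b c * s.P3 ev a b c := by
  have hT : Sym3 (s.T ev) := sym3
  have hF : Sym4 (s.F ev) := sym4
  simp only [s.ev_LT hev]
  have e : ∀ a b c, s.T ev a b c * (2 * s.T ev a b c
      + ∑ p, ∑ q, (s.T ev c p q * s.F ev p q a b + s.T ev b p q * s.F ev p q a c
          + s.T ev a p q * s.F ev p q b c)
      - 2 * ∑ p, ∑ q, ∑ r, s.T ev a p q * s.T ev b q r * s.T ev c r p
      - s.P3 ev a b c) = 2 * s.T ev a b c ^ 2
      + s.T ev a b c * ∑ p, ∑ q, s.T ev c p q * s.F ev a b p q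
      + s.T ev a b c * ∑ p, ∑ q, s.T ev b p q * s.F ev a p c q
      + s.T ev a b c * ∑ p, ∑ q, s.T ev a p q * s.F ev p b c q
      - 2 * ∑ p, ∑ q, ∑ r, s.T ev a b c * (s.T ev a p q * s.T ev b q r * s.T ev c r p)
      - s.T ev a b c * s.P3 ev a b c := by
    intro a b c
    have f1 : ∀ p q, s.F ev p q a b = s.F ev a b p q := fun p q => by
      rw [hF.h23 p q a b, hF.h12 p a q b, hF.h34 a p q b, hF.h23 a p b q]
    have f2 : ∀ p q, s.F ev p q a c = s.F ev a p c q := fun p q => by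
      rw [hF.h23 p q a c, hF.h12 p a q c, hF.h34 a p q c]
    have f3 : ∀ p q, s.F ev p q b c = s.F ev p b c q := fun p q => by
      rw [hF.h23 p q b c, hF.h34 p b q c]
    simp only [f1, f2, f3, Finset.sum_add_distrib, ← Finset.mul_sum]
    ring
  simp only [e]
  simp only [Finset.sum_sub_distrib, Finset.sum_add_distrib]
  rw [TX3 hT hF, TX2 hT hF, TX1 hF]
  unfold St c4
  simp only [← Finset.mul_sum]
  ring

lemma ev_LS_eq : ev (s.L s.S) =
    (∑ a, ∑ b, ∑ c, ∑ d, 2 * (s.F ev a b c d * s.F ev a b c d) - 6 * X1 (s.T ev) (s.F ev))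
      + 2 * c4 (s.T ev) + 3 * dt (s.T ev) + St (s.T ev)
      + 3 * ∑ a, ∑ b, s.P2 ev a b * Mt (s.T ev) a b
      - 2 * ∑ a, ∑ b, ∑ c, s.T ev a b c * s.P3 ev a b c := by
  have hT : Sym3 (s.T ev) := sym3
  have hF : Sym4 (s.F ev) := sym4
  rw [ev_LS hev]
  have eW : ∑ a, ∑ b, (s.M ev a b - (if a = b then 1 else 0) + s.P2 ev a b) * Mt (s.T ev) a b =
      dt (s.T ev) - St (s.T ev) + ∑ a, ∑ b, s.P2 ev a b * Mt (s.T ev) a b := by
    have e1 : ∀ a b, (s.M ev a b - (if a = b then (1:ℝ) else 0) + s.P2 ev a b) *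
        Mt (s.T ev) a b = Mt (s.T ev) a b ^ 2 - (if a = b then Mt (s.T ev) a b else 0)
          + s.P2 ev a b * Mt (s.T ev) a b := by
      intro a b
      have : s.M ev a b = Mt (s.T ev) a b := rfl
      rw [this]; split_ifs <;> ring
    simp only [e1, Finset.sum_add_distrib, Finset.sum_sub_distrib]
    rw [St_eq_trM]
    unfold dt
    simp
  have h1 : ∑ a, ∑ b, ∑ c, s.T ev a b c * ev (s.L (s.T1 a b c)) =
      ∑ a, ∑ b, ∑ c, s.T ev a b c * ev (s.L (s.D c (s.g a b)))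
        + (dt (s.T ev) - St (s.T ev) + ∑ a, ∑ b, s.P2 ev a b * Mt (s.T ev) a b)
        - 2 * X1 (s.T ev) (s.F ev) := by
    rw [← eW, ← TX1 (T := s.T ev) hF, ← TW1 (s.T ev)]
    simp only [ev_LT1 hev, mul_sub, mul_add, Finset.sum_sub_distrib, Finset.sum_add_distrib]
    congr 1
    simp only [Finset.mul_sum]
    refine Finset.sum_congr rfl fun a _ => Finset.sum_congr rfl fun b _ =>
      Finset.sum_congr rfl fun c _ => Finset.sum_congr rfl fun p _ =>
      Finset.sum_congr rfl fun q _ => by ring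
  have h2 : ∑ a, ∑ b, ∑ c, s.T ev a b c * ev (s.L (s.T2 a b c)) =
      ∑ a, ∑ b, ∑ c, s.T ev a b c * ev (s.L (s.T1 a b c))
        + (dt (s.T ev) - St (s.T ev) + ∑ a, ∑ b, s.P2 ev a b * Mt (s.T ev) a b)
        - 2 * (X1 (s.T ev) (s.F ev) - c4 (s.T ev)) := by
    rw [← eW, ← TX2 hT hF, ← TA2 hT, ← TW2 hT]
    simp only [ev_LT2 hev, mul_sub, mul_add, Finset.sum_sub_distrib, Finset.sum_add_distrib]
    have : ∀ a b c, s.T ev a b c * (2 * ∑ x, ∑ x_1, s.T ev b x x_1 * s.F ev a x c x_1) =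
      2 * (s.T ev a b c * ∑ x, ∑ x_1, s.T ev b x x_1 * s.F ev a x c x_1) := by
      intro a b c; ring
    simp only [this]
    have : ∀ a b c, s.T ev a b c * (2 * ∑ x, ∑ x_1, s.T ev b x x_1 * A1 (s.T ev) a x c x_1) =
      2 * (s.T ev a b c * ∑ x, ∑ x_1, s.T ev b x x_1 * A1 (s.T ev) a x c x_1) := by
      intro a b c; ring
    simp only [this, ← Finset.mul_sum]
  have h3 : ∑ a, ∑ b, ∑ c, s.T ev a b c * ev (s.L (s.T3 a b c)) =
      ∑ a, ∑ b, ∑ c, s.T ev a b c * ev (s.L (s.T2 a b c))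
        + (dt (s.T ev) - St (s.T ev) + ∑ a, ∑ b, s.P2 ev a b * Mt (s.T ev) a b)
        - 2 * (X1 (s.T ev) (s.F ev) - c4 (s.T ev) - c4 (s.T ev)) := by
    rw [← eW, ← TW3 hT]
    nth_rewrite 1 [← TA3 hT]
    rw [← TA3' hT, ← TX3 hT hF]
    simp only [ev_LT3 hev, mul_sub, mul_add, Finset.sum_sub_distrib, Finset.sum_add_distrib]
    have : ∀ a b c, s.T ev a b c * (2 * ∑ x, ∑ x_1, s.T ev c x x_1 * s.F ev a b x x_1) =
      2 * (s.T ev a b c * ∑ x, ∑ x_1, s.T ev c x x_1 * s.F ev a b x x_1) := by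
      intro a b c; ring
    simp only [this]
    have : ∀ a b c, s.T ev a b c * (2 * ∑ x, ∑ x_1, s.T ev c x x_1 * A1 (s.T ev) a b x x_1) =
      2 * (s.T ev a b c * ∑ x, ∑ x_1, s.T ev c x x_1 * A1 (s.T ev) a b x x_1) := by
      intro a b c; ring
    simp only [this]
    have : ∀ a b c, s.T ev a b c * (2 * ∑ x, ∑ x_1, s.T ev c x x_1 * A2 (s.T ev) a b x x_1) =
      2 * (s.T ev a b c * ∑ x, ∑ x_1, s.T ev c x x_1 * A2 (s.T ev) a b x x_1) := by
      intro a b c; ring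
    simp only [this, ← Finset.mul_sum]
  have h4 : ∑ a, ∑ b, ∑ c, 2 * ∑ d, (s.F ev a b c d - Q (s.T ev) a b c d) * s.F ev a b c d =
      ∑ a, ∑ b, ∑ c, ∑ d, 2 * (s.F ev a b c d * s.F ev a b c d) - 6 * X1 (s.T ev) (s.F ev) := by
    have e : ∀ a b c, 2 * ∑ d, (s.F ev a b c d - Q (s.T ev) a b c d) * s.F ev a b c d =
        ∑ d, (2 * (s.F ev a b c d * s.F ev a b c d) - 2 * (s.F ev a b c d * A1 (s.T ev) a b c d)
          - 2 * (s.F ev a b c d * A2 (s.T ev) a b c d)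
          - 2 * (s.F ev a b c d * A3 (s.T ev) a b c d)) := by
      intro a b c
      rw [Finset.mul_sum]
      refine Finset.sum_congr rfl fun d _ => ?_
      unfold Q; ring
    simp only [e, Finset.sum_sub_distrib, ← Finset.mul_sum]
    rw [FA1 hT hF, FA2 hT hF, FA3 hT hF]
    ring
  simp only [Finset.sum_add_distrib]
  rw [h4, h3, h2, h1, TLT hev]
  ring

/-- (E4) at a point where `g = 1`. -/
theorem ev_LS_ge (hn : 0 < n) (hP : ∀ v : Fin n → ℝ, 0 ≤ ∑ a, ∑ b, s.P2 ev a b * (v a * v b)) :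
    ev s.S ^ 2 / (2 * n) + ev s.S
      - 2 * ∑ a, ∑ b, ∑ c, s.T ev a b c * s.P3 ev a b c ≤ ev (s.L s.S) := by
  have hT : Sym3 (s.T ev) := sym3
  have hF : Sym4 (s.F ev) := sym4
  rw [ev_LS_eq hev, ev_S hev]
  have h1 := F_sq_ge hT hF
  have h2 := c4_le_dt hT
  have h3 := St_sq_le (s.T ev)
  have h4 : 0 ≤ ∑ a, ∑ b, s.P2 ev a b * Mt (s.T ev) a b := by
    have : ∑ a, ∑ b, s.P2 ev a b * Mt (s.T ev) a b =
        ∑ i, ∑ j, ∑ a, ∑ b, s.P2 ev a b * (s.T ev a i j * s.T ev b i j) := by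
      unfold Mt
      simp only [Finset.mul_sum]
      rw [sum4 (fun a b i j => s.P2 ev a b * (s.T ev a i j * s.T ev b i j)),
        sum4 (fun i j a b => s.P2 ev a b * (s.T ev a i j * s.T ev b i j))]
      refine Fintype.sum_equiv ⟨fun x => (x.2.2.1, x.2.2.2, x.1, x.2.1),
        fun y => (y.2.2.1, y.2.2.2, y.1, y.2.1),
        fun x => rfl, fun y => rfl⟩ _ _ ?_
      rintro ⟨a, b, i, j⟩
      rfl
    rw [this]
    exact Finset.sum_nonneg fun i _ => Finset.sum_nonneg fun j _ => hP fun a => s.T ev a i j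
  have hn' : (0:ℝ) < n := by exact_mod_cast hn
  have h5 : St (s.T ev) ^ 2 / (2 * n) ≤ dt (s.T ev) / 2 := by
    rw [div_le_iff₀ (by positivity)]
    nlinarith
  linarith

end Sys

end Crest.Agent.R238.ECal
end

-- ▼ part R238/ECal6
section

/-!
Row 238, module H8 (Calabi algebra), change of frame: helper254.
-/

set_option autoImplicit false

namespace Crest.Agent.R238.ECal

open Finset

section contr

variable {n : ℕ} {A : Type*} [CommRing A]

lemma sum4A (f : Fin n → Fin n → Fin n → Fin n → A) :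
    ∑ a, ∑ b, ∑ c, ∑ d, f a b c d =
      ∑ x : Fin n × Fin n × Fin n × Fin n, f x.1 x.2.1 x.2.2.1 x.2.2.2 := by
  simp only [Fintype.sum_prod_type]

lemma contr {β γ : Fin n → Fin n → A} (h : ∀ k l, ∑ a, β k a * γ a l = if k = l then 1 else 0)
    (V W : Fin n → A) : ∑ a, (∑ k, γ a k * V k) * (∑ l, β l a * W l) = ∑ k, V k * W k := by
  have e : ∀ a, (∑ k, γ a k * V k) * (∑ l, β l a * W l) =
      ∑ k, ∑ l, (β l a * γ a k) * (V k * W l) := by
    intro a; rw [Finset.sum_mul_sum]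
    refine Finset.sum_congr rfl fun k _ => Finset.sum_congr rfl fun l _ => by ring
  simp only [e]
  rw [Finset.sum_comm]
  refine Finset.sum_congr rfl fun k _ => ?_
  rw [Finset.sum_comm]
  simp only [← Finset.sum_mul, h]
  simp

lemma swap2 (u v : Fin n → A) (V : Fin n → Fin n → A) :
    ∑ k, u k * ∑ l, v l * V k l = ∑ l, v l * ∑ k, u k * V k l := by
  simp only [Finset.mul_sum]
  rw [Finset.sum_comm]
  refine Finset.sum_congr rfl fun k _ => Finset.sum_congr rfl fun l _ => by ring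

lemma contr2 {β γ : Fin n → Fin n → A} (h : ∀ k l, ∑ a, β k a * γ a l = if k = l then 1 else 0)
    (V W : Fin n → Fin n → A) :
    ∑ a, ∑ b, (∑ k, γ a k * ∑ l, γ b l * V k l) * (∑ k, β k a * ∑ l, β l b * W k l) =
      ∑ k, ∑ l, V k l * W k l := by
  have e : ∀ a, ∑ b, (∑ k, γ a k * ∑ l, γ b l * V k l) * (∑ k, β k a * ∑ l, β l b * W k l) =
      ∑ l, (∑ k, γ a k * V k l) * (∑ k, β k a * W k l) := by
    intro a
    have h0 := contr h (fun l => ∑ k, γ a k * V k l) (fun l => ∑ k, β k a * W k l)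
    rw [← h0]
    refine Finset.sum_congr rfl fun b _ => ?_
    congr 1
    · exact swap2 _ _ _
    · exact swap2 _ _ _
  simp only [e]
  rw [Finset.sum_comm]
  simp only [contr h]
  rw [Finset.sum_comm]

end contr

/-- a constant change of frame. -/
structure Frame (n : ℕ) where
  B : Fin n → Fin n → ℝ
  C : Fin n → Fin n → ℝ
  BC : ∀ k l, ∑ a, B k a * C a l = if k = l then 1 else 0
  CB : ∀ a b, ∑ k, C a k * B k b = if a = b then 1 else 0

namespace Sys

variable {n : ℕ} {A : Type*} [CommRing A] [Algebra ℝ A] (s : Sys n A) (fr : Frame n)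

variable (A) in
/-- constants -/
def bt (k a : Fin n) : A := algebraMap ℝ A (fr.B k a)
variable (A) in
def gt' (a k : Fin n) : A := algebraMap ℝ A (fr.C a k)

lemma bt_gt (k l : Fin n) : ∑ a, bt A fr k a * gt' A fr a l = if k = l then 1 else 0 := by
  have h := congrArg (algebraMap ℝ A) (fr.BC k l)
  simpa [bt, gt', apply_ite (algebraMap ℝ A)] using h

lemma gt_bt (k l : Fin n) : ∑ a, gt' A fr k a * bt A fr a l = if k = l then 1 else 0 := by
  have h := congrArg (algebraMap ℝ A) (fr.CB k l)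
  simpa [bt, gt', apply_ite (algebraMap ℝ A)] using h

lemma D_bt (a k l : Fin n) (f : A) : s.D a (bt A fr k l * f) = bt A fr k l * s.D a f := by
  rw [s.D_mul]; simp [bt]

lemma D_gt (a k l : Fin n) (f : A) : s.D a (gt' A fr k l * f) = gt' A fr k l * s.D a f := by
  rw [s.D_mul]; simp [gt']

/-- new derivations -/
def Dn (a : Fin n) : Derivation ℝ A A := ∑ k, bt A fr k a • s.D k

lemma Dn_apply (a : Fin n) (f : A) : s.Dn fr a f = ∑ k, bt A fr k a * s.D k f := by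
  have h := congrFun (map_sum (Derivation.coeFnAddMonoidHom (R := ℝ) (A := A) (M := A))
    (fun k => bt A fr k a • s.D k) univ) f
  rw [Finset.sum_apply] at h
  exact h

lemma Dn_Dn (a b : Fin n) (f : A) : s.Dn fr a (s.Dn fr b f) =
    ∑ k, bt A fr k a * ∑ l, bt A fr l b * s.D k (s.D l f) := by
  rw [Dn_apply, Dn_apply]
  simp only [s.D_sum, s.D_bt]

/-- lower index object -/
def gn (a b : Fin n) : A := ∑ k, bt A fr k a * ∑ l, bt A fr l b * s.g k l
def tn (a b : Fin n) : A := ∑ k, gt' A fr a k * ∑ l, gt' A fr b l * s.t k l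
def xn (a : Fin n) : A := ∑ k, gt' A fr a k * s.x k
def pn (a : Fin n) : A := ∑ k, bt A fr k a * s.p k

lemma Dn_gn (a b c : Fin n) : s.Dn fr c (s.gn fr a b) =
    ∑ m, bt A fr m c * ∑ k, bt A fr k a * ∑ l, bt A fr l b * s.D m (s.g k l) := by
  rw [Dn_apply]; unfold gn
  simp only [s.D_sum, s.D_bt]

lemma Dn_gn' (a b c : Fin n) : s.Dn fr c (s.gn fr a b) =
    ∑ k, bt A fr k a * ∑ l, bt A fr l b * ∑ m, bt A fr m c * s.D m (s.g k l) := by
  rw [Dn_gn]
  rw [swap2]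
  refine Finset.sum_congr rfl fun k _ => ?_
  congr 1
  rw [swap2]

lemma gn_symm (a b : Fin n) : s.gn fr a b = s.gn fr b a := by
  unfold gn
  rw [swap2]
  refine Finset.sum_congr rfl fun k _ => ?_
  congr 1
  refine Finset.sum_congr rfl fun l _ => ?_
  rw [s.gsymm]

lemma tn_symm (a b : Fin n) : s.tn fr a b = s.tn fr b a := by
  unfold tn
  rw [swap2]
  refine Finset.sum_congr rfl fun k _ => ?_
  congr 1
  refine Finset.sum_congr rfl fun l _ => ?_
  rw [s.tsymm]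

/-- raising one index -/
lemma raise (a : Fin n) (V : Fin n → A) : ∑ i, s.tn fr a i * (∑ k, bt A fr k i * V k) =
    ∑ k, gt' A fr a k * ∑ j, s.t k j * V j := by
  have e : ∀ i, s.tn fr a i = ∑ l, gt' A fr i l * ∑ k, gt' A fr a k * s.t k l := by
    intro i; unfold tn; rw [swap2]
  simp only [e]
  rw [contr (bt_gt fr)]
  simp only [Finset.mul_sum, Finset.sum_mul]
  rw [Finset.sum_comm]
  refine Finset.sum_congr rfl fun k _ => Finset.sum_congr rfl fun l _ => by ring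

/-- the system in the new frame -/
def chg : Sys n A where
  D := s.Dn fr
  comm a b f := by
    rw [Dn_Dn, Dn_Dn, swap2]
    refine Finset.sum_congr rfl fun k _ => ?_
    congr 1
    refine Finset.sum_congr rfl fun l _ => ?_
    rw [s.comm]
  x := s.xn fr
  Dx a b := by
    rw [Dn_apply]; unfold xn
    simp only [s.D_sum, s.D_gt, s.Dx]
    have h := gt_bt (A := A) fr b a
    have : ∑ k, bt A fr k a * ∑ l, gt' A fr b l * (if k = l then 1 else 0) =
        ∑ k, gt' A fr b k * bt A fr k a := by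
      refine Finset.sum_congr rfl fun k _ => ?_
      simp [mul_comm]
    rw [this, h]
    by_cases hab : a = b
    · subst hab; simp
    · rw [if_neg hab, if_neg (Ne.symm hab)]
  g := s.gn fr
  gsymm := s.gn_symm fr
  gcod a b c := by
    rw [Dn_gn, Dn_gn, swap2]
    refine Finset.sum_congr rfl fun k _ => ?_
    congr 1
    refine Finset.sum_congr rfl fun l _ => ?_
    congr 1
    refine Finset.sum_congr rfl fun m _ => ?_
    rw [s.gcod]
  t := s.tn fr
  tsymm := s.tn_symm fr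
  tg a b := by
    have h := s.raise fr a (fun k => ∑ l, bt A fr l b * s.g k l)
    have e : ∑ c, s.tn fr a c * s.gn fr c b =
        ∑ i, s.tn fr a i * ∑ k, bt A fr k i * ∑ l, bt A fr l b * s.g k l := rfl
    rw [e, h]
    have e2 : ∀ k, ∑ j, s.t k j * ∑ l, bt A fr l b * s.g j l = bt A fr k b := by
      intro k
      rw [swap2 (fun j => s.t k j)]
      simp only [s.tg]
      simp
    simp only [e2]
    exact gt_bt fr a b
  p := s.pn fr
  pcod a b := by
    rw [Dn_apply, Dn_apply]; unfold pn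
    simp only [s.D_sum, s.D_bt]
    rw [swap2]
    refine Finset.sum_congr rfl fun k _ => ?_
    congr 1
    refine Finset.sum_congr rfl fun l _ => ?_
    rw [s.pcod]
  eq e := by
    have e1 : ∑ a, ∑ b, s.tn fr a b * s.Dn fr e (s.gn fr a b) =
        ∑ k, ∑ l, s.t k l * ∑ m, bt A fr m e * s.D m (s.g k l) := by
      simp only [Dn_gn']
      exact contr2 (bt_gt fr) _ _
    have e2 : ∑ k, ∑ l, s.t k l * ∑ m, bt A fr m e * s.D m (s.g k l) =
        ∑ m, bt A fr m e * ∑ k, ∑ l, s.t k l * s.D m (s.g k l) := by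
      simp only [Finset.mul_sum]
      have e3 : ∀ k, ∑ l, ∑ m, s.t k l * (bt A fr m e * s.D m (s.g k l)) =
          ∑ m, ∑ l, bt A fr m e * (s.t k l * s.D m (s.g k l)) := by
        intro k
        rw [Finset.sum_comm]
        refine Finset.sum_congr rfl fun m _ => Finset.sum_congr rfl fun l _ => by ring
      simp only [e3]
      rw [Finset.sum_comm]
    have e4 : ∑ a, s.xn fr a * s.gn fr a e = ∑ k, s.x k * ∑ l, bt A fr l e * s.g k l :=
      contr (bt_gt fr) _ _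
    rw [e1, e2, e4]
    simp only [s.eq, mul_sub, Finset.sum_sub_distrib]
    unfold pn
    congr 1
    rw [swap2 (fun k => s.x k)]

lemma chg_L (f : A) : (s.chg fr).L f = s.L f := by
  unfold L
  have e1 : ∑ a, ∑ b, (s.chg fr).t a b * (s.chg fr).D a ((s.chg fr).D b f) =
      ∑ a, ∑ b, s.t a b * s.D a (s.D b f) := by
    show ∑ a, ∑ b, s.tn fr a b * s.Dn fr a (s.Dn fr b f) = _
    simp only [Dn_Dn]
    exact contr2 (bt_gt fr) _ _
  have e2 : ∑ a, (s.chg fr).x a * (s.chg fr).D a f = ∑ a, s.x a * s.D a f := by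
    show ∑ a, s.xn fr a * s.Dn fr a f = _
    simp only [Dn_apply]
    exact contr (bt_gt fr) _ _
  rw [e1, e2]

lemma chg_T1 (a b c : Fin n) : (s.chg fr).T1 a b c =
    ∑ l, bt A fr l b * ∑ k, gt' A fr a k * ∑ m, bt A fr m c * s.T1 k l m := by
  have h := s.raise fr a (fun k => ∑ l, bt A fr l b * ∑ m, bt A fr m c * s.D m (s.g k l))
  have e : (s.chg fr).T1 a b c = ∑ i, s.tn fr a i * s.Dn fr c (s.gn fr i b) := rfl
  rw [e]
  simp only [Dn_gn']
  rw [h]
  unfold T1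
  simp only [Finset.mul_sum]
  rw [sum4A, sum4A]
  refine Fintype.sum_equiv ⟨fun x => (x.2.2.1, x.1, x.2.2.2, x.2.1),
    fun y => (y.2.1, y.2.2.2, y.1, y.2.2.1), fun x => rfl, fun y => rfl⟩ _ _ ?_
  rintro ⟨k, j, l, m⟩
  simp only [Equiv.coe_fn_mk]
  ring

lemma chg_T2 (a b c : Fin n) : (s.chg fr).T2 a b c =
    ∑ m, bt A fr m c * ∑ k, gt' A fr a k * ∑ l, gt' A fr b l * s.T2 k l m := by
  have h := s.raise fr b (fun l => ∑ k, gt' A fr a k * ∑ m, bt A fr m c * s.T1 k l m)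
  have e : (s.chg fr).T2 a b c = ∑ i, s.tn fr b i * (s.chg fr).T1 a i c := rfl
  rw [e]
  simp only [chg_T1]
  rw [h]
  unfold T2
  simp only [Finset.mul_sum]
  rw [sum4A, sum4A]
  refine Fintype.sum_equiv ⟨fun x => (x.2.2.2, x.2.2.1, x.1, x.2.1),
    fun y => (y.2.2.1, y.2.2.2, y.2.1, y.1), fun x => rfl, fun y => rfl⟩ _ _ ?_
  rintro ⟨k, j, l, m⟩
  simp only [Equiv.coe_fn_mk]
  ring

lemma chg_T3 (a b c : Fin n) : (s.chg fr).T3 a b c =
    ∑ k, gt' A fr a k * ∑ l, gt' A fr b l * ∑ m, gt' A fr c m * s.T3 k l m := by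
  have h := s.raise fr c (fun m => ∑ k, gt' A fr a k * ∑ l, gt' A fr b l * s.T2 k l m)
  have e : (s.chg fr).T3 a b c = ∑ i, s.tn fr c i * (s.chg fr).T2 a b i := rfl
  rw [e]
  simp only [chg_T2]
  rw [h]
  unfold T3
  simp only [Finset.mul_sum]
  rw [sum4A, sum4A]
  refine Fintype.sum_equiv ⟨fun x => (x.2.2.1, x.2.2.2, x.1, x.2.1),
    fun y => (y.2.2.1, y.2.2.2, y.1, y.2.1), fun x => rfl, fun y => rfl⟩ _ _ ?_
  rintro ⟨k, j, l, m⟩
  simp only [Equiv.coe_fn_mk]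
  ring

omit [Algebra ℝ A] in
lemma contr3 {β γ : Fin n → Fin n → A} (h : ∀ k l, ∑ a, β k a * γ a l = if k = l then 1 else 0)
    (V W : Fin n → Fin n → Fin n → A) :
    ∑ a, ∑ b, ∑ c, (∑ k, γ a k * ∑ l, γ b l * ∑ m, γ c m * V k l m) *
      (∑ k, β k a * ∑ l, β l b * ∑ m, β m c * W k l m) =
      ∑ k, ∑ l, ∑ m, V k l m * W k l m := by
  have e : ∀ a, ∑ b, ∑ c, (∑ k, γ a k * ∑ l, γ b l * ∑ m, γ c m * V k l m) *
      (∑ k, β k a * ∑ l, β l b * ∑ m, β m c * W k l m) =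
      ∑ l, ∑ m, (∑ k, γ a k * V k l m) * (∑ k, β k a * W k l m) := by
    intro a
    have h0 := contr2 h (fun l m => ∑ k, γ a k * V k l m) (fun l m => ∑ k, β k a * W k l m)
    rw [← h0]
    refine Finset.sum_congr rfl fun b _ => Finset.sum_congr rfl fun c _ => ?_
    have e1 : ∀ (u v w : Fin n → A) (V : Fin n → Fin n → Fin n → A),
        ∑ k, u k * ∑ l, v l * ∑ m, w m * V k l m = ∑ l, v l * ∑ m, w m * ∑ k, u k * V k l m := by
      intro u v w V
      rw [swap2]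
      refine Finset.sum_congr rfl fun l _ => ?_
      congr 1
      rw [swap2]
    congr 1
    · exact e1 _ _ _ _
    · exact e1 _ _ _ _
  simp only [e]
  have e2 : ∀ f : Fin n → Fin n → Fin n → A, ∑ a, ∑ l, ∑ m, f a l m = ∑ l, ∑ m, ∑ a, f a l m := by
    intro f
    rw [Finset.sum_comm]
    refine Finset.sum_congr rfl fun l _ => ?_
    rw [Finset.sum_comm]
  rw [e2]
  simp only [contr h]
  rw [e2 (fun k l m => V k l m * W k l m)]

lemma chg_S : (s.chg fr).S = s.S := by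
  unfold S
  have : ∀ a b c, (s.chg fr).D c ((s.chg fr).g a b) = s.Dn fr c (s.gn fr a b) := fun _ _ _ => rfl
  simp only [this, chg_T3, Dn_gn']
  exact contr3 (bt_gt fr) _ _

end Sys

open scoped MatrixOrder in
/-- a `G`-orthonormal frame. -/
lemma exists_frame {n : ℕ} (G : Matrix (Fin n) (Fin n) ℝ) (hG : G.PosDef) :
    ∃ fr : Frame n, ∀ a b, ∑ k, fr.B k a * ∑ l, fr.B l b * G k l = if a = b then 1 else 0 := by
  have h0 : 0 ≤ G := Matrix.nonneg_iff_posSemidef.2 hG.posSemidef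
  have hPP : CFC.sqrt G * CFC.sqrt G = G := CFC.sqrt_mul_sqrt_self G h0
  have hPs : (CFC.sqrt G).IsHermitian := (Matrix.nonneg_iff_posSemidef.1 (CFC.sqrt_nonneg G)).1
  obtain ⟨P, hP⟩ : ∃ P : Matrix (Fin n) (Fin n) ℝ, P = CFC.sqrt G := ⟨_, rfl⟩
  rw [← hP] at hPP hPs
  have hdet : IsUnit P.det := by
    have h1 : (P * P).det ≠ 0 := by rw [hPP]; exact hG.det_pos.ne'
    rw [Matrix.det_mul] at h1
    exact isUnit_iff_ne_zero.2 (left_ne_zero_of_mul h1)
  have h1 : P⁻¹ * P = 1 := Matrix.nonsing_inv_mul P hdet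
  have h2 : P * P⁻¹ = 1 := Matrix.mul_nonsing_inv P hdet
  have hsym : ∀ a b, P⁻¹ a b = P⁻¹ b a := by
    have : P⁻¹.IsHermitian := hPs.inv
    intro a b
    have h3 := congrFun (congrFun this a) b
    rw [Matrix.conjTranspose_apply] at h3
    simpa using h3.symm
  refine ⟨⟨fun k a => P⁻¹ k a, fun a k => P a k, fun k l => ?_, fun a b => ?_⟩, fun a b => ?_⟩
  · have := congrFun (congrFun h1 k) l
    rwa [Matrix.mul_apply, Matrix.one_apply] at this
  · have := congrFun (congrFun h2 a) b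
    rwa [Matrix.mul_apply, Matrix.one_apply] at this
  · have h3 : P⁻¹ * G * P⁻¹ = 1 := by
      rw [← hPP]
      calc P⁻¹ * (P * P) * P⁻¹ = (P⁻¹ * P) * (P * P⁻¹) := by simp only [Matrix.mul_assoc]
        _ = 1 := by rw [h1, h2, Matrix.one_mul]
    have h4 := congrFun (congrFun h3 a) b
    rw [Matrix.one_apply] at h4
    rw [← h4, Matrix.mul_apply]
    simp only [Matrix.mul_apply, Finset.mul_sum, Finset.sum_mul]
    rw [Finset.sum_comm]
    refine Finset.sum_congr rfl fun k _ => Finset.sum_congr rfl fun l _ => ?_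
    rw [hsym a l]; ring

end Crest.Agent.R238.ECal
end

-- ▼ part R238/ECal7

/-!
Row 238, module H8 (Calabi algebra), the inequality (E4) at an arbitrary point: helper254.
-/

set_option autoImplicit false

namespace Crest.Agent.R238.ECal

open Finset

section real

variable {n : ℕ}

/-- operator norm bound of a frame matrix, from the form -/
lemma frame_bound (B G : Fin n → Fin n → ℝ) {lo : ℝ} (hlo : 0 < lo)
    (hG : ∀ z : Fin n → ℝ, lo * ∑ i, z i ^ 2 ≤ ∑ i, ∑ j, G i j * z i * z j)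
    (hB : ∀ a b, ∑ k, B k a * ∑ l, B l b * G k l = if a = b then 1 else 0)
    (V : Fin n → ℝ) : ∑ a, (∑ k, B k a * V k) ^ 2 ≤ lo⁻¹ * ∑ k, V k ^ 2 := by
  -- w = Bᵀ V, y = B w
  set w : Fin n → ℝ := fun a => ∑ k, B k a * V k with hw
  set y : Fin n → ℝ := fun k => ∑ a, B k a * w a with hy
  have h1 : ∑ i, ∑ j, G i j * y i * y j = ∑ a, w a ^ 2 := by
    have e1 : ∑ i, ∑ j, G i j * y i * y j =
        ∑ a, ∑ b, (∑ k, B k a * ∑ l, B l b * G k l) * (w a * w b) := by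
      simp only [hy, Finset.mul_sum, Finset.sum_mul]
      rw [sum4 (fun i j a b => G i j * (B i b * w b) * (B j a * w a)),
        sum4 (fun a b k l => B k a * (B l b * G k l) * (w a * w b))]
      refine Fintype.sum_equiv ⟨fun x => (x.2.2.2, x.2.2.1, x.1, x.2.1),
        fun y => (y.2.2.1, y.2.2.2, y.2.1, y.1), fun x => rfl, fun y => rfl⟩ _ _ ?_
      rintro ⟨a, b, i, j⟩
      simp only [Equiv.coe_fn_mk]
      ring
    rw [e1]
    simp only [hB]
    refine Finset.sum_congr rfl fun a _ => ?_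
    simp [pow_two]
  have h2 : lo * ∑ i, y i ^ 2 ≤ ∑ a, w a ^ 2 := h1 ▸ hG y
  have h3 : ∑ a, w a ^ 2 = ∑ k, V k * y k := by
    have : ∀ a, w a ^ 2 = ∑ k, V k * (B k a * w a) := by
      intro a
      rw [pow_two]
      nth_rewrite 1 [hw]
      simp only [Finset.sum_mul]
      exact Finset.sum_congr rfl fun k _ => by ring
    simp only [this]
    rw [Finset.sum_comm]
    refine Finset.sum_congr rfl fun k _ => ?_
    rw [← Finset.mul_sum]
  have h4 : (∑ k, V k * y k) ^ 2 ≤ (∑ k, V k ^ 2) * ∑ k, y k ^ 2 :=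
    Finset.sum_mul_sq_le_sq_mul_sq _ _ _
  have hW : 0 ≤ ∑ a, w a ^ 2 := Finset.sum_nonneg fun a _ => sq_nonneg _
  have hV : 0 ≤ ∑ a, V a ^ 2 := Finset.sum_nonneg fun a _ => sq_nonneg _
  rw [← h3] at h4
  have h5 : (∑ a, w a ^ 2) ^ 2 ≤ (∑ k, V k ^ 2) * (lo⁻¹ * ∑ a, w a ^ 2) := by
    refine h4.trans (mul_le_mul_of_nonneg_left ?_ hV)
    rw [← div_eq_inv_mul, le_div_iff₀ hlo]
    linarith
  change ∑ a, w a ^ 2 ≤ _
  rcases hW.eq_or_lt with h0 | h0
  · rw [← h0]; positivity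
  · have h6 : (∑ a, w a ^ 2) * (∑ a, w a ^ 2) ≤ (lo⁻¹ * ∑ k, V k ^ 2) * ∑ a, w a ^ 2 := by
      calc (∑ a, w a ^ 2) * (∑ a, w a ^ 2) = (∑ a, w a ^ 2) ^ 2 := by ring
        _ ≤ _ := h5
        _ = _ := by ring
    exact le_of_mul_le_mul_right h6 h0

/-- operator norm bound of the inverse frame matrix, from the form -/
lemma frame_bound' (B C G : Fin n → Fin n → ℝ) {hi : ℝ}
    (hG : ∀ z : Fin n → ℝ, ∑ i, ∑ j, G i j * z i * z j ≤ hi * ∑ i, z i ^ 2)
    (hB : ∀ a b, ∑ k, B k a * ∑ l, B l b * G k l = if a = b then 1 else 0)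
    (hBC : ∀ k l, ∑ a, B k a * C a l = if k = l then 1 else 0)
    (V : Fin n → ℝ) : ∑ k, (∑ a, C a k * V a) ^ 2 ≤ hi * ∑ a, V a ^ 2 := by
  set w : Fin n → ℝ := fun k => ∑ a, C a k * V a with hw
  set y : Fin n → ℝ := fun a => ∑ k, C a k * w k with hy
  have h0 : ∀ k, w k = ∑ a, B k a * y a := by
    intro k
    simp only [hy, Finset.mul_sum]
    rw [Finset.sum_comm]
    have : ∀ l, ∑ a, B k a * (C a l * w l) = (if k = l then 1 else 0) * w l := by
      intro l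
      rw [← hBC, Finset.sum_mul]
      exact Finset.sum_congr rfl fun a _ => by ring
    simp only [this]
    simp
  have h1 : ∑ i, ∑ j, G i j * w i * w j = ∑ a, y a ^ 2 := by
    have e1 : ∑ i, ∑ j, G i j * w i * w j =
        ∑ a, ∑ b, (∑ k, B k a * ∑ l, B l b * G k l) * (y a * y b) := by
      simp only [h0, Finset.mul_sum, Finset.sum_mul]
      rw [sum4 (fun i j a b => G i j * (B i b * y b) * (B j a * y a)),
        sum4 (fun a b k l => B k a * (B l b * G k l) * (y a * y b))]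
      refine Fintype.sum_equiv ⟨fun x => (x.2.2.2, x.2.2.1, x.1, x.2.1),
        fun y => (y.2.2.1, y.2.2.2, y.2.1, y.1), fun x => rfl, fun y => rfl⟩ _ _ ?_
      rintro ⟨a, b, i, j⟩
      simp only [Equiv.coe_fn_mk]
      ring
    rw [e1]
    simp only [hB]
    refine Finset.sum_congr rfl fun a _ => ?_
    simp [pow_two]
  have h2 : ∑ a, y a ^ 2 ≤ hi * ∑ i, w i ^ 2 := h1 ▸ hG w
  have h3 : ∑ k, w k ^ 2 = ∑ a, V a * y a := by
    have : ∀ k, w k ^ 2 = ∑ a, V a * (C a k * w k) := by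
      intro k
      rw [pow_two]
      nth_rewrite 1 [hw]
      simp only [Finset.sum_mul]
      exact Finset.sum_congr rfl fun k _ => by ring
    simp only [this]
    rw [Finset.sum_comm]
    refine Finset.sum_congr rfl fun k _ => ?_
    rw [← Finset.mul_sum]
  have h4 : (∑ k, V k * y k) ^ 2 ≤ (∑ k, V k ^ 2) * ∑ k, y k ^ 2 :=
    Finset.sum_mul_sq_le_sq_mul_sq _ _ _
  have hW : 0 ≤ ∑ a, w a ^ 2 := Finset.sum_nonneg fun a _ => sq_nonneg _
  have hV : 0 ≤ ∑ a, V a ^ 2 := Finset.sum_nonneg fun a _ => sq_nonneg _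
  rw [← h3] at h4
  have h5 : (∑ a, w a ^ 2) ^ 2 ≤ (∑ k, V k ^ 2) * (hi * ∑ a, w a ^ 2) :=
    h4.trans (mul_le_mul_of_nonneg_left h2 hV)
  change ∑ a, w a ^ 2 ≤ _
  rcases hW.eq_or_lt with h6 | h6
  · rw [← h6]
    have h7 := hG V
    by_contra hcon
    push Not at hcon
    -- `hi * |V|² < 0` contradicts the form bound applied to `B`
    have h8 : 0 ≤ hi * ∑ a, V a ^ 2 := by
      rcases hV.eq_or_lt with h9 | h9
      · rw [← h9]; simp
      · -- `y' = B V`, form = |V|²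
        have h10 : 0 ≤ hi := by
          by_contra h11
          push Not at h11
          set q : Fin n → ℝ := fun k => ∑ a, B k a * V a with hq
          have h12 : ∑ i, ∑ j, G i j * q i * q j = ∑ a, V a ^ 2 := by
            have e1 : ∑ i, ∑ j, G i j * q i * q j =
                ∑ a, ∑ b, (∑ k, B k a * ∑ l, B l b * G k l) * (V a * V b) := by
              simp only [hq, Finset.mul_sum, Finset.sum_mul]
              rw [sum4 (fun i j a b => G i j * (B i b * V b) * (B j a * V a)),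
                sum4 (fun a b k l => B k a * (B l b * G k l) * (V a * V b))]
              refine Fintype.sum_equiv ⟨fun x => (x.2.2.2, x.2.2.1, x.1, x.2.1),
                fun y => (y.2.2.1, y.2.2.2, y.2.1, y.1), fun x => rfl, fun y => rfl⟩ _ _ ?_
              rintro ⟨a, b, i, j⟩
              simp only [Equiv.coe_fn_mk]
              ring
            rw [e1]
            simp only [hB]
            refine Finset.sum_congr rfl fun a _ => ?_
            simp [pow_two]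
          have h13 := hG q
          rw [h12] at h13
          have h14 : hi * ∑ i, q i ^ 2 ≤ 0 :=
            mul_nonpos_of_nonpos_of_nonneg h11.le (Finset.sum_nonneg fun i _ => sq_nonneg _)
          linarith
        positivity
    linarith
  · have h7 : (∑ a, w a ^ 2) * (∑ a, w a ^ 2) ≤ (hi * ∑ k, V k ^ 2) * ∑ a, w a ^ 2 := by
      calc (∑ a, w a ^ 2) * (∑ a, w a ^ 2) = (∑ a, w a ^ 2) ^ 2 := by ring
        _ ≤ _ := h5
        _ = _ := by ring
    exact le_of_mul_le_mul_right h7 h6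

/-- bound for a transformed three-tensor -/
lemma tensor_bound (B : Fin n → Fin n → ℝ) {c : ℝ} (hc : 0 ≤ c)
    (hB : ∀ V : Fin n → ℝ, ∑ a, (∑ k, B k a * V k) ^ 2 ≤ c * ∑ k, V k ^ 2)
    (X : Fin n → Fin n → Fin n → ℝ) :
    ∑ a, ∑ b, ∑ d, (∑ k, B k a * ∑ l, B l b * ∑ m, B m d * X k l m) ^ 2 ≤
      c ^ 3 * ∑ k, ∑ l, ∑ m, X k l m ^ 2 := by
  have s1 : ∑ a, ∑ b, ∑ d, (∑ k, B k a * ∑ l, B l b * ∑ m, B m d * X k l m) ^ 2 ≤
      c * ∑ b, ∑ d, ∑ k, (∑ l, B l b * ∑ m, B m d * X k l m) ^ 2 := by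
    rw [show ∑ a, ∑ b, ∑ d, (∑ k, B k a * ∑ l, B l b * ∑ m, B m d * X k l m) ^ 2 =
      ∑ b, ∑ d, ∑ a, (∑ k, B k a * ∑ l, B l b * ∑ m, B m d * X k l m) ^ 2 by
        rw [Finset.sum_comm]
        exact Finset.sum_congr rfl fun b _ => Finset.sum_comm]
    rw [Finset.mul_sum]
    refine Finset.sum_le_sum fun b _ => ?_
    rw [Finset.mul_sum]
    refine Finset.sum_le_sum fun d _ => ?_
    exact hB _
  have s2 : ∑ b, ∑ d, ∑ k, (∑ l, B l b * ∑ m, B m d * X k l m) ^ 2 ≤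
      c * ∑ d, ∑ k, ∑ l, (∑ m, B m d * X k l m) ^ 2 := by
    rw [show ∑ b, ∑ d, ∑ k, (∑ l, B l b * ∑ m, B m d * X k l m) ^ 2 =
      ∑ d, ∑ k, ∑ b, (∑ l, B l b * ∑ m, B m d * X k l m) ^ 2 by
        rw [Finset.sum_comm]
        exact Finset.sum_congr rfl fun b _ => Finset.sum_comm]
    rw [Finset.mul_sum]
    refine Finset.sum_le_sum fun b _ => ?_
    rw [Finset.mul_sum]
    refine Finset.sum_le_sum fun d _ => ?_
    exact hB _
  have s3 : ∑ d, ∑ k, ∑ l, (∑ m, B m d * X k l m) ^ 2 ≤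
      c * ∑ k, ∑ l, ∑ m, X k l m ^ 2 := by
    rw [show ∑ d, ∑ k, ∑ l, (∑ m, B m d * X k l m) ^ 2 =
      ∑ k, ∑ l, ∑ d, (∑ m, B m d * X k l m) ^ 2 by
        rw [Finset.sum_comm]
        exact Finset.sum_congr rfl fun b _ => Finset.sum_comm]
    rw [Finset.mul_sum]
    refine Finset.sum_le_sum fun b _ => ?_
    rw [Finset.mul_sum]
    refine Finset.sum_le_sum fun d _ => ?_
    exact hB _
  calc _ ≤ _ := s1
    _ ≤ c * (c * ∑ d, ∑ k, ∑ l, (∑ m, B m d * X k l m) ^ 2) := mul_le_mul_of_nonneg_left s2 hc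
    _ ≤ c * (c * (c * ∑ k, ∑ l, ∑ m, X k l m ^ 2)) :=
        mul_le_mul_of_nonneg_left (mul_le_mul_of_nonneg_left s3 hc) hc
    _ = _ := by ring

lemma cs3 (X Y : Fin n → Fin n → Fin n → ℝ) :
    (∑ a, ∑ b, ∑ c, X a b c * Y a b c) ^ 2 ≤
      (∑ a, ∑ b, ∑ c, X a b c ^ 2) * ∑ a, ∑ b, ∑ c, Y a b c ^ 2 := by
  have e : ∀ Z : Fin n → Fin n → Fin n → ℝ, ∑ a, ∑ b, ∑ c, Z a b c =
      ∑ x : Fin n × Fin n × Fin n, Z x.1 x.2.1 x.2.2 := by
    intro Z; simp only [Fintype.sum_prod_type]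
  rw [e, e (fun a b c => X a b c ^ 2), e (fun a b c => Y a b c ^ 2)]
  exact Finset.sum_mul_sq_le_sq_mul_sq _ _ _

end real

namespace Sys

variable {n : ℕ} {A : Type*} [CommRing A] [Algebra ℝ A] (s : Sys n A) (fr : Frame n)
  (ev : A →+* ℝ)

omit [Algebra ℝ A] in
lemma ev_alg [Algebra ℝ A] (r : ℝ) : ev (algebraMap ℝ A r) = r := by
  have h : ev.comp (algebraMap ℝ A) = RingHom.id ℝ := Subsingleton.elim _ _
  exact DFunLike.congr_fun h r

lemma ev_bt (k a : Fin n) : ev (bt A fr k a) = fr.B k a := ev_alg ev _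
lemma ev_gt' (k a : Fin n) : ev (gt' A fr k a) = fr.C k a := ev_alg ev _

/-- `<T, D³Ψ>` -/
def TP : A := ∑ a, ∑ b, ∑ c, s.T3 a b c * s.D c (s.D b (s.p a))

lemma Dn_pn2 (a b c : Fin n) : s.Dn fr c (s.Dn fr b (s.pn fr a)) =
    ∑ k, bt A fr k a * ∑ l, bt A fr l b * ∑ m, bt A fr m c * s.D m (s.D l (s.p k)) := by
  rw [Dn_Dn]
  unfold pn
  simp only [s.D_sum, s.D_bt]
  have e1 : ∀ (u v w : Fin n → A) (V : Fin n → Fin n → Fin n → A),
      ∑ k, u k * ∑ l, v l * ∑ m, w m * V k l m = ∑ m, w m * ∑ l, v l * ∑ k, u k * V k l m := by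
    intro u v w V
    rw [swap2]
    have : ∀ l, ∑ k, u k * ∑ m, w m * V k l m = ∑ m, w m * ∑ k, u k * V k l m :=
      fun l => swap2 _ _ _
    simp only [this]
    rw [swap2]
  exact e1 _ _ _ _

lemma chg_TP : (s.chg fr).TP = s.TP := by
  unfold TP
  have : ∀ a b c, (s.chg fr).D c ((s.chg fr).D b ((s.chg fr).p a)) =
    s.Dn fr c (s.Dn fr b (s.pn fr a)) := fun _ _ _ => rfl
  simp only [this, chg_T3, Dn_pn2]
  exact contr3 (bt_gt fr) _ _

variable {s ev}

/-- everything about a point: a frame with `g = 1` there -/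
lemma exists_good_frame {lo : ℝ} (hlo : 0 < lo)
    (hG : ∀ z : Fin n → ℝ, lo * ∑ i, z i ^ 2 ≤ ∑ i, ∑ j, ev (s.g i j) * z i * z j) :
    ∃ fr : Frame n, (∀ a b, ev ((s.chg fr).g a b) = if a = b then 1 else 0) ∧
      (∀ V : Fin n → ℝ, ∑ a, (∑ k, fr.B k a * V k) ^ 2 ≤ lo⁻¹ * ∑ k, V k ^ 2) ∧
      ∀ hi : ℝ, (∀ z : Fin n → ℝ, ∑ i, ∑ j, ev (s.g i j) * z i * z j ≤ hi * ∑ i, z i ^ 2) →
        ∀ V : Fin n → ℝ, ∑ k, (∑ a, fr.C a k * V a) ^ 2 ≤ hi * ∑ a, V a ^ 2 := by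
  have hPD : (Matrix.of fun i j => ev (s.g i j)).PosDef := by
    refine Matrix.PosDef.of_dotProduct_mulVec_pos ?_ ?_
    · ext i j
      simp [Matrix.conjTranspose_apply, s.gsymm i j]
    · intro z hz
      have h1 := hG z
      have h2 : 0 < ∑ i, z i ^ 2 := by
        obtain ⟨i, hi⟩ := Function.ne_iff.1 hz
        exact Finset.sum_pos' (fun i _ => sq_nonneg _) ⟨i, Finset.mem_univ i, by
          have : z i ≠ 0 := hi
          positivity⟩
      have h3 : star z ⬝ᵥ (Matrix.of fun i j => ev (s.g i j)).mulVec z =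
          ∑ i, ∑ j, ev (s.g i j) * z i * z j := by
        simp only [dotProduct, Matrix.mulVec, Matrix.of_apply, Finset.mul_sum, Pi.star_apply,
          star_trivial]
        refine Finset.sum_congr rfl fun i _ => Finset.sum_congr rfl fun j _ => by ring
      rw [h3]
      exact lt_of_lt_of_le (mul_pos hlo h2) h1
  obtain ⟨fr, hfr⟩ := exists_frame _ hPD
  refine ⟨fr, fun a b => ?_, frame_bound fr.B (fun i j => ev (s.g i j)) hlo hG ?_,
    fun hi hG' => frame_bound' fr.B fr.C (fun i j => ev (s.g i j)) hG' ?_ fr.BC⟩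
  · rw [show (s.chg fr).g a b = s.gn fr a b from rfl]
    unfold gn
    simp only [map_sum, map_mul, ev_bt]
    exact hfr a b
  · exact hfr
  · exact hfr

lemma ev_chgT (a b c : Fin n) : (s.chg fr).T ev a b c =
    ∑ k, fr.B k a * ∑ l, fr.B l b * ∑ m, fr.B m c * s.T ev k l m := by
  unfold T
  rw [show (s.chg fr).D c ((s.chg fr).g a b) = s.Dn fr c (s.gn fr a b) from rfl, Dn_gn']
  simp only [map_sum, map_mul, ev_bt]

lemma ev_chgP3 (a b c : Fin n) : (s.chg fr).P3 ev a b c =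
    ∑ k, fr.B k a * ∑ l, fr.B l b * ∑ m, fr.B m c * s.P3 ev k l m := by
  unfold P3
  rw [show (s.chg fr).D c ((s.chg fr).D b ((s.chg fr).p a)) =
    s.Dn fr c (s.Dn fr b (s.pn fr a)) from rfl, Dn_pn2]
  simp only [map_sum, map_mul, ev_bt]

lemma ev_chgP2 (a b : Fin n) : (s.chg fr).P2 ev a b =
    ∑ k, fr.B k a * ∑ l, fr.B l b * s.P2 ev k l := by
  unfold P2
  rw [show (s.chg fr).D b ((s.chg fr).p a) = s.Dn fr b (s.pn fr a) from rfl, Dn_apply]
  unfold pn
  simp only [s.D_sum, s.D_bt, map_sum, map_mul, ev_bt]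
  rw [swap2]

/-- upper bound of `S` by the euclidean norm of `D³u` -/
lemma S_le {lo : ℝ} (hlo : 0 < lo)
    (hG : ∀ z : Fin n → ℝ, lo * ∑ i, z i ^ 2 ≤ ∑ i, ∑ j, ev (s.g i j) * z i * z j) :
    0 ≤ ev s.S ∧ ev s.S ≤ lo⁻¹ ^ 3 * ∑ a, ∑ b, ∑ c, s.T ev a b c ^ 2 := by
  obtain ⟨fr, hfr, hb, -⟩ := exists_good_frame hlo hG
  have h1 := ev_S hfr
  rw [chg_S] at h1
  rw [h1]
  unfold St
  refine ⟨by positivity, ?_⟩
  simp only [ev_chgT]
  exact tensor_bound fr.B (inv_nonneg.2 hlo.le) hb _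

/-- the euclidean norm of `D³u` is bounded by `S` -/
lemma S_ge {lo hi : ℝ} (hlo : 0 < lo) (hhi : 0 ≤ hi)
    (hG : ∀ z : Fin n → ℝ, lo * ∑ i, z i ^ 2 ≤ ∑ i, ∑ j, ev (s.g i j) * z i * z j)
    (hG' : ∀ z : Fin n → ℝ, ∑ i, ∑ j, ev (s.g i j) * z i * z j ≤ hi * ∑ i, z i ^ 2) :
    ∑ a, ∑ b, ∑ c, s.T ev a b c ^ 2 ≤ hi ^ 3 * ev s.S := by
  obtain ⟨fr, hfr, -, hb⟩ := exists_good_frame hlo hG
  have h1 := ev_S hfr
  rw [chg_S] at h1
  rw [h1]
  have h2 := tensor_bound (fun k a => fr.C k a) hhi (fun V => hb hi hG' V) ((s.chg fr).T ev)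
  have h3 : ∀ a b c, (∑ k, fr.C k a * ∑ l, fr.C l b * ∑ m, fr.C m c * (s.chg fr).T ev k l m) =
      s.T ev a b c := by
    intro a b c
    have key : ∀ (a : Fin n) (V : Fin n → ℝ), ∑ k, fr.C k a * ∑ i, fr.B i k * V i = V a := by
      intro a V
      simp only [Finset.mul_sum]
      rw [Finset.sum_comm]
      have : ∀ i, ∑ k, fr.C k a * (fr.B i k * V i) = (if i = a then 1 else 0) * V i := by
        intro i
        rw [← fr.BC, Finset.sum_mul]
        exact Finset.sum_congr rfl fun a _ => by ring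
      simp only [this]
      simp
    simp only [ev_chgT]
    have k1 : ∀ l m, ∑ k, fr.C k a * ∑ i, fr.B i k * ∑ j, fr.B j l * ∑ p, fr.B p m * s.T ev i j p =
        ∑ j, fr.B j l * ∑ p, fr.B p m * s.T ev a j p := fun l m => key a _
    have k2 : ∑ k, fr.C k a * ∑ l, fr.C l b * ∑ m, fr.C m c *
        ∑ i, fr.B i k * ∑ j, fr.B j l * ∑ p, fr.B p m * s.T ev i j p =
        ∑ l, fr.C l b * ∑ m, fr.C m c * ∑ k, fr.C k a *
          ∑ i, fr.B i k * ∑ j, fr.B j l * ∑ p, fr.B p m * s.T ev i j p := by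
      rw [swap2]
      refine Finset.sum_congr rfl fun l _ => ?_
      congr 1
      exact swap2 _ _ _
    rw [k2]
    simp only [k1]
    have k3 : ∀ m, ∑ l, fr.C l b * ∑ j, fr.B j l * ∑ p, fr.B p m * s.T ev a j p =
        ∑ p, fr.B p m * s.T ev a b p := fun m => key b _
    rw [swap2]
    simp only [k3]
    exact key c _
  simp only [h3] at h2
  exact h2

/-- (E4) at an arbitrary point -/
theorem E4_pt (hn : 0 < n) {lo : ℝ} (hlo : 0 < lo)
    (hG : ∀ z : Fin n → ℝ, lo * ∑ i, z i ^ 2 ≤ ∑ i, ∑ j, ev (s.g i j) * z i * z j)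
    (hP : ∀ z : Fin n → ℝ, 0 ≤ ∑ i, ∑ j, ev (s.D j (s.p i)) * z i * z j) :
    ev s.S ^ 2 / (2 * n) + ev s.S - 2 * ev s.TP ≤ ev (s.L s.S) := by
  obtain ⟨fr, hfr, hb, -⟩ := exists_good_frame hlo hG
  have h1 := ev_LS_ge hfr hn (by
    intro v
    have h2 := hP (fun k => ∑ a, fr.B k a * v a)
    have e : ∑ a, ∑ b, (s.chg fr).P2 ev a b * (v a * v b) =
        ∑ i, ∑ j, ev (s.D j (s.p i)) * (∑ a, fr.B i a * v a) * ∑ a, fr.B j a * v a := by
      simp only [ev_chgP2]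
      simp only [Finset.mul_sum, Finset.sum_mul]
      rw [sum4 (fun a b k l => fr.B k a * (fr.B l b * s.P2 ev k l) * (v a * v b)),
        sum4 (fun i j a b => ev (s.D j (s.p i)) * (fr.B i b * v b) * (fr.B j a * v a))]
      refine Fintype.sum_equiv ⟨fun x => (x.2.2.1, x.2.2.2, x.2.1, x.1),
        fun y => (y.2.2.2, y.2.2.1, y.1, y.2.1), fun x => rfl, fun y => rfl⟩ _ _ ?_
      rintro ⟨a, b, i, j⟩
      simp only [Equiv.coe_fn_mk]
      unfold P2
      ring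
    rw [e]; exact h2)
  rw [chg_S, chg_L] at h1
  have h3 : ev s.TP = ∑ a, ∑ b, ∑ c, (s.chg fr).T ev a b c * (s.chg fr).P3 ev a b c := by
    rw [← chg_TP s fr]
    unfold TP
    simp only [map_sum, map_mul, ev_T3 hfr]
    rfl
  rw [h3]
  exact h1

/-- Cauchy-Schwarz for the cubic term -/
theorem TP_le {lo : ℝ} (hlo : 0 < lo)
    (hG : ∀ z : Fin n → ℝ, lo * ∑ i, z i ^ 2 ≤ ∑ i, ∑ j, ev (s.g i j) * z i * z j) :
    ev s.TP ^ 2 ≤ ev s.S * (lo⁻¹ ^ 3 * ∑ a, ∑ b, ∑ c, s.P3 ev a b c ^ 2) := by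
  obtain ⟨fr, hfr, hb, -⟩ := exists_good_frame hlo hG
  have h3 : ev s.TP = ∑ a, ∑ b, ∑ c, (s.chg fr).T ev a b c * (s.chg fr).P3 ev a b c := by
    rw [← chg_TP s fr]
    unfold TP
    simp only [map_sum, map_mul, ev_T3 hfr]
    rfl
  have h1 := ev_S hfr
  rw [chg_S] at h1
  have h4 := cs3 ((s.chg fr).T ev) ((s.chg fr).P3 ev)
  rw [← h3] at h4
  have h5 : ∑ a, ∑ b, ∑ c, (s.chg fr).P3 ev a b c ^ 2 ≤
      lo⁻¹ ^ 3 * ∑ a, ∑ b, ∑ c, s.P3 ev a b c ^ 2 := by
    simp only [ev_chgP3]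
    exact tensor_bound fr.B (inv_nonneg.2 hlo.le) hb _
  have h6 : 0 ≤ ev s.S := (S_le hlo hG).1
  calc ev s.TP ^ 2 ≤ _ := h4
    _ = ev s.S * ∑ a, ∑ b, ∑ c, (s.chg fr).P3 ev a b c ^ 2 := by rw [h1]; rfl
    _ ≤ _ := mul_le_mul_of_nonneg_left h5 h6

end Sys

end Crest.Agent.R238.ECal
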