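import Crest.Agent.R238.MaxPL

/-!
# The barrier `(1+|x|²)^(-1/4)` (row 238, module H7)
-/

set_option autoImplicit false

open Filter Topology Set Matrix

namespace Crest.Agent.R238.MaxP

open Crest.Agent.R238

variable {n : ℕ}

/-- the barrier -/
noncomputable def Bar (x : E n) : ℝ := (1 + ‖x‖ ^ 2) ^ (-(1/4) : ℝ)

theorem Bar_pos (x : E n) : 0 < Bar x := Real.rpow_pos_of_pos (by positivity) _


theorem Bar_anti {x : E n} {R : ℝ} (hx : ‖x‖ ≤ R) : (1 + R ^ 2) ^ (-(1/4) : ℝ) ≤ Bar x := by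
  apply Real.rpow_le_rpow_of_nonpos (by positivity) _ (by norm_num)
  have : ‖x‖ ^ 2 ≤ R ^ 2 := pow_le_pow_left₀ (norm_nonneg x) hx 2
  linarith

theorem contDiff_Bar : ContDiff ℝ 2 (Bar : E n → ℝ) := by
  unfold Bar
  apply ContDiff.rpow_const_of_ne
  · exact contDiff_const.add (contDiff_norm_sq ℝ)
  · intro x; positivity

theorem hasDerivAt_rp {p t : ℝ} (ht : 0 ≤ t) :
    HasDerivAt (fun t : ℝ => (1 + t) ^ p) (p * (1 + t) ^ (p - 1)) t := by
  have h : HasDerivAt (fun t : ℝ => 1 + t) 1 t := (hasDerivAt_id t).const_add 1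
  have h2 := h.rpow_const (p := p) (Or.inl (by positivity : (1 + t : ℝ) ≠ 0))
  exact h2.congr_deriv (by ring)

theorem LA_Bar_le {τ : E n → Matrix (Fin n) (Fin n) ℝ} (hτ : ∀ x, (τ x).PosSemidef)
    {T : ℝ} (hT : ∀ x, (τ x).trace ≤ T) (x : E n) (hx : 5 * T ≤ 1 + ‖x‖ ^ 2) :
    LA τ Bar x ≤ 3 / 4 * Bar x := by
  have hT0 : 0 ≤ T := (hτ 0).trace_nonneg.trans (hT 0)
  set s : ℝ := 1 + ‖x‖ ^ 2 with hs
  have hs0 : 0 < s := by positivity
  have hD1 : fderiv ℝ (Bar : E n → ℝ) = fun x =>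
      (2 * ((-(1/4)) * (1 + ‖x‖ ^ 2) ^ ((-(1/4) : ℝ) - 1))) • innerSL ℝ x :=
    fderiv_radial (E := E n) (F := fun t => (1 + t) ^ (-(1/4) : ℝ))
      (F1 := fun t => (-(1/4)) * (1 + t) ^ ((-(1/4) : ℝ) - 1)) (fun t ht => hasDerivAt_rp ht)
  have hD2 : ∀ a b : E n, fderiv ℝ (fderiv ℝ (Bar : E n → ℝ)) x a b = _ := fun a b =>
    fderiv_fderiv_radial (E := E n) (F := fun t => (1 + t) ^ (-(1/4) : ℝ))
      (F1 := fun t => (-(1/4)) * (1 + t) ^ ((-(1/4) : ℝ) - 1))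
      (F2 := fun t => (-(1/4)) * (((-(1/4) : ℝ) - 1) * (1 + t) ^ ((-(1/4) : ℝ) - 1 - 1)))
      (fun t ht => hasDerivAt_rp ht) (fun t ht => (hasDerivAt_rp ht).const_mul _) x a b
  have e1 : s ^ ((-(1/4) : ℝ) - 1) = Bar x / s := by
    rw [Real.rpow_sub_one hs0.ne']; rfl
  have e2 : s ^ ((-(1/4) : ℝ) - 1 - 1) = Bar x / s / s := by
    rw [Real.rpow_sub_one hs0.ne', e1]
  have hB := Bar_pos x
  have hform : ∀ h : E n, fderiv ℝ (fderiv ℝ (Bar : E n → ℝ)) x h h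
      ≤ (5 / 4 * (Bar x / s)) * ‖h‖ ^ 2 := by
    intro h
    rw [hD2, ← hs, e1, e2, real_inner_self_eq_norm_sq]
    have h1 : inner ℝ x h * inner ℝ x h ≤ ‖x‖ ^ 2 * ‖h‖ ^ 2 := by
      have := abs_real_inner_le_norm x h
      calc inner ℝ x h * inner ℝ x h = |inner ℝ x h| * |inner ℝ x h| := by
            rw [abs_mul_abs_self]
        _ ≤ (‖x‖ * ‖h‖) * (‖x‖ * ‖h‖) := by gcongr
        _ = _ := by ring
    have h2 : ‖x‖ ^ 2 * ‖h‖ ^ 2 ≤ s * ‖h‖ ^ 2 := by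
      gcongr; rw [hs]; linarith
    have h3 : 0 ≤ Bar x / s := by positivity
    have h4 : Bar x / s / s * (inner ℝ x h * inner ℝ x h) ≤ Bar x / s * ‖h‖ ^ 2 := by
      calc Bar x / s / s * (inner ℝ x h * inner ℝ x h) ≤ Bar x / s / s * (s * ‖h‖ ^ 2) := by
            apply mul_le_mul_of_nonneg_left (h1.trans h2); positivity
        _ = Bar x / s * ‖h‖ ^ 2 := by field_simp
    have h5 : 0 ≤ Bar x / s * ‖h‖ ^ 2 := by positivity
    nlinarith
  have h6 := sum_mul_le_of_form_le (hτ x) (fderiv ℝ (fderiv ℝ (Bar : E n → ℝ)) x) hform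
  have h7 : fderiv ℝ (Bar : E n → ℝ) x x = -(1 / 2) * (Bar x / s) * ‖x‖ ^ 2 := by
    rw [hD1]
    simp only [_root_.smul_apply, smul_eq_mul, innerSL_apply_apply, real_inner_self_eq_norm_sq]
    rw [← hs, e1]; ring
  have h8 : Bar x / s * ‖x‖ ^ 2 ≤ Bar x := by
    rw [div_mul_eq_mul_div, div_le_iff₀ hs0]
    apply mul_le_mul_of_nonneg_left _ hB.le
    rw [hs]; linarith
  have h9 : 5 / 4 * (Bar x / s) * (τ x).trace ≤ 1 / 4 * Bar x := by
    have h10 : (τ x).trace ≤ s / 5 := by have := hT x; linarith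
    calc 5 / 4 * (Bar x / s) * (τ x).trace ≤ 5 / 4 * (Bar x / s) * (s / 5) := by gcongr
      _ = 1 / 4 * Bar x := by field_simp
  unfold LA Hs
  rw [h7]
  linarith

/-- Exterior comparison: if `w` is bounded, `w ≤ K Bar` on the ball of radius `R`, and
`LA τ w ≥ w` outside (where `5T ≤ 1 + R²`), then `w ≤ K Bar` everywhere. -/
theorem exterior_comparison {τ : E n → Matrix (Fin n) (Fin n) ℝ} (hτ : ∀ x, (τ x).PosSemidef)
    {T : ℝ} (hT : ∀ x, (τ x).trace ≤ T) {w : E n → ℝ} (hw : ContDiff ℝ 2 w) {M : ℝ}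
    (hM : ∀ x, w x ≤ M) {R K : ℝ} (hR : 0 ≤ R) (hRT : 5 * T ≤ 1 + R ^ 2) (hK : 0 ≤ K)
    (hin : ∀ x, ‖x‖ ≤ R → w x ≤ K * Bar x) (hout : ∀ x, R < ‖x‖ → w x ≤ LA τ w x) (x : E n) :
    w x ≤ K * Bar x := by
  have hc : ContDiff ℝ 2 (fun y : E n => K * Bar y) := contDiff_const.mul contDiff_Bar
  have hw2 : ContDiff ℝ 2 (fun y => w y - K * Bar y) := hw.sub hc
  have key := max_principle hτ hT hw2 (M := M) (c0 := 1) (a := 0) (fun y => ?_) one_pos ?_ x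
  · linarith
  · have := hM y
    have := mul_nonneg hK (Bar_pos y).le
    linarith
  · intro y hy
    have hyR : R < ‖y‖ := by
      by_contra hcon
      have := hin y (not_lt.1 hcon)
      linarith
    have hs : 5 * T ≤ 1 + ‖y‖ ^ 2 := by
      have : R ^ 2 ≤ ‖y‖ ^ 2 := pow_le_pow_left₀ hR hyR.le 2
      linarith
    rw [LA_sub τ hw hc, LA_const_mul τ contDiff_Bar]
    have h1 := hout y hyR
    have h2 := LA_Bar_le hτ hT y hs
    have h3 := mul_le_mul_of_nonneg_left h2 hK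
    have h4 := mul_nonneg hK (Bar_pos y).le
    linarith

end Crest.Agent.R238.MaxP
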