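import Mathlib

-- ▼ part R238/Sch1
section

/-!
Row 238, module H3 (B): Schauder a priori estimate by freezing and absorption.
File 1: bounded Hölder functions, localized products, interpolation.
-/

namespace Crest.Agent.R238.Sch

open Set Metric

/-- bounded `a`-Hölder function with constant `M` (both for the sup and the seminorm). -/
structure HB {X F : Type*} [NormedAddCommGroup X] [NormedAddCommGroup F]
    (a M : ℝ) (r : X → F) : Prop where
  bdd : ∀ x, ‖r x‖ ≤ M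
  hol : ∀ x y, ‖r x - r y‖ ≤ M * ‖x - y‖ ^ a

section basics

variable {X F : Type*} [NormedAddCommGroup X] [NormedAddCommGroup F] {a M N : ℝ} {r s : X → F}

theorem HB.nonneg (h : HB a M r) : 0 ≤ M := (norm_nonneg _).trans (h.bdd 0)

theorem HB.mono (h : HB a M r) (hMN : M ≤ N) : HB a N r where
  bdd x := (h.bdd x).trans hMN
  hol x y := (h.hol x y).trans (mul_le_mul_of_nonneg_right hMN (Real.rpow_nonneg (norm_nonneg _) _))

theorem HB.add (h : HB a M r) (k : HB a N s) : HB a (M + N) (fun x => r x + s x) where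
  bdd x := (norm_add_le _ _).trans (add_le_add (h.bdd x) (k.bdd x))
  hol x y := by
    have : r x + s x - (r y + s y) = (r x - r y) + (s x - s y) := by abel
    rw [this, add_mul]
    exact (norm_add_le _ _).trans (add_le_add (h.hol x y) (k.hol x y))

theorem HB.neg (h : HB a M r) : HB a M (fun x => - r x) where
  bdd x := by rw [norm_neg]; exact h.bdd x
  hol x y := by
    have : - r x - - r y = - (r x - r y) := by abel
    rw [this, norm_neg]; exact h.hol x y

theorem HB.sub (h : HB a M r) (k : HB a N s) : HB a (M + N) (fun x => r x - s x) := by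
  simpa [sub_eq_add_neg] using h.add k.neg

theorem HB.zero (hM : 0 ≤ M) : HB a M (fun _ : X => (0 : F)) where
  bdd x := by simpa using hM
  hol x y := by simpa using mul_nonneg hM (Real.rpow_nonneg (norm_nonneg _) _)

theorem HB.const (c : F) : HB a ‖c‖ (fun _ : X => c) where
  bdd x := le_rfl
  hol x y := by simpa using mul_nonneg (norm_nonneg c) (Real.rpow_nonneg (norm_nonneg (x - y)) a)

theorem HB.sum {ι : Type*} (t : Finset ι) {C : ι → ℝ} {f : ι → X → F}
    (h : ∀ i ∈ t, HB a (C i) (f i)) : HB a (∑ i ∈ t, C i) (fun x => ∑ i ∈ t, f i x) := by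
  classical
  induction t using Finset.induction_on with
  | empty => simpa using HB.zero (X := X) (F := F) (a := a) le_rfl
  | insert i t hi ih =>
    have h1 := (h i (Finset.mem_insert_self _ _)).add
      (ih (fun j hj => h j (Finset.mem_insert_of_mem hj)))
    simpa [Finset.sum_insert hi] using h1

/-- translation -/
theorem HB.trans (h : HB a M r) (c : X) : HB a M (fun x => r (x - c)) where
  bdd x := h.bdd _
  hol x y := by simpa using h.hol (x - c) (y - c)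

/-- The estimate passes to the limit in the constant. -/
theorem HB.of_forall_lt (h : ∀ ε > 0, HB a (M + ε) r) : HB a M r where
  bdd x := le_of_forall_pos_le_add (fun ε hε => (h ε hε).bdd x)
  hol x y := by
    set t := ‖x - y‖ ^ a with ht
    have ht0 : 0 ≤ t := Real.rpow_nonneg (norm_nonneg _) _
    refine le_of_forall_pos_le_add (fun ε hε => ?_)
    have h1 := (h (ε / (t + 1)) (by positivity)).hol x y
    rw [← ht] at h1
    refine h1.trans ?_
    rw [add_mul]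
    gcongr
    rw [div_mul_eq_mul_div, div_le_iff₀ (by positivity)]
    nlinarith

/-- absorption -/
theorem HB.absorb {B V : ℝ} (h0 : HB a V r) (hB : ∀ W, HB a W r → HB a (B + W / 2) r) :
    HB a (2 * B) r := by
  have hV : 0 ≤ V := h0.nonneg
  have hit : ∀ k : ℕ, HB a (2 * B * (1 - (1 / 2) ^ k) + V * (1 / 2) ^ k) r := by
    intro k
    induction k with
    | zero => simpa using h0
    | succ k ih =>
      have := hB _ ih
      refine this.mono (le_of_eq ?_)
      rw [pow_succ]; ring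
  have hB0 : 0 ≤ 2 * B := by
    by_contra hneg
    push Not at hneg
    have hpow : Filter.Tendsto (fun k : ℕ => 2 * B * (1 - (1 / 2 : ℝ) ^ k) + V * (1 / 2) ^ k)
        Filter.atTop (nhds (2 * B * (1 - 0) + V * 0)) := by
      have h := tendsto_pow_atTop_nhds_zero_of_lt_one (r := (1 / 2 : ℝ)) (by norm_num) (by norm_num)
      exact ((tendsto_const_nhds.sub h).const_mul _).add (h.const_mul _)
    have h1 : (0 : ℝ) ≤ 2 * B * (1 - 0) + V * 0 :=
      ge_of_tendsto' hpow (fun k => (hit k).nonneg)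
    linarith
  refine HB.of_forall_lt (fun ε hε => ?_)
  obtain ⟨k, hk⟩ := exists_pow_lt_of_lt_one (show 0 < ε / (V + 1) by positivity)
    (show (1 / 2 : ℝ) < 1 by norm_num)
  refine (hit k).mono ?_
  have hk0 : (0 : ℝ) ≤ (1 / 2) ^ k := by positivity
  have h2 : V * (1 / 2) ^ k ≤ ε := by
    have : (1 / 2 : ℝ) ^ k * (V + 1) < ε := (lt_div_iff₀ (by positivity)).1 hk
    nlinarith
  nlinarith

end basics

section products

variable {X : Type*} [NormedAddCommGroup X] {a : ℝ}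

/-- localized product: `u` is globally Hölder and vanishes outside `s`, `v` is controlled on `s`. -/
theorem HB.localMul {u v : X → ℝ} {s : Set X} {U0 U1 V0 V1 W : ℝ}
    (hu : ∀ x, x ∉ s → u x = 0) (hu0 : ∀ x ∈ s, ‖u x‖ ≤ U0)
    (hu1 : ∀ x y, ‖u x - u y‖ ≤ U1 * ‖x - y‖ ^ a)
    (hv0 : ∀ x ∈ s, ‖v x‖ ≤ V0) (hv1 : ∀ x ∈ s, ∀ y ∈ s, ‖v x - v y‖ ≤ V1 * ‖x - y‖ ^ a)
    (hU0 : 0 ≤ U0) (hU1 : 0 ≤ U1) (hV0 : 0 ≤ V0) (hV1 : 0 ≤ V1)
    (hW : U0 * V0 ≤ W) (hW' : U1 * V0 + U0 * V1 ≤ W) :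
    HB a W (fun x => u x * v x) where
  bdd x := by
    by_cases hx : x ∈ s
    · rw [norm_mul]
      exact (mul_le_mul (hu0 x hx) (hv0 x hx) (norm_nonneg _) hU0).trans hW
    · rw [hu x hx]; simp; exact (mul_nonneg hU0 hV0).trans hW
  hol x y := by
    have hp : 0 ≤ ‖x - y‖ ^ a := Real.rpow_nonneg (norm_nonneg _) _
    have key : ‖u x * v x - u y * v y‖ ≤ (U1 * V0 + U0 * V1) * ‖x - y‖ ^ a := by
      by_cases hx : x ∈ s
      · by_cases hy : y ∈ s
        · have : u x * v x - u y * v y = (u x - u y) * v x + u y * (v x - v y) := by ring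
          rw [this]
          refine (norm_add_le _ _).trans ?_
          rw [norm_mul, norm_mul, add_mul]
          refine add_le_add ?_ ?_
          · calc ‖u x - u y‖ * ‖v x‖ ≤ (U1 * ‖x - y‖ ^ a) * V0 :=
                  mul_le_mul (hu1 x y) (hv0 x hx) (norm_nonneg _) (mul_nonneg hU1 hp)
              _ = U1 * V0 * ‖x - y‖ ^ a := by ring
          · calc ‖u y‖ * ‖v x - v y‖ ≤ U0 * (V1 * ‖x - y‖ ^ a) :=
                  mul_le_mul (hu0 y hy) (hv1 x hx y hy) (norm_nonneg _) hU0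
              _ = U0 * V1 * ‖x - y‖ ^ a := by ring
        · have : u x * v x - u y * v y = (u x - u y) * v x := by rw [hu y hy]; ring
          rw [this, norm_mul, add_mul]
          have h1 : ‖u x - u y‖ * ‖v x‖ ≤ (U1 * ‖x - y‖ ^ a) * V0 :=
            mul_le_mul (hu1 x y) (hv0 x hx) (norm_nonneg _) (mul_nonneg hU1 hp)
          have h2 : 0 ≤ U0 * V1 * ‖x - y‖ ^ a := by positivity
          nlinarith
      · by_cases hy : y ∈ s
        · have : u x * v x - u y * v y = (u x - u y) * v y := by rw [hu x hx]; ring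
          rw [this, norm_mul, add_mul]
          have h1 : ‖u x - u y‖ * ‖v y‖ ≤ (U1 * ‖x - y‖ ^ a) * V0 :=
            mul_le_mul (hu1 x y) (hv0 y hy) (norm_nonneg _) (mul_nonneg hU1 hp)
          have h2 : 0 ≤ U0 * V1 * ‖x - y‖ ^ a := by positivity
          nlinarith
        · rw [hu x hx, hu y hy]; simp; positivity
    exact key.trans (mul_le_mul_of_nonneg_right hW' hp)

/-- global product -/
theorem HB.mul {u v : X → ℝ} {M N : ℝ} (hu : HB a M u) (hv : HB a N v) :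
    HB a (2 * (M * N)) (fun x => u x * v x) := by
  have hM := hu.nonneg
  have hN := hv.nonneg
  refine HB.localMul (s := univ) (U0 := M) (U1 := M) (V0 := N) (V1 := N)
    (by simp) (fun x _ => hu.bdd x) hu.hol (fun x _ => hv.bdd x) (fun x _ y _ => hv.hol x y)
    hM hM hN hN ?_ ?_ <;> nlinarith [mul_nonneg hM hN]

end products

section interp

variable {n : ℕ}

/-- second derivative as a bilinear form -/
noncomputable def D2 (h : EuclideanSpace ℝ (Fin n) → ℝ) (x : EuclideanSpace ℝ (Fin n)) :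
    EuclideanSpace ℝ (Fin n) →L[ℝ] EuclideanSpace ℝ (Fin n) →L[ℝ] ℝ :=
  fderiv ℝ (fderiv ℝ h) x

local notation "E" => EuclideanSpace ℝ (Fin n)

theorem opNorm_le_of_sphere {G : Type*} [NormedAddCommGroup G] [NormedSpace ℝ G]
    (L : E →L[ℝ] G) {δ C : ℝ} (hδ : 0 < δ) (hC : 0 ≤ C)
    (h : ∀ e, ‖e‖ = δ → ‖L e‖ ≤ C) : ‖L‖ ≤ C / δ := by
  refine L.opNorm_le_bound (by positivity) (fun v => ?_)
  by_cases hv : v = 0
  · simp [hv]
  · have hv' : 0 < ‖v‖ := norm_pos_iff.2 hv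
    have h1 := h ((δ / ‖v‖) • v) (by
      rw [norm_smul, Real.norm_of_nonneg (by positivity)]; field_simp)
    rw [map_smul, norm_smul, Real.norm_of_nonneg (by positivity)] at h1
    have : ‖L v‖ = (‖v‖ / δ) * (δ / ‖v‖ * ‖L v‖) := by field_simp
    rw [this]
    calc (‖v‖ / δ) * (δ / ‖v‖ * ‖L v‖) ≤ (‖v‖ / δ) * C := by gcongr
      _ = C / δ * ‖v‖ := by ring

/-- `‖Dh(y)‖ ≤ 2H/δ + Wδ` if `|h| ≤ H`, `‖D²h‖ ≤ W` on `closedBall y δ`. -/
theorem norm_fderiv_le {h : E → ℝ} (hh : ContDiff ℝ 2 h) {y : E} {δ H W : ℝ} (hδ : 0 < δ)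
    (hH : ∀ z ∈ closedBall y δ, |h z| ≤ H) (hW : ∀ z ∈ closedBall y δ, ‖D2 h z‖ ≤ W) :
    ‖fderiv ℝ h y‖ ≤ 2 * H / δ + W * δ := by
  have hd : Differentiable ℝ h := hh.differentiable (by norm_num)
  have hd1 : Differentiable ℝ (fderiv ℝ h) :=
    (hh.fderiv_right (m := 1) (by norm_num)).differentiable (by norm_num)
  have hy : y ∈ closedBall y δ := mem_closedBall_self hδ.le
  have hW0 : 0 ≤ W := le_trans (norm_nonneg (D2 h y)) (hW y hy)
  have hH0 : 0 ≤ H := (abs_nonneg _).trans (hH y hy)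
  have h1 : ∀ z ∈ closedBall y δ, ‖fderiv ℝ h z - fderiv ℝ h y‖ ≤ W * δ := by
    intro z hz
    have := (convex_closedBall y δ).norm_image_sub_le_of_norm_fderiv_le
      (f := fderiv ℝ h) (C := W) (fun w _ => hd1 w) (fun w hw => hW w hw) hy hz
    refine this.trans ?_
    gcongr
    simpa [dist_eq_norm] using hz
  have h2 : ∀ z ∈ closedBall y δ, ‖h z - h y - fderiv ℝ h y (z - y)‖ ≤ W * δ * ‖z - y‖ := by
    intro z hz
    exact (convex_closedBall y δ).norm_image_sub_le_of_norm_fderiv_le'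
      (f := h) (C := W * δ) (fun w _ => hd w) (fun w hw => h1 w hw) hy hz
  have h3 : ‖fderiv ℝ h y‖ ≤ (2 * H + W * δ * δ) / δ := by
    refine opNorm_le_of_sphere _ hδ (by positivity) (fun e he => ?_)
    have hz : y + e ∈ closedBall y δ := by simp [he]
    have h4 := h2 _ hz
    rw [add_sub_cancel_left, he] at h4
    have h5 := hH _ hz
    have h6 := hH _ hy
    have h7 : fderiv ℝ h y e = (h (y + e) - h y) - (h (y + e) - h y - fderiv ℝ h y e) := by ring
    rw [h7]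
    refine (norm_sub_le _ _).trans ?_
    refine add_le_add ?_ h4
    rw [Real.norm_eq_abs]
    refine (abs_sub _ _).trans ?_
    linarith
  refine h3.trans (le_of_eq ?_)
  field_simp

/-- `‖D²h(x)‖ ≤ 4 δ^a V + 32 H / δ²` if `|h| ≤ H` on `closedBall x (2δ)`. -/
theorem norm_D2_le {h : E → ℝ} (hh : ContDiff ℝ 2 h) {x : E} {a δ H V : ℝ} (ha : 0 ≤ a)
    (ha1 : a ≤ 1) (hδ : 0 < δ) (hV0 : 0 ≤ V)
    (hV : ∀ y z, ‖D2 h y - D2 h z‖ ≤ V * ‖y - z‖ ^ a)
    (hH : ∀ z ∈ closedBall x (2 * δ), |h z| ≤ H) :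
    ‖D2 h x‖ ≤ 4 * (δ ^ a * V) + 32 * H / δ ^ 2 := by
  have hd1 : Differentiable ℝ (fderiv ℝ h) :=
    (hh.fderiv_right (m := 1) (by norm_num)).differentiable (by norm_num)
  have hx : x ∈ closedBall x δ := mem_closedBall_self hδ.le
  have hH0 : 0 ≤ H := (abs_nonneg _).trans (hH x (mem_closedBall_self (by positivity)))
  have hδa : 0 ≤ δ ^ a := by positivity
  set W := ‖D2 h x‖ + 2 * (δ ^ a * V) with hWdef
  have hW : ∀ z ∈ closedBall x (2 * δ), ‖D2 h z‖ ≤ W := by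
    intro z hz
    have h1 := hV z x
    have h2 : ‖D2 h z‖ ≤ ‖D2 h x‖ + ‖D2 h z - D2 h x‖ := by
      have := norm_sub_norm_le (D2 h z) (D2 h x)
      linarith
    have h3 : ‖z - x‖ ^ a ≤ 2 * δ ^ a := by
      have : ‖z - x‖ ≤ 2 * δ := by simpa [dist_eq_norm] using hz
      calc ‖z - x‖ ^ a ≤ (2 * δ) ^ a := Real.rpow_le_rpow (norm_nonneg _) this ha
        _ = 2 ^ a * δ ^ a := Real.mul_rpow (by norm_num) hδ.le
        _ ≤ 2 ^ (1 : ℝ) * δ ^ a := by
            gcongr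
            norm_num
        _ = 2 * δ ^ a := by norm_num
    have h4 : V * ‖z - x‖ ^ a ≤ V * (2 * δ ^ a) := mul_le_mul_of_nonneg_left h3 hV0
    rw [hWdef]; linarith
  have hδ4 : 0 < δ / 4 := by positivity
  have hG : ∀ y ∈ closedBall x δ, ‖fderiv ℝ h y‖ ≤ 2 * H / (δ / 4) + W * (δ / 4) := by
    intro y hy
    have hsub : closedBall y (δ / 4) ⊆ closedBall x (2 * δ) := by
      refine closedBall_subset_closedBall' ?_
      have : dist y x ≤ δ := hy
      linarith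
    exact norm_fderiv_le hh hδ4 (fun z hz => hH z (hsub hz)) (fun z hz => hW z (hsub hz))
  have h2 : ∀ z ∈ closedBall x δ, ‖fderiv ℝ h z - fderiv ℝ h x - D2 h x (z - x)‖
      ≤ V * δ ^ a * ‖z - x‖ := by
    intro z hz
    refine (convex_closedBall x δ).norm_image_sub_le_of_norm_fderiv_le'
      (f := fderiv ℝ h) (C := V * δ ^ a) (fun w _ => hd1 w) (fun w hw => ?_) hx hz
    refine (hV w x).trans ?_
    gcongr
    simpa [dist_eq_norm] using hw
  have h3 : ‖D2 h x‖ ≤ (2 * (2 * H / (δ / 4) + W * (δ / 4)) + V * δ ^ a * δ) / δ := by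
    have hW0 : 0 ≤ W := by positivity
    refine opNorm_le_of_sphere _ hδ (by positivity) (fun e he => ?_)
    have hz : x + e ∈ closedBall x δ := by simp [he]
    have h4 := h2 _ hz
    rw [add_sub_cancel_left, he] at h4
    have h5 := hG _ hz
    have h6 := hG _ hx
    have h7 : D2 h x e = (fderiv ℝ h (x + e) - fderiv ℝ h x)
      - (fderiv ℝ h (x + e) - fderiv ℝ h x - D2 h x e) := by abel
    rw [h7]
    refine (norm_sub_le _ _).trans ?_
    refine add_le_add ?_ h4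
    refine (norm_sub_le _ _).trans ?_
    linarith
  have h4 : (2 * (2 * H / (δ / 4) + W * (δ / 4)) + V * δ ^ a * δ) / δ
      = 16 * H / δ ^ 2 + W / 2 + V * δ ^ a := by
    field_simp; ring
  rw [h4] at h3
  have h5 : 32 * H / δ ^ 2 = 2 * (16 * H / δ ^ 2) := by ring
  rw [h5]
  rw [hWdef] at h3
  nlinarith

/-- lower-order control of `h` on `s` -/
structure LB (a Q : ℝ) (s : Set E) (h : E → ℝ) : Prop where
  h0 : ∀ x ∈ s, |h x| ≤ Q
  h1 : ∀ x ∈ s, ∀ y ∈ s, |h x - h y| ≤ Q * ‖x - y‖ ^ a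
  d0 : ∀ x ∈ s, ‖fderiv ℝ h x‖ ≤ Q
  d1 : ∀ x ∈ s, ∀ y ∈ s, ‖fderiv ℝ h x - fderiv ℝ h y‖ ≤ Q * ‖x - y‖ ^ a

theorem le_rpow_of_le {t r a : ℝ} (ht : 0 ≤ t) (htr : t ≤ 2 * r) (ha : 0 < a) (ha1 : a ≤ 1) :
    t ≤ (1 + 2 * r) * t ^ a := by
  have hr : 0 ≤ r := by linarith
  have hta : 0 ≤ t ^ a := Real.rpow_nonneg ht _
  rcases le_total t 1 with h | h
  · have h1 : t ≤ t ^ a := by
      rcases ht.eq_or_lt with h0 | h0
      · rw [← h0]; exact Real.rpow_nonneg le_rfl _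
      · calc t = t ^ (1 : ℝ) := (Real.rpow_one t).symm
          _ ≤ t ^ a := Real.rpow_le_rpow_of_exponent_ge h0 h ha1
    nlinarith
  · have h1 : 1 ≤ t ^ a := Real.one_le_rpow h ha.le
    nlinarith

theorem exists_rpow_le {a κ : ℝ} (ha : 0 < a) (hκ : 0 < κ) :
    ∃ δ : ℝ, 0 < δ ∧ δ ≤ 1 ∧ δ ^ a ≤ κ := by
  refine ⟨(min κ 1) ^ (1 / a), Real.rpow_pos_of_pos (by positivity) _,
    Real.rpow_le_one (by positivity) (min_le_right _ _) (by positivity), ?_⟩
  rw [← Real.rpow_mul (by positivity)]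
  rw [one_div, inv_mul_cancel₀ ha.ne', Real.rpow_one]
  exact min_le_left _ _

theorem interp {a r ε : ℝ} (ha : 0 < a) (ha1 : a ≤ 1) (hr : 0 ≤ r) (hε : 0 < ε) :
    ∃ C : ℝ, 0 ≤ C ∧ ∀ (h : E → ℝ) (V H : ℝ) (c : E), ContDiff ℝ 2 h → HB a V (D2 h) →
      (∀ z ∈ closedBall c (r + 3 / 2), |h z| ≤ H) →
      LB a (ε * V + C * H) (closedBall c r) h ∧
        ∀ x ∈ closedBall c r, ‖D2 h x‖ ≤ ε * V + C * H := by
  obtain ⟨d, hd0, hd1, hd⟩ := exists_rpow_le (κ := ε / (4 * (1 + 2 * r))) ha (by positivity)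
  set δ : ℝ := d / 2 with hδdef
  have hδ : 0 < δ := by positivity
  have hδ2 : δ ≤ 1 / 2 := by rw [hδdef]; linarith
  have hδa : δ ^ a * (4 * (1 + 2 * r)) ≤ ε := by
    have h1 : δ ^ a ≤ d ^ a := Real.rpow_le_rpow hδ.le (by rw [hδdef]; linarith) ha.le
    have h2 : δ ^ a ≤ ε / (4 * (1 + 2 * r)) := h1.trans hd
    rwa [le_div_iff₀ (by positivity)] at h2
  refine ⟨(1 + 2 * r) * (34 / δ ^ 2) + 1, by positivity, fun h V H c hh hVh hH => ?_⟩
  have hV : 0 ≤ V := hVh.nonneg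
  have hH0 : 0 ≤ H := (abs_nonneg _).trans (hH c (mem_closedBall_self (by positivity)))
  have hδap : 0 ≤ δ ^ a := by positivity
  set P := 4 * (δ ^ a * V) + 34 * H / δ ^ 2 with hP
  have hP0 : 0 ≤ P := by positivity
  have hQ : (1 + 2 * r) * P + H ≤ ε * V + ((1 + 2 * r) * (34 / δ ^ 2) + 1) * H := by
    have h1 : δ ^ a * (4 * (1 + 2 * r)) * V ≤ ε * V := by gcongr
    have h2 : (1 + 2 * r) * (34 * H / δ ^ 2) = (1 + 2 * r) * (34 / δ ^ 2) * H := by ring
    rw [hP]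
    nlinarith
  have hPQ : P ≤ ε * V + ((1 + 2 * r) * (34 / δ ^ 2) + 1) * H := by
    refine le_trans ?_ hQ
    nlinarith [mul_nonneg hr hP0]
  set Q := ε * V + ((1 + 2 * r) * (34 / δ ^ 2) + 1) * H with hQdef
  have hsub : ∀ y ∈ closedBall c (r + δ), closedBall y (2 * δ) ⊆ closedBall c (r + 3 / 2) := by
    intro y hy
    refine closedBall_subset_closedBall' ?_
    have : dist y c ≤ r + δ := hy
    linarith
  have hD2 : ∀ y ∈ closedBall c (r + δ), ‖D2 h y‖ ≤ 4 * (δ ^ a * V) + 32 * H / δ ^ 2 :=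
    fun y hy => norm_D2_le hh ha.le ha1 hδ hV hVh.hol (fun z hz => hH z (hsub y hy hz))
  have hsub1 : ∀ y ∈ closedBall c r, closedBall y δ ⊆ closedBall c (r + δ) := by
    intro y hy
    refine closedBall_subset_closedBall' ?_
    have : dist y c ≤ r := hy
    linarith
  have hrr : closedBall c r ⊆ closedBall c (r + 3 / 2) :=
    closedBall_subset_closedBall (by linarith)
  have hD2' : ∀ y ∈ closedBall c r, ‖D2 h y‖ ≤ P := by
    intro y hy
    refine (hD2 y (hsub1 y hy (mem_closedBall_self hδ.le))).trans ?_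
    rw [hP]
    gcongr
    norm_num
  have hD1 : ∀ y ∈ closedBall c r, ‖fderiv ℝ h y‖ ≤ P := by
    intro y hy
    have h1 := norm_fderiv_le hh hδ (y := y) (H := H)
      (W := 4 * (δ ^ a * V) + 32 * H / δ ^ 2)
      (fun z hz => hH z (closedBall_subset_closedBall (by linarith) (hsub1 y hy hz)))
      (fun z hz => hD2 z (hsub1 y hy hz))
    refine h1.trans ?_
    have h2 : (4 * (δ ^ a * V) + 32 * H / δ ^ 2) * δ
        ≤ 4 * (δ ^ a * V) + 32 * H / δ ^ 2 := mul_le_of_le_one_right (by positivity) (by linarith)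
    have h3 : 2 * H / δ ≤ 2 * H / δ ^ 2 := by
      gcongr
      nlinarith
    have h4 : 34 * H / δ ^ 2 = 2 * H / δ ^ 2 + 32 * H / δ ^ 2 := by ring
    rw [hP, h4]
    linarith
  have hd : Differentiable ℝ h := hh.differentiable (by norm_num)
  have hd1 : Differentiable ℝ (fderiv ℝ h) :=
    (hh.fderiv_right (m := 1) (by norm_num)).differentiable (by norm_num)
  have hxy : ∀ x ∈ closedBall c r, ∀ y ∈ closedBall c r, ‖x - y‖ ≤ 2 * r := by
    intro x hx y hy
    have := dist_triangle_right x y c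
    rw [dist_eq_norm] at this
    have h1 : dist x c ≤ r := hx
    have h2 : dist y c ≤ r := hy
    linarith
  refine ⟨⟨fun x hx => ?_, fun x hx y hy => ?_, fun x hx => (hD1 x hx).trans hPQ,
    fun x hx y hy => ?_⟩, fun x hx => (hD2' x hx).trans hPQ⟩
  · refine (hH x (hrr hx)).trans ?_
    refine le_trans ?_ hQ
    have : 0 ≤ (1 + 2 * r) * P := by positivity
    linarith
  · have h1 := (convex_closedBall c r).norm_image_sub_le_of_norm_fderiv_le
      (f := h) (C := P) (fun w _ => hd w) (fun w hw => hD1 w hw) hy hx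
    rw [Real.norm_eq_abs] at h1
    refine h1.trans ?_
    have h2 := le_rpow_of_le (norm_nonneg (x - y)) (hxy x hx y hy) ha ha1
    calc P * ‖x - y‖ ≤ P * ((1 + 2 * r) * ‖x - y‖ ^ a) := by gcongr
      _ = (1 + 2 * r) * P * ‖x - y‖ ^ a := by ring
      _ ≤ Q * ‖x - y‖ ^ a := by
          gcongr
          linarith
  · have h1 := (convex_closedBall c r).norm_image_sub_le_of_norm_fderiv_le
      (f := fderiv ℝ h) (C := P) (fun w _ => hd1 w) (fun w hw => hD2' w hw) hy hx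
    refine h1.trans ?_
    have h2 := le_rpow_of_le (norm_nonneg (x - y)) (hxy x hx y hy) ha ha1
    calc P * ‖x - y‖ ≤ P * ((1 + 2 * r) * ‖x - y‖ ^ a) := by gcongr
      _ = (1 + 2 * r) * P * ‖x - y‖ ^ a := by ring
      _ ≤ Q * ‖x - y‖ ^ a := by
          gcongr
          linarith

end interp

end Crest.Agent.R238.Sch
end

-- ▼ part R238/Sch2
section

/-!
Row 238, module H3 (B): Schauder a priori estimate by freezing and absorption.
File 2: cutoff calculus and the cut-off estimate.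
-/

namespace Crest.Agent.R238.Sch

open Set Metric

variable {n : ℕ}

local notation "E" => EuclideanSpace ℝ (Fin n)

/-- standard basis vector -/
noncomputable def ee (i : Fin n) : EuclideanSpace ℝ (Fin n) := EuclideanSpace.single i 1

theorem norm_ee (i : Fin n) : ‖(ee i : E)‖ = 1 := by simp [ee]

/-- the operator `∑ τ_ij D²h_ij - x·∇h + λ h` -/
noncomputable def Lop (τ : EuclideanSpace ℝ (Fin n) → Matrix (Fin n) (Fin n) ℝ) (lam : ℝ)
    (h : EuclideanSpace ℝ (Fin n) → ℝ) (x : EuclideanSpace ℝ (Fin n)) : ℝ :=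
  (∑ i, ∑ j, τ x i j * D2 h x (ee i) (ee j)) - fderiv ℝ h x x + lam * h x

theorem sum_ee (v : E) : v = ∑ i, v i • (ee i : E) := by
  ext j
  simp only [ee, WithLp.ofLp_sum, WithLp.ofLp_smul, Finset.sum_apply, Pi.smul_apply, smul_eq_mul]
  simp

theorem norm_bilin_le (B : E →L[ℝ] E →L[ℝ] ℝ) : ‖B‖ ≤ ∑ i, ∑ j, ‖B (ee i) (ee j)‖ := by
  refine ContinuousLinearMap.opNorm_le_bound₂ _ (by positivity) (fun v w => ?_)
  have e : B v w = ∑ i, ∑ j, v i * w j * B (ee i) (ee j) := by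
    conv_lhs => rw [sum_ee v, sum_ee w]
    simp only [map_sum, map_smul, sum_apply, smul_apply, smul_eq_mul, Finset.mul_sum]
    rw [Finset.sum_comm]
    refine Finset.sum_congr rfl fun i _ => Finset.sum_congr rfl fun j _ => by ring
  rw [e, Finset.sum_mul, Finset.sum_mul]
  refine (norm_sum_le _ _).trans (Finset.sum_le_sum fun i _ => ?_)
  rw [Finset.sum_mul, Finset.sum_mul]
  refine (norm_sum_le _ _).trans (Finset.sum_le_sum fun j _ => ?_)
  rw [norm_mul, norm_mul]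
  have h1 : ‖v i‖ ≤ ‖v‖ := PiLp.norm_apply_le v i
  have h2 : ‖w j‖ ≤ ‖w‖ := PiLp.norm_apply_le w j
  calc ‖v i‖ * ‖w j‖ * ‖B (ee i) (ee j)‖ ≤ ‖v‖ * ‖w‖ * ‖B (ee i) (ee j)‖ := by gcongr
    _ = ‖B (ee i) (ee j)‖ * ‖v‖ * ‖w‖ := by ring

theorem norm_entry_le (B : E →L[ℝ] E →L[ℝ] ℝ) (i j : Fin n) : ‖B (ee i) (ee j)‖ ≤ ‖B‖ := by
  have := B.le_opNorm₂ (ee i) (ee j)
  simpa [norm_ee] using this

theorem HB.entry {X : Type*} [NormedAddCommGroup X] {a M : ℝ} {B : X → E →L[ℝ] E →L[ℝ] ℝ}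
    (h : HB a M B) (i j : Fin n) : HB a M (fun x => B x (ee i) (ee j)) where
  bdd x := (norm_entry_le _ i j).trans (h.bdd x)
  hol x y := by
    have := norm_entry_le (B x - B y) i j
    simp only [sub_apply] at this
    exact this.trans (h.hol x y)

theorem HB.of_entry {X : Type*} [NormedAddCommGroup X] {a M : ℝ} {B : X → E →L[ℝ] E →L[ℝ] ℝ}
    (h : ∀ i j, HB a M (fun x => B x (ee i) (ee j))) : HB a ((n : ℝ) ^ 2 * M) B where
  bdd x := by
    refine (norm_bilin_le (B x)).trans ?_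
    refine (Finset.sum_le_sum fun i _ => Finset.sum_le_sum fun j _ => (h i j).bdd x).trans ?_
    simp [Finset.sum_const]
    apply le_of_eq; ring
  hol x y := by
    refine (norm_bilin_le (B x - B y)).trans ?_
    refine (Finset.sum_le_sum fun i _ => Finset.sum_le_sum fun j _ =>
      (show ‖(B x - B y) (ee i) (ee j)‖ ≤ M * ‖x - y‖ ^ a from ?_)).trans ?_
    · simp only [sub_apply]; exact (h i j).hol x y
    · simp [Finset.sum_const]
      apply le_of_eq; ring

theorem HB.vec {X : Type*} [NormedAddCommGroup X] {a M : ℝ} {B : X → E →L[ℝ] ℝ}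
    (h : HB a M B) (i : Fin n) : HB a M (fun x => B x (ee i)) where
  bdd x := by
    have := (B x).le_opNorm (ee i)
    rw [norm_ee, mul_one] at this
    exact this.trans (h.bdd x)
  hol x y := by
    have := (B x - B y).le_opNorm (ee i)
    rw [norm_ee, mul_one] at this
    simp only [sub_apply] at this
    exact this.trans (h.hol x y)

/-- product rule for the gradient -/
theorem fderiv_prod {χ h : E → ℝ} (hχ : Differentiable ℝ χ) (hh : Differentiable ℝ h) :
    fderiv ℝ (fun x => χ x * h x) = fun x => χ x • fderiv ℝ h x + h x • fderiv ℝ χ x := by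
  funext x
  exact fderiv_fun_mul (hχ x) (hh x)

/-- product rule for the Hessian -/
theorem D2_prod {χ h : E → ℝ} (hχ : ContDiff ℝ 2 χ) (hh : ContDiff ℝ 2 h) (x v w : E) :
    D2 (fun x => χ x * h x) x v w = χ x * D2 h x v w + fderiv ℝ χ x v * fderiv ℝ h x w
      + fderiv ℝ h x v * fderiv ℝ χ x w + h x * D2 χ x v w := by
  have hχ0 : Differentiable ℝ χ := hχ.differentiable (by norm_num)
  have hh0 : Differentiable ℝ h := hh.differentiable (by norm_num)
  have hχ1 : Differentiable ℝ (fderiv ℝ χ) :=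
    (hχ.fderiv_right (m := 1) (by norm_num)).differentiable (by norm_num)
  have hh1 : Differentiable ℝ (fderiv ℝ h) :=
    (hh.fderiv_right (m := 1) (by norm_num)).differentiable (by norm_num)
  unfold D2
  rw [fderiv_prod hχ0 hh0]
  have e1 : fderiv ℝ (fun x => χ x • fderiv ℝ h x) x
      = χ x • fderiv ℝ (fderiv ℝ h) x + (fderiv ℝ χ x).smulRight (fderiv ℝ h x) :=
    fderiv_fun_smul (hχ0 x) (hh1 x)
  have e2 : fderiv ℝ (fun x => h x • fderiv ℝ χ x) x
      = h x • fderiv ℝ (fderiv ℝ χ) x + (fderiv ℝ h x).smulRight (fderiv ℝ χ x) :=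
    fderiv_fun_smul (hh0 x) (hχ1 x)
  have e3 : fderiv ℝ (fun x => χ x • fderiv ℝ h x + h x • fderiv ℝ χ x) x
      = fderiv ℝ (fun x => χ x • fderiv ℝ h x) x + fderiv ℝ (fun x => h x • fderiv ℝ χ x) x :=
    fderiv_fun_add (f := fun x => χ x • fderiv ℝ h x) (g := fun x => h x • fderiv ℝ χ x)
      ((hχ0 x).smul (hh1 x)) ((hh0 x).smul (hχ1 x))
  rw [e3, e1, e2]
  simp only [add_apply, smul_apply, ContinuousLinearMap.smulRight_apply, smul_eq_mul]
  ring

/-- cutoff data -/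
structure Cut (a X : ℝ) (χ : EuclideanSpace ℝ (Fin n) → ℝ) : Prop where
  sm : ContDiff ℝ 2 χ
  c0 : HB a X χ
  c1 : HB a X (fderiv ℝ χ)
  c2 : HB a X (D2 χ)
  cx : HB a X (fun x => fderiv ℝ χ x x)

theorem HB.of_compactSupport {F : Type*} [NormedAddCommGroup F] [NormedSpace ℝ F] {f : E → F}
    {a : ℝ} (ha : 0 < a) (ha1 : a ≤ 1) (hf : ContDiff ℝ 1 f) (hc : HasCompactSupport f) :
    ∃ X, HB a X f := by
  obtain ⟨B0, hB0⟩ := hc.exists_bound_of_continuous hf.continuous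
  obtain ⟨B1, hB1⟩ := (hc.fderiv ℝ).exists_bound_of_continuous (hf.continuous_fderiv (by norm_num))
  have h0 : 0 ≤ B0 := (norm_nonneg _).trans (hB0 0)
  have h1 : 0 ≤ B1 := le_trans (norm_nonneg (fderiv ℝ f 0)) (hB1 0)
  refine ⟨2 * B0 + B1, fun x => (hB0 x).trans (by linarith), fun x y => ?_⟩
  have hlip : ‖f x - f y‖ ≤ B1 * ‖x - y‖ :=
    (convex_univ : Convex ℝ (univ : Set E)).norm_image_sub_le_of_norm_fderiv_le
      (fun w _ => (hf.differentiable (by norm_num)) w) (fun w _ => hB1 w) (mem_univ y) (mem_univ x)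
  have hb : ‖f x - f y‖ ≤ 2 * B0 := by
    have := norm_sub_le (f x) (f y)
    linarith [hB0 x, hB0 y]
  have hp : 0 ≤ ‖x - y‖ ^ a := Real.rpow_nonneg (norm_nonneg _) _
  rcases le_total ‖x - y‖ 1 with h | h
  · have h2 : ‖x - y‖ ≤ ‖x - y‖ ^ a := by
      rcases (norm_nonneg (x - y)).eq_or_lt with h0' | h0'
      · rw [← h0']; exact Real.rpow_nonneg le_rfl _
      · calc ‖x - y‖ = ‖x - y‖ ^ (1 : ℝ) := (Real.rpow_one _).symm
          _ ≤ ‖x - y‖ ^ a := Real.rpow_le_rpow_of_exponent_ge h0' h ha1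
    nlinarith [mul_nonneg h0 hp, mul_le_mul_of_nonneg_left h2 h1]
  · have h2 : 1 ≤ ‖x - y‖ ^ a := Real.one_le_rpow h ha.le
    nlinarith [mul_nonneg h1 hp]


theorem Cut.of_compactSupport {ψ : E → ℝ} {a : ℝ} (ha : 0 < a) (ha1 : a ≤ 1)
    (hf : ContDiff ℝ 3 ψ) (hc : HasCompactSupport ψ) : ∃ X, Cut a X ψ := by
  have hd1 : ContDiff ℝ 2 (fderiv ℝ ψ) := hf.fderiv_right (by norm_num)
  have hd2 : ContDiff ℝ 1 (D2 ψ) := hd1.fderiv_right (by norm_num)
  obtain ⟨X0, h0⟩ := HB.of_compactSupport ha ha1 (hf.of_le (by norm_num)) hc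
  obtain ⟨X1, h1⟩ := HB.of_compactSupport ha ha1 (hd1.of_le (by norm_num)) (hc.fderiv ℝ)
  obtain ⟨X2, h2⟩ := HB.of_compactSupport ha ha1 hd2 ((hc.fderiv ℝ).fderiv ℝ)
  obtain ⟨X3, h3⟩ := HB.of_compactSupport (f := fun x => fderiv ℝ ψ x x) ha ha1
    ((hd1.of_le (by norm_num)).clm_apply contDiff_id) (by
      refine (hc.fderiv ℝ).mono ?_
      intro x hx
      simp only [Function.mem_support] at hx ⊢
      intro h
      exact hx (by rw [h]; rfl))
  have p0 := h0.nonneg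
  have p1 := h1.nonneg
  have p2 := h2.nonneg
  have p3 := h3.nonneg
  exact ⟨X0 + X1 + X2 + X3, hf.of_le (by norm_num), h0.mono (by linarith), h1.mono (by linarith),
    h2.mono (by linarith), h3.mono (by linarith)⟩

theorem fderiv_trans {F : Type*} [NormedAddCommGroup F] [NormedSpace ℝ F] (ψ : E → F) (c : E) :
    fderiv ℝ (fun y => ψ (y - c)) = fun x => fderiv ℝ ψ (x - c) := by
  funext x
  exact fderiv_comp_sub c

theorem D2_trans (ψ : E → ℝ) (c : E) : D2 (fun y => ψ (y - c)) = fun x => D2 ψ (x - c) := by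
  unfold D2
  rw [fderiv_trans ψ c]
  exact fderiv_trans (fderiv ℝ ψ) c

theorem Cut.trans {ψ : E → ℝ} {a X R : ℝ} (h : Cut a X ψ) {c : E} (hc : ‖c‖ ≤ R) :
    Cut a (X + R * X) (fun x => ψ (x - c)) := by
  have hX := h.c0.nonneg
  have hR : 0 ≤ R := (norm_nonneg _).trans hc
  have hRX : 0 ≤ R * X := mul_nonneg hR hX
  refine ⟨h.sm.comp (contDiff_id.sub contDiff_const), (h.c0.trans c).mono (by linarith), ?_, ?_, ?_⟩
  · rw [fderiv_trans]; exact (h.c1.trans c).mono (by linarith)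
  · rw [D2_trans]; exact (h.c2.trans c).mono (by linarith)
  · rw [fderiv_trans]
    have e : (fun x => fderiv ℝ ψ (x - c) x)
        = fun x => fderiv ℝ ψ (x - c) (x - c) + fderiv ℝ ψ (x - c) c := by
      funext x
      rw [← map_add, sub_add_cancel]
    have e' : (fun x => (fun x => fderiv ℝ ψ (x - c)) x x)
        = fun x => fderiv ℝ ψ (x - c) (x - c) + fderiv ℝ ψ (x - c) c := e
    rw [e']
    have h1 : HB a (R * X) (fun x => fderiv ℝ ψ x c) :=
      ⟨fun x => by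
        refine ((fderiv ℝ ψ x).le_opNorm c).trans ?_
        rw [mul_comm]
        exact mul_le_mul hc (h.c1.bdd x) (norm_nonneg _) hR,
      fun x y => by
        have h2 := (fderiv ℝ ψ x - fderiv ℝ ψ y).le_opNorm c
        simp only [sub_apply] at h2
        refine h2.trans ?_
        rw [mul_comm, mul_assoc]
        exact mul_le_mul hc (h.c1.hol x y) (norm_nonneg _) hR⟩
    exact (h.cx.trans c).add (h1.trans c)

theorem Cut.oneSub {ψ : E → ℝ} {a X : ℝ} (h : Cut a X ψ) : Cut a (1 + X) (fun x => 1 - ψ x) := by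
  have hX := h.c0.nonneg
  have e1 : fderiv ℝ (fun x => 1 - ψ x) = fun x => - fderiv ℝ ψ x := by
    funext x; exact fderiv_const_sub 1
  have e2 : D2 (fun x => 1 - ψ x) = fun x => - D2 ψ x := by
    unfold D2
    rw [e1]
    funext x; exact fderiv_fun_neg
  refine ⟨contDiff_const.sub h.sm, ?_, ?_, ?_, ?_⟩
  · have := (HB.const (X := E) (a := a) (1 : ℝ)).sub h.c0
    simpa using this
  · rw [e1]; exact h.c1.neg.mono (by linarith)
  · rw [e2]; exact h.c2.neg.mono (by linarith)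
  · rw [e1]
    have := h.cx.neg.mono (show X ≤ 1 + X by linarith)
    simpa using this

/-- Hypothesis (A) for one matrix `A` and one `lam`. -/
def SA (a C0 lam : ℝ) (A : Matrix (Fin n) (Fin n) ℝ) : Prop :=
  ∀ (g : EuclideanSpace ℝ (Fin n) → ℝ) (N : ℝ), ContDiff ℝ 2 g → (∃ C, ∀ x, ‖D2 g x‖ ≤ C) →
    HB a N (Lop (fun _ => A) lam g) → HB a (C0 * N) (D2 g)

/-- the equation for the cut-off function -/
theorem Lop_cut {τ : E → Matrix (Fin n) (Fin n) ℝ} {lam : ℝ} {χ h : E → ℝ}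
    (hχ : ContDiff ℝ 2 χ) (hh : ContDiff ℝ 2 h) (A : Matrix (Fin n) (Fin n) ℝ) (x : E) :
    Lop (fun _ => A) lam (fun x => χ x * h x) x
      = (∑ i, ∑ j, D2 (fun x => χ x * h x) x (ee i) (ee j) * (A i j - τ x i j))
        + (χ x * Lop τ lam h x
          + (∑ i, ∑ j, (fderiv ℝ χ x (ee i) * (τ x i j * fderiv ℝ h x (ee j))
              + fderiv ℝ χ x (ee j) * (τ x i j * fderiv ℝ h x (ee i))
              + D2 χ x (ee i) (ee j) * (τ x i j * h x)))
          - fderiv ℝ χ x x * h x) := by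
  have hχ0 : Differentiable ℝ χ := hχ.differentiable (by norm_num)
  have hh0 : Differentiable ℝ h := hh.differentiable (by norm_num)
  have e1 : (∑ i, ∑ j, A i j * D2 (fun x => χ x * h x) x (ee i) (ee j))
      = (∑ i, ∑ j, D2 (fun x => χ x * h x) x (ee i) (ee j) * (A i j - τ x i j))
        + ∑ i, ∑ j, τ x i j * D2 (fun x => χ x * h x) x (ee i) (ee j) := by
    rw [← Finset.sum_add_distrib]
    refine Finset.sum_congr rfl fun i _ => ?_
    rw [← Finset.sum_add_distrib]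
    refine Finset.sum_congr rfl fun j _ => ?_
    ring
  have e2 : (∑ i, ∑ j, τ x i j * D2 (fun x => χ x * h x) x (ee i) (ee j))
      = χ x * (∑ i, ∑ j, τ x i j * D2 h x (ee i) (ee j))
        + (∑ i, ∑ j, (fderiv ℝ χ x (ee i) * (τ x i j * fderiv ℝ h x (ee j))
              + fderiv ℝ χ x (ee j) * (τ x i j * fderiv ℝ h x (ee i))
              + D2 χ x (ee i) (ee j) * (τ x i j * h x))) := by
    rw [Finset.mul_sum, ← Finset.sum_add_distrib]
    refine Finset.sum_congr rfl fun i _ => ?_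
    rw [Finset.mul_sum, ← Finset.sum_add_distrib]
    refine Finset.sum_congr rfl fun j _ => ?_
    rw [D2_prod hχ hh]
    ring
  unfold Lop
  rw [e1, e2, fderiv_prod hχ0 hh0]
  simp only [add_apply, smul_apply, smul_eq_mul]
  ring

end Crest.Agent.R238.Sch
end

-- ▼ part R238/Sch3

/-!
Row 238, module H3 (B): Schauder a priori estimate by freezing and absorption.
File 3: the cut-off estimate.
-/

namespace Crest.Agent.R238.Sch

open Set Metric

variable {n : ℕ}

local notation "E" => EuclideanSpace ℝ (Fin n)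

theorem prodOn {X : Type*} [NormedAddCommGroup X] {a M Q : ℝ} {s : Set X} {u v : X → ℝ}
    (hu : HB a M u) (v0 : ∀ x ∈ s, ‖v x‖ ≤ Q)
    (v1 : ∀ x ∈ s, ∀ y ∈ s, ‖v x - v y‖ ≤ Q * ‖x - y‖ ^ a) :
    ∀ x ∈ s, ∀ y ∈ s, ‖u x * v x - u y * v y‖ ≤ 2 * (M * Q) * ‖x - y‖ ^ a := by
  intro x hx y hy
  have hM := hu.nonneg
  have hQ : 0 ≤ Q := (norm_nonneg _).trans (v0 x hx)
  have hp : 0 ≤ ‖x - y‖ ^ a := Real.rpow_nonneg (norm_nonneg _) _
  have : u x * v x - u y * v y = (u x - u y) * v x + u y * (v x - v y) := by ring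
  rw [this]
  refine (norm_add_le _ _).trans ?_
  rw [norm_mul, norm_mul]
  have h1 : ‖u x - u y‖ * ‖v x‖ ≤ (M * ‖x - y‖ ^ a) * Q :=
    mul_le_mul (hu.hol x y) (v0 x hx) (norm_nonneg _) (mul_nonneg hM hp)
  have h2 : ‖u y‖ * ‖v x - v y‖ ≤ M * (Q * ‖x - y‖ ^ a) :=
    mul_le_mul (hu.bdd y) (v1 x hx y hy) (norm_nonneg _) hM
  linarith

/-- `u` cutoff-like, `w` coefficient, `v` lower order -/
theorem triple {X : Type*} [NormedAddCommGroup X] {a U M Q : ℝ} {s : Set X} {u w v : X → ℝ}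
    (hu : HB a U u) (hus : ∀ x, x ∉ s → u x = 0) (hw : HB a M w) (hQ : 0 ≤ Q)
    (v0 : ∀ x ∈ s, ‖v x‖ ≤ Q)
    (v1 : ∀ x ∈ s, ∀ y ∈ s, ‖v x - v y‖ ≤ Q * ‖x - y‖ ^ a) :
    HB a (3 * (U * (M * Q))) (fun x => u x * (w x * v x)) := by
  have hU := hu.nonneg
  have hM := hw.nonneg
  have hMQ := mul_nonneg hM hQ
  have hUMQ := mul_nonneg hU hMQ
  refine HB.localMul (s := s) (U0 := U) (U1 := U) (V0 := M * Q) (V1 := 2 * (M * Q))
    hus (fun x _ => hu.bdd x) hu.hol (fun x hx => ?_) (prodOn hw v0 v1) hU hU hMQ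
    (by linarith) (by linarith) (by linarith)
  rw [norm_mul]
  exact mul_le_mul (hw.bdd x) (v0 x hx) (norm_nonneg _) hM

theorem double {X : Type*} [NormedAddCommGroup X] {a U Q : ℝ} {s : Set X} {u v : X → ℝ}
    (hu : HB a U u) (hus : ∀ x, x ∉ s → u x = 0) (hQ : 0 ≤ Q)
    (v0 : ∀ x ∈ s, ‖v x‖ ≤ Q)
    (v1 : ∀ x ∈ s, ∀ y ∈ s, ‖v x - v y‖ ≤ Q * ‖x - y‖ ^ a) :
    HB a (2 * (U * Q)) (fun x => u x * v x) := by
  have hU := hu.nonneg
  have hUQ := mul_nonneg hU hQ
  exact HB.localMul (s := s) (U0 := U) (U1 := U) (V0 := Q) (V1 := Q)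
    hus (fun x _ => hu.bdd x) hu.hol v0 v1 hU hU hQ hQ (by linarith) (by linarith)

theorem HB.sum_sq {X : Type*} [NormedAddCommGroup X] {a M : ℝ} {f : Fin n → Fin n → X → ℝ}
    (h : ∀ i j, HB a M (f i j)) : HB a ((n : ℝ) ^ 2 * M) (fun x => ∑ i, ∑ j, f i j x) := by
  have h1 : HB a (∑ _i : Fin n, ∑ _j : Fin n, M) (fun x => ∑ i, ∑ j, f i j x) :=
    HB.sum (f := fun i x => ∑ j, f i j x) _ (fun i _ => HB.sum _ (fun j _ => h i j))
  refine h1.mono (le_of_eq ?_)
  simp [Finset.sum_const]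
  ring

theorem lb_vec {a Q : ℝ} {s : Set E} {h : E → ℝ} (hL : LB a Q s h) (i : Fin n) :
    (∀ x ∈ s, ‖fderiv ℝ h x (ee i)‖ ≤ Q) ∧
    (∀ x ∈ s, ∀ y ∈ s, ‖fderiv ℝ h x (ee i) - fderiv ℝ h y (ee i)‖ ≤ Q * ‖x - y‖ ^ a) := by
  refine ⟨fun x hx => ?_, fun x hx y hy => ?_⟩
  · have := (fderiv ℝ h x).le_opNorm (ee i)
    rw [norm_ee, mul_one] at this
    exact this.trans (hL.d0 x hx)
  · have := (fderiv ℝ h x - fderiv ℝ h y).le_opNorm (ee i)
    rw [norm_ee, mul_one] at this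
    simp only [sub_apply] at this
    exact this.trans (hL.d1 x hx y hy)

/-- bound of the lower order right-hand side -/
theorem lower_HB {a X M N Q : ℝ} {s : Set E} {χ h f : E → ℝ}
    {τ : E → Matrix (Fin n) (Fin n) ℝ} (hχ : Cut a X χ)
    (hs1 : ∀ x, x ∉ s → fderiv ℝ χ x = 0) (hs2 : ∀ x, x ∉ s → D2 χ x = 0)
    (hτ : ∀ i j, HB a M (fun x => τ x i j)) (hL : LB a Q s h) (hQ : 0 ≤ Q) (hf : HB a N f) :
    HB a (2 * (X * N) + (n : ℝ) ^ 2 * (9 * (X * (M * Q))) + 2 * (X * Q))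
      (fun x => χ x * f x
          + (∑ i, ∑ j, (fderiv ℝ χ x (ee i) * (τ x i j * fderiv ℝ h x (ee j))
              + fderiv ℝ χ x (ee j) * (τ x i j * fderiv ℝ h x (ee i))
              + D2 χ x (ee i) (ee j) * (τ x i j * h x)))
          - fderiv ℝ χ x x * h x) := by
  refine HB.sub (HB.add (hχ.c0.mul hf) (HB.sum_sq fun i j => ?_)) ?_
  · have e : 9 * (X * (M * Q)) = 3 * (X * (M * Q)) + 3 * (X * (M * Q)) + 3 * (X * (M * Q)) := by
      ring
    rw [e]
    refine ((triple (s := s) (hχ.c1.vec i) ?_ (hτ i j) hQ (lb_vec hL j).1 (lb_vec hL j).2).add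
      (triple (s := s) (hχ.c1.vec j) ?_ (hτ i j) hQ (lb_vec hL i).1 (lb_vec hL i).2)).add
      (triple (s := s) (hχ.c2.entry i j) ?_ (hτ i j) hQ (fun x hx => hL.h0 x hx)
        (fun x hx y hy => hL.h1 x hx y hy))
    · intro x hx; rw [hs1 x hx]; rfl
    · intro x hx; rw [hs1 x hx]; rfl
    · intro x hx; rw [hs2 x hx]; rfl
  · refine double (s := s) hχ.cx ?_ hQ (fun x hx => hL.h0 x hx)
        (fun x hx y hy => hL.h1 x hx y hy)
    intro x hx; rw [hs1 x hx]; rfl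

/-- qualitative bound of `D²(χh)` -/
theorem cut_qual {a X Q V : ℝ} {s : Set E} {χ h : E → ℝ} (hχ : Cut a X χ)
    (hs1 : ∀ x, x ∉ s → fderiv ℝ χ x = 0) (hs2 : ∀ x, x ∉ s → D2 χ x = 0)
    (hh : ContDiff ℝ 2 h) (hV : HB a V (D2 h)) (hL : LB a Q s h) (hQ : 0 ≤ Q) :
    ∃ W, HB a W (D2 (fun x => χ x * h x)) := by
  refine ⟨_, HB.of_entry (M := 2 * (X * V) + 2 * (X * Q) + 2 * (X * Q) + 2 * (X * Q))
    fun i j => ?_⟩
  have e : (fun x => D2 (fun x => χ x * h x) x (ee i) (ee j))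
      = fun x => χ x * D2 h x (ee i) (ee j) + fderiv ℝ χ x (ee i) * fderiv ℝ h x (ee j)
      + fderiv ℝ χ x (ee j) * fderiv ℝ h x (ee i) + D2 χ x (ee i) (ee j) * h x := by
    funext x
    rw [D2_prod hχ.sm hh]
    ring
  rw [e]
  refine (((hχ.c0.mul (hV.entry i j)).add
    (double (s := s) (hχ.c1.vec i) ?_ hQ (lb_vec hL j).1 (lb_vec hL j).2)).add
    (double (s := s) (hχ.c1.vec j) ?_ hQ (lb_vec hL i).1 (lb_vec hL i).2)).add
    (double (s := s) (hχ.c2.entry i j) ?_ hQ (fun x hx => hL.h0 x hx)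
        (fun x hx y hy => hL.h1 x hx y hy))
  · intro x hx; rw [hs1 x hx]; rfl
  · intro x hx; rw [hs1 x hx]; rfl
  · intro x hx; rw [hs2 x hx]; rfl

/-- The cut-off estimate. -/
theorem cut_est {a X M N Q C0 lam V : ℝ} (hC0 : 0 < C0) {A : Matrix (Fin n) (Fin n) ℝ}
    {τ : E → Matrix (Fin n) (Fin n) ℝ} {s : Set E} {χ h : E → ℝ}
    (hA : SA a C0 lam A) (hχ : Cut a X χ)
    (hs1 : ∀ x, x ∉ s → fderiv ℝ χ x = 0) (hs2 : ∀ x, x ∉ s → D2 χ x = 0)
    (hτ : ∀ i j, HB a M (fun x => τ x i j)) (hh : ContDiff ℝ 2 h) (hV : HB a V (D2 h))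
    (hL : LB a Q s h) (hQ : 0 ≤ Q) (hf : HB a N (Lop τ lam h))
    (habs : ∀ W, HB a W (D2 (fun x => χ x * h x)) →
      HB a (W / (2 * C0)) (fun x => ∑ i, ∑ j,
        D2 (fun x => χ x * h x) x (ee i) (ee j) * (A i j - τ x i j))) :
    HB a (2 * (C0 * (2 * (X * N) + (n : ℝ) ^ 2 * (9 * (X * (M * Q))) + 2 * (X * Q))))
      (D2 (fun x => χ x * h x)) := by
  obtain ⟨V0, hV0⟩ := cut_qual hχ hs1 hs2 hh hV hL hQ
  refine HB.absorb hV0 (fun W hW => ?_)
  have h1 := (habs W hW).add (lower_HB hχ hs1 hs2 hτ hL hQ hf)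
  have h2 : HB a (W / (2 * C0) + (2 * (X * N) + (n : ℝ) ^ 2 * (9 * (X * (M * Q))) + 2 * (X * Q)))
      (Lop (fun _ => A) lam (fun x => χ x * h x)) := by
    have e : Lop (fun _ => A) lam (fun x => χ x * h x) = _ :=
      funext (fun x => Lop_cut (τ := τ) (lam := lam) hχ.sm hh A x)
    rw [e]
    exact h1
  have h3 := hA _ _ (hχ.sm.mul hh) ⟨V0, hV0.bdd⟩ h2
  refine h3.mono (le_of_eq ?_)
  field_simp
  ring

end Crest.Agent.R238.Sch
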